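import Vale.Agent.P078.Paving0

/-! Joint so-paving of finitely many operators by one partition. -/

namespace Vale.Agent.P078.SO

variable {H : Type*} [NormedAddCommGroup H] [InnerProductSpace ℂ H] [CompleteSpace H]

/-- The operators `x 0, …, x (k - 1)` are jointly `(ε, r)` so-pavable over `A` in `M`: for every
finite `F` and `δ > 0` there are one partition with `r` pieces in `A` and one projection `q` of
`M`, strongly close to `1` on `F`, which serve all the operators. -/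
def JointlySOPavable (M A : VonNeumannAlgebra H) {k : ℕ} (x : Fin k → (H →L[ℂ] H)) (ε : ℝ)
    (r : ℕ) : Prop :=
  ∀ F : Finset H, ∀ δ : ℝ, 0 < δ →
    ∃ (p : Fin r → (H →L[ℂ] H)) (a : Fin k → (H →L[ℂ] H)) (q : H →L[ℂ] H),
      (∀ i, p i ∈ A ∧ IsStarProjection (p i)) ∧ (∀ i j, i ≠ j → p i * p j = 0) ∧
      ∑ i, p i = 1 ∧
      (∀ j, a j ∈ A ∧ IsSelfAdjoint (a j) ∧ ‖a j‖ ≤ ‖x j‖) ∧
      q ∈ M ∧ IsStarProjection q ∧
      (∀ ξ ∈ F, ‖ξ - q ξ‖ < δ) ∧
      ∀ j, ‖q * (∑ i, p i * x j * p i - a j) * q‖ ≤ ε * ‖x j‖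

/-- The joint so-paving number `n_{A ⊆ M}(k; ε)`: the least `r ≥ 1` such that any `k` self-adjoint
elements of `M` are jointly `(ε, r)` so-pavable over `A` (`⊤` if there is none). -/
noncomputable def jointPavingNumber (M A : VonNeumannAlgebra H) (k : ℕ) (ε : ℝ) : ℕ∞ :=
  ⨅ r ∈ {r : ℕ | 1 ≤ r ∧ ∀ x : Fin k → (H →L[ℂ] H),
    (∀ j, x j ∈ M ∧ IsSelfAdjoint (x j)) → JointlySOPavable M A x ε r}, (r : ℕ∞)

end Vale.Agent.P078.SO
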