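import Vale.Agent.P078.H291.JPav

set_option linter.all false
attribute [local instance] Vale.Agent.P078.Fast.a01 Vale.Agent.P078.Fast.a02
  Vale.Agent.P078.Fast.a03 Vale.Agent.P078.Fast.a04 Vale.Agent.P078.Fast.a05
  Vale.Agent.P078.Fast.a06 Vale.Agent.P078.Fast.a07 Vale.Agent.P078.Fast.a08
  Vale.Agent.P078.Fast.a09 Vale.Agent.P078.Fast.a10 Vale.Agent.P078.Fast.a11
  Vale.Agent.P078.Fast.a12 Vale.Agent.P078.Fast.a13 Vale.Agent.P078.Fast.a14
  Vale.Agent.P078.Fast.a15 Vale.Agent.P078.Fast.a16 Vale.Agent.P078.Fast.a17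
  Vale.Agent.P078.Fast.a18 Vale.Agent.P078.Fast.a19 Vale.Agent.P078.Fast.a20
  Vale.Agent.P078.Fast.a21 Vale.Agent.P078.Fast.a22 Vale.Agent.P078.Fast.a23
  Vale.Agent.P078.Fast.a24 Vale.Agent.P078.Fast.a25 Vale.Agent.P078.Fast.a26
  Vale.Agent.P078.Fast.a27 Vale.Agent.P078.Fast.a28 Vale.Agent.P078.Fast.a29
  Vale.Agent.P078.Fast.a30 Vale.Agent.P078.Fast.a31 Vale.Agent.P078.Fast.a32
  Vale.Agent.P078.Fast.a33 Vale.Agent.P078.Fast.a34 Vale.Agent.P078.Fast.a35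
  Vale.Agent.P078.Fast.a36 Vale.Agent.P078.Fast.a37 Vale.Agent.P078.Fast.a38
  Vale.Agent.P078.Fast.a39 Vale.Agent.P078.Fast.a40 Vale.Agent.P078.Fast.a41
  Vale.Agent.P078.Fast.a42 Vale.Agent.P078.Fast.a43 Vale.Agent.P078.Fast.a44
  Vale.Agent.P078.Fast.a45 Vale.Agent.P078.Fast.a46 Vale.Agent.P078.Fast.a47
  Vale.Agent.P078.Fast.a48 Vale.Agent.P078.Fast.a49 Vale.Agent.P078.Fast.a50
  Vale.Agent.P078.Fast.a51 Vale.Agent.P078.Fast.a52 Vale.Agent.P078.Fast.a53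
  Vale.Agent.P078.Fast.a54
attribute [local instance] Vale.Agent.P078.Fast.b01 Vale.Agent.P078.Fast.b02
  Vale.Agent.P078.Fast.b03 Vale.Agent.P078.Fast.b04 Vale.Agent.P078.Fast.b05
  Vale.Agent.P078.Fast.b06 Vale.Agent.P078.Fast.b07 Vale.Agent.P078.Fast.b08
  Vale.Agent.P078.Fast.b09 Vale.Agent.P078.Fast.b10 Vale.Agent.P078.Fast.b11

section
/-! Joint paving for a functional commuting with `A`, from joint paving for central vector
states. -/

set_option linter.unusedSectionVars false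

namespace Vale.Agent.P078.WG

open Filter Topology
open Vale.Agent.P078 Vale.Agent.P078.C Vale.Agent.P078.G Vale.Agent.P078.W

universe u

variable {H : Type u} [NormedAddCommGroup H] [InnerProductSpace ℂ H] [CompleteSpace H]
variable {M A : VonNeumannAlgebra H} {ψ : (H →L[ℂ] H) →ₗ[ℂ] ℂ} {k : ℕ}

theorem cvecJ {C : ℝ} (hC : CPaveJ.{u} k C) (hA : SO.IsMASA A M) {ξ : ℕ → H}
    (hξ : IsCState M A ξ)
    {ε : ℝ} (hε : 0 < ε) (hε1 : ε < 1) {R : ℕ} (hR : 16 * C / ε ^ 2 ≤ (R : ℝ))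
    {x : Fin k → (H →L[ℂ] H)} (hx : ∀ j, x j ∈ M) (hxs : ∀ j, IsSelfAdjoint (x j)) {κ : ℝ}
    (hκ : 0 < κ) :
    ∃ P : Fin R → (H →L[ℂ] H), IsPart A P ∧ ∀ j, ∃ a ∈ A, IsSelfAdjoint a ∧ ‖a‖ ≤ ‖x j‖ ∧
      ∃ w ∈ M, ‖w‖ ≤ ε / 2 * ‖x j‖ ∧ n2 ξ (pinch P (x j) - a - w) ≤ κ := by
  obtain ⟨E, hE⟩ := exists_cexp hA hξ
  have hExA := fun j => hE.mem (x j) (hx j)
  have hExM := fun j => hA.1 _ (hExA j)
  have hExs : ∀ j, IsSelfAdjoint (E (x j)) := fun j => by
    rw [IsSelfAdjoint, ← hE.star (x j) (hx j), (hxs j).star_eq]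
  have hExn := fun j => norm_exp_le hE (hx j) (hxs j)
  -- the scale
  have hsc : ∀ j, ∃ N : ℝ, 0 < N ∧ ‖x j - E (x j)‖ ≤ N ∧ (x j ≠ 0 → N = 2 * ‖x j‖) := by
    intro j
    by_cases h0 : x j = 0
    · refine ⟨1, one_pos, ?_, fun h => absurd h0 h⟩
      rw [h0, map_zero, sub_zero, norm_zero]
      exact zero_le_one
    · refine ⟨2 * ‖x j‖, by positivity, ?_, fun _ => rfl⟩
      have := norm_sub_le (x j) (E (x j))
      linarith only [hExn j, this]
  choose N hN hN1 hN2 using hsc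
  obtain ⟨y, hy⟩ : ∃ y : Fin k → (H →L[ℂ] H),
      ∀ j, y j = (((N j)⁻¹ : ℝ) : ℂ) • (x j - E (x j)) := ⟨_, fun _ => rfl⟩
  have hyM : ∀ j, y j ∈ M := fun j => by
    rw [hy]; exact M.toStarSubalgebra.smul_mem (sub_mem (hx j) (hExM j)) _
  have hys : ∀ j, IsSelfAdjoint (y j) := fun j => by
    rw [hy, IsSelfAdjoint, star_smul, ((hxs j).sub (hExs j)).star_eq]
    simp only [Complex.ofReal_inv, star_inv₀, RCLike.star_def, Complex.conj_ofReal]
  have hyn : ∀ j, ‖y j‖ ≤ 1 := fun j => by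
    have hNj := hN j
    rw [hy, norm_smul, Complex.norm_real, Real.norm_of_nonneg (by (clear * - hNj; positivity)),
      inv_mul_le_iff₀ hNj]
    linarith only [hN1 j]
  have hEy : ∀ j, E (y j) = 0 := fun j => by
    rw [hy, map_smul, map_sub, hE.idem _ (hExA j), sub_self, smul_zero]
  have hNy : ∀ j, x j - E (x j) = ((N j : ℝ) : ℂ) • y j := fun j => by
    rw [hy, smul_smul, ← Complex.ofReal_mul, mul_inv_cancel₀ (hN j).ne', Complex.ofReal_one,
      one_smul]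
  obtain ⟨δ, hδ0, hδ⟩ : ∃ δ : ℝ, 0 < δ ∧ ∀ j, N j ^ 2 * δ ≤ κ := by
    have hS : 0 ≤ ∑ j, N j ^ 2 := Finset.sum_nonneg fun j _ => sq_nonneg _
    refine ⟨κ / (1 + ∑ j, N j ^ 2), by positivity, fun j => ?_⟩
    rw [mul_div_assoc', div_le_iff₀ (by positivity), mul_comm]
    refine mul_le_mul_of_nonneg_left ?_ hκ.le
    have := Finset.single_le_sum (f := fun j => N j ^ 2) (fun j _ => sq_nonneg (N j))
      (Finset.mem_univ j)
    linarith only [this]
  obtain ⟨r, P, hr, hP, w, hw⟩ := hC H M A ξ E hA hξ hE (ε / 4) (by positivity)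
    (by linarith only [hε1]) y (fun j => ⟨hyM j, hys j, hyn j, hEy j⟩) δ hδ0
  have hrR : r ≤ R := by
    have h : (r : ℝ) ≤ R := by
      refine hr.trans (le_trans (le_of_eq ?_) hR)
      field_simp
      norm_num
    exact_mod_cast h
  obtain ⟨P', hP', hpin⟩ := exists_pad hrR hP
  have e1 : ∀ j, pinch P' (x j) - E (x j) = ((N j : ℝ) : ℂ) • pinch P (y j) := by
    intro j
    have e2 : pinch P' (x j) - E (x j) = pinch P' (x j) - pinch P' (E (x j)) := by
      rw [pinch_of_mem hA hP' (hExA j)]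
    rw [e2, ← Vale.Agent.P078.G.pinch_sub, hNy, pinch_smul, hpin]
  refine ⟨P', hP', fun j => ?_⟩
  obtain ⟨hwM, hwn, hn⟩ := hw j
  by_cases h0 : x j = 0
  · refine ⟨E (x j), hExA j, hExs j, hExn j, 0, zero_mem M, by simp only [norm_zero, h0, mul_zero, Std.le_refl], ?_⟩
    have e3 : pinch P' (x j) - E (x j) - 0 = 0 := by
      rw [h0]; simp only [pinch, mul_zero, zero_mul, Finset.sum_const_zero, map_zero, sub_self]
    rw [e3]
    simpa only [n2, zero_apply, norm_zero, ne_eq, OfNat.ofNat_ne_zero, not_false_eq_true, zero_pow, tsum_zero,     ge_iff_le] using hκ.le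
  · refine ⟨E (x j), hExA j, hExs j, hExn j, ((N j : ℝ) : ℂ) • w j,
      M.toStarSubalgebra.smul_mem hwM _, ?_, ?_⟩
    · rw [norm_smul, Complex.norm_real, Real.norm_of_nonneg (hN j).le, hN2 j h0]
      have := norm_nonneg (x j)
      nlinarith only [hwn, this]
    · have e4 : n2 ξ (((N j : ℝ) : ℂ) • (pinch P (y j) - w j)) =
          N j ^ 2 * n2 ξ (pinch P (y j) - w j) := by
        unfold n2
        rw [← tsum_mul_left]
        refine tsum_congr fun n => ?_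
        rw [smul_apply, norm_smul, Complex.norm_real, Real.norm_of_nonneg (hN j).le, mul_pow]
      rw [e1, ← smul_sub, e4]
      exact (mul_le_mul_of_nonneg_left hn (sq_nonneg _)).trans (hδ j)

/-- joint paving up to operators which are small for a faithful functional commuting with `A` -/
theorem gns_paveJ {C : ℝ} (hC : CPaveJ.{u} k C) (hA : SO.IsMASA A M)
    (hψ : Vale.Agent.P078.CentralNormal M A.toStarSubalgebra ψ) (h0 : ψ 1 ≠ 0)
    (hf : ∀ x ∈ M, ψ (star x * x) = 0 → x = 0)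
    {ε : ℝ} (hε : 0 < ε) (hε1 : ε < 1) {R : ℕ} (hR : 16 * C / ε ^ 2 ≤ (R : ℝ))
    {x : Fin k → (H →L[ℂ] H)} (hx : ∀ j, x j ∈ M) (hxs : ∀ j, IsSelfAdjoint (x j)) {κ : ℝ}
    (hκ : 0 < κ) :
    ∃ P : Fin R → (H →L[ℂ] H), IsPart A P ∧ ∀ j, ∃ a ∈ A, IsSelfAdjoint a ∧ ‖a‖ ≤ ‖x j‖ ∧
      ∃ w ∈ M, ‖w‖ ≤ ε / 2 * ‖x j‖ ∧
        (ψ (star (pinch P (x j) - a - w) * (pinch P (x j) - a - w))).re ≤ κ := by
  have hpos0 : PosOn M ψ := hψ.nonneg
  have h1' := hpos0 1 (one_mem M) zero_le_one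
  obtain ⟨s, hs⟩ : ∃ s : ℝ, s = (ψ 1).re := ⟨_, rfl⟩
  have hψs : ψ 1 = ((s : ℝ) : ℂ) := Complex.ext (by simp only [hs, Complex.ofReal_re]) (by simpa only [Complex.ofReal_im] using h1'.2)
  have hs0 : 0 < s := by
    rcases (hs ▸ h1'.1 : (0 : ℝ) ≤ s).eq_or_lt with h | h
    · exfalso; exact h0 (by rw [hψs, ← h, Complex.ofReal_zero])
    · exact h
  obtain ⟨φ, hφ⟩ : ∃ φ : (H →L[ℂ] H) →ₗ[ℂ] ℂ, φ = ((s⁻¹ : ℝ) : ℂ) • ψ := ⟨_, rfl⟩
  have happ : ∀ y, φ y = ((s⁻¹ : ℝ) : ℂ) * ψ y := fun y => by rw [hφ]; rfl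
  have hre : ∀ y, (φ y).re = s⁻¹ * (ψ y).re := fun y => by rw [happ, Complex.re_ofReal_mul]
  have him : ∀ y, (φ y).im = s⁻¹ * (ψ y).im := fun y => by rw [happ, Complex.im_ofReal_mul]
  have hφc : Vale.Agent.P078.CentralNormal M A.toStarSubalgebra φ := by
    refine ⟨fun y hy hy0 => ?_, fun e he hep y hy => ?_, ?_⟩
    · have := hψ.nonneg y hy hy0
      rw [hre, him, this.2, mul_zero]
      exact ⟨mul_nonneg (by (clear * - hs0; positivity)) this.1, rfl⟩
    · rw [happ, happ, hψ.central e he hep y hy]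
    · exact (hψ.wcont.const_mul _).congr fun y _ => (happ y).symm
  have hφpos : PosOn M φ := hφc.nonneg
  have hφ1 : φ 1 = 1 := by
    rw [happ, hψs, ← Complex.ofReal_mul, inv_mul_cancel₀ hs0.ne', Complex.ofReal_one]
  have hφf : ∀ y ∈ M, φ (star y * y) = 0 → y = 0 := by
    intro y hy h
    rw [happ, mul_eq_zero] at h
    rcases h with h | h
    · exact absurd (Complex.ofReal_eq_zero.1 h) (inv_pos.2 hs0).ne'
    · exact hf y hy h
  obtain ⟨L, _, _, _, Λ, π, hG⟩ := exists_gns hφpos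
  obtain ⟨M', hM'⟩ := hG.exists_image hφpos hφc.wcont hφf (N := M) fun _ h => h
  obtain ⟨A', hA'⟩ := hG.exists_image hφpos hφc.wcont hφf (N := A) hA.1
  have hMA' := hG.isMASA hφpos hφf hA hM' hA'
  have hcs := hG.isCState hA hφc hφ1 hφf hM' hA'
  have hinj := fun {x y : H →L[ℂ] H} (hx : x ∈ M) (hy : y ∈ M) (h : π x = π y) =>
    hG.inj hφpos hφf hx hy h
  have hnorm := fun {x : H →L[ℂ] H} (hx : x ∈ M) => hG.norm_eq hφpos hφf hx
  obtain ⟨P', hP', hjoint⟩ := cvecJ hC hMA' hcs hε hε1 hR (x := fun j => π (x j))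
    (fun j => (hM' _).2 ⟨x j, hx j, rfl⟩)
    (fun j => by rw [IsSelfAdjoint, ← hG.map_star (hx j), (hxs j).star_eq])
    (κ := κ / s) (by (clear * - hκ hs0; positivity))
  have hex : ∀ i, ∃ e ∈ A, P' i = π e := fun i => (hA' _).1 (hP'.1 i).1
  choose P hPA hPπ using hex
  have hPM : ∀ i, P i ∈ M := fun i => hA.1 _ (hPA i)
  have hproj : ∀ i, IsStarProjection (P i) := by
    intro i
    have h1 := (hP'.1 i).2
    rw [hPπ i] at h1
    refine ⟨?_, ?_⟩
    · change P i * P i = P i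
      refine hinj (mul_mem (hPM i) (hPM i)) (hPM i) ?_
      rw [hG.map_mul (hPM i) (hPM i)]
      exact h1.isIdempotentElem.eq
    · refine hinj (star_mem (hPM i)) (hPM i) ?_
      rw [hG.map_star (hPM i)]
      exact h1.isSelfAdjoint.star_eq
  have hPart : IsPart A P := by
    refine ⟨fun i => ⟨hPA i, hproj i⟩, fun i j hij => ?_, ?_⟩
    · refine hinj (mul_mem (hPM i) (hPM j)) (zero_mem M) ?_
      rw [hG.map_mul (hPM i) (hPM j), ← hPπ, ← hPπ, hP'.2.1 i j hij, hG.map_zero]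
    · refine hinj (sum_mem fun i _ => hPM i) (one_mem M) ?_
      rw [hG.map_sum _ hPM, hG.map_one, ← hP'.2.2]
      exact Finset.sum_congr rfl fun i _ => (hPπ i).symm
  have hpinM : ∀ j, pinch P (x j) ∈ M := fun j =>
    sum_mem fun i _ => mul_mem (mul_mem (hPM i) (hx j)) (hPM i)
  have hpin : ∀ j, pinch P' (π (x j)) = π (pinch P (x j)) := by
    intro j
    unfold pinch
    rw [hG.map_sum _ fun i => mul_mem (mul_mem (hPM i) (hx j)) (hPM i)]
    refine Finset.sum_congr rfl fun i _ => ?_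
    rw [hG.map_mul (mul_mem (hPM i) (hx j)) (hPM i), hG.map_mul (hPM i) (hx j), hPπ]
  refine ⟨P, hPart, fun j => ?_⟩
  obtain ⟨a', ha'A, ha's, ha'n, w', hw'M, hw'n, hn⟩ := hjoint j
  obtain ⟨a, haA, rfl⟩ := (hA' _).1 ha'A
  obtain ⟨w, hwM, rfl⟩ := (hM' _).1 hw'M
  have haM := hA.1 a haA
  refine ⟨a, haA, ?_, ?_, w, hwM, ?_, ?_⟩
  · refine hinj (star_mem haM) haM ?_
    rw [hG.map_star haM]
    exact ha's.star_eq
  · rw [← hnorm haM, ← hnorm (hx j)]; exact ha'n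
  · rw [← hnorm hwM, ← hnorm (hx j)]; exact hw'n
  · have h2 : pinch P (x j) - a - w ∈ M := sub_mem (sub_mem (hpinM j) haM) hwM
    have h3 : pinch P' (π (x j)) - π a - π w = π (pinch P (x j) - a - w) := by
      rw [hG.map_sub (sub_mem (hpinM j) haM) hwM, hG.map_sub (hpinM j) haM, hpin]
    rw [h3, n2_cyc, hG.act _ h2 1 (one_mem M), mul_one, hG.norm_sq h2, hre,
      inv_mul_eq_div, div_le_div_iff_of_pos_right hs0] at hn
    exact hn

end Vale.Agent.P078.WG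
end

section
/-! Joint so-paving for all maximal abelian subalgebras, from joint paving for central vector
states. -/

set_option linter.unusedSectionVars false

namespace Vale.Agent.P078.WG

open Filter Topology
open Vale.Agent.P078 Vale.Agent.P078.C Vale.Agent.P078.W
open ContinuousLinearMap (adjoint)

universe u

variable {H : Type u} [NormedAddCommGroup H] [InnerProductSpace ℂ H] [CompleteSpace H]
variable {M A : VonNeumannAlgebra H} {ψ : (H →L[ℂ] H) →ₗ[ℂ] ℂ} {p z : H →L[ℂ] H} {k : ℕ}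

/-- joint paving in the corner of the support of `ψ`, up to operators which are small for `ψ` -/
theorem corner_paveJ {C : ℝ} (hC : CPaveJ.{u} k C) (hA : SO.IsMASA A M)
    (hψ : Vale.Agent.P078.CentralNormal M A.toStarSubalgebra ψ) (hpA : p ∈ A)
    (hpp : IsStarProjection p) (hp0 : p ≠ 0)
    (hf : ∀ x ∈ M, p * x * p = x → ψ (star x * x) = 0 → x = 0)
    {ε : ℝ} (hε : 0 < ε) (hε1 : ε < 1) {R : ℕ} (hR : 16 * C / ε ^ 2 ≤ (R : ℝ))
    {x : Fin k → (H →L[ℂ] H)} (hx : ∀ j, x j ∈ M) (hxs : ∀ j, IsSelfAdjoint (x j)) {κ : ℝ}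
    (hκ : 0 < κ) :
    ∃ P : Fin R → (H →L[ℂ] H), (∀ i, P i ∈ A ∧ IsStarProjection (P i)) ∧
      (∀ i j, i ≠ j → P i * P j = 0) ∧ ∑ i, P i = p ∧
      ∀ j, ∃ a ∈ A, p * a = a ∧ IsSelfAdjoint a ∧ ‖a‖ ≤ ‖x j‖ ∧
      ∃ w ∈ M, w * p = w ∧ ‖w‖ ≤ ε / 2 * ‖x j‖ ∧
        (ψ (star (∑ i, P i * x j * P i - a - w) * (∑ i, P i * x j * P i - a - w))).re ≤ κ := by
  have hpM := hA.1 p hpA
  obtain ⟨K, _, _, _, i, hi⟩ := exists_iso hpp
  have hupf : ∀ y : K →L[ℂ] K, p * up i y * p = up i y := by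
    intro y
    rw [← hi.up_one, ← hi.up_mul, ← hi.up_mul, one_mul, mul_one]
  have hzero : up i (0 : K →L[ℂ] K) = 0 := by
    ext v
    exact map_zero i
  have hfK : ∀ y ∈ cAlg M i, corner ψ i (star y * y) = 0 → y = 0 := by
    intro y hy h
    rw [corner_apply, hi.up_mul, Iso.up_star] at h
    have h1 := hf _ ((mem_cAlg hi hpM).1 hy) (hupf y) h
    rw [← hzero] at h1
    exact hi.up_injective h1
  have h1K : corner ψ i 1 ≠ 0 := by
    intro h
    have h1 : (1 : K →L[ℂ] K) = 0 := hfK 1 (one_mem _) (by rw [star_one, one_mul, h])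
    apply hp0
    rw [← hi.up_one, h1, hzero]
  have hdx := fun j => hi.norm_dn_le (x j)
  obtain ⟨P, ⟨hP1, hP2, hP3⟩, hjoint⟩ :=
    gns_paveJ hC (isMASA_cAlg hA hi hpA) (corner_central hA hψ hi hpA) h1K hfK hε hε1 hR
      (x := fun j => dn i (x j))
      (fun j => dn_mem hi hpM (hx j))
      (fun j => by rw [IsSelfAdjoint, ← Iso.dn_star, (hxs j).star_eq]) hκ
  have hstar : ∀ y : K →L[ℂ] K, IsSelfAdjoint y → IsSelfAdjoint (up i y) := by
    intro y hy
    rw [IsSelfAdjoint, ← Iso.up_star, hy.star_eq]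
  have hproj : ∀ y : K →L[ℂ] K, IsStarProjection y → IsStarProjection (up i y) := by
    intro y hy
    refine ⟨?_, hstar y hy.isSelfAdjoint⟩
    change up i y * up i y = up i y
    rw [← hi.up_mul, hy.isIdempotentElem.eq]
  have hup1 : ∀ y : K →L[ℂ] K, p * up i y = up i y := by
    intro y
    conv_lhs => rw [← hi.up_one]
    rw [← hi.up_mul, one_mul]
  have hup2 : ∀ y : K →L[ℂ] K, up i y * p = up i y := by
    intro y
    conv_lhs => rw [← hi.up_one]
    rw [← hi.up_mul, mul_one]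
  have hpin : ∀ j, ∀ y : K →L[ℂ] K, up i y * x j * up i y = up i (y * dn i (x j) * y) := by
    intro j y
    rw [hi.up_mul, hi.up_mul, hi.up_dn]
    calc up i y * x j * up i y = (up i y * p) * x j * (p * up i y) := by rw [hup1, hup2]
      _ = _ := by noncomm_ring
  refine ⟨fun j => up i (P j), fun j => ⟨(mem_cAlg hi hpA).1 (hP1 j).1,
    hproj _ (hP1 j).2⟩, fun j k hjk => ?_, ?_, fun l => ?_⟩
  · rw [← hi.up_mul, hP2 j k hjk, hzero]
  · rw [← Iso.up_sum, hP3, hi.up_one]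
  · obtain ⟨a, haA, has, han, w, hwM, hwn, hG⟩ := hjoint l
    refine ⟨up i a, (mem_cAlg hi hpA).1 haA, hup1 a,
      hstar a has, (hi.norm_up_le a).trans (han.trans (hdx l)), up i w, (mem_cAlg hi hpM).1 hwM,
      hup2 w, (hi.norm_up_le w).trans (hwn.trans ?_), ?_⟩
    · exact mul_le_mul_of_nonneg_left (hdx l) (by (clear * - hε; positivity))
    · have h1 : ∑ j, up i (P j) * x l * up i (P j) - up i a - up i w =
          up i (pinch P (dn i (x l)) - a - w) := by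
        rw [Iso.up_sub, Iso.up_sub]
        unfold pinch
        rw [Iso.up_sum]
        simp only [hpin]
      rw [h1, ← Iso.up_star, ← hi.up_mul]
      exact hG

/-- joint so-paving in the expected corner -/
theorem jsopavable {C : ℝ} (hC : CPaveJ.{u} k C) (hA : SO.IsMASA A M) (hz : z ∈ A)
    (hzp : IsStarProjection z) {E : (H →L[ℂ] H) →ₗ[ℂ] (H →L[ℂ] H)}
    (hE : SO.IsNormalExpectation M A z E) {ε : ℝ} (hε : 0 < ε) (hε1 : ε < 1) {R : ℕ}
    (hR : 16 * C / ε ^ 2 ≤ (R : ℝ)) (hR1 : 1 ≤ R) {x : Fin k → (H →L[ℂ] H)}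
    (hx : ∀ j, x j ∈ M) (hxs : ∀ j, IsSelfAdjoint (x j)) :
    JPav M A.toStarSubalgebra z x ε R := by
  classical
  intro F hF δ hδ
  have hA' := SO.IsMASA.toStar hA
  have hzM := hA.1 z hz
  have hzz : z * z = z := hzp.isIdempotentElem.eq
  -- the scales
  have hsc : ∀ j, ∃ c : ℝ, 0 < c ∧ (x j ≠ 0 → c = ε / 2 * ‖x j‖) := by
    intro j
    by_cases h0 : x j = 0
    · exact ⟨1, one_pos, fun h => absurd h0 h⟩
    · have : 0 < ‖x j‖ := norm_pos_iff.2 h0
      exact ⟨ε / 2 * ‖x j‖, by positivity, fun _ => rfl⟩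
  choose c hc0 hc using hsc
  obtain ⟨ψ, hψ, κ, hκ, hctrl⟩ := Vale.Agent.P078.L.exists_control hA' hz hzp
    (SO.isNormalExpectation_iff.1 hE) F (δ := δ / 2) (by positivity)
  have hpos : PosOn M ψ := hψ.nonneg
  obtain ⟨p, hpA, hpp, hzp', hψp, hf⟩ := exists_support hA hz hzp hE hψ
  have hpM := hA.1 p hpA
  have hpp2 : p * p = p := hpp.isIdempotentElem.eq
  have hpz : p * z = p := by rw [hA.2.1 p hpA z hz, hzp']
  have hzmp : IsStarProjection (z - p) := by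
    refine ⟨?_, hzp.isSelfAdjoint.sub hpp.isSelfAdjoint⟩
    change (z - p) * (z - p) = z - p
    rw [mul_sub, sub_mul, sub_mul, hzz, hpz, hzp', hpp2]
    abel
  have hpF : ∀ ξ ∈ F, ‖ξ - p ξ‖ < δ / 2 := by
    intro ξ hξ
    have h1 := hctrl (z - p) (sub_mem hzM hpM) hzmp (by rw [mul_sub, hzz, hzp'])
      (by rw [hψp, Complex.zero_re]; exact hκ.le) ξ hξ
    rw [sub_apply, hF ξ hξ] at h1
    exact h1
  by_cases hp0 : p = 0
  · obtain ⟨P', h1, h2, h3, -⟩ := extend_part hA hz hzp (p := 0) (zero_mem A)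
      (IsStarProjection.zero _) (mul_zero z) hR1 (P := fun _ => 0)
      (fun _ => ⟨zero_mem A, IsStarProjection.zero _⟩) (fun _ _ _ => mul_zero _) (by simp only [Finset.sum_const_zero])
    refine ⟨P', fun _ => 0, 0, h1, h2, h3,
      fun j => ⟨zero_mem A, mul_zero _, IsSelfAdjoint.zero _, by simp only [norm_zero, norm_nonneg]⟩,
      zero_mem M, mul_zero z, IsStarProjection.zero _, fun ξ hξ => ?_, fun j => ?_⟩
    · have h4 := hpF ξ hξ
      rw [hp0] at h4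
      linarith only [h4, hδ]
    · simp only [zero_mul, norm_zero]
      positivity
  -- the smallness
  obtain ⟨κ', hκ'0, hκ'⟩ : ∃ κ' : ℝ, 0 < κ' ∧ ∑ j, ((c j)⁻¹ ^ 2) * κ' ≤ κ := by
    have hS : 0 ≤ ∑ j, (c j)⁻¹ ^ 2 := Finset.sum_nonneg fun j _ => sq_nonneg _
    refine ⟨κ / (1 + ∑ j, (c j)⁻¹ ^ 2), by positivity, ?_⟩
    rw [← Finset.sum_mul, mul_div_assoc', div_le_iff₀ (by positivity), mul_comm]
    exact mul_le_mul_of_nonneg_left (by linarith only []) hκ.le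
  obtain ⟨P, hP1, hP2, hP3, hjoint⟩ :=
    corner_paveJ hC hA hψ hpA hpp hp0 hf hε hε1 hR hx hxs hκ'0
  choose a haA hpa has han w hwM hwp hwn hTψ using hjoint
  obtain ⟨z₀, hz₀⟩ : ∃ z₀ : Fin k → (H →L[ℂ] H),
      ∀ j, z₀ j = ∑ i, P i * x j * P i - a j - w j := ⟨_, fun _ => rfl⟩
  simp only [← hz₀] at hTψ
  have hPM : ∀ i, P i ∈ M := fun i => hA.1 _ (hP1 i).1
  have haM := fun j => hA.1 (a j) (haA j)
  have hz₀M : ∀ j, z₀ j ∈ M := fun j => by
    rw [hz₀]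
    exact sub_mem (sub_mem (sum_mem fun i _ => mul_mem (mul_mem (hPM i) (hx j)) (hPM i)) (haM j))
      (hwM j)
  have hpP : ∀ i, p * P i = P i := by
    intro i
    rw [← hP3, Finset.sum_mul, Finset.sum_eq_single i]
    · exact (hP1 i).2.isIdempotentElem.eq
    · intro j _ hj
      exact hP2 j i hj
    · intro hi
      exact absurd (Finset.mem_univ i) hi
  have hPp : ∀ i, P i * p = P i := by
    intro i
    rw [hA.2.1 _ (hP1 i).1 p hpA, hpP]
  have hsplit : ∀ j, ∑ i, P i * x j * P i - a j = w j + z₀ j := fun j => by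
    rw [hz₀]
    abel
  have hz₀p : ∀ j, z₀ j * p = z₀ j := fun j => by
    have hap : a j * p = a j := by rw [hA.2.1 (a j) (haA j) p hpA, hpa j]
    rw [hz₀, sub_mul, sub_mul, Finset.sum_mul, hap, hwp]
    simp only [mul_assoc, hPp]
  have hx0z : ∀ j, x j = 0 → z₀ j = 0 := fun j hj => by
    have h1 := han j
    have h2 := hwn j
    rw [hj, norm_zero] at h1 h2
    rw [mul_zero] at h2
    rw [hz₀, hj, norm_le_zero_iff.1 h1, norm_le_zero_iff.1 h2]
    simp only [mul_zero, zero_mul, Finset.sum_const_zero, sub_self]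
  -- the sum of the squares
  obtain ⟨T, hT⟩ : ∃ T : H →L[ℂ] H, T = ∑ j, (((c j)⁻¹ ^ 2 : ℝ) : ℂ) • (star (z₀ j) * z₀ j) :=
    ⟨_, rfl⟩
  have hTM : T ∈ M := by
    rw [hT]
    exact sum_mem fun j _ => M.toStarSubalgebra.smul_mem (mul_mem (star_mem (hz₀M j)) (hz₀M j)) _
  have hin : ∀ j, ∀ ζ : H, (inner ℂ ζ ((star (z₀ j) * z₀ j) ζ)).re = ‖z₀ j ζ‖ ^ 2 := by
    intro j ζ
    have h1 : (star (z₀ j) * z₀ j) ζ = star (z₀ j) (z₀ j ζ) := rfl
    rw [h1, ← inner_conj_symm, star_apply_inner, inner_conj_symm, inner_self_re]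
  have hTin : ∀ ζ : H, (inner ℂ ζ (T ζ)).re = ∑ j, (c j)⁻¹ ^ 2 * ‖z₀ j ζ‖ ^ 2 := by
    intro ζ
    have h1 : T ζ = ∑ j, (((c j)⁻¹ ^ 2 : ℝ) : ℂ) • ((star (z₀ j) * z₀ j) ζ) := by
      rw [hT, sum_apply]
      rfl
    rw [h1, inner_sum, Complex.re_sum]
    refine Finset.sum_congr rfl fun j _ => ?_
    rw [inner_smul_right, Complex.re_ofReal_mul, hin]
  have hT0 : 0 ≤ T := by
    rw [hT]
    refine Finset.sum_nonneg fun j _ => ?_
    have h1 := star_mul_self_nonneg ((((c j)⁻¹ : ℝ) : ℂ) • z₀ j)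
    rwa [star_smul, Complex.star_def, Complex.conj_ofReal, smul_mul_assoc, mul_smul_comm,
      smul_smul, ← Complex.ofReal_mul, ← sq] at h1
  have hTp : T * (1 - p) = 0 := by
    rw [hT, Finset.sum_mul]
    refine Finset.sum_eq_zero fun j _ => ?_
    rw [smul_mul_assoc, mul_assoc, mul_sub, mul_one, hz₀p, sub_self, mul_zero, smul_zero]
  have hTs : star T = T := (IsSelfAdjoint.of_nonneg hT0).star_eq
  have hpT : (1 - p) * T = 0 := by
    have := congrArg star hTp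
    rwa [star_mul, hpp.one_sub.isSelfAdjoint.star_eq, star_zero, hTs] at this
  -- the spectral projection
  obtain ⟨g, hgM, hgp, hgle, hgc, hg1, hg2⟩ := Vale.Agent.P078.L.exists_spec hTM hT0 1
  have hψT : (ψ T).re ≤ κ := by
    rw [hT, map_sum, Complex.re_sum]
    refine le_trans (Finset.sum_le_sum fun j _ => ?_) hκ'
    rw [map_smul, smul_eq_mul, Complex.re_ofReal_mul]
    exact mul_le_mul_of_nonneg_left (hTψ j) (sq_nonneg _)
  have hgψ : (ψ g).re ≤ κ := by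
    have h1 := hpos.mono (M.toStarSubalgebra.smul_mem hgM _) hTM hgle
    rw [map_smul, smul_eq_mul, Complex.re_ofReal_mul, one_mul] at h1
    exact h1.trans hψT
  have hgp0 : (1 - p) * g = 0 :=
    spec_mul_zero hgp (t := 1) one_pos hgc hg1 hTp hpT
  have hpg : p * g = g := by
    rw [sub_mul, one_mul, sub_eq_zero] at hgp0
    exact hgp0.symm
  have hgp' : g * p = g := by
    have := congrArg star hpg
    rwa [star_mul, hpp.isSelfAdjoint.star_eq, hgp.isSelfAdjoint.star_eq] at this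
  have hzg : z * g = g := by rw [← hpg, ← mul_assoc, hzp']
  have hgg : g * g = g := hgp.isIdempotentElem.eq
  have hgF := hctrl g hgM hgp hzg hgψ
  have hqp : IsStarProjection (p - g) := by
    refine ⟨?_, hpp.isSelfAdjoint.sub hgp.isSelfAdjoint⟩
    change (p - g) * (p - g) = p - g
    rw [mul_sub, sub_mul, sub_mul, hpp2, hgp', hpg, hgg]
    abel
  have hpq : p * (p - g) = p - g := by rw [mul_sub, hpp2, hpg]
  have hqp' : (p - g) * p = p - g := by rw [sub_mul, hpp2, hgp']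
  obtain ⟨P', h1, h2, h3, h4⟩ := extend_part hA hz hzp hpA hpp hzp' hR1 hP1 hP2 hP3
  refine ⟨P', a, p - g, h1, h2, h3, fun j => ⟨haA j, ?_, has j, han j⟩, sub_mem hpM hgM, ?_, hqp,
    fun ξ hξ => ?_, fun l => ?_⟩
  · rw [← hpa j, ← mul_assoc, hzp']
  · rw [mul_sub, hzp', hzg]
  · have e1 : ξ - (p - g) ξ = (ξ - p ξ) + g ξ := by
      rw [sub_apply]; abel
    rw [e1]
    refine (norm_add_le _ _).trans_lt ?_
    have h5 := hpF ξ hξ
    have h6 := hgF ξ hξ
    linarith only [h5, h6]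
  · obtain ⟨q, hq⟩ : ∃ q, q = p - g := ⟨_, rfl⟩
    rw [← hq] at hpq hqp' hqp ⊢
    have e1 : q * (∑ i, P' i * x l * P' i - a l) * q =
        q * (∑ i, P i * x l * P i - a l) * q := by
      rw [mul_sub, mul_sub, sub_mul, sub_mul, Finset.mul_sum, Finset.mul_sum, Finset.sum_mul,
        Finset.sum_mul]
      congr 1
      refine Finset.sum_congr rfl fun i _ => ?_
      obtain ⟨h5, h6⟩ := h4 q hpq hqp' i
      calc q * (P' i * x l * P' i) * q = (q * P' i) * x l * (P' i * q) := by noncomm_ring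
        _ = (q * P i) * x l * (P i * q) := by rw [h5, h6]
        _ = _ := by noncomm_ring
    have hqn : ‖q‖ ≤ 1 := hqp.norm_le
    have hz₀q : ‖z₀ l * q‖ ≤ ε / 2 * ‖x l‖ := by
      by_cases hl : x l = 0
      · rw [hx0z l hl, zero_mul, norm_zero]
        positivity
      rw [← hc l hl]
      refine ContinuousLinearMap.opNorm_le_bound _ (hc0 l).le fun ζ => ?_
      have h5 : g (q ζ) = 0 := by
        have : g * q = 0 := by rw [hq, mul_sub, hgp', hgg, sub_self]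
        exact DFunLike.congr_fun this ζ
      have h6 := hg2 _ h5
      rw [hTin, one_mul] at h6
      have h7 : ‖q ζ‖ ≤ ‖ζ‖ := norm_proj_le hqp ζ
      have h8 : (c l)⁻¹ ^ 2 * ‖z₀ l (q ζ)‖ ^ 2 ≤ ‖ζ‖ ^ 2 := by
        refine (Finset.single_le_sum (f := fun j => (c j)⁻¹ ^ 2 * ‖z₀ j (q ζ)‖ ^ 2)
          (fun j _ => by positivity) (Finset.mem_univ l)).trans (h6.trans ?_)
        exact pow_le_pow_left₀ (norm_nonneg _) h7 2
      have h9 : ‖z₀ l (q ζ)‖ ^ 2 ≤ (c l * ‖ζ‖) ^ 2 := by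
        have hcl := hc0 l
        have h10 := mul_le_mul_of_nonneg_left h8 (sq_nonneg (c l))
        have h11 : c l ^ 2 * ((c l)⁻¹ ^ 2 * ‖z₀ l (q ζ)‖ ^ 2) = ‖z₀ l (q ζ)‖ ^ 2 := by
          field_simp
        rw [h11] at h10
        rw [mul_pow]
        exact h10
      exact (sq_le_sq₀ (norm_nonneg _) (mul_nonneg (hc0 l).le (norm_nonneg _))).1 h9
    have e2 : q * (∑ i, P i * x l * P i - a l) * q = q * w l * q + q * (z₀ l * q) := by
      rw [hsplit]
      noncomm_ring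
    rw [e1, e2]
    refine (norm_add_le _ _).trans ?_
    have hxl : 0 ≤ ε / 2 * ‖x l‖ := by positivity
    have h5 : ‖q * (z₀ l * q)‖ ≤ ε / 2 * ‖x l‖ := by
      refine (norm_mul_le _ _).trans ?_
      calc ‖q‖ * ‖z₀ l * q‖ ≤ 1 * (ε / 2 * ‖x l‖) :=
            mul_le_mul hqn hz₀q (norm_nonneg _) zero_le_one
        _ = _ := one_mul _
    have h6 : ‖q * w l * q‖ ≤ ε / 2 * ‖x l‖ := by
      refine (norm_mul_le _ _).trans ?_
      have h7 : ‖q * w l‖ ≤ ε / 2 * ‖x l‖ := by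
        refine (norm_mul_le _ _).trans ?_
        calc ‖q‖ * ‖w l‖ ≤ 1 * (ε / 2 * ‖x l‖) :=
              mul_le_mul hqn (hwn l) (norm_nonneg _) zero_le_one
          _ = _ := one_mul _
      calc ‖q * w l‖ * ‖q‖ ≤ (ε / 2 * ‖x l‖) * 1 :=
            mul_le_mul h7 hqn (norm_nonneg _) hxl
        _ = _ := mul_one _
    linarith only [h5, h6]

end Vale.Agent.P078.WG
end
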