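import Vale.Agent.P078.Bdl.W2

/-! Joint so-paving in corners (internal notion). -/

namespace Vale.Agent.P078

variable {H : Type*} [NormedAddCommGroup H] [InnerProductSpace ℂ H] [CompleteSpace H]

/-- joint version of `SOPavable` (for a family of operators) -/
def JPav (M : VonNeumannAlgebra H) (A : StarSubalgebra ℂ (H →L[ℂ] H)) (z : H →L[ℂ] H)
    {k : ℕ} (x : Fin k → (H →L[ℂ] H)) (ε : ℝ) (r : ℕ) : Prop :=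
  ∀ F : Finset H, (∀ ξ ∈ F, z ξ = ξ) → ∀ δ : ℝ, 0 < δ →
    ∃ (p : Fin r → (H →L[ℂ] H)) (a : Fin k → (H →L[ℂ] H)) (q : H →L[ℂ] H),
      (∀ i, p i ∈ A ∧ IsStarProjection (p i)) ∧ (∀ i j, i ≠ j → p i * p j = 0) ∧
      ∑ i, p i = z ∧
      (∀ j, a j ∈ A ∧ z * a j = a j ∧ IsSelfAdjoint (a j) ∧ ‖a j‖ ≤ ‖x j‖) ∧
      q ∈ M ∧ z * q = q ∧ IsStarProjection q ∧
      (∀ ξ ∈ F, ‖ξ - q ξ‖ < δ) ∧
      ∀ j, ‖q * (∑ i, p i * x j * p i - a j) * q‖ ≤ ε * ‖x j‖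

end Vale.Agent.P078

namespace Vale.Agent.P078.WG

open Vale.Agent.P078 Vale.Agent.P078.C

universe u

/-- joint paving of `k` elements for central states -/
def CPaveJ (k : ℕ) (C : ℝ) : Prop :=
  ∀ (K : Type u) [NormedAddCommGroup K] [InnerProductSpace ℂ K] [CompleteSpace K]
    (N B : VonNeumannAlgebra K) (ξ : ℕ → K) (E : (K →L[ℂ] K) →ₗ[ℂ] (K →L[ℂ] K)),
    SO.IsMASA B N → W.IsCState N B ξ → IsTrExp N B ξ E →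
    ∀ ε : ℝ, 0 < ε → ε < 1 → ∀ x : Fin k → (K →L[ℂ] K),
    (∀ j, x j ∈ N ∧ IsSelfAdjoint (x j) ∧ ‖x j‖ ≤ 1 ∧ E (x j) = 0) →
    ∀ δ : ℝ, 0 < δ → ∃ (r : ℕ) (P : Fin r → (K →L[ℂ] K)), (r : ℝ) ≤ C / ε ^ 2 ∧ IsPart B P ∧
      ∃ w : Fin k → (K →L[ℂ] K), ∀ j, w j ∈ N ∧ ‖w j‖ ≤ ε ∧ n2 ξ (pinch P (x j) - w j) ≤ δ

end Vale.Agent.P078.WG
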