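import Vale.Agent.P078.H291.MT3
import Vale.Agent.P078.Bdl.T4

set_option linter.all false

section
/-! T3-F5: locality and rotation invariance of the conditions; choice of a colour. -/

namespace Vale.Agent.P078.MT

open Vale.Agent.P078.T

open Finset Polynomial
open Vale.Agent.P078.C (Herm ZD FB qf yc Q)

variable {α : Type*} [DecidableEq α] {r : ℕ}
variable {P : Par} {E : Env α} {S S' : α → St r} {z b Λ' : ℝ} {o x : α}

/-- rotation of the colours -/
def rot [NeZero r] (a : Fin r) (o : St r) : St r := o.map fun c => c.map fun b => b + a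

theorem rot_rot [NeZero r] (a b : Fin r) (o : St r) : rot b (rot a o) = rot (a + b) o := by
  rcases o with _ | _ | x
  · rfl
  · rfl
  · simp only [rot, Option.map_some, add_assoc]

theorem rot_zero [NeZero r] (o : St r) : rot 0 o = o := by
  rcases o with _ | _ | x
  · rfl
  · rfl
  · simp only [rot, Option.map_some, add_zero]

private theorem win_congr (h : ∀ v ∈ E.ball P.N x, S v = S' v) : win P E S x = win P E S' x := by
  unfold win
  exact Finset.filter_congr fun v hv => by rw [h v hv]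

private theorem lv_congr {v : α} (h : S v = S' v) : lv P E z S x v = lv P E z S' x v := by
  unfold lv
  rw [h]

omit [DecidableEq α] in
private theorem cs_congr {v : α} (h : S v = S' v) : cs S v = cs S' v := by
  unfold cs
  rw [h]

private theorem mem_ball_of_win {v : α} (h : v ∈ win P E S x) : v ∈ E.ball P.N x :=
  (mem_filter.1 h).1

theorem sw_congr (hrad : 2 * P.N ≤ E.rad) (h : ∀ v ∈ E.ball P.N o, S v = S' v) (a : Fin r) :
    sw P E z S o o b a = sw P E z S' o o b a := by
  unfold sw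
  rw [win_congr h]
  refine sg_congr (fun i hi => ?_) (fun i hi => ?_) (notMem_erase _ _)
  · by_cases hio : i = o
    · subst hio
      rw [Function.update_self, Function.update_self]
    · rw [Function.update_of_ne hio, Function.update_of_ne hio]
      have hi' := mem_of_mem_erase ((mem_insert.1 hi).resolve_left hio)
      exact cs_congr (h i (mem_ball_of_win hi'))
  · rw [lv_congr (h i (mem_ball_of_win (mem_of_mem_erase hi)))]

theorem alive_congr (hrad : 2 * P.N ≤ E.rad) (h : ∀ v ∈ E.ball P.N x, S v = S' v) :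
    Alive P E z S b x ↔ Alive P E z S' b x := by
  unfold Alive
  rw [win_congr h]
  have hb : ∀ i ∈ win P E S' x, S i = S' i := fun i hi => h i (mem_ball_of_win hi)
  constructor
  · intro H
    exact H.congr (fun i hi => cs_congr (hb i hi)) fun i hi => by
      rw [lv_congr (hb i hi)]
  · intro H
    exact H.congr (fun i hi => cs_congr (hb i hi).symm) fun i hi => by
      rw [lv_congr (hb i hi)]

theorem keep_congr (hrad : 2 * P.N ≤ E.rad) (h : ∀ v ∈ E.ball (2 * P.N) o, S v = S' v) :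
    Keep P E b Λ' z S o ↔ Keep P E b Λ' z S' o := by
  have hN : P.N ≤ E.rad := by omega
  have h1 : ∀ x ∈ E.ball P.N o, ∀ v ∈ E.ball P.N x, S v = S' v := by
    intro x hx v hv
    rw [E.mem_ball _ hN] at hx hv
    refine h v ((E.mem_ball _ hrad _ _).2 ?_)
    have := E.d_tri o x v
    omega
  have h2 : o ∈ E.ball P.N o := (E.mem_ball _ hN _ _).2 (by rw [E.d_self]; (clear * -; omega))
  unfold Keep
  refine and_congr (forall₂_congr fun x hx => alive_congr hrad (h1 x hx)) ?_
  refine forall_congr' fun a => forall₂_congr fun θ _ => ?_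
  rw [sw_congr hrad (h1 o h2), sw_congr hrad (h1 o h2)]

private theorem q_rot [NeZero r] {y : α → α → ℂ} (s : α → Option (Fin r)) (l : α → ℝ)
    (W : Finset α) (c : Fin r) : q y (fun v => (s v).map fun b => b + c) l W = q y s l W := by
  unfold q Q
  congr 2
  refine (Fintype.sum_equiv (Equiv.piCongrRight fun _ => Equiv.addRight c) _ _ fun d => ?_).symm
  congr 1
  ext i j
  have h1 : ∀ i : W, ((s i).map fun b => b + c).getD (d i + c) = (s i).getD (d i) + c := by
    intro i
    rcases s i with _ | b <;> rfl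
  simp only [Matrix.of_apply, Equiv.piCongrRight_apply, Equiv.coe_addRight, Pi.map_apply, h1, add_left_inj]

private theorem sg_rot [NeZero r] {y : α → α → ℂ} (s : α → Option (Fin r)) (l : α → ℝ)
    (W : Finset α) (c : Fin r) :
    sg y (fun v => (s v).map fun b => b + c) o l W = sg y s o l W := by
  unfold sg
  rw [q_rot, q_rot]

private theorem rot_eq_none [NeZero r] (c : Fin r) (o : St r) : rot c o = none ↔ o = none := by
  rcases o with _ | o
  · exact Iff.rfl
  · simp only [rot, Option.map_some, reduceCtorEq]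

private theorem rot_eq_del [NeZero r] (c : Fin r) (o : St r) :
    rot c o = some none ↔ o = some none := by
  rcases o with _ | _ | o
  · exact Iff.rfl
  · exact Iff.rfl
  · simp [rot]

private theorem cs_rot [NeZero r] (c : Fin r) (v : α) :
    cs (fun v => rot c (S v)) v = (cs S v).map fun b => b + c := by
  change (rot c (S v)).join = (S v).join.map fun b => b + c
  rcases S v with _ | _ | o <;> rfl

private theorem win_rot [NeZero r] (c : Fin r) :
    win P E (fun v => rot c (S v)) x = win P E S x := by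
  unfold win
  exact Finset.filter_congr fun v _ => not_congr (rot_eq_del c (S v))

private theorem lv_rot [NeZero r] (c : Fin r) (v : α) :
    lv P E z (fun v => rot c (S v)) x v = lv P E z S x v := by
  unfold lv
  simp only [rot_eq_none]

theorem sw_rot [NeZero r] (c a : Fin r) :
    sw P E z (fun v => rot c (S v)) o o b (a + c) = sw P E z S o o b a := by
  unfold sw
  rw [win_rot, ← sg_rot (Function.update (cs S) o (some a)) _ _ c]
  congr 1
  · funext v
    by_cases h : v = o
    · subst h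
      rw [Function.update_self, Function.update_self]
      rfl
    · rw [Function.update_of_ne h, Function.update_of_ne h, cs_rot]
  · funext v
    rw [lv_rot]

private theorem alive_rot [NeZero r] (c : Fin r) :
    Alive P E z (fun v => rot c (S v)) b x ↔ Alive P E z S b x := by
  unfold Alive
  rw [win_rot]
  have h1 : cs (fun v => rot c (S v)) = fun v => (cs S v).map fun b => b + c :=
    funext fun v => cs_rot c v
  have h2 : (fun v => lv P E z (fun v => rot c (S v)) x v - b) =
      fun v => lv P E z S x v - b := funext fun v => by rw [lv_rot]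
  rw [h1, h2]
  unfold Safe
  refine forall₂_congr fun U _ => ?_
  rw [q_rot]

theorem keep_rot [NeZero r] (c : Fin r) :
    Keep P E b Λ' z (fun v => rot c (S v)) o ↔ Keep P E b Λ' z S o := by
  unfold Keep
  refine and_congr (forall₂_congr fun x _ => alive_rot c) ?_
  rw [← (Equiv.addRight c).forall_congr_right]
  refine forall_congr' fun a => forall₂_congr fun θ _ => ?_
  rw [Equiv.coe_addRight, sw_rot, sw_rot]

open Classical in
/-- the first element of `O` in the order given by the permutation `π` -/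
noncomputable def pk [NeZero r] (π : Equiv.Perm (Fin r)) (O : Finset (Fin r)) : Fin r :=
  if h : (Finset.univ.filter fun k => π k ∈ O).Nonempty then
    π ((Finset.univ.filter fun k => π k ∈ O).min' h) else 0

theorem pk_mem [NeZero r] (π : Equiv.Perm (Fin r)) {O : Finset (Fin r)} (hO : O.Nonempty) :
    pk π O ∈ O := by
  obtain ⟨a, ha⟩ := hO
  have h : (Finset.univ.filter fun k => π k ∈ O).Nonempty :=
    ⟨π.symm a, mem_filter.2 ⟨mem_univ _, by rwa [Equiv.apply_symm_apply]⟩⟩
  unfold pk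
  rw [dif_pos h]
  exact (mem_filter.1 (min'_mem _ h)).2

private theorem pk_trans [NeZero r] (π σ : Equiv.Perm (Fin r)) {O : Finset (Fin r)}
    (hO : O.Nonempty) (hσ : ∀ x, σ x ∈ O ↔ x ∈ O) : pk (π.trans σ) O = σ (pk π O) := by
  obtain ⟨a, ha⟩ := hO
  have h : (Finset.univ.filter fun k => π k ∈ O).Nonempty :=
    ⟨π.symm a, mem_filter.2 ⟨mem_univ _, by rwa [Equiv.apply_symm_apply]⟩⟩
  have e : (Finset.univ.filter fun k => (π.trans σ) k ∈ O) =
      Finset.univ.filter fun k => π k ∈ O :=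
    Finset.filter_congr fun k _ => hσ (π k)
  unfold pk
  rw [dif_pos h]
  simp only [e]
  rw [dif_pos h]
  rfl

theorem pk_unif [NeZero r] {O : Finset (Fin r)} {a b : Fin r} (ha : a ∈ O) (hb : b ∈ O) :
    (Finset.univ.filter fun π => pk π O = a).card =
      (Finset.univ.filter fun π => pk π O = b).card := by
  have hσ : ∀ x, Equiv.swap a b x ∈ O ↔ x ∈ O := by
    intro x
    by_cases hxa : x = a
    · rw [hxa, Equiv.swap_apply_left]
      exact iff_of_true hb ha
    · by_cases hxb : x = b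
      · rw [hxb, Equiv.swap_apply_right]
        exact iff_of_true ha hb
      · rw [Equiv.swap_apply_of_ne_of_ne hxa hxb]
  have hpk : ∀ π : Equiv.Perm (Fin r), pk (π.trans (Equiv.swap a b)) O =
      Equiv.swap a b (pk π O) := fun π => pk_trans π _ ⟨a, ha⟩ hσ
  have hinv : ∀ π : Equiv.Perm (Fin r),
      (π.trans (Equiv.swap a b)).trans (Equiv.swap a b) = π := by
    intro π
    ext k
    simp
  refine Finset.card_bij' (fun π _ => π.trans (Equiv.swap a b))
    (fun π _ => π.trans (Equiv.swap a b)) ?_ ?_ ?_ ?_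
  · intro π hπ
    rw [mem_filter] at hπ ⊢
    exact ⟨mem_univ _, by rw [hpk, hπ.2, Equiv.swap_apply_left]⟩
  · intro π hπ
    rw [mem_filter] at hπ ⊢
    exact ⟨mem_univ _, by rw [hpk, hπ.2, Equiv.swap_apply_right]⟩
  · intro π _
    exact hinv π
  · intro π _
    exact hinv π

end Vale.Agent.P078.MT
end

section
/-! T3-F6: the local equivariant rule (cf. D/LRule.lean). -/

namespace Vale.Agent.P078.MT

open Vale.Agent.P078.T

open Finset Polynomial
open scoped Pointwise Classical Topology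
open Vale.Agent.P078.C (Herm ZD FB qf yc Q)

variable {X G : Type*} [TopologicalSpace X] [Group G] [MulAction G X] {r m : ℕ} [NeZero r]
variable (𝔖 : Sys3 X G) (n : ℕ) (cls : X → Fin m) (τ : Fin m → ℕ)
  (ρ : Fin m → Equiv.Perm (Fin r)) (K : ℕ → (G → St r) → Set X)
  (A : ℕ → (G → St r) → Fin r → Set X)

/-- the normalized pattern (of radius `2 n`) of the state `S` around `x` -/
noncomputable def nrmPat (u : Fin r) (S : X → St r) (x : X) : G → St r := fun h =>
  if h ∈ 𝔖.ballG (2 * n) then rot (-u) (S (h • x)) else none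

/-- the rule attached to the clopen sets `K`, `A` and to the source `U` -/
noncomputable def ruleU (U : X → Fin r) : Rule X r where
  keep := fun t S x => x ∈ K t (nrmPat 𝔖 n (U x) S x)
  allow := fun t S x => Finset.univ.filter fun a => x ∈ A t (nrmPat 𝔖 n (U x) S x) (a - U x)
  pick := fun x π O => pk π (Finset.univ.filter fun a => a + U x ∈ O) + U x

/-- the state of `x` before step `t` if the source at `g • x` is `σ g` -/
noncomputable def psi : ℕ → X → (G → Fin r) → St r
  | 0 => fun _ _ => none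
  | t + 1 => fun x σ =>
    let pat : G → St r := fun h =>
      if h ∈ 𝔖.ballG (2 * n) then rot (-σ 1) (psi t (h • x) fun g => σ (g * h)) else none
    if psi t x σ = none ∧ τ (cls x) = t then
      if (∃ w ∈ 𝔖.ball (2 * n) x, w ≠ x ∧ τ (cls w) = t) ∨ x ∉ K t pat then some none
      else some (some (pk (ρ (cls x)) (Finset.univ.filter fun a => x ∈ A t pat a) + σ 1))
    else psi t x σ

variable {𝔖 n cls τ ρ K A}

/-- the normalized pattern -/
private noncomputable def pat' (𝔖 : Sys3 X G) (n : ℕ) (cls : X → Fin m) (τ : Fin m → ℕ)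
    (ρ : Fin m → Equiv.Perm (Fin r)) (K : ℕ → (G → St r) → Set X)
    (A : ℕ → (G → St r) → Fin r → Set X) (t : ℕ) (x : X) (σ : G → Fin r) : G → St r := fun h =>
  if h ∈ 𝔖.ballG (2 * n) then
    rot (-σ 1) (psi 𝔖 n cls τ ρ K A t (h • x) fun g => σ (g * h)) else none

private theorem psi_succ (t : ℕ) (x : X) (σ : G → Fin r) :
    psi 𝔖 n cls τ ρ K A (t + 1) x σ =
      if psi 𝔖 n cls τ ρ K A t x σ = none ∧ τ (cls x) = t then
        if (∃ w ∈ 𝔖.ball (2 * n) x, w ≠ x ∧ τ (cls w) = t) ∨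
          x ∉ K t (pat' 𝔖 n cls τ ρ K A t x σ) then some none
        else some (some (pk (ρ (cls x)) (Finset.univ.filter fun a =>
          x ∈ A t (pat' 𝔖 n cls τ ρ K A t x σ) a) + σ 1))
      else psi 𝔖 n cls τ ρ K A t x σ := rfl

private theorem rot_none_iff (a : Fin r) (o : St r) : rot a o = none ↔ o = none := by
  cases o <;> simp [rot]

theorem psi_lc (hcls : IsLocallyConstant cls) (hK : ∀ t π, IsClopen (K t π))
    (hA : ∀ t π a, IsClopen (A t π a)) (t : ℕ) (σ : G → Fin r) :
    IsLocallyConstant fun x => psi 𝔖 n cls τ ρ K A t x σ := by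
  induction t generalizing σ with
  | zero => exact IsLocallyConstant.const _
  | succ t ih =>
    rw [IsLocallyConstant.iff_eventually_eq]
    intro x0
    have h1 : ∀ᶠ x in 𝓝 x0, ∀ h ∈ 𝔖.ballG (2 * n),
        psi 𝔖 n cls τ ρ K A t (h • x) (fun g => σ (g * h)) =
          psi 𝔖 n cls τ ρ K A t (h • x0) fun g => σ (g * h) :=
      (Filter.eventually_all_finset _).2 fun h _ =>
        (𝔖.nice_locConst (ih fun g => σ (g * h)) h).eventually_eq x0
    have h2 : ∀ᶠ x in 𝓝 x0, ∀ h ∈ 𝔖.ballG (2 * n),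
        cls (h • x) = cls (h • x0) ∧ (h • x = x ↔ h • x0 = x0) :=
      (Filter.eventually_all_finset _).2 fun h _ => by
        filter_upwards [(𝔖.nice_locConst hcls h).eventually_eq x0, 𝔖.nice_ev_eq h 1 x0]
          with x hx hx2
        rw [one_smul, one_smul] at hx2
        exact ⟨hx, hx2⟩
    have h3 : ∀ᶠ x in 𝓝 x0, ∀ a : Fin r,
        (x ∈ A t (pat' 𝔖 n cls τ ρ K A t x0 σ) a ↔ x0 ∈ A t (pat' 𝔖 n cls τ ρ K A t x0 σ) a) :=
      Filter.eventually_all.2 fun a => Sys3.nice_ev_clopen (hA t _ a) x0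
    filter_upwards [h1, h2, h3, hcls.eventually_eq x0, (ih σ).eventually_eq x0,
      Sys3.nice_ev_clopen (hK t (pat' 𝔖 n cls τ ρ K A t x0 σ)) x0] with x hx1 hx2 hx3 hx4 hx5 hx6
    have hp : pat' 𝔖 n cls τ ρ K A t x σ = pat' 𝔖 n cls τ ρ K A t x0 σ := by
      funext h
      unfold pat'
      by_cases hh : h ∈ 𝔖.ballG (2 * n)
      · rw [if_pos hh, if_pos hh, hx1 h hh]
      · rw [if_neg hh, if_neg hh]
    have hex : (∃ w ∈ 𝔖.ball (2 * n) x, w ≠ x ∧ τ (cls w) = t) ↔
        ∃ w ∈ 𝔖.ball (2 * n) x0, w ≠ x0 ∧ τ (cls w) = t := by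
      constructor
      · rintro ⟨w, hw, hw1, hw2⟩
        obtain ⟨h, hh, rfl⟩ := Sys3.mem_ball.1 hw
        refine ⟨h • x0, Sys3.mem_ball.2 ⟨h, hh, rfl⟩, fun h' => hw1 ((hx2 h hh).2.2 h'), ?_⟩
        rw [← (hx2 h hh).1]
        exact hw2
      · rintro ⟨w, hw, hw1, hw2⟩
        obtain ⟨h, hh, rfl⟩ := Sys3.mem_ball.1 hw
        refine ⟨h • x, Sys3.mem_ball.2 ⟨h, hh, rfl⟩, fun h' => hw1 ((hx2 h hh).2.1 h'), ?_⟩
        rw [(hx2 h hh).1]
        exact hw2
    have hf : (Finset.univ.filter fun a => x ∈ A t (pat' 𝔖 n cls τ ρ K A t x0 σ) a) =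
        Finset.univ.filter fun a => x0 ∈ A t (pat' 𝔖 n cls τ ρ K A t x0 σ) a :=
      Finset.filter_congr fun a _ => hx3 a
    rw [psi_succ, psi_succ, hp, hx4, hx5, hf]
    simp only [hex, hx6]
    congr!

theorem psi_loc (t : ℕ) (x : X) (σ σ' : G → Fin r)
    (h : ∀ g ∈ 𝔖.ballG (t * (2 * n)), σ g = σ' g) :
    psi 𝔖 n cls τ ρ K A t x σ = psi 𝔖 n cls τ ρ K A t x σ' := by
  induction t generalizing x σ σ' with
  | zero => rfl
  | succ t ih =>
    have h1 : σ 1 = σ' 1 := h 1 (𝔖.one_mem_ballG _)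
    have h2 : pat' 𝔖 n cls τ ρ K A t x σ = pat' 𝔖 n cls τ ρ K A t x σ' := by
      funext l
      unfold pat'
      by_cases hl : l ∈ 𝔖.ballG (2 * n)
      · rw [if_pos hl, if_pos hl, h1]
        congr 1
        refine ih _ _ _ fun g hg => h _ ?_
        unfold Sys3.ballG at hg hl ⊢
        rw [add_mul, one_mul, pow_add]
        exact Finset.mul_mem_mul hg hl
      · rw [if_neg hl, if_neg hl]
    have h3 : psi 𝔖 n cls τ ρ K A t x σ = psi 𝔖 n cls τ ρ K A t x σ' := by
      refine ih _ _ _ fun g hg => h _ (Sys3.ballG_mono ?_ hg)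
      rw [add_mul, one_mul]
      omega
    rw [psi_succ, psi_succ, h1, h2, h3]

theorem psi_rot (t : ℕ) (x : X) (σ : G → Fin r) (a : Fin r) :
    psi 𝔖 n cls τ ρ K A t x (fun g => σ g + a) = rot a (psi 𝔖 n cls τ ρ K A t x σ) := by
  induction t generalizing x σ with
  | zero => rfl
  | succ t ih =>
    have h2 : pat' 𝔖 n cls τ ρ K A t x (fun g => σ g + a) = pat' 𝔖 n cls τ ρ K A t x σ := by
      funext l
      unfold pat'
      by_cases hl : l ∈ 𝔖.ballG (2 * n)
      · rw [if_pos hl, if_pos hl, ih (l • x) (fun g => σ (g * l)), rot_rot]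
        congr 1
        rw [neg_add_rev, add_neg_cancel_left]
      · rw [if_neg hl, if_neg hl]
    rw [psi_succ, psi_succ, h2, ih x σ]
    simp only [rot_none_iff]
    by_cases h3 : psi 𝔖 n cls τ ρ K A t x σ = none ∧ τ (cls x) = t
    · rw [if_pos h3, if_pos h3]
      by_cases h4 : (∃ w ∈ 𝔖.ball (2 * n) x, w ≠ x ∧ τ (cls w) = t) ∨
          x ∉ K t (pat' 𝔖 n cls τ ρ K A t x σ)
      · rw [if_pos h4, if_pos h4]
        rfl
      · rw [if_neg h4, if_neg h4]
        simp [rot, add_assoc]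
    · rw [if_neg h3, if_neg h3]

/-- it is the process of the rule `ruleU` -/
theorem psi_eq_run (h : FB 1 1 𝔖.y) {cap : ℕ} {P : Par} (hn : n = P.N) (U : X → Fin r) (t : ℕ)
    (x : X) :
    psi 𝔖 n cls τ ρ K A t x (fun g => U (g • x)) =
      run P (𝔖.toEnv h cap) (ruleU 𝔖 n K A U) cls τ ρ t x := by
  induction t generalizing x with
  | zero => rfl
  | succ t ih =>
    have hp : pat' 𝔖 n cls τ ρ K A t x (fun g => U (g • x)) =
        nrmPat 𝔖 n (U x) (run P (𝔖.toEnv h cap) (ruleU 𝔖 n K A U) cls τ ρ t) x := by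
      funext l
      unfold pat' nrmPat
      by_cases hl : l ∈ 𝔖.ballG (2 * n)
      · rw [if_pos hl, if_pos hl, ← ih (l • x)]
        show rot (-U ((1 : G) • x)) (psi 𝔖 n cls τ ρ K A t (l • x) fun g => U ((g * l) • x)) = _
        rw [one_smul]
        simp only [mul_smul]
      · rw [if_neg hl, if_neg hl]
    rw [psi_succ, hp, ih x]
    simp only [one_smul]
    show _ = step P (𝔖.toEnv h cap) (ruleU 𝔖 n K A U) cls τ ρ t
      (run P (𝔖.toEnv h cap) (ruleU 𝔖 n K A U) cls τ ρ t) x
    unfold step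
    have e1 : (ruleU 𝔖 n K A U).pick x (ρ (cls x)) ((ruleU 𝔖 n K A U).allow t
        (run P (𝔖.toEnv h cap) (ruleU 𝔖 n K A U) cls τ ρ t) x) =
        pk (ρ (cls x)) (Finset.univ.filter fun a => x ∈ A t
          (nrmPat 𝔖 n (U x) (run P (𝔖.toEnv h cap) (ruleU 𝔖 n K A U) cls τ ρ t) x) a) + U x := by
      show pk (ρ (cls x)) (Finset.univ.filter fun a => a + U x ∈
        Finset.univ.filter fun a => x ∈ A t (nrmPat 𝔖 n (U x)
          (run P (𝔖.toEnv h cap) (ruleU 𝔖 n K A U) cls τ ρ t) x) (a - U x)) + U x = _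
      congr 2
      ext a
      simp only [Finset.mem_filter, Finset.mem_univ, true_and, add_sub_cancel_right]
    have e2 : ∀ S : X → St r, (ruleU 𝔖 n K A U).keep t S x =
        (x ∈ K t (nrmPat 𝔖 n (U x) S x)) := fun _ => rfl
    rw [e1]
    simp only [e2]
    rw [hn]
    congr!

end Vale.Agent.P078.MT
end

section
/-! T3-F6: validity of the local equivariant rule. -/

namespace Vale.Agent.P078.MT

open Vale.Agent.P078.T

open Finset Polynomial
open scoped Pointwise Classical Topology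
open Vale.Agent.P078.C (Herm ZD FB qf yc Q)

variable {X G : Type*} [TopologicalSpace X] [Group G] [MulAction G X] {r m : ℕ} [NeZero r]
variable {𝔖 : Sys3 X G} {n : ℕ} {K : ℕ → (G → St r) → Set X}
  {A : ℕ → (G → St r) → Fin r → Set X}

private theorem valid_ext (c : Fin r) (S : X → St r) (x v : X) (hv : v ∈ 𝔖.ball (2 * n) x) :
    ext 𝔖 (2 * n) (nrmPat 𝔖 n c S x) x v = rot (-c) (S v) :=
  ext_of_mem 𝔖 (S := fun v => rot (-c) (S v)) (fun g hg => by
    unfold nrmPat
    rw [if_pos hg]) hv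

private theorem valid_keep (E : Env X) {P : Par} (hrad : 2 * P.N ≤ E.rad)
    (hb : E.ball = 𝔖.ball) (b Λ' z : ℝ) (c : Fin r) (S : X → St r) (x : X) :
    Keep P E b Λ' z (ext 𝔖 (2 * P.N) (nrmPat 𝔖 P.N c S x) x) x ↔ Keep P E b Λ' z S x := by
  rw [keep_congr (S' := fun v => rot (-c) (S v)) hrad, keep_rot]
  intro v hv
  rw [hb] at hv
  exact valid_ext c S x v hv

private theorem valid_sw (E : Env X) {P : Par} (hrad : 2 * P.N ≤ E.rad)
    (hb : E.ball = 𝔖.ball) (b z : ℝ) (c : Fin r) (S : X → St r) (x : X) (a : Fin r) :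
    sw P E z (ext 𝔖 (2 * P.N) (nrmPat 𝔖 P.N c S x) x) x x b (a - c) = sw P E z S x x b a := by
  rw [sw_congr (S' := fun v => rot (-c) (S v)) hrad, sub_eq_add_neg, sw_rot]
  intro v hv
  rw [hb] at hv
  exact valid_ext c S x v (Sys3.ball_mono (by omega) x hv)

theorem ball_eq {𝔖 𝔖' : Sys3 X G} (h : 𝔖.S = 𝔖'.S) : 𝔖.ball = 𝔖'.ball := by
  funext n x
  unfold Sys3.ball
  rw [ballG_eq h]

/-- validity of the rule -/
theorem ruleU_valid {ι : Type} [Fintype ι] {𝔖 : ι → Sys3 X G} (i₀ : ι)
    (hS : ∀ j, (𝔖 i₀).S = (𝔖 j).S) (h : ∀ j, FB 1 1 (𝔖 j).y) {cap : ℕ} {P : Par}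
    (hcap : 2 * P.N ≤ cap) (hn : n = P.N)
    (hKA : ∀ t < P.T, ∀ π : G → St r, ∀ x,
      (x ∈ K t π → ∀ j, Keep P ((𝔖 j).toEnv (h j) cap) (4 * P.κ) P.Λ (P.zt t)
          (ext (𝔖 i₀) (2 * P.N) π x) x) ∧
        ((∀ j, Keep P ((𝔖 j).toEnv (h j) cap) (5 * P.κ) (P.Λ / 2) (P.zt t)
          (ext (𝔖 i₀) (2 * P.N) π x) x) → x ∈ K t π) ∧
        ∀ a, (x ∈ K t π → x ∈ A t π a → ∀ j, sw P ((𝔖 j).toEnv (h j) cap) (P.zt t)
            (ext (𝔖 i₀) (2 * P.N) π x) x x 0 a ≤ 6 * (P.Γ * P.zt t)) ∧
          (x ∈ K t π → (∀ j, sw P ((𝔖 j).toEnv (h j) cap) (P.zt t)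
            (ext (𝔖 i₀) (2 * P.N) π x) x x 0 a ≤ 5 * (P.Γ * P.zt t)) → x ∈ A t π a))
    (U : X → Fin r) :
    Valid (ruleU (𝔖 i₀) n K A U) P (fun j => (𝔖 j).toEnv (h j) cap) := by
  subst hn
  have hrad : ∀ j, 2 * P.N ≤ ((𝔖 j).toEnv (h j) cap).rad := by
    intro j
    change 2 * P.N ≤ cap + 1
    omega
  have hb : ∀ j, ((𝔖 j).toEnv (h j) cap).ball = (𝔖 i₀).ball := fun j => (ball_eq (hS j)).symm
  refine ⟨fun t ht S o _ hk j => ?_, fun t ht S o _ h1 => ?_, fun t ht S o _ hk a ha j => ?_,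
    fun t ht S o _ hk a h1 => ?_, fun o π O hO => ?_, fun o O a ha b hb => ?_⟩
  · have h1 := (hKA t ht (nrmPat (𝔖 i₀) P.N (U o) S o) o).1 hk j
    rw [valid_keep _ (hrad j) (hb j)] at h1
    exact h1
  · have h3 := (hKA t ht (nrmPat (𝔖 i₀) P.N (U o) S o) o).2.1
    refine h3 fun j => ?_
    rw [valid_keep _ (hrad j) (hb j)]
    exact h1 j
  · have ha' : o ∈ A t (nrmPat (𝔖 i₀) P.N (U o) S o) (a - U o) := (Finset.mem_filter.1 ha).2
    have h1 := ((hKA t ht (nrmPat (𝔖 i₀) P.N (U o) S o) o).2.2 (a - U o)).1 hk ha' j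
    rw [valid_sw _ (hrad j) (hb j)] at h1
    exact h1
  · have h3 := ((hKA t ht (nrmPat (𝔖 i₀) P.N (U o) S o) o).2.2 (a - U o)).2 hk
    refine Finset.mem_filter.2 ⟨Finset.mem_univ _, h3 fun j => ?_⟩
    rw [valid_sw _ (hrad j) (hb j)]
    exact h1 j
  · obtain ⟨b, hb⟩ := hO
    have hne : (Finset.univ.filter fun a => a + U o ∈ O).Nonempty :=
      ⟨b - U o, Finset.mem_filter.2 ⟨Finset.mem_univ _, by rw [sub_add_cancel]; exact hb⟩⟩
    exact (Finset.mem_filter.1 (pk_mem π hne)).2
  · have hf : ∀ c : Fin r, (Finset.univ.filter fun π => (ruleU (𝔖 i₀) P.N K A U).pick o π O = c) =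
        Finset.univ.filter fun π => pk π (Finset.univ.filter fun a => a + U o ∈ O) = c - U o := by
      intro c
      ext π
      rw [Finset.mem_filter, Finset.mem_filter]
      exact and_congr_right fun _ => eq_sub_iff_add_eq.symm
    have hm : ∀ c ∈ O, c - U o ∈ (Finset.univ.filter fun a => a + U o ∈ O) := fun c hc =>
      Finset.mem_filter.2 ⟨Finset.mem_univ _, by rw [sub_add_cancel]; exact hc⟩
    have h4 := pk_unif (hm a ha) (hm b hb)
    convert h4 using 2
    · convert hf a
    · convert hf b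

end Vale.Agent.P078.MT
end
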