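import Vale.Agent.P078.H291.MT6
import Vale.Agent.P078.H291.MT4

set_option linter.all false

section
/-! T3-E10: the final form bound. -/

namespace Vale.Agent.P078.MT

open Vale.Agent.P078.T

open Finset Polynomial
open Vale.Agent.P078.C (Herm ZD FB qf yc Q)

variable {α : Type*} [DecidableEq α] {r m : ℕ}
variable {P : Par} {E : Env α} {𝓡 : Rule α r} {cls : α → Fin m} {τ : Fin m → ℕ}
variable {ρ : Fin m → Equiv.Perm (Fin r)} {t : ℕ} {x v : α}
variable {ι : Type} [Fintype ι] {𝓕 : ι → Env α} {i₀ : ι}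

/-- all points are coloured or deleted at the end -/
theorem run_end (ω : Fin m → Fin P.T) (ρ : Fin m → Equiv.Perm (Fin r)) (x : α) :
    run P E 𝓡 cls (fun j => (ω j : ℕ)) ρ P.T x ≠ none := by
  rw [Ne, run_none_iff]
  exact not_le.2 (ω (cls x)).isLt

theorem run_fam (hF : Fam P 𝓕) (i j : ι) (τ : Fin m → ℕ) (ρ : Fin m → Equiv.Perm (Fin r))
    (t : ℕ) : run P (𝓕 i) 𝓡 cls τ ρ t = run P (𝓕 j) 𝓡 cls τ ρ t := by
  induction t with
  | zero => rfl
  | succ t ih =>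
    show step P (𝓕 i) 𝓡 cls τ ρ t (run P (𝓕 i) 𝓡 cls τ ρ t) =
      step P (𝓕 j) 𝓡 cls τ ρ t (run P (𝓕 j) 𝓡 cls τ ρ t)
    rw [ih]
    funext v
    unfold step
    rw [hF.ball i j]

/-- the final form bound -/
theorem upper (hr : 0 < r) (hP : P.Good E) (hE : 𝓕 i₀ = E) (hF : Fam P 𝓕) (h𝓡 : Valid 𝓡 P 𝓕)
    (hsp : SparseCls P E cls) (hi : Ini P E r) (ω : Fin m → Fin P.T)
    (ρ : Fin m → Equiv.Perm (Fin r)) (x : α) {W : Finset α} (hW : W ⊆ E.ball P.R x)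
    (c : α → Fin r)
    (hc : ∀ v ∈ W, run P E 𝓡 cls (fun j => (ω j : ℕ)) ρ P.T v = some (some (c v))) (v : α → ℂ) :
    qf (yc E.y c) W v ≤ 63 * (P.Γ * P.ζ) * ∑ i ∈ W, ‖v i‖ ^ 2 := by
  have hal := inv (τ := fun j => (ω j : ℕ)) (ρ := ρ) hE hF hr hP h𝓡 hsp hi P.T le_rfl x
  set S := run P E 𝓡 cls (fun j => (ω j : ℕ)) ρ P.T with hS
  have hrad := hP.rad
  have hN : P.N = 4 * P.R := rfl
  have hWd : ∀ w ∈ W, E.d x w ≤ P.R := fun w hw =>
    (E.mem_ball P.R (by (clear * - hrad hN; omega)) x w).1 (hW hw)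
  have hWw : W ⊆ win P E S x := by
    intro w hw
    rw [win, Finset.mem_filter]
    refine ⟨(E.mem_ball P.N (by omega) x w).2 (by have := hWd w hw; (clear * - hN this; omega)), ?_⟩
    rw [hc w hw]
    simp
  have hsafe : Safe E.y (cs S) (fun v => lv P E (P.zt P.T) S x v - P.κ) W := hal.subset hWw
  have hform := form_le_of_safe hr E.herm hsafe c (fun w hw => by simp [cs, hc w hw]) v
  refine hform.trans ?_
  rw [Finset.mul_sum]
  refine Finset.sum_le_sum fun w hw => ?_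
  refine mul_le_mul_of_nonneg_right ?_ (by (clear * -; positivity))
  have hT : (0 : ℝ) < P.T := by exact_mod_cast hP.T_pos
  have hR : (0 : ℝ) < P.R := by
    have := hP.R_pos
    exact_mod_cast (by omega : 0 < P.R)
  have hzt : P.zt P.T = 2 * P.ζ := by
    unfold Par.zt
    rw [div_self hT.ne']
    ring
  have hSw : S w ≠ none := by rw [hc w hw]; simp
  have hζ := hP.ζ_pos
  have hκ := hP.κ_pos
  have hκζ := hP.κ_le
  have hfx : fx P E x w ≤ P.κ / 180 := by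
    unfold fx
    have hd : (E.d x w : ℝ) ≤ P.R := by exact_mod_cast hWd w hw
    have hNR : (P.N : ℝ) = 4 * P.R := by simp [Par.N]
    have hden : 3 * (P.R : ℝ) ≤ (P.N : ℝ) + 1 - (E.d x w : ℝ) := by
      rw [hNR]; linarith only [hd]
    have hpos : 0 < (P.N : ℝ) + 1 - (E.d x w : ℝ) := by linarith only [hd, hNR]
    rw [div_pow, div_le_iff₀ (by (clear * - hpos; positivity))]
    have h9 : (3 * (P.R : ℝ)) ^ 2 ≤ ((P.N : ℝ) + 1 - (E.d x w : ℝ)) ^ 2 :=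
      pow_le_pow_left₀ (by (clear * - hR; positivity)) hden 2
    have h20 := hP.hR
    linarith only [mul_nonneg (le_of_lt (sub_pos.2 hκ)) (sub_nonneg.2 h9), mul_nonneg (mul_self_nonneg (1 : ℝ)) (sub_nonneg.2 h20)]
  have hΓζ : P.ζ ≤ P.Γ * P.ζ := le_mul_of_one_le_left hζ.le hP.Γ_ge
  simp only [lv, if_neg hSw, hzt]
  linarith only [hκ, hκζ, hfx, hΓζ]

end Vale.Agent.P078.MT
end

section
/-! T3-F7: the colouring theorem for local systems. -/

namespace Vale.Agent.P078.MT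

open Vale.Agent.P078.T

open Finset Polynomial
open scoped Pointwise Classical Topology
open Vale.Agent.P078.C (Herm ZD FB qf yc Q)

variable {X G : Type*} [TopologicalSpace X] [Group G] [MulAction G X]

/-- The colouring theorem for a family of kernels. -/
theorem main_sys [CompactSpace X] [T2Space X] [TotallyDisconnectedSpace X] {ι : Type} [Fintype ι]
    (i₀ : ι) (𝔖 : ι → Sys3 X G) (hS : ∀ j, (𝔖 i₀).S = (𝔖 j).S)
    (hFB : ∀ j, FB 1 1 (𝔖 j).y) {Γ : ℝ} (hΓ : 1 ≤ Γ) (hcard : (Fintype.card ι : ℝ) ≤ 2 * Γ)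
    {r : ℕ} [NeZero r] (hr : 2 ≤ r) {ζ : ℝ} (hζ : 0 < ζ)
    (hini : ∀ j, ∀ W : Finset X,
      Safe (𝔖 j).y (fun _ => (none : Option (Fin r))) (fun _ => 2 / 3 * ζ) W)
    {δ : ℝ} (hδ : 0 < δ) (k : ℕ) :
    ∃ (R : ℕ) (Ω : Type) (_ : Fintype Ω) (_ : Nonempty Ω)
      (Φ : Ω → X → (G → Fin r) → Option (Fin r)), (∀ ω, T.IsRule3 (𝔖 i₀) R (Φ ω)) ∧
      ∀ U : X → Fin r, IsLocallyConstant U →
        (∀ x, ((Finset.univ.filter fun ω => Φ ω x (fun g => U (g • x)) = none).card : ℝ) ≤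
          δ * Fintype.card Ω) ∧
        ∀ j ω x, ∀ W ⊆ (𝔖 i₀).ball k x, ∀ c : X → Fin r,
          (∀ v ∈ W, Φ ω v (fun g => U (g • v)) = some (c v)) → ∀ v : X → ℂ,
          qf (yc (𝔖 j).y c) W v ≤ 63 * (Γ * ζ) * ∑ i ∈ W, ‖v i‖ ^ 2 := by
  have hr0 : 0 < r := by omega
  have hq : (0 : ℝ) < Fintype.card ι := by exact_mod_cast Fintype.card_pos_iff.2 ⟨i₀⟩
  have hD : (1 : ℝ) ≤ ((𝔖 i₀).S.card : ℝ) := by
    exact_mod_cast Finset.card_pos.mpr ⟨1, (𝔖 i₀).one_mem⟩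
  obtain ⟨P, hPζ, hPΓ, hkR, hPδ, hPgood⟩ :=
    exists_par r hζ (div_pos hδ hq) hΓ hD (𝔖 i₀).S.card k
  have hcap : 2 * P.N ≤ 2 * P.N := le_refl _
  set 𝓕 : ι → Env X := fun j => (𝔖 j).toEnv (hFB j) (2 * P.N) with h𝓕
  have hPj : ∀ j, P.Good (𝓕 j) := fun j =>
    hPgood X (𝓕 j) (by rw [hS j]; rfl) (Nat.le_succ _)
  have hF : Fam P 𝓕 := ⟨hPj, fun i j => ball_eq ((hS i).symm.trans (hS j)), by rw [hPΓ]; exact hcard⟩
  have hP : P.Good (𝓕 i₀) := hPj i₀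
  have hκ : 0 < P.κ := hP.κ_pos
  have hΛ : 0 < P.Λ := lt_of_lt_of_le one_pos hP.Λ_ge
  have hΘ : ∀ θ ∈ P.Θ, 0 < θ := fun θ hθ => lt_of_lt_of_le (by (clear * - hκ; positivity)) (hP.Θ_ge θ hθ)
  have hz : ∀ t : ℕ, 0 < P.Γ * P.zt t := by
    intro t
    have h1 := hP.ζ_pos
    have h2 := hP.Γ_ge
    unfold Par.zt
    (clear * - h1 h2; positivity)
  obtain ⟨m, cls, hcls, hsp0⟩ := (𝔖 i₀).exists_sparse (2 * P.N)
  have hsp : SparseCls P (𝓕 i₀) cls := by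
    intro v w hvw hc
    by_contra hlt
    have h1 : (𝓕 i₀).d v w ≤ 2 * P.N := not_lt.mp hlt
    have h2 : w ∈ (𝔖 i₀).ball (2 * P.N) v :=
      ((𝓕 i₀).mem_ball (2 * P.N) (Nat.le_succ _) v w).mpr h1
    exact hvw (hsp0 (cls w) v hc w rfl (Sys3.mem_ball_comm.mp h2))
  have hsets := fun (t : ℕ) (π : G → St r) =>
    exists_sets hr0 i₀ 𝔖 hS hFB hcap hκ hΛ hΘ (hz t) π
  choose K A hK hA hKA using hsets
  have hi : ∀ j, Ini P (𝓕 j) r := by
    intro j W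
    rw [hPζ]
    exact hini j W
  have hvalid : ∀ U : X → Fin r, Valid (ruleU (𝔖 i₀) P.N K A U) P 𝓕 := fun U =>
    ruleU_valid i₀ hS hFB hcap rfl (fun t _ π x => hKA t π x) U
  have hd : ∀ j, (𝓕 j).d = (𝓕 i₀).d := by
    intro j
    show (𝔖 j).dist (2 * P.N) = (𝔖 i₀).dist (2 * P.N)
    funext x v
    unfold Sys3.dist
    rw [ball_eq (hS j)]
  have hsp' : ∀ j, SparseCls P (𝓕 j) cls := fun j v w h1 h2 => by
    rw [hd j]
    exact hsp v w h1 h2
  have hTne : Nonempty (Fin P.T) := ⟨⟨0, hP.T_pos⟩⟩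
  have hjoin : ∀ (o : St r) (a : Fin r), Option.join (rot a o) = (Option.join o).map fun c => c + a := by
    intro o a
    rcases o with _ | _ | b <;> rfl
  refine ⟨P.T * (2 * P.N), (Fin m → Fin P.T) × (Fin m → Equiv.Perm (Fin r)), inferInstance,
    inferInstance,
    fun ω x σ => (psi (𝔖 i₀) P.N cls (fun j => (ω.1 j : ℕ)) ω.2 K A P.T x σ).join, ?_, ?_⟩
  · intro ω
    refine ⟨fun σ => ?_, fun x σ σ' h => ?_, fun x σ a => ?_⟩
    · exact (psi_lc hcls hK hA P.T σ).comp Option.join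
    · beta_reduce
      rw [psi_loc P.T x σ σ' h]
    · beta_reduce
      rw [psi_rot, hjoin]
  · intro U _
    have hrun : ∀ (ω : (Fin m → Fin P.T) × (Fin m → Equiv.Perm (Fin r))) (x : X),
        psi (𝔖 i₀) P.N cls (fun j => (ω.1 j : ℕ)) ω.2 K A P.T x (fun g => U (g • x)) =
        run P (𝓕 i₀) (ruleU (𝔖 i₀) P.N K A U) cls (fun j => (ω.1 j : ℕ)) ω.2 P.T x :=
      fun ω x => psi_eq_run (hFB i₀) rfl U P.T x
    refine ⟨fun x => ?_, fun j ω x W hW c hc v => ?_⟩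
    · have hδ' : Fintype.card ι * ((((𝓕 i₀).Δ : ℕ) : ℝ) ^ (2 * P.N) / P.T +
          12 * (P.T + 2) * (((𝓕 i₀).Δ : ℕ) : ℝ) ^ (2 * P.N) * (4 / 5) ^ P.n +
          180 * r * P.Θ.card / P.Λ) ≤ δ := by
        have h1 := mul_le_mul_of_nonneg_left hPδ hq.le
        rw [mul_div_cancel₀ δ hq.ne'] at h1
        exact h1
      refine le_trans (le_of_eq ?_) (prob_del (i₀ := i₀) hr0 hP rfl hF (hvalid U) hd
        (fun j => by show (𝔖 j).S.card = (𝔖 i₀).S.card; rw [hS j]) hsp hi hδ' x)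
      congr 2
      ext ω
      simp only [Finset.mem_filter, Finset.mem_univ, true_and]
      rw [hrun ω x]
      have hne := run_end (P := P) (E := 𝓕 i₀) (𝓡 := ruleU (𝔖 i₀) P.N K A U)
        (cls := cls) ω.1 ω.2 x
      revert hne
      rcases run P (𝓕 i₀) (ruleU (𝔖 i₀) P.N K A U) cls (fun j => (ω.1 j : ℕ)) ω.2
        P.T x with _ | _ | b <;> simp
    · rw [← hPζ, ← hPΓ]
      refine upper (E := 𝓕 j) (i₀ := j) hr0 (hPj j) rfl hF (hvalid U) (hsp' j) (hi j) ω.1 ω.2 x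
        ?_ c (fun w hw => ?_) v
      · show W ⊆ (𝔖 j).ball P.R x
        rw [← ball_eq (hS j)]
        exact hW.trans (Sys3.ball_mono hkR x)
      · rw [run_fam hF j i₀, ← hrun ω w]
        exact Option.join_eq_some_iff.mp (hc w hw)

/-- The colouring theorem for `k` kernels, two sided. -/
theorem main_sys2 [CompactSpace X] [T2Space X] [TotallyDisconnectedSpace X] {q : ℕ}
    (i₀ : Fin q) (𝔖 : Fin q → Sys3 X G) (hS : ∀ j, (𝔖 i₀).S = (𝔖 j).S)
    (hFB : ∀ j, FB 1 1 (𝔖 j).y) {r : ℕ} [NeZero r] (hr : 2 ≤ r) {ζ : ℝ} (hζ : 0 < ζ)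
    (hini : ∀ j, ∀ W : Finset X,
      Safe (𝔖 j).y (fun _ => (none : Option (Fin r))) (fun _ => 2 / 3 * ζ) W ∧
      Safe (𝔖 j).neg.y (fun _ => (none : Option (Fin r))) (fun _ => 2 / 3 * ζ) W)
    {δ : ℝ} (hδ : 0 < δ) (k : ℕ) :
    ∃ (R : ℕ) (Ω : Type) (_ : Fintype Ω) (_ : Nonempty Ω)
      (Φ : Ω → X → (G → Fin r) → Option (Fin r)), (∀ ω, T.IsRule3 (𝔖 i₀) R (Φ ω)) ∧
      ∀ U : X → Fin r, IsLocallyConstant U →
        (∀ x, ((Finset.univ.filter fun ω => Φ ω x (fun g => U (g • x)) = none).card : ℝ) ≤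
          δ * Fintype.card Ω) ∧
        ∀ j ω x, ∀ W ⊆ (𝔖 i₀).ball k x, ∀ c : X → Fin r,
          (∀ v ∈ W, Φ ω v (fun g => U (g • v)) = some (c v)) → ∀ v : X → ℂ,
          |qf (yc (𝔖 j).y c) W v| ≤ 63 * (q * ζ) * ∑ i ∈ W, ‖v i‖ ^ 2 := by
  have hq1 : (1 : ℝ) ≤ q := by exact_mod_cast (Nat.lt_of_le_of_lt (Nat.zero_le _) i₀.isLt)
  obtain ⟨R, Ω, i1, i2, Φ, h1, h2⟩ := main_sys (ι := Fin q × Bool) (i₀, true)
    (fun p => if p.2 then 𝔖 p.1 else (𝔖 p.1).neg)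
    (fun p => by
      rcases p with ⟨j, _ | _⟩
      · exact hS j
      · exact hS j)
    (fun p => by
      rcases p with ⟨j, _ | _⟩
      · intro W v
        have h := hFB j W v
        show -1 * _ ≤ qf (fun i j' => -(𝔖 j).y i j') W v ∧ qf (fun i j' => -(𝔖 j).y i j') W v ≤ _
        have h3 : qf (fun i j' => -(𝔖 j).y i j') W v = -qf (𝔖 j).y W v := by
          unfold qf
          rw [← Complex.neg_re, ← Finset.sum_neg_distrib]
          congr 1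
          refine Finset.sum_congr rfl fun i _ => ?_
          rw [← Finset.sum_neg_distrib]
          exact Finset.sum_congr rfl fun j _ => by ring
        rw [h3]
        constructor <;> linarith [h.1, h.2]
      · exact hFB j)
    (Γ := q) hq1 (by simp [mul_comm]) hr hζ
    (fun p W => by
      rcases p with ⟨j, _ | _⟩
      · exact (hini j W).2
      · exact (hini j W).1) hδ k
  refine ⟨R, Ω, i1, i2, Φ, h1, fun U hU => ?_⟩
  obtain ⟨h3, h4⟩ := h2 U hU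
  refine ⟨h3, fun j ω x W hW c hc v => ?_⟩
  have h5 := h4 (j, true) ω x W hW c hc v
  have h6 := h4 (j, false) ω x W hW c hc v
  have h7 : qf (yc (𝔖 j).neg.y c) W v = -qf (yc (𝔖 j).y c) W v := by
    show qf (yc (fun i j' => -(𝔖 j).y i j') c) W v = _
    unfold qf yc
    rw [← Complex.neg_re, ← Finset.sum_neg_distrib]
    congr 1
    refine Finset.sum_congr rfl fun i _ => ?_
    rw [← Finset.sum_neg_distrib]
    refine Finset.sum_congr rfl fun j _ => ?_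
    split_ifs <;> ring
  have h8 : qf (yc (𝔖 j).neg.y c) W v ≤ 63 * (q * ζ) * ∑ i ∈ W, ‖v i‖ ^ 2 := h6
  rw [h7] at h8
  exact abs_le.2 ⟨by linarith only [h8], h5⟩

end Vale.Agent.P078.MT
end
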