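import Vale.Agent.P078.Bdl.W1
import Vale.Agent.P078.H291.MT7

set_option linter.all false
attribute [local instance] Vale.Agent.P078.Fast.a01 Vale.Agent.P078.Fast.a02
  Vale.Agent.P078.Fast.a03 Vale.Agent.P078.Fast.a04 Vale.Agent.P078.Fast.a05
  Vale.Agent.P078.Fast.a06 Vale.Agent.P078.Fast.a07 Vale.Agent.P078.Fast.a08
  Vale.Agent.P078.Fast.a09 Vale.Agent.P078.Fast.a10 Vale.Agent.P078.Fast.a11
  Vale.Agent.P078.Fast.a12 Vale.Agent.P078.Fast.a13 Vale.Agent.P078.Fast.a14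
  Vale.Agent.P078.Fast.a15 Vale.Agent.P078.Fast.a16 Vale.Agent.P078.Fast.a17
  Vale.Agent.P078.Fast.a18 Vale.Agent.P078.Fast.a19 Vale.Agent.P078.Fast.a20
  Vale.Agent.P078.Fast.a21 Vale.Agent.P078.Fast.a22 Vale.Agent.P078.Fast.a23
  Vale.Agent.P078.Fast.a24 Vale.Agent.P078.Fast.a25 Vale.Agent.P078.Fast.a26
  Vale.Agent.P078.Fast.a27 Vale.Agent.P078.Fast.a28 Vale.Agent.P078.Fast.a29
  Vale.Agent.P078.Fast.a30 Vale.Agent.P078.Fast.a31 Vale.Agent.P078.Fast.a32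
  Vale.Agent.P078.Fast.a33 Vale.Agent.P078.Fast.a34 Vale.Agent.P078.Fast.a35
  Vale.Agent.P078.Fast.a36 Vale.Agent.P078.Fast.a37 Vale.Agent.P078.Fast.a38
  Vale.Agent.P078.Fast.a39 Vale.Agent.P078.Fast.a40 Vale.Agent.P078.Fast.a41
  Vale.Agent.P078.Fast.a42 Vale.Agent.P078.Fast.a43 Vale.Agent.P078.Fast.a44
  Vale.Agent.P078.Fast.a45 Vale.Agent.P078.Fast.a46 Vale.Agent.P078.Fast.a47
  Vale.Agent.P078.Fast.a48 Vale.Agent.P078.Fast.a49 Vale.Agent.P078.Fast.a50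
  Vale.Agent.P078.Fast.a51 Vale.Agent.P078.Fast.a52 Vale.Agent.P078.Fast.a53
  Vale.Agent.P078.Fast.a54
attribute [local instance] Vale.Agent.P078.Fast.b01 Vale.Agent.P078.Fast.b02
  Vale.Agent.P078.Fast.b03 Vale.Agent.P078.Fast.b04 Vale.Agent.P078.Fast.b05
  Vale.Agent.P078.Fast.b06 Vale.Agent.P078.Fast.b07 Vale.Agent.P078.Fast.b08
  Vale.Agent.P078.Fast.b09 Vale.Agent.P078.Fast.b10 Vale.Agent.P078.Fast.b11

/-! P078, several operators: two-sided joint paving of the elements of the span of the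
normalizer, by one random local equivariant rule. -/

set_option linter.unusedSectionVars false
set_option linter.unusedVariables false

namespace Vale.Agent.P078.MW

open Vale.Agent.P078.SO Polynomial
open Vale.Agent.P078.W
open Vale.Agent.P078.D (IsRuleA exists_sepPoly)
open Vale.Agent.P078.C (Spec nrm nspan op op_mem op_mul op_inv op_one star_op_mem op_mul_star
  star_op_mul IsTrExp IsTrace IsPart pinch n2 vtr pev Herm ZD qf yc pw locmom FB conj_mem conj_mem'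
  E_mul_left E_mul_right vtr_nonneg vtr_sum vtr_smul vtr_add vtr_sub vtr_one vtr_neg vtr_mono n2_eq
  n2_nonneg n2_summable n2_le n2_neg n2_mul_le norm_sq_pinch KK KK_sum algebraMap_real_eq
  pev_eq_cfc nspan_le_M proj_conj)
open scoped Classical

universe u

variable {H : Type u} [NormedAddCommGroup H] [InnerProductSpace ℂ H] [CompleteSpace H]
variable {M A : VonNeumannAlgebra H} {ξ : ℕ → H} {E : (H →L[ℂ] H) →ₗ[ℂ] (H →L[ℂ] H)}

/-- the systems attached to finitely many operators, with one support -/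
theorem exists_sys_fam {X : Type*} [TopologicalSpace X] [MulAction (nrm M A) X]
    (hA : SO.IsMASA A M) (hE : IsTrExp M A ξ E) (hC : Cov M A E)
    (𝒮 : Spec M A X) {q : ℕ} {x : Fin q → (H →L[ℂ] H)} (hx : ∀ j, x j ∈ nspan M A)
    (hsa : ∀ j, IsSelfAdjoint (x j))
    (hx0 : ∀ j, E (x j) = 0) {a b : ℝ} (ha : ∀ j, x j ≤ (a : ℂ) • (1 : H →L[ℂ] H))
    (hb : ∀ j, -((b : ℂ) • (1 : H →L[ℂ] H)) ≤ x j) :
    ∃ (S : Finset (nrm M A)) (𝔖 : Fin q → T.Sys3 X (nrm M A)), (∀ j, (𝔖 j).S = S) ∧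
      (∀ j, (𝔖 j).a = a ∧ (𝔖 j).b = b) ∧
      (∀ j g h ω, (𝔖 j).k g h ω = 𝒮.val ω (E (star (op g) * x j * op h))) := by
  choose hxM S₀ hS₀ using fun j => span_range hA hE 𝒮 (hx j)
  set S : Finset (nrm M A) := Finset.univ.biUnion S₀ with hS
  have hsub : ∀ j, ∀ g ∈ S₀ j, g ∈ S := fun j g hg =>
    Finset.mem_biUnion.2 ⟨j, Finset.mem_univ _, hg⟩
  refine ⟨insert 1 (S ∪ S.image fun g => g⁻¹), fun j => {
    cont := 𝒮.contAct
    fixc := fix_clopen hA hE 𝒮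
    S := insert 1 (S ∪ S.image fun g => g⁻¹)
    one_mem := Finset.mem_insert_self _ _
    inv_mem := fun g hg => ?_
    y := sker E 𝒮 (x j)
    herm := sker_herm hE 𝒮 (hxM j) (hsa j)
    zd := sker_zd hE hC 𝒮 (hxM j) (hx0 j)
    range := fun v w h => ?_
    a := a
    b := b
    bound := sker_FB hA hE 𝒮 (hxM j) (ha j) (hb j)
    k := fun g h ω => 𝒮.val ω (E (star (op g) * x j * op h))
    k_cont := fun g h => 𝒮.cont _ (hE.mem _ (mul_mem (mul_mem (star_op_mem _) (hxM j)) (op_mem _)))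
    gauge := sker_gauge hA hE hC 𝒮 (hxM j) (hsa j) }, fun j => rfl, fun j => ⟨rfl, rfl⟩,
    fun _ _ _ _ => rfl⟩
  · rcases Finset.mem_insert.1 hg with rfl | hg
    · rw [inv_one]; exact Finset.mem_insert_self _ _
    · refine Finset.mem_insert_of_mem ?_
      rcases Finset.mem_union.1 hg with hg | hg
      · exact Finset.mem_union_right _ (Finset.mem_image_of_mem _ hg)
      · obtain ⟨s, hs, rfl⟩ := Finset.mem_image.1 hg
        rw [inv_inv]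
        exact Finset.mem_union_left _ hs
  · obtain ⟨g, hg, h⟩ := sker_range hA hE 𝒮 (hS₀ j) v w h
    exact ⟨g, Finset.mem_insert_of_mem (Finset.mem_union_left _ (hsub j g hg)), h⟩

private theorem num_aux {K c δ N : ℝ} (hK : 0 ≤ K) (hc : 0 ≤ c) :
    4 * (K * (c * (δ / (12 * (K * c + 1)) * N))) + 4 * (δ / (12 * (K * c + 1)) * N) =
      N * (δ / 3) := by
  have : (0 : ℝ) < K * c + 1 := by positivity
  field_simp
  ring

private theorem num_aux2 {r : ℕ} (hr : (18 : ℝ) ≤ r) :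
    8 / (r : ℝ) ≤ (2 / 3 * Real.sqrt (18 / r)) ^ 2 := by
  have hr0 : (0 : ℝ) < r := by linarith
  rw [mul_pow, Real.sq_sqrt (by (clear * - hr; positivity))]
  apply le_of_eq
  field_simp
  norm_num

/-- two-sided joint paving of elements of the span of the normalizer, on average over the samples
of a random rule -/
theorem two_sided_fam_one (hA : SO.IsMASA A M) (hξ : IsTrace A ξ) (hE : IsTrExp M A ξ E)
    (hC : Cov M A E)
    {X : Type*} [TopologicalSpace X] [CompactSpace X] [T2Space X] [TotallyDisconnectedSpace X]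
    [MulAction (nrm M A) X] (𝒮 : Spec M A X) {q : ℕ} (i₀ : Fin q)
    {x : Fin q → (H →L[ℂ] H)} (hx : ∀ j, x j ∈ nspan M A) (hsa : ∀ j, IsSelfAdjoint (x j))
    (hx0 : ∀ j, E (x j) = 0)
    (ha : ∀ j, x j ≤ (1 : ℂ) • (1 : H →L[ℂ] H)) (hb : ∀ j, -((1 : ℂ) • (1 : H →L[ℂ] H)) ≤ x j)
    {r : ℕ} [NeZero r] (hr : 18 ≤ r) {u : ℝ} (hu : 63 * (q * Real.sqrt (18 / r)) < u)
    {δ : ℝ} (hδ : 0 < δ) :
    ∃ (B : Finset (nrm M A)) (Ω : Type) (_ : Fintype Ω) (_ : Nonempty Ω)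
      (Φ : Ω → X → (nrm M A → Fin r) → Fin r), (∀ ω, IsRuleA B (Φ ω)) ∧
      ∀ U : X → Fin r, IsLocallyConstant U → ∀ P : Ω → Fin r → (H →L[ℂ] H),
        (∀ ω, IsPart A (P ω)) →
        (∀ ω i z, 𝒮.val z (P ω i) = if Φ ω z (fun g => U (g • z)) = i then 1 else 0) →
        ∀ j, ∃ w : Ω → (H →L[ℂ] H), (∀ ω, w ω ∈ M ∧ IsSelfAdjoint (w ω) ∧
          -((u : ℂ) • (1 : H →L[ℂ] H)) ≤ w ω ∧ w ω ≤ (u : ℂ) • (1 : H →L[ℂ] H)) ∧
          ∑ ω, n2 ξ (pinch (P ω) (x j) - w ω) ≤ δ * Fintype.card Ω := by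
  have hr' : (18 : ℝ) ≤ r := by exact_mod_cast hr
  have hr0 : (0 : ℝ) < r := by linarith only [hr']
  have hq1 : (1 : ℝ) ≤ q := by exact_mod_cast (Nat.lt_of_le_of_lt (Nat.zero_le _) i₀.isLt)
  obtain ⟨ζ, hζ⟩ : ∃ ζ, ζ = Real.sqrt (18 / r) := ⟨_, rfl⟩
  have hζ0 : 0 < ζ := by rw [hζ]; exact Real.sqrt_pos.2 (by positivity)
  have hζ1 : ζ ≤ 1 := by
    rw [hζ, Real.sqrt_le_iff, one_pow, div_le_one hr0]
    exact ⟨zero_le_one, hr'⟩
  have hζ2 : 8 / (r : ℝ) ≤ (2 / 3 * ζ) ^ 2 := by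
    rw [hζ]
    exact num_aux2 hr'
  rw [← hζ] at hu
  have hqζ : 0 < (q : ℝ) * ζ := mul_pos (by linarith only [hq1]) hζ0
  have hu0 : 0 < u := lt_trans (by (clear * - hqζ; linarith)) hu
  obtain ⟨p, hp0, hp1, hp2⟩ := exists_sepPoly (u := 63 * (q * ζ)) (v := u) (γ := δ / 12)
    (by linarith only [hqζ]) hu (by positivity)
  obtain ⟨S₁, 𝔖, h𝔖S, h𝔖ab, hk⟩ := exists_sys_fam hA hE hC 𝒮 hx hsa hx0 (a := 1) (b := 1)
    (by simpa only [Complex.ofReal_one, one_smul] using ha) (by simpa only [Complex.ofReal_one, one_smul] using hb)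
  have hSS : ∀ j, (𝔖 i₀).S = (𝔖 j).S := fun j => (h𝔖S i₀).trans (h𝔖S j).symm
  have hFB : ∀ j, FB 1 1 (𝔖 j).y := by
    intro j
    have := (𝔖 j).bound
    rwa [(h𝔖ab j).1, (h𝔖ab j).2] at this
  choose K S hK hdel using fun j => n2_del_pinch hA hξ (hx j)
  -- one constant for all operators
  obtain ⟨C, hCd⟩ : ∃ C : ℝ, C = ∑ j, K j * (S j).card := ⟨_, rfl⟩
  have hKc : ∀ j, 0 ≤ K j * (S j).card := fun j => mul_nonneg (hK j) (Nat.cast_nonneg _)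
  have hC0 : 0 ≤ C := hCd ▸ Finset.sum_nonneg fun j _ => hKc j
  have hKC : ∀ j, K j * (S j).card ≤ C := fun j =>
    hCd ▸ Finset.single_le_sum (f := fun j => K j * ((S j).card : ℝ)) (fun j _ => hKc j)
      (Finset.mem_univ j)
  obtain ⟨δ', hδ'⟩ : ∃ δ', δ' = δ / (12 * (C * 1 + 1)) := ⟨_, rfl⟩
  have hδ'0 : 0 < δ' := by rw [hδ']; (clear * - hδ hC0; positivity)
  obtain ⟨R, Ω, _, _, Φ, hΦ, hmain⟩ := MT.main_sys2 i₀ 𝔖 hSS hFB (r := r) (by omega) hζ0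
    (fun j W => T.ini_of_pos_above (𝔖 j) (hFB j) (by omega) hζ0 hζ2 (by omega) W) hδ'0 p.natDegree
  refine ⟨(𝔖 i₀).ballG R, Ω, ‹_›, ‹_›, fun ω x τ => (Φ ω x τ).getD (τ 1),
    fun ω => isRuleA_getD (hΦ ω), fun U hU P hP hPc j => ?_⟩
  obtain ⟨hprob, hform⟩ := hmain U hU
  set s : Ω → X → Option (Fin r) := fun ω z => Φ ω z fun g => U (g • z) with hs
  have hslc : ∀ ω, IsLocallyConstant (s ω) := fun ω =>
    rule3_lc (𝔖 i₀).cont (hΦ ω).lc (hΦ ω).loc hU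
  have hcl : ∀ ω, IsClopen {z | s ω z = none} := fun ω => (hslc ω).isClopen_fiber none
  choose d hd hdp hdc0 using fun ω => exists_clopen_proj 𝒮 (p := fun z => s ω z = none) (hcl ω)
  have hdc : ∀ ω z, 𝒮.val z (d ω) = if s ω z = none then 1 else 0 := by
    intro ω z
    rw [hdc0 ω z]
    congr
  have hPs : ∀ ω i z, s ω z ≠ none → 𝒮.val z (P ω i) = if s ω z = some i then 1 else 0 := by
    intro ω i z hz
    rw [hPc ω i z]
    obtain ⟨a, ha⟩ := Option.ne_none_iff_exists'.1 hz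
    have h1 : Φ ω z (fun g => U (g • z)) = some a := ha
    change (if (Φ ω z fun g => U (g • z)).getD (U ((1 : nrm M A) • z)) = i then (1 : ℂ) else 0) = _
    rw [ha, h1, Option.getD_some]
    by_cases h : a = i
    · rw [if_pos h, if_pos (by rw [h])]
    · rw [if_neg h, if_neg (fun h' => h (Option.some_injective _ h'))]
  have hball : (𝔖 j).ball = (𝔖 i₀).ball := MT.ball_eq (hSS j).symm
  have hsample := fun ω => sample hA hξ hE 𝒮 (hx j) (hsa j) (ha j) (hb j) (𝔖 j) (hk j) (s ω) (P ω)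
    (hP ω) (hPs ω)
    (hd ω) (hdp ω) (hdc ω) (u₀ := 63 * (q * ζ)) (by linarith only [hqζ]) hu0 (γ := δ / 12)
    (by positivity) p hp0
    hp1 hp2 (fun x W hW c hc v => hform j ω x W (by rw [← hball]; exact hW) c hc v)
  choose w hwM hwsa hw1 hw2 hw3 using hsample
  refine ⟨w, fun ω => ⟨hwM ω, hwsa ω, hw1 ω, hw2 ω⟩, ?_⟩
  have havg := fun g => avg_del hA hξ 𝒮 s hδ'0.le hprob d hd hdp hdc g
  obtain ⟨N, hN⟩ : ∃ N : ℝ, N = Fintype.card Ω := ⟨_, rfl⟩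
  have hN0 : 0 ≤ N := by rw [hN]; positivity
  rw [← hN]
  simp only [← hN] at havg
  have h1 : ∑ ω, n2 ξ (d ω) ≤ δ' * N := by
    have := havg 1
    simpa only [ge_iff_le, op_one, star_one, one_mul, mul_one] using this
  have h2 : ∑ ω, n2 ξ (d ω * pinch (P ω) (x j)) ≤ C * (1 * (δ' * N)) := by
    calc ∑ ω, n2 ξ (d ω * pinch (P ω) (x j))
        ≤ ∑ ω, K j * ∑ g ∈ S j, n2 ξ (star (op g) * d ω * op g) :=
          Finset.sum_le_sum fun ω _ => hdel j (P ω) (hP ω) (d ω) (hd ω) (hdp ω)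
      _ = K j * ∑ g ∈ S j, ∑ ω, n2 ξ (star (op g) * d ω * op g) := by
          rw [← Finset.mul_sum, Finset.sum_comm]
      _ ≤ K j * ∑ g ∈ S j, δ' * N :=
          mul_le_mul_of_nonneg_left (Finset.sum_le_sum fun g _ => havg g) (hK j)
      _ = (K j * (S j).card) * (δ' * N) := by rw [Finset.sum_const, nsmul_eq_mul]; ring
      _ ≤ C * (δ' * N) := mul_le_mul_of_nonneg_right (hKC j) (mul_nonneg hδ'0.le hN0)
      _ = _ := by ring
  have h3 : ∑ ω, n2 ξ (pinch (P ω) (x j) - w ω) ≤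
      N * (4 * (δ / 12)) + 4 * (C * (1 * (δ' * N))) + 4 * (δ' * N) := by
    refine (Finset.sum_le_sum fun ω _ => hw3 ω).trans ?_
    rw [Finset.sum_add_distrib, Finset.sum_add_distrib, Finset.sum_const, nsmul_eq_mul,
      Finset.card_univ, ← hN, ← Finset.mul_sum, ← Finset.mul_sum]
    linarith only [h2, h1]
  refine h3.trans ?_
  have h4 : 4 * (C * (1 * (δ' * N))) + 4 * (δ' * N) = N * (δ / 3) := by
    rw [hδ']
    exact num_aux hC0 zero_le_one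
  have h5 := mul_nonneg hN0 hδ.le
  linarith only [h5, h4]

/-- two-sided joint paving, norm bound `a` -/
theorem two_sided_fam_order (hA : SO.IsMASA A M) (hξ : IsCState M A ξ) (hE : IsTrExp M A ξ E)
    {X : Type*} [TopologicalSpace X] [CompactSpace X] [T2Space X] [TotallyDisconnectedSpace X]
    [MulAction (nrm M A) X] (𝒮 : Spec M A X) {q : ℕ} (i₀ : Fin q)
    {x : Fin q → (H →L[ℂ] H)} (hx : ∀ j, x j ∈ nspan M A) (hsa : ∀ j, IsSelfAdjoint (x j))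
    (hx0 : ∀ j, E (x j) = 0) {a : ℝ}
    (ha0 : 0 < a) (ha : ∀ j, x j ≤ (a : ℂ) • (1 : H →L[ℂ] H))
    (hb : ∀ j, -((a : ℂ) • (1 : H →L[ℂ] H)) ≤ x j)
    {r : ℕ} [NeZero r] (hr : 18 ≤ r) {u : ℝ} (hu : 63 * (q * Real.sqrt (18 / r)) * a < u)
    {δ : ℝ} (hδ : 0 < δ) :
    ∃ (B : Finset (nrm M A)) (Ω : Type) (_ : Fintype Ω) (_ : Nonempty Ω)
      (Φ : Ω → X → (nrm M A → Fin r) → Fin r), (∀ ω, IsRuleA B (Φ ω)) ∧
      ∀ U : X → Fin r, IsLocallyConstant U → ∀ P : Ω → Fin r → (H →L[ℂ] H),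
        (∀ ω, IsPart A (P ω)) →
        (∀ ω i z, 𝒮.val z (P ω i) = if Φ ω z (fun g => U (g • z)) = i then 1 else 0) →
        ∀ j, ∃ w : Ω → (H →L[ℂ] H), (∀ ω, w ω ∈ M ∧ IsSelfAdjoint (w ω) ∧
          -((u : ℂ) • (1 : H →L[ℂ] H)) ≤ w ω ∧ w ω ≤ (u : ℂ) • (1 : H →L[ℂ] H)) ∧
          ∑ ω, n2 ξ (pinch (P ω) (x j) - w ω) ≤ δ * Fintype.card Ω := by
  have ht := hξ.tr hA
  have hC : Cov M A E := fun v x hx => exp_cov' hA hξ hE v hx
  have hai : 0 ≤ a⁻¹ := by positivity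
  obtain ⟨y, hy⟩ : ∃ y : Fin q → (H →L[ℂ] H), y = fun j => ((a⁻¹ : ℝ) : ℂ) • x j := ⟨_, rfl⟩
  have hyj : ∀ j, y j = ((a⁻¹ : ℝ) : ℂ) • x j := fun j => by rw [hy]
  have haa : ((a⁻¹ : ℝ) : ℂ) * (a : ℂ) = 1 := by
    rw [← Complex.ofReal_mul, inv_mul_cancel₀ ha0.ne', Complex.ofReal_one]
  have haa' : (a : ℂ) * ((a⁻¹ : ℝ) : ℂ) = 1 := by rw [mul_comm]; exact haa
  have hxy : ∀ j, x j = (a : ℂ) • y j := fun j => by rw [hyj, smul_smul, haa', one_smul]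
  have hyn : ∀ j, y j ∈ nspan M A := fun j => by rw [hyj]; exact Submodule.smul_mem _ _ (hx j)
  have hysa : ∀ j, IsSelfAdjoint (y j) := fun j => by
    rw [hyj, IsSelfAdjoint, star_smul, Complex.star_def, Complex.conj_ofReal, (hsa j).star_eq]
  have hy0 : ∀ j, E (y j) = 0 := fun j => by rw [hyj, map_smul, hx0 j, smul_zero]
  have hya : ∀ j, y j ≤ (1 : ℂ) • (1 : H →L[ℂ] H) := fun j => by
    have h1 := smul_le_smul3 (ha j) hai
    rw [smul_smul, haa] at h1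
    rwa [hyj]
  have hyb : ∀ j, -((1 : ℂ) • (1 : H →L[ℂ] H)) ≤ y j := fun j => by
    have h1 := smul_le_smul3 (hb j) hai
    rw [smul_neg, smul_smul, haa] at h1
    rwa [hyj]
  obtain ⟨B, Ω, hF, hN, Φ, hΦ, hmain⟩ := two_sided_fam_one hA ht hE hC 𝒮 i₀ hyn hysa hy0 hya hyb
    hr (u := u / a) (by rw [lt_div_iff₀ ha0]; exact hu) (δ := δ / a ^ 2) (by positivity)
  refine ⟨B, Ω, hF, hN, Φ, hΦ, fun U hU P hP hPc j => ?_⟩
  obtain ⟨w, hw, hsum⟩ := hmain U hU P hP hPc j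
  refine ⟨fun ω => (a : ℂ) • w ω, fun ω => ⟨?_, ?_, ?_, ?_⟩, ?_⟩
  · exact M.toStarSubalgebra.smul_mem (hw ω).1 _
  · rw [IsSelfAdjoint, star_smul, Complex.star_def, Complex.conj_ofReal, (hw ω).2.1.star_eq]
  · have h1 := smul_le_smul3 (hw ω).2.2.1 ha0.le
    rw [smul_neg, smul_smul, ← Complex.ofReal_mul, mul_div_cancel₀ _ ha0.ne'] at h1
    exact h1
  · have h1 := smul_le_smul3 (hw ω).2.2.2 ha0.le
    rw [smul_smul, ← Complex.ofReal_mul, mul_div_cancel₀ _ ha0.ne'] at h1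
    exact h1
  · have h1 : ∀ ω, n2 ξ (pinch (P ω) (x j) - (a : ℂ) • w ω) =
        a ^ 2 * n2 ξ (pinch (P ω) (y j) - w ω) := by
      intro ω
      have h2 : pinch (P ω) (x j) - (a : ℂ) • w ω = (a : ℂ) • (pinch (P ω) (y j) - w ω) := by
        rw [smul_sub, ← pinch_smul3, ← hxy]
      rw [h2, n2_smul, Complex.norm_real, Real.norm_of_nonneg ha0.le]
    rw [Finset.sum_congr rfl fun ω _ => h1 ω, ← Finset.mul_sum]
    have h2 := mul_le_mul_of_nonneg_left hsum (sq_nonneg a)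
    refine h2.trans (le_of_eq ?_)
    (clear * - ha0 hN hδ; field_simp)

private theorem norm_le_of_le3 {w : H →L[ℂ] H} (hw : IsSelfAdjoint w) {u : ℝ} (hu : 0 ≤ u)
    (h1 : -((u : ℂ) • (1 : H →L[ℂ] H)) ≤ w) (h2 : w ≤ (u : ℂ) • (1 : H →L[ℂ] H)) : ‖w‖ ≤ u := by
  refine norm_le_of_rayleigh hw hu fun v => ?_
  have h3 := inner_le_of_le h2 v
  have h4 := inner_le_of_le h1 v
  have h5 : RCLike.re (inner ℂ (w v) v) = (inner ℂ v (w v)).re := by
    rw [← inner_conj_symm]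
    exact RCLike.conj_re _
  have e1 : (inner ℂ v (((u : ℂ) • (1 : H →L[ℂ] H)) v)).re = u * ‖v‖ ^ 2 := by
    rw [smul_apply, one_apply_eq_self, inner_smul_right, Complex.re_ofReal_mul, inner_self_re]
  rw [e1] at h3
  rw [neg_apply, inner_neg_right, Complex.neg_re, e1] at h4
  rw [h5, abs_le]
  constructor <;> linarith only [h3, h4]

private theorem le_of_norm_le3 {w : H →L[ℂ] H} (hw : IsSelfAdjoint w) {u : ℝ} (h : ‖w‖ ≤ u) :
    w ≤ (u : ℂ) • (1 : H →L[ℂ] H) := by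
  rw [← algebraMap_real_eq]
  exact hw.le_algebraMap_norm_self.trans (by
    rw [algebraMap_real_eq, algebraMap_real_eq, ← sub_nonneg, ← sub_smul, ← Complex.ofReal_sub]
    exact smul_nonneg3 zero_le_one (sub_nonneg.2 h))

/-- the two-sided joint paving by a finite family of rules -/
theorem two_sided_fam (hA : SO.IsMASA A M) (hξ : IsCState M A ξ) (hE : IsTrExp M A ξ E)
    {X : Type*} [TopologicalSpace X] [CompactSpace X] [T2Space X] [TotallyDisconnectedSpace X]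
    [MulAction (nrm M A) X] (𝒮 : Spec M A X) {q : ℕ} (i₀ : Fin q)
    {x : Fin q → (H →L[ℂ] H)} (hx : ∀ j, x j ∈ nspan M A) (hsa : ∀ j, IsSelfAdjoint (x j))
    (hx0 : ∀ j, E (x j) = 0) {a : ℝ}
    (ha0 : 0 < a) (ha : ∀ j, ‖x j‖ ≤ a) {r : ℕ} [NeZero r] (hr : 18 ≤ r) {u : ℝ}
    (hu : 268 * q * a < u * Real.sqrt r) {δ : ℝ} (hδ : 0 < δ) :
    ∃ (Ω : Type) (_ : Fintype Ω) (_ : Nonempty Ω) (B : Finset (nrm M A))
      (Φ : Ω → X → (nrm M A → Fin r) → Fin r), (∀ ω, D.IsRuleA B (Φ ω)) ∧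
      ∀ U : X → Fin r, IsLocallyConstant U → ∀ P : Ω → Fin r → (H →L[ℂ] H),
        (∀ ω, IsPart A (P ω)) →
        (∀ ω i v, 𝒮.val v (P ω i) = if Φ ω v (fun g => U (g • v)) = i then 1 else 0) →
        ∀ j, ∃ w : Ω → (H →L[ℂ] H), (∀ ω, w ω ∈ M ∧ IsSelfAdjoint (w ω) ∧ ‖w ω‖ ≤ u) ∧
          ∑ ω, n2 ξ (pinch (P ω) (x j) - w ω) ≤ δ * Fintype.card Ω := by
  have hr' : (18 : ℝ) ≤ r := by exact_mod_cast hr
  have hr0 : (0 : ℝ) < r := by linarith only [hr']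
  have hq1 : (1 : ℝ) ≤ q := by exact_mod_cast (Nat.lt_of_le_of_lt (Nat.zero_le _) i₀.isLt)
  have hqa : 0 < (q : ℝ) * a := mul_pos (by linarith only [hq1]) ha0
  obtain ⟨t, ht⟩ : ∃ t, t = Real.sqrt r := ⟨_, rfl⟩
  have ht0 : 0 < t := by rw [ht]; exact Real.sqrt_pos.2 hr0
  have hu0 : 0 < u := by
    rw [← ht] at hu
    have h1 : 0 < u * t := lt_trans (by (clear * - hqa; linarith)) hu
    exact (pos_iff_pos_of_mul_pos h1).2 ht0
  have hu' : 63 * (q * Real.sqrt (18 / r)) * a < u := by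
    rw [Real.sqrt_div' _ hr0.le, ← ht]
    rw [← ht] at hu
    have h18 : 63 * Real.sqrt 18 ≤ 268 := by
      have h1 : Real.sqrt 18 ≤ 268 / 63 := by
        rw [Real.sqrt_le_iff]
        norm_num
      linarith only [h1]
    have h2 : 63 * (q * (Real.sqrt 18 / t)) * a = (63 * Real.sqrt 18) * (q * a) / t := by ring
    rw [h2, div_lt_iff₀ ht0]
    refine lt_of_le_of_lt (mul_le_mul_of_nonneg_right h18 hqa.le) ?_
    rw [← mul_assoc]
    exact hu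
  have hb : ∀ j, -((a : ℂ) • (1 : H →L[ℂ] H)) ≤ x j := fun j => by
    rw [neg_le]
    exact le_of_norm_le3 (hsa j).neg (by rw [norm_neg]; exact ha j)
  obtain ⟨B, Ω, hF, hN, Φ, hΦ, hmain⟩ := two_sided_fam_order hA hξ hE 𝒮 i₀ hx hsa hx0 ha0
    (fun j => le_of_norm_le3 (hsa j) (ha j)) hb hr hu' hδ
  refine ⟨Ω, hF, hN, B, Φ, hΦ, fun U hU P hP hPc j => ?_⟩
  obtain ⟨w, hw, hsum⟩ := hmain U hU P hP hPc j
  exact ⟨w, fun ω => ⟨(hw ω).1, (hw ω).2.1,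
    norm_le_of_le3 (hw ω).2.1 hu0.le (hw ω).2.2.1 (hw ω).2.2.2⟩, hsum⟩

end Vale.Agent.P078.MW
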