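import Vale.Agent.P078.Bdl.W3
import Vale.Agent.P078.H291.JW1
import Vale.Agent.P078.H291.JPav

set_option linter.all false
attribute [local instance] Vale.Agent.P078.Fast.a01 Vale.Agent.P078.Fast.a02
  Vale.Agent.P078.Fast.a03 Vale.Agent.P078.Fast.a04 Vale.Agent.P078.Fast.a05
  Vale.Agent.P078.Fast.a06 Vale.Agent.P078.Fast.a07 Vale.Agent.P078.Fast.a08
  Vale.Agent.P078.Fast.a09 Vale.Agent.P078.Fast.a10 Vale.Agent.P078.Fast.a11
  Vale.Agent.P078.Fast.a12 Vale.Agent.P078.Fast.a13 Vale.Agent.P078.Fast.a14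
  Vale.Agent.P078.Fast.a15 Vale.Agent.P078.Fast.a16 Vale.Agent.P078.Fast.a17
  Vale.Agent.P078.Fast.a18 Vale.Agent.P078.Fast.a19 Vale.Agent.P078.Fast.a20
  Vale.Agent.P078.Fast.a21 Vale.Agent.P078.Fast.a22 Vale.Agent.P078.Fast.a23
  Vale.Agent.P078.Fast.a24 Vale.Agent.P078.Fast.a25 Vale.Agent.P078.Fast.a26
  Vale.Agent.P078.Fast.a27 Vale.Agent.P078.Fast.a28 Vale.Agent.P078.Fast.a29
  Vale.Agent.P078.Fast.a30 Vale.Agent.P078.Fast.a31 Vale.Agent.P078.Fast.a32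
  Vale.Agent.P078.Fast.a33 Vale.Agent.P078.Fast.a34 Vale.Agent.P078.Fast.a35
  Vale.Agent.P078.Fast.a36 Vale.Agent.P078.Fast.a37 Vale.Agent.P078.Fast.a38
  Vale.Agent.P078.Fast.a39 Vale.Agent.P078.Fast.a40 Vale.Agent.P078.Fast.a41
  Vale.Agent.P078.Fast.a42 Vale.Agent.P078.Fast.a43 Vale.Agent.P078.Fast.a44
  Vale.Agent.P078.Fast.a45 Vale.Agent.P078.Fast.a46 Vale.Agent.P078.Fast.a47
  Vale.Agent.P078.Fast.a48 Vale.Agent.P078.Fast.a49 Vale.Agent.P078.Fast.a50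
  Vale.Agent.P078.Fast.a51 Vale.Agent.P078.Fast.a52 Vale.Agent.P078.Fast.a53
  Vale.Agent.P078.Fast.a54
attribute [local instance] Vale.Agent.P078.Fast.b01 Vale.Agent.P078.Fast.b02
  Vale.Agent.P078.Fast.b03 Vale.Agent.P078.Fast.b04 Vale.Agent.P078.Fast.b05
  Vale.Agent.P078.Fast.b06 Vale.Agent.P078.Fast.b07 Vale.Agent.P078.Fast.b08
  Vale.Agent.P078.Fast.b09 Vale.Agent.P078.Fast.b10 Vale.Agent.P078.Fast.b11

section
/-! P078, several operators: most samples of finitely many rules pave all the mixing parts. -/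

set_option linter.unusedSectionVars false

namespace Vale.Agent.P078.MW

open Filter Topology
open Vale.Agent.P078 Vale.Agent.P078.C Vale.Agent.P078.F Vale.Agent.P078.Y Vale.Agent.P078.W
open scoped Classical

universe u

variable {H : Type u} [NormedAddCommGroup H] [InnerProductSpace ℂ H] [CompleteSpace H]
variable {M A : VonNeumannAlgebra H} {ξ : ℕ → H} {E : (H →L[ℂ] H) →ₗ[ℂ] (H →L[ℂ] H)}
variable {X : Type*} [TopologicalSpace X] [MulAction (nrm M A) X]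

/-- finitely many samples `U j` such that, for every rule `Φ ω` of a finite family, the partitions
given by `Φ ω` and `U j` pave each `y c` on average over `j` -/
theorem paint_fam (hA : SO.IsMASA A M) (hξ : IsCState M A ξ) (hE : IsTrExp M A ξ E) {q : ℕ}
    {y : Fin q → (H →L[ℂ] H)} (hy : ∀ c, y c ∈ M) (hsa : ∀ c, IsSelfAdjoint (y c))
    (hy1 : ∀ c, ‖y c‖ ≤ 1)
    (horth : ∀ c, ∀ u : nrm M A, E (op u * y c) = 0) (𝒮 : Spec M A X) {k : ℕ}
    {Ω : Type} [Fintype Ω] {B : Finset (nrm M A)}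
    {Φ : Ω → X → (nrm M A → Fin (k + 1)) → Fin (k + 1)} (hΦ : ∀ ω, D.IsRuleA B (Φ ω))
    {s δ : ℝ} (hs : 2 / Real.sqrt ((k + 1 : ℕ) : ℝ) < s) (hδ : 0 < δ) :
    ∃ (J : Type) (_ : Fintype J) (_ : Nonempty J) (U : J → X → Fin (k + 1))
      (d : Fin q → Ω → J → ℝ),
      (∀ j, IsLocallyConstant (U j)) ∧ (∀ c ω, ∑ j, d c ω j ≤ δ * Fintype.card J) ∧
      ∀ c ω j (P : Fin (k + 1) → (H →L[ℂ] H)), IsPart A P →
        (∀ i x, 𝒮.val x (P i) = if Φ ω x (fun g => U j (g • x)) = i then 1 else 0) →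
        ∃ w ∈ M, IsSelfAdjoint w ∧ ‖w‖ ≤ s ∧ n2 ξ (pinch P (y c) - w) ≤ d c ω j := by
  have hs0 : 0 < s := lt_of_le_of_lt (by positivity) hs
  -- enumeration of the window
  obtain ⟨n, u, hu⟩ : ∃ (n : ℕ) (u : Fin n → nrm M A), ∀ g, g ∈ insert 1 B ↔ ∃ j, u j = g := by
    refine ⟨_, fun j => ((insert 1 B).equivFin.symm j : nrm M A), fun g => ⟨fun hg => ?_, ?_⟩⟩
    · exact ⟨(insert 1 B).equivFin ⟨g, hg⟩, by simp⟩
    · rintro ⟨j, rfl⟩
      exact ((insert 1 B).equivFin.symm j).2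
  choose t₀ hmix using fun c =>
    mix3 hA hξ hE (hy c) (hsa c) (hy1 c) (horth c) u (k + 1) hs hδ
  obtain ⟨t, ht⟩ := exists_common hA Finset.univ t₀
  obtain ⟨i, hi, hval⟩ := exists_label 𝒮 t
  choose f idx col h1 h2 h3 h4 using fun (c : Fin q) ω =>
    paint3_one hA 𝒮 (y c) (hΦ ω) u hu t i hi hval
  refine ⟨t.ι → ZMod (k + 1), inferInstance, ⟨0⟩, fun j x => j (i x), fun c ω j =>
    n2 ξ (Sop (f c ω) (col c ω) (y c) j - cfc (clp s) (Sop (f c ω) (col c ω) (y c) j)),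
    fun j => hi.comp _, fun c ω => ?_, fun c ω j P hP hPv => ?_⟩
  · rw [mul_comm]
    exact hmix c t (f c ω) (ht t (Part.Finer.refl t) c (Finset.mem_univ c)) (idx c ω) (h1 c ω)
      (col c ω) (h2 c ω) (h3 c ω)
  · have hTM := Sop_mem (f := f c ω) (col := col c ω) hA.1 (hy c) j
    refine ⟨cfc (clp s) (Sop (f c ω) (col c ω) (y c) j), F.cfc_mem M hTM _, cfc_predicate _ _,
      ?_, ?_⟩
    · refine norm_cfc_le hs0.le fun t _ => ?_
      rw [Real.norm_eq_abs, abs_le]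
      unfold clp
      exact ⟨le_max_left _ _, max_le (by linarith only [hs0]) (min_le_right _ _)⟩
    · rw [h4 c ω j P hP hPv]

/-- the mixing parts are paved by most sources, simultaneously for a finite family of rules -/
theorem paint_fam_avg (hA : SO.IsMASA A M) (hξ : IsCState M A ξ) (hE : IsTrExp M A ξ E) {q : ℕ}
    {y : Fin q → (H →L[ℂ] H)} (hy : ∀ c, y c ∈ M)
    (hsa : ∀ c, IsSelfAdjoint (y c)) (hy1 : ∀ c, ‖y c‖ ≤ 1)
    (horth : ∀ c, ∀ g h : nrm M A, E (star (op g) * y c * op h) = 0)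
    {X : Type*} [TopologicalSpace X] [CompactSpace X] [T2Space X] [TotallyDisconnectedSpace X]
    [MulAction (nrm M A) X] (𝒮 : Spec M A X) {k : ℕ} {Ω : Type} [Fintype Ω]
    {B : Finset (nrm M A)}
    {Φ : Ω → X → (nrm M A → Fin (k + 1)) → Fin (k + 1)} (hΦ : ∀ ω, D.IsRuleA B (Φ ω))
    {s δ : ℝ} (hs : 2 / Real.sqrt ((k + 1 : ℕ) : ℝ) < s) (hδ : 0 < δ) :
    ∃ (J : Type) (_ : Fintype J) (_ : Nonempty J) (U : J → X → Fin (k + 1)),
      (∀ j, IsLocallyConstant (U j)) ∧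
      ∃ P : J → Ω → Fin (k + 1) → (H →L[ℂ] H), (∀ j ω, IsPart A (P j ω)) ∧
      (∀ j ω i v, 𝒮.val v (P j ω i) =
        if Φ ω v (fun g => U j (g • v)) = i then 1 else 0) ∧
      ∃ w : Fin q → J → Ω → (H →L[ℂ] H),
        (∀ c j ω, w c j ω ∈ M ∧ IsSelfAdjoint (w c j ω) ∧ ‖w c j ω‖ ≤ s) ∧
        ∀ c ω, ∑ j, n2 ξ (pinch (P j ω) (y c) - w c j ω) ≤ δ * Fintype.card J := by
  have horth' : ∀ c, ∀ u : nrm M A, E (op u * y c) = 0 := by
    intro c u
    have h := horth c u⁻¹ 1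
    rwa [op_inv, star_star, op_one, mul_one] at h
  obtain ⟨J, hJ, hJne, U, d, hU, hd, hmain⟩ :=
    paint_fam hA hξ hE hy hsa hy1 horth' 𝒮 hΦ hs hδ
  have hlc : ∀ j ω, IsLocallyConstant fun v => Φ ω v (fun g => U j (g • v)) := by
    intro j ω
    rw [IsLocallyConstant.iff_eventually_eq]
    intro v
    have h1 : ∀ g ∈ B, ∀ᶠ v' in 𝓝 v, U j (g • v') = U j (g • v) := fun g _ =>
      (𝒮.contAct g).continuousAt.eventually
        ((IsLocallyConstant.iff_eventually_eq _).1 (hU j) (g • v))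
    have h2 : ∀ᶠ v' in 𝓝 v, ∀ g ∈ B, U j (g • v') = U j (g • v) :=
      (Filter.eventually_all_finset B).2 h1
    have h3 := (IsLocallyConstant.iff_eventually_eq _).1 ((hΦ ω).lc (fun g => U j (g • v))) v
    filter_upwards [h2, h3] with v' h4 h5
    rw [(hΦ ω).loc v' (fun g => U j (g • v')) (fun g => U j (g • v)) h4, h5]
  choose P hP hPv using fun j ω => W.exists_part hA 𝒮 _ (hlc j ω)
  choose w hwM hws hwn hw using fun c j ω => hmain c ω j (P j ω) (hP j ω) (hPv j ω)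
  refine ⟨J, hJ, hJne, U, hU, P, hP, fun j ω i v => hPv j ω i v, w,
    fun c j ω => ⟨hwM c j ω, hws c j ω, hwn c j ω⟩, fun c ω => ?_⟩
  exact (Finset.sum_le_sum fun j _ => hw c j ω).trans (hd c ω)

end Vale.Agent.P078.MW
end

section
/-! P078, several operators: one sample of one rule paves all the parts; joint paving in the
`2`-norm of a central state. -/

set_option linter.unusedSectionVars false

namespace Vale.Agent.P078.MW

open Filter Topology Finset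
open Vale.Agent.P078 Vale.Agent.P078.C Vale.Agent.P078.W

universe u

variable {H : Type u} [NormedAddCommGroup H] [InnerProductSpace ℂ H] [CompleteSpace H]
variable {M A : VonNeumannAlgebra H} {ξ : ℕ → H} {E : (H →L[ℂ] H) →ₗ[ℂ] (H →L[ℂ] H)}

private theorem exists_both_small {J Ω : Type} [Fintype J] [Fintype Ω] [Nonempty J] [Nonempty Ω]
    {a b : J → Ω → ℝ} (ha : ∀ j ω, 0 ≤ a j ω) (hb : ∀ j ω, 0 ≤ b j ω) {c : ℝ}
    (h1 : ∀ j, ∑ ω, a j ω ≤ c * Fintype.card Ω) (h2 : ∀ ω, ∑ j, b j ω ≤ c * Fintype.card J) :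
    ∃ j ω, a j ω ≤ 2 * c ∧ b j ω ≤ 2 * c := by
  by_contra hcon
  push Not at hcon
  have h3 : ∀ j ω, 2 * c < a j ω + b j ω := by
    intro j ω
    by_cases h : a j ω ≤ 2 * c
    · have := hcon j ω h
      linarith [ha j ω]
    · rw [not_le] at h
      linarith [hb j ω]
  have h4 : ∑ j : J, ∑ ω : Ω, (2 * c) < ∑ j, ∑ ω, (a j ω + b j ω) :=
    Finset.sum_lt_sum_of_nonempty Finset.univ_nonempty fun j _ =>
      Finset.sum_lt_sum_of_nonempty Finset.univ_nonempty fun ω _ => h3 j ω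
  have h5 : ∑ j, ∑ ω, (a j ω + b j ω) ≤ ∑ j : J, ∑ ω : Ω, (2 * c) := by
    have e1 : ∑ j, ∑ ω, (a j ω + b j ω) = ∑ j, ∑ ω, a j ω + ∑ ω, ∑ j, b j ω := by
      rw [Finset.sum_comm (f := fun ω j => b j ω), ← Finset.sum_add_distrib]
      exact Finset.sum_congr rfl fun j _ => Finset.sum_add_distrib
    have e2 : ∑ j, ∑ ω, a j ω ≤ (Fintype.card J : ℝ) * (c * Fintype.card Ω) := by
      refine (Finset.sum_le_sum fun j _ => h1 j).trans (le_of_eq ?_)
      rw [Finset.sum_const, Finset.card_univ, nsmul_eq_mul]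
    have e3 : ∑ ω, ∑ j, b j ω ≤ (Fintype.card Ω : ℝ) * (c * Fintype.card J) := by
      refine (Finset.sum_le_sum fun ω _ => h2 ω).trans (le_of_eq ?_)
      rw [Finset.sum_const, Finset.card_univ, nsmul_eq_mul]
    have e4 : ∑ j : J, ∑ ω : Ω, (2 * c) =
        (Fintype.card J : ℝ) * ((Fintype.card Ω : ℝ) * (2 * c)) := by
      simp only [Finset.sum_const, Finset.card_univ, nsmul_eq_mul]
    rw [e1, e4]
    linarith
  exact absurd h4 (not_lt.mpr h5)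

/-- `2 q` nonnegative quantities which are small on average over rows and columns are all small
somewhere -/
private theorem exists_all_small {J Ω : Type} [Fintype J] [Fintype Ω] [Nonempty J] [Nonempty Ω]
    {q : ℕ} (hq : 0 < q) {a b : Fin q → J → Ω → ℝ} (ha : ∀ i j ω, 0 ≤ a i j ω)
    (hb : ∀ i j ω, 0 ≤ b i j ω) {c : ℝ}
    (h1 : ∀ i j, ∑ ω, a i j ω ≤ c / q * Fintype.card Ω)
    (h2 : ∀ i ω, ∑ j, b i j ω ≤ c / q * Fintype.card J) :
    ∃ j ω, ∀ i, a i j ω ≤ 2 * c ∧ b i j ω ≤ 2 * c := by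
  have hq0 : (0 : ℝ) < q := by exact_mod_cast hq
  obtain ⟨j, ω, h3, h4⟩ := exists_both_small (a := fun j ω => ∑ i, a i j ω)
    (b := fun j ω => ∑ i, b i j ω) (fun j ω => Finset.sum_nonneg fun i _ => ha i j ω)
    (fun j ω => Finset.sum_nonneg fun i _ => hb i j ω) (c := c)
    (fun j => by
      rw [Finset.sum_comm]
      refine (Finset.sum_le_sum fun i _ => h1 i j).trans (le_of_eq ?_)
      rw [Finset.sum_const, Finset.card_univ, nsmul_eq_mul, Fintype.card_fin]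
      field_simp)
    (fun ω => by
      rw [Finset.sum_comm]
      refine (Finset.sum_le_sum fun i _ => h2 i ω).trans (le_of_eq ?_)
      rw [Finset.sum_const, Finset.card_univ, nsmul_eq_mul, Fintype.card_fin]
      field_simp)
  refine ⟨j, ω, fun i => ⟨?_, ?_⟩⟩
  · exact (Finset.single_le_sum (f := fun i => a i j ω) (fun i _ => ha i j ω)
      (Finset.mem_univ i)).trans h3
  · exact (Finset.single_le_sum (f := fun i => b i j ω) (fun i _ => hb i j ω)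
      (Finset.mem_univ i)).trans h4

/-- all parts of all the operators are paved by one sample of one rule -/
theorem masa_pair_fam (hA : SO.IsMASA A M) (hξ : IsCState M A ξ) (hE : IsTrExp M A ξ E)
    {q : ℕ} (hq : 0 < q) {k : ℕ} (hk : 18 ≤ k + 1) {u s : ℝ}
    (hu : 268 * q < u * Real.sqrt ((k + 1 : ℕ) : ℝ))
    (hs : 2 / Real.sqrt ((k + 1 : ℕ) : ℝ) < s)
    {x : Fin q → (H →L[ℂ] H)} (hx : ∀ i, x i ∈ M) (hxs : ∀ i, IsSelfAdjoint (x i))
    (hx1 : ∀ i, ‖x i‖ ≤ 1) (hEx : ∀ i, E (x i) = 0) {δ : ℝ} (hδ : 0 < δ) :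
    ∃ P : Fin (k + 1) → (H →L[ℂ] H), IsPart A P ∧ ∀ i, ∃ w ∈ M, ‖w‖ ≤ u + 2 * s ∧
      n2 ξ (pinch P (x i) - w) ≤ δ := by
  classical
  have hq0 : (0 : ℝ) < q := by exact_mod_cast hq
  have ht := hξ.tr hA
  -- the slack
  obtain ⟨d, hd, hdu, hdδ⟩ : ∃ d : ℝ, 0 < d ∧
      268 * q * (1 + d) < u * Real.sqrt ((k + 1 : ℕ) : ℝ) ∧ d < δ / 36 := by
    have h1 : 0 < (u * Real.sqrt ((k + 1 : ℕ) : ℝ) - 268 * q) / (268 * q) := by
      apply div_pos _ (by (clear * - hq0; positivity)); linarith only [hu]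
    have h2 : 0 < δ / 36 := by positivity
    refine ⟨min ((u * Real.sqrt ((k + 1 : ℕ) : ℝ) - 268 * q) / (268 * q)) (δ / 36) / 2,
      half_pos (lt_min h1 h2), ?_, ?_⟩
    · have h3 := min_le_left ((u * Real.sqrt ((k + 1 : ℕ) : ℝ) - 268 * q) / (268 * q)) (δ / 36)
      set m := min ((u * Real.sqrt ((k + 1 : ℕ) : ℝ) - 268 * q) / (268 * q)) (δ / 36) with hm
      have h4 : m / 2 < (u * Real.sqrt ((k + 1 : ℕ) : ℝ) - 268 * q) / (268 * q) := by
        linarith only [h3, h1]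
      rw [lt_div_iff₀ (by (clear * - hq0; positivity))] at h4
      linarith only [h4]
    · have h3 := min_le_right ((u * Real.sqrt ((k + 1 : ℕ) : ℝ) - 268 * q) / (268 * q)) (δ / 36)
      have h4 := half_lt_self (lt_min h1 h2)
      linarith only [h4, h3]
  choose x' z hx' hx's hx'n hEx' hzM hzs hz1 hn hzo using fun i =>
    exists_split hA hξ hE (hx i) (hxs i) (hx1 i) (hEx i) hd
  have hx'M : ∀ i, x' i ∈ M := fun i => nspan_le (hx' i)
  -- the mixing parts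
  obtain ⟨y, hy⟩ : ∃ y : Fin q → (H →L[ℂ] H), ∀ i, y i = ((2⁻¹ : ℝ) : ℂ) • (x i - z i) :=
    ⟨_, fun _ => rfl⟩
  have hyM : ∀ i, y i ∈ M := fun i => by
    rw [hy]; exact M.toStarSubalgebra.smul_mem (sub_mem (hx i) (hzM i)) _
  have hys : ∀ i, IsSelfAdjoint (y i) := fun i => by
    rw [hy, IsSelfAdjoint, star_smul, ((hxs i).sub (hzs i)).star_eq]
    simp
  have hyn : ∀ i, ‖y i‖ ≤ 1 := fun i => by
    have h2 : ‖x i - z i‖ ≤ 2 := by
      refine (norm_sub_le _ _).trans ?_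
      linarith only [hz1 i, hx1 i]
    rw [hy, norm_smul, Complex.norm_real, Real.norm_of_nonneg (by norm_num)]
    linarith only [h2]
  have hyo : ∀ i, ∀ g h : nrm M A, E (star (op g) * y i * op h) = 0 := by
    intro i g h
    rw [hy, mul_smul_comm, smul_mul_assoc, map_smul, hzo i g h, smul_zero]
  -- the rules and the samples
  obtain ⟨X, _, _, _, _, _, ⟨𝒮⟩⟩ := exists_spec hA (nontrivial_of_trace ht)
  obtain ⟨Ω, _, _, B, Φ, hΦ, hrule⟩ := two_sided_fam hA hξ hE 𝒮 ⟨0, hq⟩ hx' hx's hEx' (a := 1 + d)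
    (by linarith only [hd]) hx'n (r := k + 1) hk hdu (δ := δ / 72 / q) (by positivity)
  obtain ⟨J, _, _, U, hU, P, hP, hPv, w₂, hw₂, hn₂⟩ := paint_fam_avg hA hξ hE hyM hys hyn hyo 𝒮
    hΦ hs (δ := δ / 72 / q) (by positivity)
  have hrule' := fun i j => hrule (U j) (hU j) (P j) (hP j) (hPv j) i
  choose w₁ hw₁ hn₁ using hrule'
  obtain ⟨j, ω, h12⟩ := exists_all_small hq
    (a := fun i j ω => n2 ξ (pinch (P j ω) (x' i) - w₁ i j ω))
    (b := fun i j ω => n2 ξ (pinch (P j ω) (y i) - w₂ i j ω))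
    (fun i j ω => n2_nonneg _ _) (fun i j ω => n2_nonneg _ _) hn₁ hn₂
  refine ⟨P j ω, hP j ω, fun i => ⟨w₁ i j ω + ((2 : ℝ) : ℂ) • w₂ i j ω,
    add_mem (hw₁ i j ω).1 (M.toStarSubalgebra.smul_mem (hw₂ i j ω).1 _), ?_, ?_⟩⟩
  · refine (norm_add_le _ _).trans ?_
    have h3 := (hw₁ i j ω).2.2
    have h4 : ‖((2 : ℝ) : ℂ) • w₂ i j ω‖ ≤ 2 * s := by
      rw [norm_smul, Complex.norm_real, Real.norm_of_nonneg (by norm_num)]
      linarith only [(hw₂ i j ω).2.2]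
    linarith only [h4, h3]
  · obtain ⟨h1, h2⟩ := h12 i
    have hxz : x i = (z i - x' i) + x' i + ((2 : ℝ) : ℂ) • y i := by
      rw [hy, smul_smul, ← Complex.ofReal_mul, mul_inv_cancel₀ (by norm_num), Complex.ofReal_one,
        one_smul]
      abel
    have e1 : pinch (P j ω) (x i) - (w₁ i j ω + ((2 : ℝ) : ℂ) • w₂ i j ω) =
        (pinch (P j ω) (z i - x' i) + (pinch (P j ω) (x' i) - w₁ i j ω)) +
          ((2 : ℝ) : ℂ) • (pinch (P j ω) (y i) - w₂ i j ω) := by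
      conv_lhs => rw [hxz]
      rw [G.pinch_add, G.pinch_add, G.pinch_smul, smul_sub]
      abel
    have e2 : n2 ξ (pinch (P j ω) (z i - x' i)) ≤ δ / 36 := by
      refine (hξ.n2_pinch_le hA (hP j ω) (sub_mem (hzM i) (hx'M i))).trans ?_
      rw [← n2_neg, neg_sub]
      exact (hn i).trans hdδ.le
    have hn1' : n2 ξ (pinch (P j ω) (x' i) - w₁ i j ω) ≤ δ / 36 := by
      refine h1.trans (le_of_eq ?_); ring
    have hn2' : n2 ξ (pinch (P j ω) (y i) - w₂ i j ω) ≤ δ / 36 := by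
      refine h2.trans (le_of_eq ?_); ring
    have e4 : Real.sqrt (n2 ξ (pinch (P j ω) (x i) - (w₁ i j ω + ((2 : ℝ) : ℂ) • w₂ i j ω))) ≤
        Real.sqrt δ := by
      rw [e1]
      refine (sqrt_n2_add ht _ _).trans ?_
      have e5 := sqrt_n2_add ht (pinch (P j ω) (z i - x' i)) (pinch (P j ω) (x' i) - w₁ i j ω)
      rw [G.sqrt_n2_smul ht 2 (by norm_num)]
      have e6 := Real.sqrt_le_sqrt e2
      have e7 := Real.sqrt_le_sqrt hn1'
      have e8 := Real.sqrt_le_sqrt hn2'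
      have e9 : Real.sqrt (δ / 36) = Real.sqrt δ / 6 := by
        rw [Real.sqrt_div' _ (by norm_num), show (36 : ℝ) = 6 ^ 2 by norm_num,
          Real.sqrt_sq (by norm_num)]
      have e10 := Real.sqrt_nonneg δ
      linarith only [e10, e9, e8, e7, e6, e5]
    exact (Real.sqrt_le_sqrt_iff hδ.le).1 e4

/-- joint paving in the `2`-norm of a central state -/
theorem masa_two_norm_fam (hA : SO.IsMASA A M) (hξ : IsCState M A ξ) (hE : IsTrExp M A ξ E)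
    {q : ℕ} (hq : 0 < q)
    {ε : ℝ} (hε : 0 < ε) (hε1 : ε < 1) {x : Fin q → (H →L[ℂ] H)} (hx : ∀ i, x i ∈ M)
    (hxs : ∀ i, IsSelfAdjoint (x i))
    (hx1 : ∀ i, ‖x i‖ ≤ 1) (hEx : ∀ i, E (x i) = 0) {δ : ℝ} (hδ : 0 < δ) :
    ∃ (r : ℕ) (P : Fin r → (H →L[ℂ] H)), (r : ℝ) ≤ 75000 * q ^ 2 / ε ^ 2 ∧
        IsPart A P ∧ ∀ i, ∃ w ∈ M, ‖w‖ ≤ ε ∧ n2 ξ (pinch P (x i) - w) ≤ δ := by
  have hq1 : (1 : ℝ) ≤ q := by exact_mod_cast hq
  have hq0 : (0 : ℝ) < q := by linarith only [hq1]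
  obtain ⟨θ, hθ⟩ : ∃ θ : ℝ, θ = ε / q := ⟨_, rfl⟩
  have hθ0 : 0 < θ := by rw [hθ]; positivity
  have hθε : θ ≤ ε := by
    rw [hθ, div_le_iff₀ hq0]
    exact le_mul_of_one_le_right hε.le hq1
  have hθ1 : θ < 1 := lt_of_le_of_lt hθε hε1
  have hqθ : q * θ = ε := by rw [hθ]; field_simp
  have hq2 : 75000 * (q : ℝ) ^ 2 / ε ^ 2 = 75000 / θ ^ 2 := by
    rw [← hqθ]; field_simp
  rw [hq2]
  obtain ⟨k, hk, hk'⟩ : ∃ k : ℕ, 74500 / θ ^ 2 ≤ ((k + 1 : ℕ) : ℝ) ∧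
      ((k + 1 : ℕ) : ℝ) ≤ 74500 / θ ^ 2 + 1 := by
    refine ⟨⌊74500 / θ ^ 2⌋₊, ?_, ?_⟩
    · push_cast
      exact (Nat.lt_floor_add_one _).le
    · push_cast
      have := Nat.floor_le (a := 74500 / θ ^ 2) (by positivity)
      linarith
  have hs : 272.94 / θ ≤ Real.sqrt ((k + 1 : ℕ) : ℝ) := by
    apply Real.le_sqrt_of_sq_le
    calc (272.94 / θ) ^ 2 = 74496.2436 / θ ^ 2 := by ring
      _ ≤ 74500 / θ ^ 2 := by gcongr; norm_num
      _ ≤ _ := hk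
  have h0 : 0 < Real.sqrt ((k + 1 : ℕ) : ℝ) := lt_of_lt_of_le (by positivity) hs
  have h1θ : (1 : ℝ) ≤ 1 / θ ^ 2 := by
    rw [le_div_iff₀ (by positivity), one_mul]
    exact pow_le_one₀ hθ0.le hθ1.le
  have hk2 : 18 ≤ k + 1 := by
    have h1 : (18 : ℝ) ≤ ((k + 1 : ℕ) : ℝ) := by
      refine le_trans ?_ hk
      have e : (74500 : ℝ) / θ ^ 2 = 74500 * (1 / θ ^ 2) := by ring
      linarith only [e, h1θ]
    exact_mod_cast h1
  have hsq := hs
  rw [div_le_iff₀ hθ0] at hsq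
  have hqs : q * (Real.sqrt ((k + 1 : ℕ) : ℝ) * θ) = ε * Real.sqrt ((k + 1 : ℕ) : ℝ) := by
    rw [← hqθ]; ring
  have hq3 : 272.94 * (q : ℝ) ≤ ε * Real.sqrt ((k + 1 : ℕ) : ℝ) := by
    rw [← hqs, mul_comm]
    exact mul_le_mul_of_nonneg_left hsq hq0.le
  have hu : 268 * q < 0.982 * ε * Real.sqrt ((k + 1 : ℕ) : ℝ) := by linarith only [hq3, hq0]
  have hs' : 2 / Real.sqrt ((k + 1 : ℕ) : ℝ) < 0.0074 * ε := by
    rw [div_lt_iff₀ h0]
    linarith only [hq3, hq1]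
  obtain ⟨P, hP, hw⟩ := masa_pair_fam hA hξ hE hq hk2 hu hs' hx hxs hx1 hEx hδ
  refine ⟨k + 1, P, ?_, hP, fun i => ?_⟩
  · refine hk'.trans ?_
    have e : (75000 : ℝ) / θ ^ 2 = 74500 / θ ^ 2 + 500 * (1 / θ ^ 2) := by ring
    linarith only [e, h1θ]
  · obtain ⟨w, hwM, hwn, hn⟩ := hw i
    exact ⟨w, hwM, hwn.trans (by linarith only [hε]), hn⟩

end Vale.Agent.P078.MW
end

section
/-! Joint paving for central vector states. -/

namespace Vale.Agent.P078.WG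

open Vale.Agent.P078

universe u

/-- joint paving for central vector states -/
theorem cpaveJ {k : ℕ} (hk : 0 < k) : CPaveJ.{u} k (75000 * k ^ 2) := by
  intro K _ _ _ N B ξ E hB hξ hE ε hε hε1 x hx δ hδ
  obtain ⟨r, P, h1, h2, h3⟩ := MW.masa_two_norm_fam hB hξ hE hk hε hε1 (fun j => (hx j).1)
    (fun j => (hx j).2.1) (fun j => (hx j).2.2.1) (fun j => (hx j).2.2.2) hδ
  choose w hw hwn hwd using h3
  exact ⟨r, P, h1, h2, w, fun j => ⟨hw j, hwn j, hwd j⟩⟩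

end Vale.Agent.P078.WG
end
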