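import Vale.Agent.P078.H291.JG
import Vale.Agent.P078.H291.JW2
import Vale.Agent.P078.H598.Fin

/-! Joint so-paving for every maximal abelian subalgebra of every von Neumann algebra. -/

namespace Vale.Agent.P078.WG

open Vale.Agent.P078

universe u

variable {H : Type u} [NormedAddCommGroup H] [InnerProductSpace ℂ H] [CompleteSpace H]
variable {M A : VonNeumannAlgebra H}

/-- the joint so-paving bound for all maximal abelian subalgebras of all von Neumann algebras -/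
theorem joint_upper (hA : SO.IsMASA A M) {k : ℕ} (hk : 1 ≤ k) {ε : ℝ} (hε : 0 < ε)
    (hε1 : ε < 1) :
    SO.jointPavingNumber M A k ε ≤ (⌈1200002 * (k : ℝ) ^ 2 / ε ^ 2⌉₊ : ℕ∞) :=
  jointPavingNumber_le_ceil hA hk hε hε1 fun _ hR hR1 _ _ hz hzp hE _ hx hxs =>
    jsopavable (cpaveJ (by omega)) hA hz hzp hE hε hε1 hR hR1 hx hxs

/-- for one operator, joint so-paving is so-paving -/
theorem joint_one (ε : ℝ) : SO.jointPavingNumber M A 1 ε = SO.pavingNumber M A 1 ε := by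
  refine le_antisymm (le_iInf₂ fun r hr => ?_) (le_jointPavingNumber le_rfl)
  refine iInf₂_le (f := fun (r : ℕ) (_ : r ∈ {r : ℕ | 1 ≤ r ∧ ∀ x : Fin 1 → (H →L[ℂ] H),
    (∀ j, x j ∈ M ∧ IsSelfAdjoint (x j)) → SO.JointlySOPavable M A x ε r}) => (r : ℕ∞)) _
    ⟨hr.1, fun x hx => ?_⟩
  intro F δ hδ
  obtain ⟨p, a, q, hp, ho, hs, haA, -, has, han, hqM, -, hqp, hqF, hq⟩ :=
    hr.2 (x 0) (hx 0).1 (hx 0).2 (by rw [one_mul, mul_one]) F (fun _ _ => rfl) δ hδ
  refine ⟨p, fun _ => a, q, hp, ho, hs, fun j => ?_, hqM, hqp, hqF, fun j => ?_⟩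
  · rw [Subsingleton.elim j 0]
    exact ⟨haA, has, han⟩
  · rw [Subsingleton.elim j 0]
    exact hq

end Vale.Agent.P078.WG
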