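import Vale.Agent.P078.Bdl.T2

set_option linter.all false

section
/-!
P078, Cartan inclusions of arbitrary type: finite range kernels, windows, levels, parameters.
-/

namespace Vale.Agent.P078.MT

open Vale.Agent.P078.T

open Finset Polynomial
open Vale.Agent.P078.C (Herm ZD FB qf yc Q)

/-- parameters -/
structure Par where
  /-- base level: `2 / 3 * ζ` is above the roots of the undecided system -/
  ζ : ℝ
  /-- margin -/
  κ : ℝ
  /-- strength of the level profile -/
  c : ℝ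
  /-- bound of the differences of self energies -/
  Λ : ℝ
  /-- bound of the derivative of self energies -/
  M : ℝ
  /-- threshold of the level profile -/
  fs : ℝ
  /-- decay exponent -/
  L : ℝ
  /-- a quarter of the radius of the windows -/
  R : ℕ
  R0 : ℕ
  /-- exponent of the potential -/
  n : ℕ
  /-- number of time steps -/
  T : ℕ
  /-- scales -/
  Θ : Finset ℝ
  /-- factor of the thresholds for the self energies -/
  Γ : ℝ

namespace Par

variable (P : Par)

/-- radius of the windows -/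
def N : ℕ := 4 * P.R

/-- base level at time `t` -/
noncomputable def zt (t : ℕ) : ℝ := P.ζ + P.ζ * (t / P.T)

end Par

variable {α : Type*} [DecidableEq α] {r : ℕ}

/-- The inequalities between the parameters used in the deterministic part. -/
structure Par.Good (P : Par) (E : Env α) : Prop where
  ζ_pos : 0 < P.ζ
  Γ_ge : 1 ≤ P.Γ
  κ_pos : 0 < P.κ
  c_pos : 1 ≤ P.c
  D_ge : 1 ≤ E.D
  κ_le : 100 * P.κ ≤ P.ζ
  κ_le' : P.κ ≤ 1 / 2
  rad : 2 * P.N ≤ E.rad
  R_pos : 10 ≤ P.R
  hR : 20 * P.c ^ 2 ≤ P.κ * P.R ^ 2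
  hc : 800 * E.D ≤ P.c ^ 2
  R0_pos : 1 ≤ P.R0
  R0_le : 10 * P.R0 ≤ P.R
  R0_c : 2 * (P.R0 : ℝ) ≤ P.c
  L_ge : 8 ≤ P.L
  hL : 250 * (E.D + 1) * (96 * (P.Γ * P.ζ)) ≤ P.κ ^ 2 * 2 ^ P.L
  hLR : P.L * Real.sqrt E.D ≤ P.R0
  hLc : 2 * (P.L * Real.sqrt E.D) ≤ P.c
  fs_pos : 0 < P.fs
  fs_le : P.fs ≤ 1
  κ_fs : 5 * P.κ < P.fs
  fs_ζ : 116 * P.fs ≤ P.ζ
  Λ_ge : 1 ≤ P.Λ
  hM : 46400 * P.Λ + 38400 * (P.Γ * P.ζ) / P.fs + 1 ≤ P.M
  hn : P.n * P.κ * (1 + P.M) ≤ 13 * P.ζ
  Θ_ge : ∀ θ ∈ P.Θ, 29 * P.κ ≤ θ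
  Θ_le : ∀ θ ∈ P.Θ, 2 * θ ≤ P.ζ
  Θ_mem : ∀ f, 0 ≤ f → f < P.fs → ∃ θ ∈ P.Θ, 29 * max f P.κ ≤ θ ∧ θ ≤ 58 * max f P.κ
  T_pos : 1 ≤ P.T
  T_ge : 10 * P.ζ ≤ P.κ * P.T

/-- level profile of the window of centre `x` -/
noncomputable def fx (P : Par) (E : Env α) (x v : α) : ℝ :=
  (P.c / ((P.N : ℝ) + 1 - (E.d x v : ℝ))) ^ 2

/-- the window of centre `x` -/
noncomputable def win (P : Par) (E : Env α) (S : α → St r) (x : α) : Finset α :=
  (E.ball P.N x).filter fun v => S v ≠ some none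

/-- the levels in the window of centre `x`, at base level `z` -/
noncomputable def lv (P : Par) (E : Env α) (z : ℝ) (S : α → St r) (x v : α) : ℝ :=
  z + fx P E x v + if S v = none then 0 else 60 * (P.Γ * P.ζ) + 6 * fx P E x v

/-- self energy, for the colour `a`, of the undecided point `o` in the window of centre `x`, the
levels being shifted by `b` -/
noncomputable def sw (P : Par) (E : Env α) (z : ℝ) (S : α → St r) (x o : α) (b : ℝ) (a : Fin r) :
    ℝ :=
  sg E.y (Function.update (cs S) o (some a)) o (fun v => lv P E z S x v + b)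
    ((win P E S x).erase o)

/-- the window of centre `x` is safe with margin `b` -/
def Alive (P : Par) (E : Env α) (z : ℝ) (S : α → St r) (b : ℝ) (x : α) : Prop :=
  Safe E.y (cs S) (fun v => lv P E z S x v - b) (win P E S x)

/-- the condition for deciding `o`: all windows containing `o` have the margin `b`, the self
energies of `o` in its own window vary by at most `Λ' θ`. -/
def Keep (P : Par) (E : Env α) (b Λ' z : ℝ) (S : α → St r) (o : α) : Prop :=
  (∀ x ∈ E.ball P.N o, Alive P E z S b x) ∧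
    ∀ a : Fin r, ∀ θ ∈ P.Θ,
      sw P E z S o o (-(5 / 2 * P.κ)) a - sw P E z S o o θ a ≤ Λ' * θ

end Vale.Agent.P078.MT
end

section
/-! T3-B3: transfer of lower bounds. -/

namespace Vale.Agent.P078.MT

open Vale.Agent.P078.T

open Finset Polynomial
open Vale.Agent.P078.C (Herm ZD FB qf yc Q)

variable {α : Type*} [DecidableEq α] {r : ℕ}
variable {P : Par} {E : Env α} {S : α → St r} {z : ℝ} {x o : α}

/-- clamp to `[0, 1]` -/
private noncomputable def td_cl (t : ℝ) : ℝ := max 0 (min 1 t)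

private theorem td_cl_lip (s t : ℝ) : |td_cl s - td_cl t| ≤ |s - t| := by
  have h1 := neg_abs_le (s - t)
  have h2 := le_abs_self (s - t)
  have h3 := abs_nonneg (s - t)
  rw [abs_le]
  unfold td_cl
  constructor <;> (simp only [max_def, min_def]; split_ifs <;> linarith)

/-- chord and arc -/
private theorem td_chord (a b : ℝ) :
    (Real.cos a - Real.cos b) ^ 2 + (Real.sin a - Real.sin b) ^ 2 ≤ (a - b) ^ 2 := by
  have h1 := Real.one_sub_sq_div_two_le_cos (x := a - b)
  have h2 := Real.cos_sub a b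
  have h3 := Real.sin_sq_add_cos_sq a
  have h4 := Real.sin_sq_add_cos_sq b
  linarith

/-- the angle at the distance `m` -/
private noncomputable def td_ang (k m : ℕ) : ℝ := Real.pi / 2 * td_cl (((m : ℝ) - k) / k)

private theorem td_ang_zero {k m : ℕ} (h : m ≤ k) : td_ang k m = 0 := by
  unfold td_ang td_cl
  have h1 : ((m : ℝ) - k) / k ≤ 0 := by
    apply div_nonpos_of_nonpos_of_nonneg
    · have : (m : ℝ) ≤ k := by exact_mod_cast h
      linarith only [this]
    · positivity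
  rw [min_eq_right (by linarith only [h1]), max_eq_left h1, mul_zero]

private theorem td_ang_top {k m : ℕ} (hk : 0 < k) (h : 2 * k ≤ m) : td_ang k m = Real.pi / 2 := by
  unfold td_ang td_cl
  have hk' : (0 : ℝ) < k := by exact_mod_cast hk
  have h1 : 1 ≤ ((m : ℝ) - k) / k := by
    rw [le_div_iff₀ hk']
    have : (2 : ℝ) * k ≤ m := by exact_mod_cast h
    linarith only [this]
  rw [min_eq_left h1, max_eq_right zero_le_one, mul_one]

private theorem td_ang_lip {k : ℕ} (hk : 0 < k) {m n : ℕ} (h1 : m ≤ n + 1) (h2 : n ≤ m + 1) :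
    (td_ang k m - td_ang k n) ^ 2 ≤ (Real.pi / (2 * k)) ^ 2 := by
  have hk' : (0 : ℝ) < k := by exact_mod_cast hk
  rw [← sq_abs (td_ang k m - td_ang k n)]
  refine pow_le_pow_left₀ (abs_nonneg _) ?_ 2
  unfold td_ang
  rw [← mul_sub, abs_mul, abs_of_nonneg (by positivity : (0 : ℝ) ≤ Real.pi / 2)]
  have h3 := td_cl_lip (((m : ℝ) - k) / k) (((n : ℝ) - k) / k)
  have h4 : |((m : ℝ) - k) / k - ((n : ℝ) - k) / k| ≤ 1 / k := by
    have e : ((m : ℝ) - k) / k - ((n : ℝ) - k) / k = ((m : ℝ) - n) / k := by ring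
    rw [e, abs_div, abs_of_pos hk']
    refine div_le_div_of_nonneg_right ?_ hk'.le
    have a1 : (m : ℝ) ≤ n + 1 := by exact_mod_cast h1
    have a2 : (n : ℝ) ≤ m + 1 := by exact_mod_cast h2
    rw [abs_le]
    constructor <;> linarith only [a1, a2]
  calc Real.pi / 2 * |td_cl (((m : ℝ) - k) / k) - td_cl (((n : ℝ) - k) / k)|
      ≤ Real.pi / 2 * (1 / k) := mul_le_mul_of_nonneg_left (h3.trans h4) (by positivity)
    _ = Real.pi / (2 * k) := by field_simp

private theorem td_fx_nonneg (x v : α) : 0 ≤ fx P E x v := sq_nonneg _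

private theorem td_real {c1 c2 lx lo f κ e θ : ℝ} (hs : c2 + c1 = 1) (h0 : 0 ≤ c1) (h2 : 0 ≤ c2)
    (hκ : 0 < κ) (hf : 0 ≤ f) (he : e ≤ f / 10) (hθ : 28 * f + f / 10 + 9 / 10 * κ ≤ θ)
    (h : c1 * (lx - lo) ≤ c1 * (28 * f)) :
    c1 * (lx + -κ) + c2 * lo + e + 9 / 10 * κ ≤ lo + θ := by
  have h3 : c1 * (28 * f) ≤ 1 * (28 * f) :=
    mul_le_mul_of_nonneg_right (by linarith only [hs, h2]) (by positivity)
  have h4 : 0 ≤ c1 * κ := by positivity
  have h5 : c2 = 1 - c1 := by linarith only [hs]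
  have h6 : c1 * (lx + -κ) + c2 * lo = lo + c1 * (lx - lo) - c1 * κ := by rw [h5]; ring
  rw [h6]
  linarith

/-- transfer of lower bounds -/
theorem trans_down (hr : 0 < r) (hP : P.Good E) (hox : o ∈ E.ball P.N x) (hSo : S o = none)
    (hx : Alive P E z S (4 * P.κ) x) (ho : Alive P E z S (4 * P.κ) o) (a : Fin r)
    (hf : fx P E x o < P.fs) {θ : ℝ} (hθ : 29 * max (fx P E x o) P.κ ≤ θ) :
    sw P E z S o o θ a ≤ sw P E z S x o (-P.κ) a := by
  have hκ := hP.κ_pos
  have hrad : P.N ≤ E.rad := by have := hP.rad; omega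
  have hdo : E.d x o ≤ P.N := (E.mem_ball _ hrad x o).1 hox
  obtain ⟨ρ, hρ⟩ : ∃ ρ : ℕ, ρ = P.N + 1 - E.d x o := ⟨_, rfl⟩
  have hρN : ρ + E.d x o = P.N + 1 := by omega
  have hρ1 : 1 ≤ ρ := by omega
  have hρR : ((P.N : ℝ) + 1 - (E.d x o : ℝ)) = ρ := by
    have : (ρ : ℝ) + (E.d x o : ℝ) = (P.N : ℝ) + 1 := by exact_mod_cast hρN
    linarith only [this]
  have hρpos : (0 : ℝ) < ρ := by exact_mod_cast hρ1
  set f : ℝ := fx P E x o with hfdef
  have hfe : f = (P.c / ρ) ^ 2 := by rw [hfdef, fx, hρR]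
  have hc1 := hP.c_pos
  have hD1 := hP.D_ge
  have hc := hP.hc
  have hf1 : f < 1 := hf.trans_le hP.fs_le
  -- `ρ` is large
  have hcρ : P.c < ρ := by
    rw [hfe, div_pow, div_lt_one (by (clear * - hρ1; positivity))] at hf1
    exact lt_of_pow_lt_pow_left₀ 2 hρpos.le hf1
  have hρ28 : 28 < ρ := by
    have h1 : (28 : ℝ) < ρ := by nlinarith only [hD1, hc, hcρ, hc1]
    exact_mod_cast h1
  set k : ℕ := ρ / 4 with hk
  have hk7 : 7 ≤ k := by omega
  have hk0 : 0 < k := by omega
  have hk4 : ρ ≤ 4 * k + 3 := by omega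
  have hk4' : 4 * k ≤ ρ := by omega
  have hkR : (0 : ℝ) < k := by exact_mod_cast hk0
  -- sets and cutoffs
  set W : Finset α := (win P E S o).erase o with hW
  set N : Finset α := W.filter (fun v => E.d o v < 2 * k) with hN
  set χ₁ : α → ℝ := fun v => Real.cos (td_ang k (E.d o v)) with hχ1
  set χ₂ : α → ℝ := fun v => Real.sin (td_ang k (E.d o v)) with hχ2
  set s' : α → Option (Fin r) := Function.update (cs S) o (some a) with hs'
  have hoW : o ∉ W := by simp [hW]
  have hNW : N ⊆ W := Finset.filter_subset _ _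
  have hNx : N ⊆ (win P E S x).erase o := by
    intro v hv
    rw [hN, Finset.mem_filter, hW, Finset.mem_erase, win, Finset.mem_filter] at hv
    obtain ⟨⟨h1, -, h2⟩, h3⟩ := hv
    rw [Finset.mem_erase, win, Finset.mem_filter]
    refine ⟨h1, (E.mem_ball _ hrad x v).2 ?_, h2⟩
    have := E.d_tri x o v
    omega
  -- safety
  have hsW : ∀ V : Finset α, o ∉ V → ∀ i ∈ V, cs S i = s' i := by
    intro V hV i hi
    rw [hs', Function.update_of_ne]
    rintro rfl
    exact hV hi
  have hSx : Safe E.y s' (fun v => lv P E z S x v + -P.κ) ((win P E S x).erase o) := by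
    refine Safe.mono hr E.herm ((hx.subset (Finset.erase_subset _ _)).congr
      (hsW _ (by simp)) (fun _ _ => rfl)) fun i _ => ?_
    linarith only [hκ]
  have hSN : Safe E.y s' (fun v => lv P E z S x v + -P.κ) N := hSx.subset hNx
  have hSW : Safe E.y s' (fun v => lv P E z S o v) W := by
    refine Safe.mono hr E.herm ((ho.subset (Finset.erase_subset _ _)).congr
      (hsW _ (by simp)) (fun _ _ => rfl)) fun i _ => ?_
    linarith only [hκ]
  -- the error of the localization
  set e : ℝ := 1 / 2 * (E.D * (Real.pi / (2 * k)) ^ 2) with he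
  have hef : e ≤ f / 10 := by
    have hpi : Real.pi ^ 2 ≤ 10 := by nlinarith only [Real.pi_lt_d2, Real.pi_pos]
    have hρk : (ρ : ℝ) ≤ 5 * k := by
      have : ρ ≤ 5 * k := by omega
      exact_mod_cast this
    have h1 : E.D / (k : ℝ) ^ 2 ≤ P.c ^ 2 / 800 * (25 / ρ ^ 2) := by
      have h2 : E.D ≤ P.c ^ 2 / 800 := by linarith only [hc]
      have h3 : 1 / (k : ℝ) ^ 2 ≤ 25 / ρ ^ 2 := by
        rw [div_le_div_iff₀ (by (clear * - hk7; positivity)) (by positivity)]
        nlinarith only [hρk]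
      calc E.D / (k : ℝ) ^ 2 = E.D * (1 / (k : ℝ) ^ 2) := by ring
        _ ≤ P.c ^ 2 / 800 * (25 / ρ ^ 2) := by
            apply mul_le_mul h2 h3 (by (clear * - hk7; positivity)) (by positivity)
    have h4 : e = 1 / 8 * Real.pi ^ 2 * (E.D / (k : ℝ) ^ 2) := by
      rw [he]; field_simp; ring
    have h5 : f = P.c ^ 2 / ρ ^ 2 := by rw [hfe, div_pow]
    rw [h4, h5]
    have h6 : 0 ≤ E.D / (k : ℝ) ^ 2 := by (clear * - hD1 hk7; positivity)
    calc 1 / 8 * Real.pi ^ 2 * (E.D / (k : ℝ) ^ 2) ≤ 1 / 8 * 10 * (E.D / (k : ℝ) ^ 2) := by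
          (clear * - hpi hD1 hk7; gcongr)
      _ ≤ 1 / 8 * 10 * (P.c ^ 2 / 800 * (25 / ρ ^ 2)) := by (clear * - h1; gcongr)
      _ ≤ P.c ^ 2 / ρ ^ 2 / 10 := by
          have h7 : 0 ≤ P.c ^ 2 / (ρ : ℝ) ^ 2 := by (clear * - hc1 hρ1; positivity)
          have h8 : 1 / 8 * 10 * (P.c ^ 2 / 800 * (25 / (ρ : ℝ) ^ 2)) =
              (1 / 8 * 10 / 800 * 25) * (P.c ^ 2 / (ρ : ℝ) ^ 2) := by ring
          rw [h8]
          nlinarith only [hfe, h5]
  have hmax1 : f ≤ max f P.κ := le_max_left _ _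
  have hmax2 : P.κ ≤ max f P.κ := le_max_right _ _
  have hf0 : 0 ≤ f := td_fx_nonneg x o
  have hlv : ∀ v, Real.cos (td_ang k (E.d o v)) ^ 2 * (lv P E z S x v - lv P E z S o v) ≤
      Real.cos (td_ang k (E.d o v)) ^ 2 * (28 * f) := by
    intro v
    by_cases hvN : E.d o v < 2 * k
    · refine mul_le_mul_of_nonneg_left ?_ (sq_nonneg _)
      have hdv : E.d x v ≤ E.d x o + E.d o v := E.d_tri x o v
      have hdN : 2 * E.d x v + ρ ≤ 2 * (P.N + 1) := by omega
      have hden : (ρ : ℝ) / 2 ≤ (P.N : ℝ) + 1 - (E.d x v : ℝ) := by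
        have : 2 * (E.d x v : ℝ) + ρ ≤ 2 * ((P.N : ℝ) + 1) := by exact_mod_cast hdN
        linarith only [this]
      have hfv : fx P E x v ≤ 4 * f := by
        rw [hfe, fx]
        have h1 : P.c / ((P.N : ℝ) + 1 - (E.d x v : ℝ)) ≤ P.c / (ρ / 2) :=
          div_le_div_of_nonneg_left (by linarith only [hc1]) (by positivity) hden
        have h2 : 0 ≤ P.c / ((P.N : ℝ) + 1 - (E.d x v : ℝ)) :=
          div_nonneg (by linarith only [hc1]) (by linarith only [hcρ, hden])
        calc (P.c / ((P.N : ℝ) + 1 - (E.d x v : ℝ))) ^ 2 ≤ (P.c / (ρ / 2)) ^ 2 :=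
              pow_le_pow_left₀ h2 h1 2
          _ = 4 * (P.c / ρ) ^ 2 := by field_simp; ring
      have hfo := td_fx_nonneg (P := P) (E := E) o v
      have hfxv := td_fx_nonneg (P := P) (E := E) x v
      unfold lv
      split_ifs
      · linarith only [hf0, hfv, hfo]
      · linarith only [hfv, hfo]
    · rw [td_ang_top hk0 (not_lt.1 hvN), Real.cos_pi_div_two]
      simp
  -- localization
  have key := ims (y := E.y) (s := s') (l := fun v => lv P E z S o v + θ)
    (l₁ := fun v => lv P E z S x v + -P.κ) (l₂ := fun v => lv P E z S o v) (W := W) (N := N)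
    (o := o) hr E.herm E.zd hoW hNW (χ₁ := χ₁) (χ₂ := χ₂)
    (fun v => by
      simp only [hχ1, hχ2]
      linarith only [Real.sin_sq_add_cos_sq (td_ang k (E.d o v))])
    (fun v hv hne => by
      rw [hN, Finset.mem_filter]
      refine ⟨hv, ?_⟩
      by_contra hcon
      apply hne
      simp only [hχ1]
      rw [td_ang_top hk0 (not_lt.1 hcon), Real.cos_pi_div_two])
    (by
      simp only [hχ1]
      rw [E.d_self, td_ang_zero (Nat.zero_le _), Real.cos_zero])
    (fun v _ hne => by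
      simp only [hχ1]
      rw [td_ang_zero ((E.edge o v hne).trans (by omega)), Real.cos_zero])
    (e := fun _ => e)
    (fun v _ => by
      rw [he]
      refine mul_le_mul_of_nonneg_left ?_ (by norm_num)
      calc ∑ w ∈ W, ‖E.y v w‖ * ((χ₁ v - χ₁ w) ^ 2 + (χ₂ v - χ₂ w) ^ 2)
          ≤ ∑ w ∈ W, ‖E.y v w‖ * (Real.pi / (2 * k)) ^ 2 := by
            refine Finset.sum_le_sum fun w _ => ?_
            by_cases h0 : E.y v w = 0
            · rw [h0, norm_zero, zero_mul, zero_mul]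
            · refine mul_le_mul_of_nonneg_left ?_ (norm_nonneg _)
              have h1 := E.edge v w h0
              have h2 := E.d_tri o v w
              have h3 := E.d_tri o w v
              have h4 := E.d_symm v w
              exact (td_chord _ _).trans (td_ang_lip hk0 (by omega) (by omega))
        _ = (∑ w ∈ W, ‖E.y v w‖) * (Real.pi / (2 * k)) ^ 2 := by rw [Finset.sum_mul]
        _ ≤ E.D * (Real.pi / (2 * k)) ^ 2 :=
            mul_le_mul_of_nonneg_right (E.row v W) (by (clear * - hk7; positivity)))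
    (η := 9 / 10 * P.κ) (by positivity)
    (fun v hv => by
      refine td_real (Real.sin_sq_add_cos_sq (td_ang k (E.d o v))) (sq_nonneg _) (sq_nonneg _)
        hκ hf0 hef (by linarith only [hθ, hmax1, hmax2]) ?_
      exact hlv v)
    hSN hSW
  have h2 := sg_mono_set (y := E.y) (s := s') (l := fun v => lv P E z S x v + -P.κ) (o := o)
    hr E.herm hNx (by simp) hSx
  exact key.2.trans h2

end Vale.Agent.P078.MT
end

section
/-! T3-B2: transfer of upper bounds from the own window of `o` to the other windows. -/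

namespace Vale.Agent.P078.MT

open Vale.Agent.P078.T

open Finset Polynomial
open Vale.Agent.P078.C (Herm ZD FB qf yc Q)

variable {α : Type*} [DecidableEq α] {r : ℕ}
variable {P : Par} {E : Env α} {S : α → St r} {z : ℝ} {x o : α}

theorem fx_nonneg : 0 ≤ fx P E x o := sq_nonneg _

/-- the angle of the cutoff around `o` -/
private noncomputable def ang (R ρ : ℝ) : ℝ := Real.pi / 2 * max 0 (min 1 ((ρ - R) / R))

private theorem ang_zero {R ρ : ℝ} (hR : 0 < R) (h : ρ ≤ R) : ang R ρ = 0 := by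
  have h1 : (ρ - R) / R ≤ 0 := div_nonpos_of_nonpos_of_nonneg (by linarith) hR.le
  have h2 : min 1 ((ρ - R) / R) ≤ 0 := (min_le_right _ _).trans h1
  simp only [ang, max_eq_left h2, mul_zero]

private theorem ang_top {R ρ : ℝ} (hR : 0 < R) (h : 2 * R ≤ ρ) : ang R ρ = Real.pi / 2 := by
  have h1 : 1 ≤ (ρ - R) / R := by rw [le_div_iff₀ hR]; linarith only [h]
  simp only [ang, min_eq_left h1, max_eq_right zero_le_one, mul_one]

private theorem ang_lip {R : ℝ} (hR : 0 < R) {ρ ρ' : ℝ} (h : |ρ - ρ'| ≤ 1) :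
    |ang R ρ - ang R ρ'| ≤ Real.pi / 2 / R := by
  have h1 : |max 0 (min 1 ((ρ - R) / R)) - max 0 (min 1 ((ρ' - R) / R))| ≤ 1 / R := by
    refine (abs_max_sub_max_le_max _ _ _ _).trans (max_le ?_ ?_)
    · simp only [sub_self, abs_zero]; positivity
    refine (abs_min_sub_min_le_max _ _ _ _).trans (max_le ?_ ?_)
    · simp only [sub_self, abs_zero]; positivity
    rw [← sub_div, abs_div, abs_of_pos hR]
    refine div_le_div_of_nonneg_right ?_ hR.le
    rwa [sub_sub_sub_cancel_right]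
  rw [ang, ang, ← mul_sub, abs_mul, abs_of_pos (by positivity : (0 : ℝ) < Real.pi / 2)]
  calc Real.pi / 2 * |max 0 (min 1 ((ρ - R) / R)) - max 0 (min 1 ((ρ' - R) / R))|
      ≤ Real.pi / 2 * (1 / R) := by gcongr
    _ = Real.pi / 2 / R := by ring

private theorem trig_le (s t : ℝ) :
    (Real.cos s - Real.cos t) ^ 2 + (Real.sin s - Real.sin t) ^ 2 ≤ (s - t) ^ 2 := by
  have h1 := Real.one_sub_sq_div_two_le_cos (x := s - t)
  rw [Real.cos_sub] at h1
  linarith only [Real.sin_sq_add_cos_sq t, Real.sin_sq_add_cos_sq s, h1]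

private theorem mem_win_of (hP : P.Good E) {v : α} (hv : v ∈ win P E S x)
    (ho : E.d o v < 2 * P.R) : v ∈ win P E S o := by
  have hrad := hP.rad
  have hN : P.N = 4 * P.R := rfl
  unfold win at hv ⊢
  rw [Finset.mem_filter] at hv ⊢
  exact ⟨(E.mem_ball P.N (by omega) o v).2 (by (clear * - ho hN; omega)), hv.2⟩

private theorem fx_small (hP : P.Good E) {v : α} (h : E.d o v < 2 * P.R) :
    7 * fx P E o v ≤ 1 / 10 * P.κ := by
  have hR : (0 : ℝ) < P.R := by exact_mod_cast (lt_of_lt_of_le (by norm_num) hP.R_pos : 0 < P.R)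
  have hd : (E.d o v : ℝ) < 2 * P.R := by exact_mod_cast h
  have hN : (P.N : ℝ) = 4 * P.R := by simp only [Par.N, Nat.cast_mul, Nat.cast_ofNat]
  have hu : 2 * (P.R : ℝ) ≤ (P.N : ℝ) + 1 - E.d o v := by rw [hN]; linarith only [hd]
  have hu0 : 0 < 2 * (P.R : ℝ) := by positivity
  have hκ := hP.κ_pos
  have hRR := hP.hR
  have h1 : fx P E o v ≤ P.κ / 80 := by
    unfold fx
    rw [div_pow, div_le_iff₀ (pow_pos (lt_of_lt_of_le hu0 hu) 2)]
    have h2 : (2 * (P.R : ℝ)) ^ 2 ≤ ((P.N : ℝ) + 1 - E.d o v) ^ 2 := by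
      exact pow_le_pow_left₀ hu0.le hu 2
    linarith only [mul_nonneg (le_of_lt (sub_pos.2 hκ)) (sub_nonneg.2 h2), mul_nonneg (mul_self_nonneg (1 : ℝ)) (sub_nonneg.2 hRR)]
  linarith only [hκ, h1]

private theorem up_aux (hr : 0 < r) (hP : P.Good E)
    (hx : Alive P E z S (4 * P.κ) x) (ho : Alive P E z S (4 * P.κ) o) (a : Fin r)
    {b₁ b₂ : ℝ} (hb₁ : b₁ ≤ 4 * P.κ) (hb₂ : b₂ ≤ 4 * P.κ) {g : α → ℝ}
    (hg1 : ∀ v, E.d o v ≤ P.R → g v + 3 / 10 * P.κ ≤ fx P E x v + b₁)
    (hg2 : ∀ v, P.R < E.d o v → g v + 3 / 10 * P.κ ≤ b₁ ∧ g v + 3 / 10 * P.κ ≤ b₂) :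
    Safe E.y (Function.update (cs S) o (some a)) (fun v => lv P E z S x v - g v)
      ((win P E S x).erase o) ∧
    sg E.y (Function.update (cs S) o (some a)) o (fun v => lv P E z S x v - g v)
      ((win P E S x).erase o) ≤ sw P E z S o o (-b₁) a := by
  have hR : (0 : ℝ) < P.R := by exact_mod_cast (lt_of_lt_of_le (by norm_num) hP.R_pos : 0 < P.R)
  have hκ := hP.κ_pos
  set s' := Function.update (cs S) o (some a) with hs'
  set χ : α → ℝ := fun v => ang P.R (E.d o v) with hχ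
  -- the windows
  have hcong : ∀ (U : Finset α), ∀ i ∈ U.erase o, cs S i = s' i := fun U i hi => by
    rw [hs', Function.update_of_ne (Finset.ne_of_mem_erase hi)]
  have hso : Safe E.y s' (fun v => lv P E z S o v + -b₁) ((win P E S o).erase o) := by
    refine Safe.congr (Safe.mono hr E.herm (Safe.subset ho (Finset.erase_subset _ _))
      (l' := fun v => lv P E z S o v + -b₁) ?_) (hcong _) (fun _ _ => rfl)
    intro i _
    show lv P E z S o i - 4 * P.κ ≤ lv P E z S o i + -b₁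
    linarith only [hb₁]
  have hsx : Safe E.y s' (fun v => lv P E z S x v - b₂) ((win P E S x).erase o) := by
    refine Safe.congr (Safe.mono hr E.herm (Safe.subset hx (Finset.erase_subset _ _))
      (l' := fun v => lv P E z S x v - b₂) ?_) (hcong _) (fun _ _ => rfl)
    intro i _
    show lv P E z S x i - 4 * P.κ ≤ lv P E z S x i - b₂
    linarith only [hb₂]
  set N : Finset α := ((win P E S x).erase o).filter fun v => E.d o v < 2 * P.R with hN
  have hNo : N ⊆ (win P E S o).erase o := by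
    intro v hv
    rw [hN, Finset.mem_filter, Finset.mem_erase] at hv
    exact Finset.mem_erase.2 ⟨hv.1.1, mem_win_of hP hv.1.2 hv.2⟩
  have hmono := sg_mono_set hr E.herm hNo (Finset.notMem_erase o _) hso
  -- the bound of the localization error
  have hD := hP.D_ge
  have he0 : 1 / 2 * (E.D * (Real.pi / 2 / P.R) ^ 2) ≤ 1 / 10 * P.κ := by
    have h1 : E.D ≤ P.κ * P.R ^ 2 / 16000 := by
      have h2 := hP.hR
      have h3 := hP.hc
      linarith only [h2, h3]
    have h4 : (Real.pi / 2 / P.R) ^ 2 = Real.pi ^ 2 / (4 * P.R ^ 2) := by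
      field_simp
      ring
    have h5 : Real.pi ^ 2 ≤ 16 := by nlinarith only [Real.pi_le_four, Real.pi_pos]
    rw [h4]
    calc 1 / 2 * (E.D * (Real.pi ^ 2 / (4 * P.R ^ 2)))
        ≤ 1 / 2 * (P.κ * P.R ^ 2 / 16000 * (16 / (4 * P.R ^ 2))) := by (clear * - h1 h5 hR hκ; gcongr)
      _ = P.κ / 8000 := by field_simp; ring
      _ ≤ 1 / 10 * P.κ := by linarith only [hκ]
  have key := ims (y := E.y) (s := s') (l := fun v => lv P E z S x v - g v)
    (l₁ := fun v => lv P E z S o v + -b₁) (l₂ := fun v => lv P E z S x v - b₂)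
    (W := (win P E S x).erase o) (N := N) (o := o) hr E.herm E.zd (Finset.notMem_erase o _)
    (Finset.filter_subset _ _) (χ₁ := fun v => Real.cos (χ v)) (χ₂ := fun v => Real.sin (χ v))
    (fun v => Real.cos_sq_add_sin_sq _) ?_ ?_ ?_
    (e := fun _ => 1 / 10 * P.κ) ?_ (η := 1 / 10 * P.κ) (by (clear * - hκ; positivity)) ?_
    (Safe.subset hso hNo) hsx
  · exact ⟨key.1, key.2.trans hmono⟩
  · -- support
    intro v hv hne
    rw [hN, Finset.mem_filter]
    refine ⟨hv, ?_⟩
    by_contra hcon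
    apply hne
    have h1 : (2 : ℝ) * P.R ≤ E.d o v := by exact_mod_cast not_lt.1 hcon
    show Real.cos (ang P.R (E.d o v)) = 0
    rw [ang_top hR h1, Real.cos_pi_div_two]
  · show Real.cos (ang P.R (E.d o o)) = 1
    rw [E.d_self, ang_zero hR (by simp only [CharP.cast_eq_zero, Nat.cast_nonneg]), Real.cos_zero]
  · intro v _ hne
    have h1 : (E.d o v : ℝ) ≤ P.R := by
      have h2 := E.edge o v hne
      have h3 := hP.R_pos
      exact_mod_cast (by omega : E.d o v ≤ P.R)
    show Real.cos (ang P.R (E.d o v)) = 1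
    rw [ang_zero hR h1, Real.cos_zero]
  · intro v hv
    have h1 : ∀ w ∈ (win P E S x).erase o, ‖E.y v w‖ * ((Real.cos (χ v) - Real.cos (χ w)) ^ 2 +
        (Real.sin (χ v) - Real.sin (χ w)) ^ 2) ≤ ‖E.y v w‖ * (Real.pi / 2 / P.R) ^ 2 := by
      intro w _
      by_cases hvw : E.y v w = 0
      · simp only [hvw, norm_zero, zero_mul, Std.le_refl]
      have h2 := E.edge v w hvw
      have h3 : |(E.d o v : ℝ) - E.d o w| ≤ 1 := by
        have h4 := E.d_tri o v w
        have h5 := E.d_tri o w v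
        rw [E.d_symm w v] at h5
        have h6 : (E.d o w : ℝ) ≤ E.d o v + 1 := by exact_mod_cast (by omega : E.d o w ≤ E.d o v + 1)
        have h7 : (E.d o v : ℝ) ≤ E.d o w + 1 := by exact_mod_cast (by omega : E.d o v ≤ E.d o w + 1)
        rw [abs_le]
        constructor <;> linarith only [h6, h7]
      refine mul_le_mul_of_nonneg_left ((trig_le _ _).trans ?_) (norm_nonneg _)
      rw [← sq_abs]
      exact pow_le_pow_left₀ (abs_nonneg _) (ang_lip hR h3) 2
    calc 1 / 2 * ∑ w ∈ (win P E S x).erase o, ‖E.y v w‖ *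
          ((Real.cos (χ v) - Real.cos (χ w)) ^ 2 + (Real.sin (χ v) - Real.sin (χ w)) ^ 2)
        ≤ 1 / 2 * ∑ w ∈ (win P E S x).erase o, ‖E.y v w‖ * (Real.pi / 2 / P.R) ^ 2 := by
          gcongr 1 / 2 * ?_
          exact Finset.sum_le_sum h1
      _ = 1 / 2 * ((∑ w ∈ (win P E S x).erase o, ‖E.y v w‖) * (Real.pi / 2 / P.R) ^ 2) := by
          rw [Finset.sum_mul]
      _ ≤ 1 / 2 * (E.D * (Real.pi / 2 / P.R) ^ 2) := by
          gcongr
          exact E.row v _
      _ ≤ 1 / 10 * P.κ := he0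
  · intro v hv
    show Real.cos (χ v) ^ 2 * (lv P E z S o v + -b₁) + Real.sin (χ v) ^ 2 *
      (lv P E z S x v - b₂) + 1 / 10 * P.κ + 1 / 10 * P.κ ≤ lv P E z S x v - g v
    have hcs := Real.cos_sq_add_sin_sq (χ v)
    by_cases hv2 : E.d o v < 2 * P.R
    · have hf := fx_small hP hv2
      have hfo : 0 ≤ fx P E o v := fx_nonneg
      have hfx : 0 ≤ fx P E x v := fx_nonneg
      have hlv : lv P E z S o v + fx P E x v ≤ lv P E z S x v + 1 / 10 * P.κ := by
        unfold lv
        split_ifs <;> linarith only [hf, hfx, hκ]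
      by_cases hv1 : E.d o v ≤ P.R
      · have h1 : χ v = 0 := ang_zero hR (by exact_mod_cast hv1)
        rw [h1, Real.cos_zero, Real.sin_zero]
        have h2 := hg1 v hv1
        linarith only [hlv, h2]
      · obtain ⟨h2, h3⟩ := hg2 v (not_le.1 hv1)
        have hc0 : 0 ≤ Real.cos (χ v) ^ 2 := sq_nonneg _
        have hs0 : 0 ≤ Real.sin (χ v) ^ 2 := sq_nonneg _
        have h4 : Real.cos (χ v) ^ 2 * (lv P E z S o v + -b₁) ≤
            Real.cos (χ v) ^ 2 * (lv P E z S x v - g v - 2 / 10 * P.κ) :=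
          mul_le_mul_of_nonneg_left (by linarith only [hfx, hlv, h2]) hc0
        have h5 : Real.sin (χ v) ^ 2 * (lv P E z S x v - b₂) ≤
            Real.sin (χ v) ^ 2 * (lv P E z S x v - g v - 2 / 10 * P.κ) :=
          mul_le_mul_of_nonneg_left (by linarith only [hκ, h3]) hs0
        have h6 : Real.cos (χ v) ^ 2 * (lv P E z S x v - g v - 2 / 10 * P.κ) +
            Real.sin (χ v) ^ 2 * (lv P E z S x v - g v - 2 / 10 * P.κ) =
            lv P E z S x v - g v - 2 / 10 * P.κ := by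
          rw [← add_mul, hcs, one_mul]
        linarith only [h4, h5, h6]
    · have h1 : χ v = Real.pi / 2 := ang_top hR (by exact_mod_cast not_lt.1 hv2)
      have hR1 := hP.R_pos
      obtain ⟨-, h3⟩ := hg2 v (by (clear * - hv2 hR1; omega))
      rw [h1, Real.cos_pi_div_two, Real.sin_pi_div_two]
      linarith only [hκ, h3]

/-- basic transfer of upper bounds -/
theorem trans_up (hr : 0 < r) (hP : P.Good E) (hox : o ∈ E.ball P.N x) (hSo : S o = none)
    (hx : Alive P E z S (4 * P.κ) x) (ho : Alive P E z S (4 * P.κ) o) (a : Fin r) :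
    sw P E z S x o (-(5 / 2 * P.κ)) a ≤ sw P E z S o o (-(3 * P.κ)) a := by
  have hκ := hP.κ_pos
  have h := (up_aux hr hP hx ho a (b₁ := 3 * P.κ) (b₂ := 4 * P.κ) (by linarith only [hκ]) le_rfl
    (g := fun _ => 5 / 2 * P.κ) (fun v _ => by have := fx_nonneg (P := P) (E := E) (x := x) (o := v)
                                               linarith only [this, hκ])
    (fun v _ => ⟨by linarith only [hκ], by linarith only [hκ]⟩)).2
  simpa only [sw, sub_eq_add_neg] using h

/-- upper bound with the additional margin given by the level profile -/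
theorem trans_up' (hr : 0 < r) (hP : P.Good E) (hox : o ∈ E.ball P.N x) (hSo : S o = none)
    (hx : Alive P E z S (4 * P.κ) x) (ho : Alive P E z S (4 * P.κ) o) (a : Fin r) :
    Safe E.y (cs S) (fun v => lv P E z S x v - P.κ -
        (P.κ + if E.d o v ≤ P.R then fx P E x v / 2 else 0)) ((win P E S x).erase o) ∧
    sg E.y (Function.update (cs S) o (some a)) o (fun v => lv P E z S x v - P.κ -
        (P.κ + if E.d o v ≤ P.R then fx P E x v / 2 else 0)) ((win P E S x).erase o) ≤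
      sw P E z S o o (-(5 / 2 * P.κ)) a := by
  have hκ := hP.κ_pos
  have h := up_aux hr hP hx ho a (b₁ := 5 / 2 * P.κ) (b₂ := 3 * P.κ) (by linarith only [hκ])
    (by linarith only [hκ]) (g := fun v => P.κ + (P.κ + if E.d o v ≤ P.R then fx P E x v / 2 else 0))
    (fun v hv => by
      have := fx_nonneg (P := P) (E := E) (x := x) (o := v)
      rw [if_pos hv]
      linarith [this, hκ])
    (fun v hv => by
      rw [if_neg (not_le.2 hv)]
      exact ⟨by linarith only [hκ], by linarith only [hκ]⟩)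
  simp only [← sub_sub] at h
  simp only [← sub_sub]
  refine ⟨Safe.congr h.1 ?_ (fun _ _ => rfl), h.2⟩
  intro i hi
  rw [Function.update_of_ne (Finset.ne_of_mem_erase hi)]

end Vale.Agent.P078.MT
end

section
/-! T3-E1: allowed colours and one decision. -/

namespace Vale.Agent.P078.MT

open Vale.Agent.P078.T

open Finset Polynomial
open Vale.Agent.P078.C (Herm ZD FB qf yc Q)

variable {α : Type*} [DecidableEq α] {r : ℕ}
variable {P : Par} {E : Env α} {S : α → St r} {z u : ℝ} {x o : α}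

private theorem mem_win_self (hP : P.Good E) (hSo : S o = none) : o ∈ win P E S o := by
  unfold win
  rw [mem_filter]
  refine ⟨(E.mem_ball P.N (by have := hP.rad; (clear * - this; omega)) o o).2 (by rw [E.d_self]; omega), ?_⟩
  rw [hSo]
  simp

private theorem cs_none (hSo : S o = none) : cs S o = none := by
  unfold cs
  rw [hSo]
  rfl

private theorem fx_self_le (hP : P.Good E) : fx P E o o ≤ P.ζ / 1000 := by
  have h1 := hP.hR
  have h2 := hP.κ_le
  have h3 := hP.c_pos
  have h4 := hP.R_pos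
  have h5 := hP.κ_pos
  have hR : (10 : ℝ) ≤ P.R := by exact_mod_cast h4
  have hR2 : (0 : ℝ) < (P.R : ℝ) ^ 2 := by positivity
  unfold fx
  rw [E.d_self, div_pow]
  have hN : ((P.N : ℕ) : ℝ) = 4 * P.R := by unfold Par.N; push_cast; ring
  rw [hN, Nat.cast_zero, sub_zero]
  have h6 : (P.R : ℝ) ^ 2 ≤ (4 * (P.R : ℝ) + 1) ^ 2 := by nlinarith only [hR]
  have h7 : (0 : ℝ) < (4 * (P.R : ℝ) + 1) ^ 2 := by positivity
  rw [div_le_iff₀ h7]
  have h8 : P.κ * (P.R : ℝ) ^ 2 ≤ P.ζ / 100 * (P.R : ℝ) ^ 2 :=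
    mul_le_mul_of_nonneg_right (by linarith only [h2]) hR2.le
  have h9 : P.ζ / 1000 * (P.R : ℝ) ^ 2 ≤ P.ζ / 1000 * (4 * (P.R : ℝ) + 1) ^ 2 :=
    mul_le_mul_of_nonneg_left h6 (by have := hP.ζ_pos; linarith only [h2, h5])
  nlinarith only [h1, h8, h9]

private theorem safe_erase {b : ℝ} (hr : 0 < r) (hx : Alive P E z S (4 * P.κ) x)
    (hb : -(4 * P.κ) ≤ b) (a : Fin r) :
    Safe E.y (Function.update (cs S) o (some a)) (fun v => lv P E z S x v + b)
      ((win P E S x).erase o) := by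
  have h1 : Safe E.y (cs S) (fun v => lv P E z S x v - 4 * P.κ) ((win P E S x).erase o) :=
    Safe.subset hx (erase_subset _ _)
  have h2 : Safe E.y (cs S) (fun v => lv P E z S x v + b) ((win P E S x).erase o) :=
    Safe.mono hr E.herm h1 (fun i _ => by (clear * - hb; linarith))
  refine Safe.congr h2 (fun i hi => ?_) (fun i _ => rfl)
  rw [Function.update_of_ne (ne_of_mem_erase hi)]

private theorem sw_nonneg (hr : 0 < r) (hP : P.Good E) (hx : Alive P E z S (4 * P.κ) x)
    (a : Fin r) : 0 ≤ sw P E z S x o 0 a := by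
  have := hP.κ_pos
  exact sg_nonneg hr E.herm E.zd (notMem_erase _ _) (safe_erase hr hx (by (clear * - this; linarith)) a)

private theorem sum_sw_le (hr : 0 < r) (hP : P.Good E) (hz : P.ζ ≤ z) (hSo : S o = none)
    (ho : Alive P E z S (4 * P.κ) o) : ∑ a, sw P E z S o o 0 a ≤ 1001 / 1000 * z * r := by
  have hκ := hP.κ_pos
  have hr' : (0 : ℝ) < r := by exact_mod_cast hr
  have h1 : Safe E.y (cs S) (fun v => lv P E z S o v + 0) (insert o ((win P E S o).erase o)) := by
    rw [insert_erase (mem_win_self hP hSo)]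
    exact Safe.mono hr E.herm ho (fun i _ => by linarith only [hκ])
  have h2 := ((safe_insert_iff hr E.herm (notMem_erase _ _)).1 h1).2
  rw [sg_avg hr E.herm (notMem_erase _ _) (cs_none hSo)] at h2
  have h3 : lv P E z S o o + 0 ≤ 1001 / 1000 * z := by
    unfold lv
    rw [if_pos hSo]
    have := fx_self_le (o := o) hP
    linarith only [this, hz]
  have h4 := (div_lt_iff₀ hr').1 (lt_of_lt_of_le h2 h3)
  exact h4.le

private theorem card_bad (hr : 0 < r) (hP : P.Good E) (hz : P.ζ ≤ z) (hSo : S o = none)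
    (ho : Alive P E z S (4 * P.κ) o) :
    5 * P.Γ * ((univ.filter fun a : Fin r => ¬ sw P E z S o o 0 a ≤ 5 * (P.Γ * z)).card : ℝ) ≤
      1001 / 1000 * r := by
  have hζ := hP.ζ_pos
  have hz0 : 0 < z := by linarith only [hz, hζ]
  have h1 := sum_sw_le hr hP hz hSo ho
  have h2 : ∑ a ∈ univ.filter (fun a : Fin r => ¬ sw P E z S o o 0 a ≤ 5 * (P.Γ * z)),
      5 * (P.Γ * z) ≤ ∑ a, sw P E z S o o 0 a := by
    refine (sum_le_sum fun a ha => ?_).trans
      (sum_le_sum_of_subset_of_nonneg (filter_subset _ _) fun a _ _ => sw_nonneg hr hP ho a)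
    rw [mem_filter] at ha
    exact (not_le.1 ha.2).le
  rw [sum_const, nsmul_eq_mul] at h2
  have h3 : 5 * P.Γ * ((univ.filter fun a : Fin r => ¬ sw P E z S o o 0 a ≤ 5 * (P.Γ * z)).card : ℝ) * z ≤
      1001 / 1000 * r * z := by linarith only [h2, h1]
  exact le_of_mul_le_mul_right h3 hz0

/-- at least half of the colours have small self energies, for all the kernels of a family -/
theorem card_allow {ι : Type*} [Fintype ι] {F : ι → Env α} (hr : 0 < r) (hP : ∀ j, P.Good (F j))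
    (hι : (Fintype.card ι : ℝ) ≤ 2 * P.Γ) (hΓ : 1 ≤ P.Γ)
    (hz : P.ζ ≤ z) (hSo : S o = none) (ho : ∀ j, Alive P (F j) z S (4 * P.κ) o)
    (O : Finset (Fin r)) (hO : ∀ a, (∀ j, sw P (F j) z S o o 0 a ≤ 5 * (P.Γ * z)) → a ∈ O) :
    r ≤ 2 * O.card := by
  classical
  have h1 := fun j => card_bad hr (hP j) hz hSo (ho j)
  have h3 : (univ : Finset (Fin r)) ⊆ O ∪
      (univ : Finset ι).biUnion fun j =>
        univ.filter fun a : Fin r => ¬ sw P (F j) z S o o 0 a ≤ 5 * (P.Γ * z) := by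
    intro a _
    rw [mem_union, mem_biUnion]
    by_cases h4 : ∀ j, sw P (F j) z S o o 0 a ≤ 5 * (P.Γ * z)
    · exact Or.inl (hO a h4)
    · push Not at h4
      obtain ⟨j, hj⟩ := h4
      exact Or.inr ⟨j, mem_univ _, by rw [mem_filter]; exact ⟨mem_univ _, not_le.2 hj⟩⟩
  have h4 := (card_le_card h3).trans
    ((card_union_le _ _).trans (Nat.add_le_add_left card_biUnion_le _))
  rw [card_univ, Fintype.card_fin] at h4
  have h5 : (r : ℝ) ≤ O.card + ∑ j : ι,
      ((univ.filter fun a : Fin r => ¬ sw P (F j) z S o o 0 a ≤ 5 * (P.Γ * z)).card : ℝ) := by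
    exact_mod_cast h4
  have hr' : (0 : ℝ) ≤ r := Nat.cast_nonneg r
  have h6 : 5 * P.Γ * ∑ j : ι,
      ((univ.filter fun a : Fin r => ¬ sw P (F j) z S o o 0 a ≤ 5 * (P.Γ * z)).card : ℝ) ≤
      2 * P.Γ * (1001 / 1000 * r) := by
    rw [Finset.mul_sum]
    refine (Finset.sum_le_sum fun j _ => h1 j).trans ?_
    rw [Finset.sum_const, Finset.card_univ, nsmul_eq_mul]
    exact mul_le_mul_of_nonneg_right hι (by positivity)
  have hΓ0 : 0 < P.Γ := by linarith only [hΓ]
  have h7 : 5 * ∑ j : ι,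
      ((univ.filter fun a : Fin r => ¬ sw P (F j) z S o o 0 a ≤ 5 * (P.Γ * z)).card : ℝ) ≤
      2 * (1001 / 1000 * r) := by
    refine le_of_mul_le_mul_left ?_ hΓ0
    linarith only [h6]
  have h8 : (r : ℝ) ≤ 2 * O.card := by linarith only [h5, h7, hr']
  exact_mod_cast h8

/-- the self energies of `o` in all windows, for an allowed colour -/
theorem sw_le (hr : 0 < r) (hP : P.Good E) (hz : P.ζ ≤ z) (hz2 : z ≤ 2 * P.ζ) (hSo : S o = none)
    (hox : o ∈ E.ball P.N x) (hx : Alive P E z S (4 * P.κ) x) (ho : Alive P E z S (4 * P.κ) o)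
    {a : Fin r} (ha : sw P E z S o o 0 a ≤ 6 * (P.Γ * z)) :
    sw P E z S x o (-(5 / 2 * P.κ)) a ≤ 24 * (P.Γ * z) ∧
      sw P E z S o o (-(5 / 2 * P.κ)) a ≤ 48 * (P.Γ * P.ζ) := by
  have hκ := hP.κ_pos
  have hΓ := hP.Γ_ge
  have hΓz : P.Γ * z ≤ P.Γ * (2 * P.ζ) := mul_le_mul_of_nonneg_left hz2 (by linarith only [hΓ])
  have h1 : sw P E z S o o (-(3 * P.κ)) a ≤ 24 * (P.Γ * z) := by
    have h2 := sg_scal hr E.herm E.zd (notMem_erase o (win P E S o))
      (l := fun v => lv P E z S o v + 0) (g := fun _ => 4 * P.κ) (t := 3 / 4)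
      (safe_erase (b := 0) hr ho (by linarith only [hκ]) a)
      (Safe.congr (safe_erase (b := -(4 * P.κ)) hr ho le_rfl a) (fun _ _ => rfl)
        (fun i _ => by ring)) (by norm_num) (by norm_num)
    have h3 : sw P E z S o o (-(3 * P.κ)) a =
        sg E.y (Function.update (cs S) o (some a)) o
          (fun i => (lv P E z S o i + 0) - 3 / 4 * (4 * P.κ)) ((win P E S o).erase o) := by
      unfold sw
      congr 1
      funext v
      ring
    rw [h3]
    refine h2.trans ?_
    have h4 : sg E.y (Function.update (cs S) o (some a)) o (fun v => lv P E z S o v + 0)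
        ((win P E S o).erase o) ≤ 6 * (P.Γ * z) := ha
    rw [div_le_iff₀ (by norm_num)]
    linarith only [h4]
  refine ⟨(trans_up hr hP hox hSo hx ho a).trans h1, ?_⟩
  have h5 : sw P E z S o o (-(5 / 2 * P.κ)) a ≤ sw P E z S o o (-(3 * P.κ)) a :=
    sg_anti hr E.herm (notMem_erase _ _) (safe_erase hr ho (by linarith only [hκ]) a)
      (fun i _ => by linarith only [hκ])
  linarith only [hΓz, h1, h5]

/-- after a decision the window has the margin `5 / 2 κ` -/
theorem alive_update (hr : 0 < r) (hP : P.Good E) (hz : P.ζ ≤ z) (hz2 : z ≤ 2 * P.ζ)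
    (hSo : S o = none) (hox : o ∈ E.ball P.N x) (hx : Alive P E z S (4 * P.κ) x)
    (ho : Alive P E z S (4 * P.κ) o) {a : Fin r} (ha : sw P E z S o o 0 a ≤ 6 * (P.Γ * z)) :
    Alive P E z (Function.update S o (some (some a))) (5 / 2 * P.κ) x := by
  have hκ := hP.κ_pos
  have hζ := hP.ζ_pos
  have hκζ := hP.κ_le
  have h1 := (sw_le hr hP hz hz2 hSo hox hx ho ha).1
  have hwin : win P E (Function.update S o (some (some a))) x = win P E S x := by
    unfold win
    refine filter_congr fun v _ => ?_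
    by_cases hv : v = o
    · subst hv
      rw [Function.update_self, hSo]
      simp
    · rw [Function.update_of_ne hv]
  have hcs : cs (Function.update S o (some (some a))) = Function.update (cs S) o (some a) := by
    funext v
    by_cases hv : v = o
    · subst hv
      simp [cs]
    · rw [Function.update_of_ne hv]
      unfold cs
      rw [Function.update_of_ne hv]
  have hlv : ∀ v, v ≠ o → lv P E z (Function.update S o (some (some a))) x v =
      lv P E z S x v := by
    intro v hv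
    unfold lv
    rw [Function.update_of_ne hv]
  have hmem : o ∈ win P E S x := by
    unfold win
    rw [mem_filter]
    exact ⟨hox, by rw [hSo]; simp⟩
  unfold Alive
  rw [hwin, hcs, ← insert_erase hmem, safe_insert_iff hr E.herm (notMem_erase _ _)]
  constructor
  · refine Safe.congr (safe_erase (b := -(5 / 2 * P.κ)) hr hx (by linarith only [hκ]) a)
      (fun _ _ => rfl) (fun i hi => ?_)
    rw [hlv i (ne_of_mem_erase hi)]
    ring
  · have h2 : sg E.y (Function.update (cs S) o (some a)) o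
        (fun v => lv P E z (Function.update S o (some (some a))) x v - 5 / 2 * P.κ)
        ((win P E S x).erase o) = sw P E z S x o (-(5 / 2 * P.κ)) a := by
      unfold sw
      refine sg_congr (fun _ _ => rfl) (fun i hi => ?_) (notMem_erase _ _)
      rw [hlv i (ne_of_mem_erase hi)]
      ring
    rw [h2]
    have h3 : lv P E z (Function.update S o (some (some a))) x o =
        z + fx P E x o + (60 * (P.Γ * P.ζ) + 6 * fx P E x o) := by
      unfold lv
      rw [Function.update_self, if_neg (by simp)]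
    rw [h3]
    have h4 : 0 ≤ fx P E x o := fx_nonneg
    have hΓ := hP.Γ_ge
    have hΓz : P.Γ * z ≤ P.Γ * (2 * P.ζ) := mul_le_mul_of_nonneg_left hz2 (by linarith only [hΓ])
    have hΓζ : P.ζ ≤ P.Γ * P.ζ := le_mul_of_one_le_left hζ.le hΓ
    linarith only [h4, h1, hκζ, hκ, hz2, hΓz, hΓζ, hζ, hz]

end Vale.Agent.P078.MT
end

section
/-! T3-B4: bound of the derivative. -/

namespace Vale.Agent.P078.MT

open Vale.Agent.P078.T

open Finset Polynomial
open Vale.Agent.P078.C (Herm ZD FB qf yc Q)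

variable {α : Type*} [DecidableEq α] {r : ℕ}
variable {P : Par} {E : Env α} {S : α → St r} {z : ℝ} {x o : α}

private theorem Deriv_two_rpow_le {a : ℝ} (h0 : 0 ≤ a) (h1 : a ≤ 1) : (2 : ℝ) ^ a ≤ 1 + a := by
  have h := rpow_one_add_le_one_add_mul_self (s := 1) (by norm_num) h0 h1
  rw [mul_one, one_add_one_eq_two] at h
  exact h

private theorem Deriv_rpow_le_pow {a t : ℝ} {n : ℕ} (h0 : 0 ≤ a) (h1 : a ≤ 1) (ht : t ≤ a * n) :
    (2 : ℝ) ^ t ≤ (1 + a) ^ n := by
  calc (2 : ℝ) ^ t ≤ 2 ^ (a * n) := Real.rpow_le_rpow_of_exponent_le (by norm_num) ht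
    _ = (2 ^ a) ^ n := by rw [Real.rpow_mul (by norm_num), Real.rpow_natCast]
    _ ≤ (1 + a) ^ n := pow_le_pow_left₀ (by positivity) (Deriv_two_rpow_le h0 h1) n

/-- the growth rate -/
private theorem Deriv_rate {D L m₁ : ℝ} {r₁ : ℕ} (hD : 1 ≤ D) (hL : 8 ≤ L) (hm0 : 0 < m₁)
    (hm1 : m₁ ≤ 1) (h : L ^ 2 * D ≤ 6 / 5 * m₁ * (r₁ : ℝ) ^ 2) :
    ∃ a : ℝ, 0 < a ∧ a ≤ 1 ∧ D * a ^ 2 ≤ 3 / 10 * m₁ ∧ 16 ≤ (1 + a) ^ r₁ ∧
      (2 : ℝ) ^ L ≤ ((1 + a) ^ r₁) ^ 2 := by
  have hD0 : 0 < D := by linarith only [hD]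
  have hpos : 0 < 3 / 10 * m₁ / D := by positivity
  have hsq : Real.sqrt (3 / 10 * m₁ / D) ^ 2 = 3 / 10 * m₁ / D := Real.sq_sqrt hpos.le
  have ha0 : 0 < Real.sqrt (3 / 10 * m₁ / D) := Real.sqrt_pos.mpr hpos
  obtain ⟨a, ha⟩ : ∃ a, a = Real.sqrt (3 / 10 * m₁ / D) := ⟨_, rfl⟩
  rw [← ha] at hsq ha0
  have ha1 : a ≤ 1 := by
    have h1 : a ^ 2 ≤ 1 ^ 2 := by
      rw [hsq, div_le_iff₀ hD0]
      linarith only [hm1, hD]
    exact le_of_sq_le_sq h1 zero_le_one
  have hr0 : (0 : ℝ) ≤ r₁ := Nat.cast_nonneg _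
  have hLa : L ≤ 2 * (a * r₁) := by
    refine le_of_sq_le_sq ?_ (by positivity)
    have h2 : (2 * (a * (r₁ : ℝ))) ^ 2 = 6 / 5 * m₁ * (r₁ : ℝ) ^ 2 / D := by
      have h3 : (2 * (a * (r₁ : ℝ))) ^ 2 = 4 * a ^ 2 * (r₁ : ℝ) ^ 2 := by ring
      rw [h3, hsq]
      ring
    rw [h2, le_div_iff₀ hD0]
    exact h
  refine ⟨a, ha0, ha1, ?_, ?_, ?_⟩
  · rw [hsq]
    exact le_of_eq (mul_div_cancel₀ _ hD0.ne')
  · have h1 := Deriv_rpow_le_pow (t := 4) (n := r₁) ha0.le ha1 (by linarith only [hL, hLa])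
    have h2 : (2 : ℝ) ^ (4 : ℝ) = 16 := by
      have h3 : (2 : ℝ) ^ (4 : ℝ) = 2 ^ (4 : ℕ) := Real.rpow_natCast 2 4
      rw [h3]
      norm_num
    rwa [h2] at h1
  · have h1 := Deriv_rpow_le_pow (t := L) (n := r₁ * 2) ha0.le ha1 (by
      push_cast
      linarith only [hLa])
    rwa [pow_mul] at h1

/-- the cutoff radius and the lower bound of the margin -/
private theorem Deriv_cut (hP : P.Good E) (hox : E.d x o ≤ P.N) :
    ∃ (r₁ : ℕ) (m₁ : ℝ), 8 ≤ r₁ ∧ P.κ ≤ m₁ ∧ m₁ ≤ 1 ∧
      P.L ^ 2 * E.D ≤ 6 / 5 * m₁ * (r₁ : ℝ) ^ 2 ∧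
      (∀ v, E.d x v ≤ P.N → E.d o v ≤ r₁ →
        m₁ ≤ P.κ + if E.d o v ≤ P.R then fx P E x v / 2 else 0) ∧
      (fx P E x o < P.fs → max (fx P E x o) P.κ ≤ 800 * m₁) ∧
      (P.fs ≤ fx P E x o → P.fs ≤ 800 * m₁) := by
  have hκ := hP.κ_pos
  have hκ' := hP.κ_le'
  have hc := hP.c_pos
  have hD := hP.D_ge
  have hR0 : (1 : ℝ) ≤ P.R0 := by exact_mod_cast hP.R0_pos
  have hR0c := hP.R0_c
  have hfs1 := hP.fs_le
  have hfs0 := hP.fs_pos
  have hL := hP.L_ge
  have hD0 : 0 ≤ E.D := by linarith only [hD]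
  have hsD : Real.sqrt E.D ^ 2 = E.D := Real.sq_sqrt hD0
  have hsD0 : 0 ≤ Real.sqrt E.D := Real.sqrt_nonneg _
  have hLR : P.L ^ 2 * E.D ≤ (P.R0 : ℝ) ^ 2 := by
    have h := pow_le_pow_left₀ (by (clear * - hL hD; positivity)) hP.hLR 2
    rwa [mul_pow, hsD] at h
  have hLc : 4 * (P.L ^ 2 * E.D) ≤ P.c ^ 2 := by
    have h := pow_le_pow_left₀ (by positivity) hP.hLc 2
    rw [mul_pow, mul_pow, hsD] at h
    linarith only [h]
  obtain ⟨n, hn⟩ : ∃ n : ℕ, n = P.N + 1 - E.d x o := ⟨_, rfl⟩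
  have hn1 : 1 ≤ n := by omega
  have hnR : (n : ℝ) = (P.N : ℝ) + 1 - (E.d x o : ℝ) := by
    have h : n + E.d x o = P.N + 1 := by omega
    have h' : (n : ℝ) + (E.d x o : ℝ) = (P.N : ℝ) + 1 := by exact_mod_cast h
    linarith only [h']
  have hn1R : (1 : ℝ) ≤ n := by exact_mod_cast hn1
  have hfo : fx P E x o = (P.c / n) ^ 2 := by
    unfold fx
    rw [hnR]
  have hfo0 : 0 ≤ fx P E x o := sq_nonneg _
  by_cases hcase : 9 * n + P.R0 ≤ P.R
  · -- case 1
    obtain ⟨t, ht⟩ : ∃ t : ℝ, t = n + ((9 * n + P.R0 : ℕ) : ℝ) := ⟨_, rfl⟩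
    have ht' : t = 10 * n + P.R0 := by
      rw [ht]
      push_cast
      ring
    have ht0 : 0 < t := by rw [ht']; (clear * - hn1 hR0; positivity)
    refine ⟨9 * n + P.R0, max P.κ (min (1 / 2 * (P.c / t) ^ 2) 1), by omega, le_max_left _ _,
      max_le (by linarith only [hκ']) (min_le_right _ _), ?_, ?_, ?_, ?_⟩
    · -- growth
      have hr1 : ((9 * n + P.R0 : ℕ) : ℝ) = 9 * n + P.R0 := by push_cast; ring
      rw [hr1]
      have hsq0 : (0 : ℝ) ≤ (9 * n + P.R0) ^ 2 := by (clear * - hn1 hR0; positivity)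
      rcases min_choice (1 / 2 * (P.c / t) ^ 2) 1 with h | h
      · have h1 : 1 / 2 * (P.c / t) ^ 2 ≤ max P.κ (min (1 / 2 * (P.c / t) ^ 2) 1) := by
          rw [h]
          exact le_max_right _ _
        have h2 : 9 / 10 ≤ (9 * n + P.R0) / t := by
          rw [le_div_iff₀ ht0, ht']
          linarith only []
        have h3 : (9 / 10 : ℝ) ^ 2 ≤ ((9 * n + P.R0) / t) ^ 2 :=
          pow_le_pow_left₀ (by norm_num) h2 2
        have hc2 : 0 ≤ P.c ^ 2 := by positivity
        calc P.L ^ 2 * E.D ≤ 6 / 5 * (1 / 2) * P.c ^ 2 * (9 / 10) ^ 2 := by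
              have : 0 ≤ P.L ^ 2 * E.D := by positivity
              linarith only [hLc, hc2]
          _ ≤ 6 / 5 * (1 / 2) * P.c ^ 2 * ((9 * n + P.R0) / t) ^ 2 :=
              mul_le_mul_of_nonneg_left h3 (by positivity)
          _ = 6 / 5 * (1 / 2 * (P.c / t) ^ 2) * (9 * n + P.R0) ^ 2 := by ring
          _ ≤ 6 / 5 * max P.κ (min (1 / 2 * (P.c / t) ^ 2) 1) * (9 * n + P.R0) ^ 2 := by
              refine mul_le_mul_of_nonneg_right ?_ hsq0
              exact mul_le_mul_of_nonneg_left h1 (by norm_num)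
      · have h1 : 1 ≤ max P.κ (min (1 / 2 * (P.c / t) ^ 2) 1) := by
          rw [h]
          exact le_max_right _ _
        have h2 : (P.R0 : ℝ) ^ 2 ≤ (9 * n + P.R0) ^ 2 :=
          pow_le_pow_left₀ (by (clear * - hR0; positivity)) (by linarith only []) 2
        calc P.L ^ 2 * E.D ≤ (P.R0 : ℝ) ^ 2 := hLR
          _ ≤ 6 / 5 * 1 * (9 * n + P.R0) ^ 2 := by linarith only [hsq0, h2]
          _ ≤ 6 / 5 * max P.κ (min (1 / 2 * (P.c / t) ^ 2) 1) * (9 * n + P.R0) ^ 2 := by
              refine mul_le_mul_of_nonneg_right ?_ hsq0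
              exact mul_le_mul_of_nonneg_left h1 (by norm_num)
    · -- lower bound of the margin
      intro v hxv hov
      rw [if_pos (hov.trans hcase)]
      have htri := E.d_tri x v o
      rw [E.d_symm v o] at htri
      have h1 : (1 : ℝ) ≤ (P.N : ℝ) + 1 - (E.d x v : ℝ) := by
        have : (E.d x v : ℝ) ≤ P.N := by exact_mod_cast hxv
        linarith only [this]
      have h2 : (P.N : ℝ) + 1 - (E.d x v : ℝ) ≤ t := by
        have h3 : (E.d x o : ℝ) ≤ (E.d x v : ℝ) + (E.d o v : ℝ) := by exact_mod_cast htri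
        have h4 : (E.d o v : ℝ) ≤ ((9 * n + P.R0 : ℕ) : ℝ) := by exact_mod_cast hov
        rw [ht, hnR]
        linarith only [h3, h4]
      have h3 : (P.c / t) ^ 2 ≤ fx P E x v := by
        unfold fx
        refine pow_le_pow_left₀ (by (clear * - hc ht0; positivity)) ?_ 2
        exact div_le_div_of_nonneg_left (by linarith only [hR0c]) (by linarith only [h1]) h2
      have h4 : 0 ≤ fx P E x v := sq_nonneg _
      refine max_le (by linarith only [h4]) ((min_le_left _ _).trans ?_)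
      linarith only [hκ, h3]
    · -- `f < fs`
      intro hf
      have h10 : (P.R0 : ℝ) ≤ 10 * n := by
        by_contra hcon
        rw [not_le] at hcon
        have h1 : 20 * (n : ℝ) ≤ P.c := by linarith only [hR0c, hcon]
        have h2 : 20 ≤ P.c / n := by
          rw [le_div_iff₀ (by linarith only [hn1R])]
          exact h1
        have h3 : (20 : ℝ) ^ 2 ≤ (P.c / n) ^ 2 := pow_le_pow_left₀ (by norm_num) h2 2
        rw [hfo] at hf
        linarith only [hfs1, hf, h3]
      have h1 : P.c / (20 * n) ≤ P.c / t :=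
        div_le_div_of_nonneg_left (by linarith only [hR0c]) ht0 (by rw [ht']; linarith only [h10])
      have h2 : (P.c / (20 * n)) ^ 2 ≤ (P.c / t) ^ 2 := pow_le_pow_left₀ (by positivity) h1 2
      have h3 : (P.c / (20 * n)) ^ 2 = fx P E x o / 400 := by
        rw [hfo, div_pow, div_pow]
        field_simp
        ring
      have h4 : fx P E x o / 800 ≤ min (1 / 2 * (P.c / t) ^ 2) 1 := by
        refine le_min ?_ (by linarith only [hfs1, hf])
        rw [h3] at h2
        linarith only [h2]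
      have h5 : fx P E x o / 800 ≤ max P.κ (min (1 / 2 * (P.c / t) ^ 2) 1) :=
        h4.trans (le_max_right _ _)
      have h6 : P.κ ≤ max P.κ (min (1 / 2 * (P.c / t) ^ 2) 1) := le_max_left _ _
      exact max_le (by linarith only [h5]) (by linarith only [hκ, h6])
    · -- `fs ≤ f`
      intro hf
      have h4 : P.fs / 800 ≤ min (1 / 2 * (P.c / t) ^ 2) 1 := by
        refine le_min ?_ (by linarith only [hfs1])
        rcases le_or_gt (P.R0 : ℝ) (10 * n) with h10 | h10
        · have h1 : P.c / (20 * n) ≤ P.c / t :=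
            div_le_div_of_nonneg_left (by linarith only [hR0c]) ht0 (by rw [ht']; linarith only [h10])
          have h2 : (P.c / (20 * n)) ^ 2 ≤ (P.c / t) ^ 2 := pow_le_pow_left₀ (by positivity) h1 2
          have h3 : (P.c / (20 * n)) ^ 2 = fx P E x o / 400 := by
            rw [hfo, div_pow, div_pow]
            field_simp
            ring
          rw [h3] at h2
          linarith only [hf, h2]
        · have h1 : 1 ≤ P.c / t := by
            rw [le_div_iff₀ ht0, ht']
            linarith only [hR0c, h10]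
          have h2 : (1 : ℝ) ^ 2 ≤ (P.c / t) ^ 2 := pow_le_pow_left₀ (by norm_num) h1 2
          linarith only [hfs1, h2]
      have h5 : P.fs / 800 ≤ max P.κ (min (1 / 2 * (P.c / t) ^ 2) 1) :=
        h4.trans (le_max_right _ _)
      linarith only [h5]
  · -- case 2
    have hRp : (10 : ℝ) ≤ P.R := by exact_mod_cast hP.R_pos
    have hR := hP.hR
    have hf5 : fx P E x o < 5 * P.κ := by
      have h1 : P.R < 10 * n := by
        have := hP.R0_le
        (clear * - hn hcase this; omega)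
      have h2 : (P.R : ℝ) < 10 * n := by exact_mod_cast h1
      have h3 : (P.R : ℝ) ^ 2 < (10 * n) ^ 2 := pow_lt_pow_left₀ h2 (by linarith only []) (by norm_num)
      rw [hfo, div_pow, div_lt_iff₀ (by positivity)]
      have h4 : P.κ * (P.R : ℝ) ^ 2 < P.κ * (10 * n) ^ 2 := mul_lt_mul_of_pos_left h3 hκ
      have h5 : P.κ * (10 * (n : ℝ)) ^ 2 = 100 * (P.κ * n ^ 2) := by ring
      have h6 : 5 * P.κ * (n : ℝ) ^ 2 = 5 * (P.κ * n ^ 2) := by ring
      rw [h6]
      linarith only [hR, h4]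
    refine ⟨P.R, P.κ, by have := hP.R_pos; omega, le_rfl, by linarith only [hκ'], ?_, ?_, ?_, ?_⟩
    · have h1 : 6 / 5 * P.κ * (P.R : ℝ) ^ 2 = 6 / 5 * (P.κ * (P.R : ℝ) ^ 2) := by ring
      rw [h1]
      have h2 : 0 ≤ P.L ^ 2 * E.D := by positivity
      linarith only [hLc, hR, h2]
    · intro v _ hov
      rw [if_pos hov]
      have h4 : 0 ≤ fx P E x v := sq_nonneg _
      linarith only [h4]
    · intro _
      exact max_le (by linarith only [hκ, hf5]) (by linarith only [hκ])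
    · intro hf
      have := hP.κ_fs
      linarith only [hf5, hf, this]

/-- bound of the derivative of the self energy in the uniform direction -/
theorem deriv_bound (hr : 0 < r) (hP : P.Good E) (hox : o ∈ E.ball P.N x) (hSo : S o = none)
    (hK : Keep P E (4 * P.κ) P.Λ z S o) (a : Fin r)
    (hZ : sw P E z S o o (-(5 / 2 * P.κ)) a ≤ 48 * (P.Γ * P.ζ)) :
    Safe E.y (cs S) (fun v => lv P E z S x v - P.κ - P.κ / 4) ((win P E S x).erase o) ∧
    sw P E z S x o (-P.κ - P.κ / 4) a - sw P E z S x o (-P.κ) a ≤ P.M * (P.κ / 4) := by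
  obtain ⟨hAl, hTh⟩ := hK
  have hκ := hP.κ_pos
  have hζ := hP.ζ_pos
  have hκζ := hP.κ_le
  have hΓ := hP.Γ_ge
  obtain ⟨g, hg⟩ : ∃ g, g = P.Γ * P.ζ := ⟨_, rfl⟩
  have hgζ : P.ζ ≤ g := by rw [hg]; exact le_mul_of_one_le_left hζ.le hΓ
  have hg0 : 0 < g := lt_of_lt_of_le hζ hgζ
  rw [← hg] at hZ
  have hD := hP.D_ge
  have hN : P.N ≤ E.rad := by
    have := hP.rad
    omega
  have hdxo : E.d x o ≤ P.N := (E.mem_ball _ hN x o).1 hox
  have hxo : x ∈ E.ball P.N o := (E.mem_ball _ hN o x).2 (by rw [E.d_symm]; exact hdxo)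
  have hoo : o ∈ E.ball P.N o := (E.mem_ball _ hN o o).2 (by rw [E.d_self]; exact Nat.zero_le _)
  have hx := hAl x hxo
  have ho := hAl o hoo
  obtain ⟨tu1, tu2⟩ := trans_up' hr hP hox hSo hx ho a
  have htd : fx P E x o < P.fs → ∀ θ, 29 * max (fx P E x o) P.κ ≤ θ →
      sw P E z S o o θ a ≤ sw P E z S x o (-P.κ) a :=
    fun hf θ hθ => trans_down hr hP hox hSo hx ho a hf hθ
  have hW4 : Safe E.y (cs S) (fun v => lv P E z S x v - 4 * P.κ) ((win P E S x).erase o) :=
    Safe.subset hx (Finset.erase_subset _ _)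
  have hdW : ∀ v ∈ (win P E S x).erase o, E.d x v ≤ P.N := by
    intro v hv
    exact (E.mem_ball _ hN x v).1 (Finset.mem_filter.1 (Finset.mem_of_mem_erase hv)).1
  have hoW : o ∉ (win P E S x).erase o := Finset.notMem_erase _ _
  have hsW : ∀ i ∈ (win P E S x).erase o, cs S i = Function.update (cs S) o (some a) i :=
    fun i hi => (Function.update_of_ne (Finset.ne_of_mem_erase hi) _ _).symm
  have hsafe : ∀ l : α → ℝ, (∀ i ∈ (win P E S x).erase o, lv P E z S x i - 4 * P.κ ≤ l i) →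
      Safe E.y (cs S) l ((win P E S x).erase o) := fun l hl => hW4.mono hr E.herm hl
  obtain ⟨r₁, m₁, hr8, hm1κ, hm11, hgrow, hmar, hlow, hhigh⟩ := Deriv_cut hP hdxo
  have hm10 : 0 < m₁ := lt_of_lt_of_le hκ hm1κ
  obtain ⟨b, hb0, hb1, hb2, hb16, hbL⟩ := Deriv_rate hD hP.L_ge hm10 hm11 hgrow
  have hThθ := hTh a
  obtain ⟨W, hW⟩ : ∃ W, W = (win P E S x).erase o := ⟨_, rfl⟩
  obtain ⟨s, hs⟩ : ∃ s, s = Function.update (cs S) o (some a) := ⟨_, rfl⟩
  have hswx : ∀ c, sw P E z S x o c a = sg E.y s o (fun v => lv P E z S x v + c) W := by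
    intro c
    rw [hs, hW]
    rfl
  rw [← hW] at hdW hoW hsW hsafe tu1 tu2
  rw [← hs] at hsW tu2
  have hsafe' : ∀ l : α → ℝ, (∀ i ∈ W, lv P E z S x i - 4 * P.κ ≤ l i) →
      Safe E.y s l W := fun l hl => (hsafe l hl).congr hsW (fun _ _ => rfl)
  have tu1' := tu1.congr hsW (fun _ _ => rfl)
  -- base levels
  obtain ⟨ls, hls⟩ : ∃ ls : α → ℝ, ls = fun v => lv P E z S x v - P.κ := ⟨_, rfl⟩
  have hlsv : ∀ v, ls v = lv P E z S x v - P.κ := fun v => by rw [hls]
  obtain ⟨m, hm⟩ : ∃ m : α → ℝ, m = fun v => P.κ + if E.d o v ≤ P.R then fx P E x v / 2 else 0 :=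
    ⟨_, rfl⟩
  have hmv : ∀ v, m v = P.κ + if E.d o v ≤ P.R then fx P E x v / 2 else 0 := fun v => by rw [hm]
  have hmκ : ∀ v, P.κ ≤ m v := by
    intro v
    rw [hmv]
    have h4 : 0 ≤ fx P E x v := sq_nonneg _
    split_ifs
    · linarith only [h4]
    · linarith only []
  have efm : (fun v => lv P E z S x v - P.κ -
      (P.κ + if E.d o v ≤ P.R then fx P E x v / 2 else 0)) = fun v => ls v - m v := by
    funext v
    rw [hlsv, hmv]
  rw [efm] at tu1' tu2
  have e0 : sw P E z S x o (-P.κ) a = sg E.y s o ls W := by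
    rw [hswx, hls]
    simp only [sub_eq_add_neg]
  have e1 : sw P E z S x o (-P.κ - P.κ / 4) a = sg E.y s o (fun v => ls v - P.κ / 4) W := by
    rw [hswx]
    congr 1
    funext v
    rw [hlsv]
    ring
  have hSls : Safe E.y s ls W := hsafe' _ fun v _ => by rw [hlsv]; linarith only [hκ]
  have hSlsκ : Safe E.y s (fun v => ls v - P.κ) W := hsafe' _ fun v _ => by
    simp only [hlsv]
    linarith only [hκ]
  have hnn : 0 ≤ sg E.y s o ls W := sg_nonneg hr E.herm E.zd hoW hSls
  have hup : sg E.y s o (fun v => ls v - m v) W ≤ 48 * g := tu2.trans hZ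
  have hκup : sg E.y s o (fun v => ls v - P.κ) W ≤ 48 * g := by
    refine (sg_anti hr E.herm hoW tu1' ?_).trans hup
    intro v _
    have := hmκ v
    linarith only [this]
  have hDif : sg E.y s o (fun v => ls v - m v) W - sg E.y s o ls W ≤
      (46400 * P.Λ + 38400 * g / P.fs) * m₁ := by
    have hΛ := hP.Λ_ge
    have hfs0 := hP.fs_pos
    have hfnn : 0 ≤ fx P E x o := sq_nonneg _
    rcases lt_or_ge (fx P E x o) P.fs with hf | hf
    · obtain ⟨θ, hθ, hθ1, hθ2⟩ := hP.Θ_mem _ hfnn hf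
      have h1 := htd hf θ hθ1
      have h2 := hThθ θ hθ
      rw [e0] at h1
      have h3 := hlow hf
      have h4 : P.Λ * θ ≤ P.Λ * (46400 * m₁) :=
        mul_le_mul_of_nonneg_left (by linarith only [hθ2, h3]) (by linarith only [hΛ])
      have h5 : 0 ≤ 38400 * g / P.fs * m₁ := by (clear * - hg0 hfs0 hm10; positivity)
      have h6 : (46400 * P.Λ + 38400 * g / P.fs) * m₁ =
          P.Λ * (46400 * m₁) + 38400 * g / P.fs * m₁ := by ring
      rw [h6]
      linarith only [tu2, h1, h2, h4, h5]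
    · have h3 := hhigh hf
      have h4 : 48 * g ≤ 38400 * g / P.fs * m₁ := by
        rw [div_mul_eq_mul_div, le_div_iff₀ hfs0]
        have h5 := mul_le_mul_of_nonneg_left h3 (show 0 ≤ 48 * g by positivity)
        linarith only [h5]
      have h5 : 0 ≤ 46400 * P.Λ * m₁ := by (clear * - hΛ hm10; positivity)
      have h6 : (46400 * P.Λ + 38400 * g / P.fs) * m₁ =
          46400 * P.Λ * m₁ + 38400 * g / P.fs * m₁ := by ring
      rw [h6]
      linarith only [h5, h4, hnn, tu2, hZ]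
  -- far part
  obtain ⟨t, ht⟩ : ∃ t, t = P.κ / (96 * g) := ⟨_, rfl⟩
  have ht0 : 0 < t := by rw [ht]; positivity
  have ht1 : t ≤ 1 := by
    rw [ht, div_le_one (by positivity)]
    linarith only [hκ, hκζ, hgζ, hg0]
  have htκ : t * P.κ ≤ P.κ := by
    have := mul_le_mul_of_nonneg_right ht1 hκ.le
    linarith only [this]
  have hε : sg E.y s o (fun v => ls v - t * P.κ) W ≤ sg E.y s o ls W + P.κ / 2 := by
    have h1 := sg_conv hr E.herm hoW hSls hSlsκ ht0.le ht1
    have h2 : (fun i => (1 - t) * ls i + t * (ls i - P.κ)) = fun v => ls v - t * P.κ := by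
      funext v
      ring
    rw [h2] at h1
    have h3 : t * sg E.y s o (fun v => ls v - P.κ) W ≤ t * (48 * g) :=
      mul_le_mul_of_nonneg_left hκup ht0.le
    have h4 : t * (48 * g) = P.κ / 2 := by
      rw [ht]
      field_simp
      norm_num
    have h5 : 0 ≤ t * sg E.y s o ls W := mul_nonneg ht0.le hnn
    linarith only [h5, h4, h3, h1]
  have hdec := decay hr E.herm E.zd hoW (ρ := fun v => E.d o v) (E.d_self o)
    (fun v _ h => E.edge o v h)
    (fun v _ w _ h => by
      have h1 := E.edge v w h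
      have h2 := E.d_tri o v w
      have h3 := E.d_tri o w v
      rw [E.d_symm w v] at h3
      (clear * - h1 h2 h3; omega))
    hD (fun v _ => E.row v W) (fun v _ => lt_of_lt_of_le hκ (hmκ v)) tu1' hm10 hm11 hr8
    (fun v hv hv' => by
      rw [hmv]
      exact hmar v (hdW v hv) hv')
    hb0 hb1 hb2 hb16 (ε := t * P.κ)
    (by
      have h1 : 0 < ((1 + b) ^ r₁) ^ 2 := by (clear * - hb0; positivity)
      rw [div_le_iff₀ h1]
      have h2 := hP.hL
      rw [← hg] at h2
      have h3 : 250 * (E.D + 1) ≤ t * P.κ * 2 ^ P.L := by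
        have h4 : t * P.κ * 2 ^ P.L = P.κ ^ 2 * 2 ^ P.L / (96 * g) := by
          rw [ht]
          ring
        rw [h4, le_div_iff₀ (by positivity)]
        exact h2
      exact h3.trans (mul_le_mul_of_nonneg_left hbL (by (clear * - ht0 hκ; positivity))))
    (hsafe' _ fun v _ => by
      rw [hlsv]
      linarith only [hκ, htκ])
  have hSfar : Safe E.y s (fun v => ls v - if r₁ ≤ E.d o v then P.κ / 2 else 0) W :=
    hsafe' _ fun v _ => by
      simp only [hlsv]
      split_ifs <;> linarith only [hκ]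
  have hSnear : Safe E.y s (fun v => ls v - if r₁ ≤ E.d o v then 0 else P.κ / 2) W :=
    hsafe' _ fun v _ => by
      simp only [hlsv]
      split_ifs <;> linarith only [hκ]
  have hfar : sg E.y s o (fun v => ls v - if r₁ ≤ E.d o v then P.κ / 2 else 0) W ≤
      sg E.y s o ls W + P.κ / 2 := by
    refine (sg_anti hr E.herm hoW hdec.1 ?_).trans (hdec.2.trans hε)
    intro v _
    have h1 := hmκ v
    split_ifs <;> linarith only [h1]
  -- near part
  have hnear : sg E.y s o (fun v => ls v - if r₁ ≤ E.d o v then 0 else P.κ / 2) W ≤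
      sg E.y s o ls W + P.κ / 2 * (46400 * P.Λ + 38400 * g / P.fs) := by
    obtain ⟨u, hu⟩ : ∃ u, u = P.κ / (2 * m₁) := ⟨_, rfl⟩
    have hu0 : 0 < u := by rw [hu]; (clear * - hκ hm10; positivity)
    have hum : u * m₁ = P.κ / 2 := by
      rw [hu]
      (clear * - hm10 hκ; field_simp)
    have hu1 : u ≤ 1 := by
      rw [hu, div_le_one (by positivity)]
      linarith only [hκ, hm1κ]
    have h1 := sg_conv hr E.herm hoW hSls tu1' hu0.le hu1
    have h2 : sg E.y s o (fun v => ls v - if r₁ ≤ E.d o v then 0 else P.κ / 2) W ≤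
        sg E.y s o (fun i => (1 - u) * ls i + u * (ls i - m i)) W := by
      refine sg_anti hr E.herm hoW ?_ ?_
      · refine tu1'.mono hr E.herm fun v _ => ?_
        have h3 : u * m v ≤ 1 * m v :=
          mul_le_mul_of_nonneg_right hu1 (hκ.le.trans (hmκ v))
        linarith only [h3]
      · intro v hv
        have h3 : u * P.κ ≤ u * m v := mul_le_mul_of_nonneg_left (hmκ v) hu0.le
        have h4 : 0 ≤ u * P.κ := by (clear * - hu0 hκ; positivity)
        split_ifs with h5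
        · linarith only [h3, h4]
        · have h6 : m₁ ≤ m v := by
            rw [hmv]
            exact hmar v (hdW v hv) (by (clear * - h5; omega))
          have h7 : u * m₁ ≤ u * m v := mul_le_mul_of_nonneg_left h6 hu0.le
          linarith only [h7, hum]
    have h3 : u * (sg E.y s o (fun v => ls v - m v) W - sg E.y s o ls W) ≤
        u * ((46400 * P.Λ + 38400 * g / P.fs) * m₁) := mul_le_mul_of_nonneg_left hDif hu0.le
    have h4 : u * ((46400 * P.Λ + 38400 * g / P.fs) * m₁) =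
        P.κ / 2 * (46400 * P.Λ + 38400 * g / P.fs) := by
      rw [← hum]
      ring
    linarith only [h4, h3, h2, h1]
  rw [← hW]
  refine ⟨hsafe (fun v => lv P E z S x v - P.κ - P.κ / 4) fun v _ => by linarith only [hκ], ?_⟩
  rw [e0, e1]
  have hc := sg_conv hr E.herm hoW hSnear hSfar (t := 1 / 2) (by norm_num) (by norm_num)
  have hce : (fun i => (1 - 1 / 2 : ℝ) * (ls i - if r₁ ≤ E.d o i then 0 else P.κ / 2) +
      1 / 2 * (ls i - if r₁ ≤ E.d o i then P.κ / 2 else 0)) = fun v => ls v - P.κ / 4 := by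
    funext v
    split_ifs <;> ring
  rw [hce] at hc
  have hM := mul_le_mul_of_nonneg_right hP.hM (show 0 ≤ P.κ / 4 by positivity)
  rw [← hg] at hM
  linarith only [hfar, hnear, hc, hM]

end Vale.Agent.P078.MT
end
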