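import Vale.Agent.P078.H291.MT1

set_option linter.all false

section
/-! T3-E: the process. -/

namespace Vale.Agent.P078.MT

open Vale.Agent.P078.T

open Finset Polynomial
open Vale.Agent.P078.C (Herm ZD FB qf yc Q)

variable {α : Type*} [DecidableEq α] {r m : ℕ}

/-- a family of kernels on the same discrete metric space, with good parameters -/
structure Fam {ι : Type} [Fintype ι] (P : Par) (F : ι → Env α) : Prop where
  good : ∀ j, P.Good (F j)
  ball : ∀ i j, (F i).ball = (F j).ball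
  card : (Fintype.card ι : ℝ) ≤ 2 * P.Γ

/-- a rule which respects all the kernels of the family -/
structure Valid {ι : Type} (𝓡 : Rule α r) (P : Par) (F : ι → Env α) : Prop where
  weak : ∀ t < P.T, ∀ S o, S o = none → 𝓡.keep t S o →
    ∀ j, Keep P (F j) (4 * P.κ) P.Λ (P.zt t) S o
  strong : ∀ t < P.T, ∀ S o, S o = none →
    (∀ j, Keep P (F j) (5 * P.κ) (P.Λ / 2) (P.zt t) S o) → 𝓡.keep t S o
  allow_weak : ∀ t < P.T, ∀ S o, S o = none → 𝓡.keep t S o → ∀ a ∈ 𝓡.allow t S o,
    ∀ j, sw P (F j) (P.zt t) S o o 0 a ≤ 6 * (P.Γ * P.zt t)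
  allow_strong : ∀ t < P.T, ∀ S o, S o = none → 𝓡.keep t S o → ∀ a,
    (∀ j, sw P (F j) (P.zt t) S o o 0 a ≤ 5 * (P.Γ * P.zt t)) → a ∈ 𝓡.allow t S o
  pick_mem : ∀ o π (O : Finset (Fin r)), O.Nonempty → 𝓡.pick o π O ∈ O
  pick_unif : ∀ o (O : Finset (Fin r)), ∀ a ∈ O, ∀ b ∈ O,
    (Finset.univ.filter fun π => 𝓡.pick o π O = a).card =
      (Finset.univ.filter fun π => 𝓡.pick o π O = b).card

open Classical in
/-- one step: the classes with time `t` are processed -/
noncomputable def step (P : Par) (E : Env α) (𝓡 : Rule α r) (cls : α → Fin m) (τ : Fin m → ℕ)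
    (ρ : Fin m → Equiv.Perm (Fin r)) (t : ℕ) (S : α → St r) : α → St r := fun v =>
  if S v = none ∧ τ (cls v) = t then
    if (∃ w ∈ E.ball (2 * P.N) v, w ≠ v ∧ τ (cls w) = t) ∨ ¬ 𝓡.keep t S v then some none
    else some (some (𝓡.pick v (ρ (cls v)) (𝓡.allow t S v)))
  else S v

/-- the state before the step `t` -/
noncomputable def run (P : Par) (E : Env α) (𝓡 : Rule α r) (cls : α → Fin m) (τ : Fin m → ℕ)
    (ρ : Fin m → Equiv.Perm (Fin r)) : ℕ → α → St r
  | 0 => fun _ => none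
  | t + 1 => step P E 𝓡 cls τ ρ t (run P E 𝓡 cls τ ρ t)

/-- classes are sparse -/
def SparseCls (P : Par) (E : Env α) (cls : α → Fin m) : Prop :=
  ∀ v w, v ≠ w → cls v = cls w → 2 * P.N < E.d v w

/-- the undecided system is safe -/
def Ini (P : Par) (E : Env α) (r : ℕ) : Prop :=
  ∀ W : Finset α, Safe E.y (fun _ => (none : Option (Fin r))) (fun _ => 2 / 3 * P.ζ) W

variable {P : Par} {E : Env α} {𝓡 : Rule α r} {cls : α → Fin m} {τ τ' : Fin m → ℕ}
variable {ρ ρ' : Fin m → Equiv.Perm (Fin r)} {t : ℕ} {x v : α}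

theorem run_none_iff : run P E 𝓡 cls τ ρ t v = none ↔ t ≤ τ (cls v) := by
  induction t with
  | zero => simp only [run, zero_le]
  | succ t ih =>
    simp only [run, step]
    by_cases h : run P E 𝓡 cls τ ρ t v = none ∧ τ (cls v) = t
    · rw [if_pos h]
      have h1 : ¬ t + 1 ≤ τ (cls v) := by have := h.2; omega
      split_ifs <;> simp [h1]
    · rw [if_neg h, ih]
      constructor
      · intro h1
        have h2 : τ (cls v) ≠ t := fun h2 => h ⟨ih.2 h1, h2⟩
        omega
      · intro h1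
        omega

/-- the state at time `t` depends only on the classes already processed -/
theorem run_congr (h : ∀ j, (τ j = τ' j ∧ ρ j = ρ' j) ∨ (t ≤ τ j ∧ t ≤ τ' j)) :
    run P E 𝓡 cls τ ρ t = run P E 𝓡 cls τ' ρ' t := by
  induction t with
  | zero => rfl
  | succ t ih =>
    have h' : ∀ j, (τ j = τ' j ∧ ρ j = ρ' j) ∨ (t ≤ τ j ∧ t ≤ τ' j) := by
      intro j
      rcases h j with h1 | h1
      · exact Or.inl h1
      · exact Or.inr ⟨by omega, by omega⟩
    have e := ih h'
    have hτ : ∀ j, τ j = t ↔ τ' j = t := by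
      intro j
      rcases h j with h1 | h1
      · rw [h1.1]
      · constructor <;> intro h2 <;> omega
    funext v
    simp only [run, step, e, hτ]
    by_cases hc : run P E 𝓡 cls τ' ρ' t v = none ∧ τ' (cls v) = t
    · rw [if_pos hc, if_pos hc]
      rcases h (cls v) with h1 | h1
      · rw [h1.2]
        have hiff : ((∃ w ∈ E.ball (2 * P.N) v, w ≠ v ∧ τ (cls w) = t) ∨
            ¬ 𝓡.keep t (run P E 𝓡 cls τ ρ t) v) ↔
            ((∃ w ∈ E.ball (2 * P.N) v, w ≠ v ∧ τ' (cls w) = t) ∨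
            ¬ 𝓡.keep t (run P E 𝓡 cls τ' ρ' t) v) := by
          rw [e]
          simp only [hτ]
        by_cases hq : (∃ w ∈ E.ball (2 * P.N) v, w ≠ v ∧ τ' (cls w) = t) ∨
            ¬ 𝓡.keep t (run P E 𝓡 cls τ' ρ' t) v
        · rw [if_pos hq, if_pos (hiff.2 hq)]
        · rw [if_neg hq, if_neg fun hq' => hq (hiff.1 hq')]
      · have := hc.2
        omega
    · rw [if_neg hc, if_neg hc]

/-- in every window a step is either a deletion or the decision of one point -/
theorem step_cases (hsp : SparseCls P E cls) (hrad : 2 * P.N ≤ E.rad) (x : α) (t : ℕ) :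
    (∀ v ∈ win P E (run P E 𝓡 cls τ ρ t) x,
      run P E 𝓡 cls τ ρ (t + 1) v = run P E 𝓡 cls τ ρ t v ∨
      run P E 𝓡 cls τ ρ (t + 1) v = some none) ∨
    ∃ o ∈ win P E (run P E 𝓡 cls τ ρ t) x, run P E 𝓡 cls τ ρ t o = none ∧ τ (cls o) = t ∧
      𝓡.keep t (run P E 𝓡 cls τ ρ t) o ∧
      ∀ ρ' : Fin m → Equiv.Perm (Fin r), (∀ j, j ≠ cls o → ρ' j = ρ j) →
        run P E 𝓡 cls τ ρ' t = run P E 𝓡 cls τ ρ t ∧
        run P E 𝓡 cls τ ρ' (t + 1) o =
          some (some (𝓡.pick o (ρ' (cls o)) (𝓡.allow t (run P E 𝓡 cls τ ρ t) o))) ∧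
        ∀ v ∈ win P E (run P E 𝓡 cls τ ρ t) x, v ≠ o →
          run P E 𝓡 cls τ ρ' (t + 1) v = run P E 𝓡 cls τ ρ t v := by
  classical
  by_cases hA : ∀ v ∈ win P E (run P E 𝓡 cls τ ρ t) x,
      run P E 𝓡 cls τ ρ t v = none ∧ τ (cls v) = t →
      (∃ w ∈ E.ball (2 * P.N) v, w ≠ v ∧ τ (cls w) = t) ∨ ¬ 𝓡.keep t (run P E 𝓡 cls τ ρ t) v
  · left
    intro v hv
    by_cases hc : run P E 𝓡 cls τ ρ t v = none ∧ τ (cls v) = t
    · right
      change step P E 𝓡 cls τ ρ t (run P E 𝓡 cls τ ρ t) v = some none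
      rw [step, if_pos hc, if_pos (hA v hv hc)]
    · left
      change step P E 𝓡 cls τ ρ t (run P E 𝓡 cls τ ρ t) v = _
      rw [step, if_neg hc]
  · right
    push Not at hA
    obtain ⟨o, ho, ⟨ho1, ho2⟩, ho3, ho4⟩ := hA
    refine ⟨o, ho, ho1, ho2, ho4, fun ρ' hρ => ?_⟩
    have e : run P E 𝓡 cls τ ρ' t = run P E 𝓡 cls τ ρ t := by
      refine run_congr fun j => ?_
      by_cases hj : j = cls o
      · right
        rw [hj, ho2]
        exact ⟨le_rfl, le_rfl⟩
      · exact Or.inl ⟨rfl, hρ j hj⟩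
    refine ⟨e, ?_, fun v hv hvo => ?_⟩
    · change step P E 𝓡 cls τ ρ' t (run P E 𝓡 cls τ ρ' t) o = _
      rw [e, step, if_pos ⟨ho1, ho2⟩, if_neg]
      rintro (⟨w, hw, hwo, hwt⟩ | h2)
      · exact ho3 w hw hwo hwt
      · exact h2 ho4
    · change step P E 𝓡 cls τ ρ' t (run P E 𝓡 cls τ ρ' t) v = _
      rw [e, step, if_neg]
      rintro ⟨-, hvt⟩
      refine ho3 v ?_ hvo hvt
      have hN : P.N ≤ E.rad := by omega
      have h1 : E.d x o ≤ P.N := (E.mem_ball _ hN x o).1 (Finset.mem_filter.1 ho).1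
      have h2 : E.d x v ≤ P.N := (E.mem_ball _ hN x v).1 (Finset.mem_filter.1 hv).1
      rw [E.mem_ball _ hrad]
      have h3 := E.d_tri o x v
      have h4 := E.d_symm o x
      (clear * - h1 h2 h3 h4; omega)

end Vale.Agent.P078.MT
end

section
/-! T3-E5: all windows stay safe. -/

namespace Vale.Agent.P078.MT

open Vale.Agent.P078.T

open Finset Polynomial
open Vale.Agent.P078.C (Herm ZD FB qf yc Q)

variable {α : Type*} [DecidableEq α] {r m : ℕ}
variable {P : Par} {E : Env α} {𝓡 : Rule α r} {cls : α → Fin m} {τ : Fin m → ℕ}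
variable {ρ : Fin m → Equiv.Perm (Fin r)} {t : ℕ} {x v : α}

/-- monotonicity of `Alive` in the base level, the margin and under deletions -/
private theorem alive_mono_inv (hr : 0 < r) {S S' : α → St r} {z z' b b' : ℝ}
    (h : Alive P E z S b x) (hz : z ≤ z') (hb : b' ≤ b)
    (hS : ∀ v ∈ E.ball P.N x, S' v = S v ∨ S' v = some none) : Alive P E z' S' b' x := by
  have hsub : win P E S' x ⊆ win P E S x := by
    intro v hv
    rw [win, mem_filter] at hv ⊢
    rcases hS v hv.1 with h1 | h1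
    · exact ⟨hv.1, h1 ▸ hv.2⟩
    · exact absurd h1 hv.2
  have heq : ∀ v ∈ win P E S' x, S' v = S v := by
    intro v hv
    rw [win, mem_filter] at hv
    exact (hS v hv.1).resolve_right hv.2
  unfold Alive at h ⊢
  refine Safe.mono hr E.herm ((h.subset hsub).congr (s' := cs S')
    (l' := fun v => lv P E z S x v - b) (fun i hi => ?_) (fun i _ => rfl)) (fun i hi => ?_)
  · rw [cs, cs, heq i hi]
  · simp only [lv, heq i hi]
    linarith only [hz, hb]

/-- all windows stay safe with margin `κ` -/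
theorem inv {ι : Type} [Fintype ι] {F : ι → Env α} {i : ι} (hE : F i = E) (hF : Fam P F)
    (hr : 0 < r) (hP : P.Good E) (h𝓡 : Valid 𝓡 P F)
    (hsp : SparseCls P E cls) (hi : Ini P E r) (t : ℕ) (ht : t ≤ P.T) (x : α) :
    Alive P E (P.zt t) (run P E 𝓡 cls τ ρ t) P.κ x := by
  have hT : (0 : ℝ) < P.T := by exact_mod_cast hP.T_pos
  have hzt : ∀ s : ℕ, s ≤ P.T → P.ζ ≤ P.zt s ∧ P.zt s ≤ 2 * P.ζ := by
    intro s hs
    have h1 : (s : ℝ) / P.T ≤ 1 := by
      rw [div_le_one hT]
      exact_mod_cast hs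
    have h0 : 0 ≤ (s : ℝ) / P.T := by (clear * - hT; positivity)
    have hζ := hP.ζ_pos
    unfold Par.zt
    constructor
    · nlinarith only [h0, hζ]
    · linarith [mul_nonneg (sub_nonneg.2 h1) (le_of_lt (sub_pos.2 hζ))]
  induction t generalizing x with
  | zero =>
    unfold Alive
    refine Safe.mono hr E.herm ((hi (win P E (run P E 𝓡 cls τ ρ 0) x)).congr
      (s' := cs (run P E 𝓡 cls τ ρ 0)) (l' := fun _ => 2 / 3 * P.ζ) (fun i _ => rfl)
      (fun i _ => rfl)) (fun i _ => ?_)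
    have h0 : run P E 𝓡 cls τ ρ 0 i = none := rfl
    have h1 := hP.κ_le
    have h2 : 0 ≤ fx P E x i := sq_nonneg _
    have h3 := (hzt 0 (Nat.zero_le _)).1
    have h4 := hP.ζ_pos
    simp only [lv, h0, if_true]
    linarith only [h1, h2, h3, h4]
  | succ t ih =>
    have htT : t < P.T := ht
    have hzz : P.zt t ≤ P.zt (t + 1) := by
      unfold Par.zt
      have hζ := hP.ζ_pos
      have h1 : (t : ℝ) / P.T ≤ ((t + 1 : ℕ) : ℝ) / P.T := by
        apply div_le_div_of_nonneg_right _ hT.le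
        push_cast
        linarith only []
      linarith only [mul_nonneg (le_of_lt (sub_pos.2 hζ)) (sub_nonneg.2 h1)]
    have hdel : ∀ v, run P E 𝓡 cls τ ρ t v = some none →
        run P E 𝓡 cls τ ρ (t + 1) v = some none := by
      intro v hv
      change step P E 𝓡 cls τ ρ t (run P E 𝓡 cls τ ρ t) v = some none
      rw [step, if_neg (by rintro ⟨h1, _⟩; rw [hv] at h1; cases h1), hv]
    rcases step_cases (τ := τ) (ρ := ρ) (𝓡 := 𝓡) hsp hP.rad x t with h | h
    · refine alive_mono_inv hr (ih htT.le x) hzz le_rfl (fun v hv => ?_)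
      by_cases hv1 : run P E 𝓡 cls τ ρ t v = some none
      · exact Or.inr (hdel v hv1)
      · exact h v (by rw [win, mem_filter]; exact ⟨hv, hv1⟩)
    · obtain ⟨o, ho, hSo, -, hk, h1⟩ := h
      obtain ⟨-, h2, h3⟩ := h1 ρ (fun _ _ => rfl)
      have hN : P.N ≤ E.rad := by have := hP.rad; omega
      have hox : o ∈ E.ball P.N x := by rw [win, mem_filter] at ho; exact ho.1
      have hxo : x ∈ E.ball P.N o := by
        rw [E.mem_ball _ hN] at hox ⊢
        rwa [E.d_symm]
      have hoo : o ∈ E.ball P.N o := by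
        rw [E.mem_ball _ hN, E.d_self]
        exact Nat.zero_le _
      have hw := h𝓡.weak t htT _ o hSo hk
      have hw1 : Keep P E (4 * P.κ) P.Λ (P.zt t) (run P E 𝓡 cls τ ρ t) o := hE ▸ hw i
      obtain ⟨hz1, hz2⟩ := hzt t htT.le
      have hcard := card_allow hr hF.good hF.card hP.Γ_ge hz1 hSo
        (fun j => (hw j).1 o (by rw [hF.ball j i, hE]; exact hoo))
        (𝓡.allow t (run P E 𝓡 cls τ ρ t) o) (fun a ha => h𝓡.allow_strong t htT _ o hSo hk a ha)
      have hne : (𝓡.allow t (run P E 𝓡 cls τ ρ t) o).Nonempty := by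
        rw [← card_pos]
        omega
      have hmem := h𝓡.pick_mem o (ρ (cls o)) _ hne
      have ha := h𝓡.allow_weak t htT _ o hSo hk _ hmem i
      rw [hE] at ha
      have hal := alive_update hr hP hz1 hz2 hSo hox (hw1.1 x hxo) (hw1.1 o hoo) ha
      have hκ := hP.κ_pos
      refine alive_mono_inv hr hal hzz (by linarith only [hκ]) (fun v hv => ?_)
      by_cases hvo : v = o
      · subst hvo
        left
        rw [h2, Function.update_self]
      · rw [Function.update_of_ne hvo]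
        by_cases hv1 : run P E 𝓡 cls τ ρ t v = some none
        · exact Or.inr (hdel v hv1)
        · exact Or.inl (h3 v (by rw [win, mem_filter]; exact ⟨hv, hv1⟩) hvo)

end Vale.Agent.P078.MT
end
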