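import Vale.Agent.P078.H291.MT2
import Vale.Agent.P078.Bdl.T3

set_option linter.all false

section
/-! T3-F4: clopen sandwiches for the conditions of the rule. -/

namespace Vale.Agent.P078.MT

open Vale.Agent.P078.T

open Finset Polynomial
open scoped Pointwise Classical Topology
open Vale.Agent.P078.C (Herm ZD FB qf yc Q)

variable {X G : Type*} [TopologicalSpace X] [Group G] [MulAction G X] {r : ℕ}

/-- the elements of the group which give the window of centre `g • x`, `x` near `x0` -/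
private noncomputable def dJ (𝔖 : Sys3 X G) (P : Par) (n : ℕ) (π : G → St r) (x0 : X) (g : G) :
    Finset G :=
  ((𝔖.ballG P.N).image fun k => k * g).filter fun k => ext 𝔖 n π x0 (k • x0) ≠ some none

/-- `q` on a piece of a window -/
private noncomputable def dF (𝔖 : Sys3 X G) (h : FB 1 1 𝔖.y) (cap : ℕ) (P : Par) (n : ℕ)
    (z : ℝ) (π : G → St r) (b : ℝ) (g : G) (J : Finset G) (x : X) : ℝ :=
  q 𝔖.y (cs (ext 𝔖 n π x)) (fun v => lv P (𝔖.toEnv h cap) z (ext 𝔖 n π x) (g • x) v - b)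
    (J.image fun k => k • x)

private theorem d_win_ev (𝔖 : Sys3 X G) (h : FB 1 1 𝔖.y) (cap : ℕ) (P : Par) (n : ℕ)
    (π : G → St r) (x0 : X) (g : G) :
    ∀ᶠ x in 𝓝 x0, win P (𝔖.toEnv h cap) (ext 𝔖 n π x) (g • x) =
      (dJ 𝔖 P n π x0 g).image fun k => k • x := by
  have h1 : ∀ᶠ x in 𝓝 x0, ∀ k ∈ (𝔖.ballG P.N).image fun k => k * g,
      ext 𝔖 n π x (k • x) = ext 𝔖 n π x0 (k • x0) :=
    (Filter.eventually_all_finset _).2 fun k _ => ext_ev 𝔖 n π x0 k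
  filter_upwards [h1] with x hx
  have h2 : (𝔖.toEnv h cap).ball P.N (g • x) =
      ((𝔖.ballG P.N).image fun k => k * g).image fun k => k • x := by
    change (𝔖.ballG P.N).image (fun k => k • (g • x)) = _
    rw [Finset.image_image]
    refine Finset.image_congr fun k _ => ?_
    simp only [Function.comp_apply, mul_smul]
  unfold win
  rw [h2, Finset.filter_image]
  unfold dJ
  congr 1
  refine Finset.filter_congr fun k hk => ?_
  rw [hx k hk]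

private theorem d_lv_ev (𝔖 : Sys3 X G) (h : FB 1 1 𝔖.y) (cap : ℕ) (P : Par) (n : ℕ)
    (z : ℝ) (π : G → St r) (x0 : X) (g k : G) :
    ∀ᶠ x in 𝓝 x0, lv P (𝔖.toEnv h cap) z (ext 𝔖 n π x) (g • x) (k • x) =
      lv P (𝔖.toEnv h cap) z (ext 𝔖 n π x0) (g • x0) (k • x0) := by
  filter_upwards [ext_ev 𝔖 n π x0 k, dist_ev 𝔖 cap g k x0] with x h1 h2
  have h3 : fx P (𝔖.toEnv h cap) (g • x) (k • x) = fx P (𝔖.toEnv h cap) (g • x0) (k • x0) := by
    unfold fx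
    change (P.c / ((P.N : ℝ) + 1 - (𝔖.dist cap (g • x) (k • x) : ℝ))) ^ 2 =
      (P.c / ((P.N : ℝ) + 1 - (𝔖.dist cap (g • x0) (k • x0) : ℝ))) ^ 2
    rw [h2]
  unfold lv
  rw [h1, h3]

private theorem d_F_cont (𝔖 : Sys3 X G) (h : FB 1 1 𝔖.y) (cap : ℕ) (P : Par) (n : ℕ)
    (z : ℝ) (π : G → St r) (x0 : X) (b : ℝ) (g : G) (J : Finset G) :
    ContinuousAt (dF 𝔖 h cap P n z π b g J) x0 := by
  unfold dF
  refine q_contAt 𝔖 J x0 (fun x => cs (ext 𝔖 n π x))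
    (fun x v => lv P (𝔖.toEnv h cap) z (ext 𝔖 n π x) (g • x) v - b) (fun k _ => ?_) fun k _ => ?_
  · filter_upwards [ext_ev 𝔖 n π x0 k] with x hx
    unfold cs
    rw [hx]
  · filter_upwards [d_lv_ev 𝔖 h cap P n z π x0 g k] with x hx
    rw [hx]

private theorem d_alive_ev (𝔖 : Sys3 X G) (h : FB 1 1 𝔖.y) (cap : ℕ) (P : Par) (n : ℕ)
    (z : ℝ) (π : G → St r) (x0 : X) (g : G) :
    ∀ᶠ x in 𝓝 x0, ∀ b : ℝ, Alive P (𝔖.toEnv h cap) z (ext 𝔖 n π x) b (g • x) ↔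
      ∀ J ∈ (dJ 𝔖 P n π x0 g).powerset, 0 < dF 𝔖 h cap P n z π b g J x := by
  filter_upwards [d_win_ev 𝔖 h cap P n π x0 g] with x hx b
  unfold Alive Safe
  rw [hx]
  constructor
  · intro H J hJ
    exact H _ (Finset.image_subset_image (Finset.mem_powerset.1 hJ))
  · intro H U hU
    obtain ⟨J, hJ, rfl⟩ := Finset.subset_image_iff.1 hU
    exact H J (Finset.mem_powerset.2 hJ)

private theorem d_sw_cont (hr : 0 < r) (𝔖 : Sys3 X G) (h : FB 1 1 𝔖.y) (cap : ℕ) (P : Par) (n : ℕ)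
    (z : ℝ) (π : G → St r) (x0 : X) {c : ℝ}
    (hx0 : Alive P (𝔖.toEnv h cap) z (ext 𝔖 n π x0) c x0) {b : ℝ} (hb : -c ≤ b) (a : Fin r) :
    ContinuousAt (fun x => sw P (𝔖.toEnv h cap) z (ext 𝔖 n π x) x x b a) x0 := by
  have e1 : ∀ k : G, ∀ᶠ x in 𝓝 x0, (k • x = x ↔ k • x0 = x0) := by
    intro k
    have := 𝔖.nice_ev_eq k 1 x0
    simpa only [one_smul] using this
  set J1 : Finset G := (dJ 𝔖 P n π x0 1).filter fun k => k • x0 ≠ x0 with hJ1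
  have e2 : ∀ᶠ x in 𝓝 x0, (win P (𝔖.toEnv h cap) (ext 𝔖 n π x) x).erase x =
      J1.image fun k => k • x := by
    have h1 : ∀ᶠ x in 𝓝 x0, ∀ k ∈ dJ 𝔖 P n π x0 1, (k • x = x ↔ k • x0 = x0) :=
      (Filter.eventually_all_finset _).2 fun k _ => e1 k
    filter_upwards [h1, d_win_ev 𝔖 h cap P n π x0 1] with x hx hw
    rw [one_smul] at hw
    rw [hw, hJ1, ← Finset.filter_ne', Finset.filter_image]
    congr 1
    refine Finset.filter_congr fun k hk => ?_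
    exact not_congr (hx k hk)
  have hs : ∀ k : G, ∀ᶠ x in 𝓝 x0,
      Function.update (cs (ext 𝔖 n π x)) x (some a) (k • x) =
        Function.update (cs (ext 𝔖 n π x0)) x0 (some a) (k • x0) := by
    intro k
    filter_upwards [e1 k, ext_ev 𝔖 n π x0 k] with x hx he
    by_cases hk : k • x0 = x0
    · rw [hx.2 hk, hk, Function.update_self, Function.update_self]
    · rw [Function.update_of_ne (fun h' => hk (hx.1 h')), Function.update_of_ne hk]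
      unfold cs
      rw [he]
  have hl : ∀ k : G, ∀ᶠ x in 𝓝 x0,
      lv P (𝔖.toEnv h cap) z (ext 𝔖 n π x) x (k • x) + b =
        lv P (𝔖.toEnv h cap) z (ext 𝔖 n π x0) x0 (k • x0) + b := by
    intro k
    have := d_lv_ev 𝔖 h cap P n z π x0 1 k
    simp only [one_smul] at this
    filter_upwards [this] with x hx
    rw [hx]
  have hl' : ∀ k : G, ∀ᶠ x in 𝓝 x0,
      Function.update (fun v => lv P (𝔖.toEnv h cap) z (ext 𝔖 n π x) x v + b) x 0 (k • x) =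
        Function.update (fun v => lv P (𝔖.toEnv h cap) z (ext 𝔖 n π x0) x0 v + b) x0 0
          (k • x0) := by
    intro k
    filter_upwards [e1 k, hl k] with x hx he
    by_cases hk : k • x0 = x0
    · rw [hx.2 hk, hk, Function.update_self, Function.update_self]
    · rw [Function.update_of_ne (fun h' => hk (hx.1 h')), Function.update_of_ne hk]
      exact he
  have c1 := q_contAt 𝔖 (insert 1 J1) x0
    (fun x => Function.update (cs (ext 𝔖 n π x)) x (some a))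
    (fun x => Function.update (fun v => lv P (𝔖.toEnv h cap) z (ext 𝔖 n π x) x v + b) x 0)
    (fun k _ => hs k) fun k _ => hl' k
  have c2 := q_contAt 𝔖 J1 x0
    (fun x => Function.update (cs (ext 𝔖 n π x)) x (some a))
    (fun x v => lv P (𝔖.toEnv h cap) z (ext 𝔖 n π x) x v + b)
    (fun k _ => hs k) fun k _ => hl k
  have h0 : (win P (𝔖.toEnv h cap) (ext 𝔖 n π x0) x0).erase x0 = J1.image fun k => k • x0 :=
    e2.self_of_nhds
  have hpos : 0 < q 𝔖.y (Function.update (cs (ext 𝔖 n π x0)) x0 (some a))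
      (fun v => lv P (𝔖.toEnv h cap) z (ext 𝔖 n π x0) x0 v + b) (J1.image fun k => k • x0) := by
    rw [← h0]
    have s1 : Safe 𝔖.y (cs (ext 𝔖 n π x0))
        (fun v => lv P (𝔖.toEnv h cap) z (ext 𝔖 n π x0) x0 v + b)
        (win P (𝔖.toEnv h cap) (ext 𝔖 n π x0) x0) :=
      Safe.mono hr 𝔖.herm hx0 fun i _ => by linarith only [hb]
    have s2 := s1 _ (Finset.erase_subset x0 _)
    rwa [q_congr (s' := Function.update (cs (ext 𝔖 n π x0)) x0 (some a)) (fun i hi =>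
      (Function.update_of_ne (Finset.ne_of_mem_erase hi) _ _).symm) fun i _ => rfl] at s2
  refine ContinuousAt.congr (c1.neg.div c2 hpos.ne') ?_
  filter_upwards [e2] with x hx
  unfold sw sg
  rw [hx]
  have h3 : insert x (J1.image fun k => k • x) = (insert 1 J1).image fun k => k • x := by
    rw [Finset.image_insert, one_smul]
  rw [h3]
  rfl

/-- near each point, either the weak condition holds or the strong condition fails -/
theorem keep_dich (hr : 0 < r) (𝔖 : Sys3 X G) (h : FB 1 1 𝔖.y) {cap : ℕ} {P : Par}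
    (hcap : 2 * P.N ≤ cap) (hκ : 0 < P.κ) (hΛ : 0 < P.Λ) (hΘ : ∀ θ ∈ P.Θ, 0 < θ) (z : ℝ)
    (π : G → St r) (x0 : X) :
    (∀ᶠ x in 𝓝 x0, Keep P (𝔖.toEnv h cap) (4 * P.κ) P.Λ z (ext 𝔖 (2 * P.N) π x) x) ∨
    (∀ᶠ x in 𝓝 x0, ¬ Keep P (𝔖.toEnv h cap) (5 * P.κ) (P.Λ / 2) z (ext 𝔖 (2 * P.N) π x) x) := by
  have hal : ∀ᶠ x in 𝓝 x0, ∀ g ∈ 𝔖.ballG P.N, ∀ b : ℝ,
      Alive P (𝔖.toEnv h cap) z (ext 𝔖 (2 * P.N) π x) b (g • x) ↔
      ∀ J ∈ (dJ 𝔖 P (2 * P.N) π x0 g).powerset, 0 < dF 𝔖 h cap P (2 * P.N) z π b g J x :=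
    (Filter.eventually_all_finset _).2 fun g _ => d_alive_ev 𝔖 h cap P (2 * P.N) z π x0 g
  have hball : ∀ (x : X) (b : ℝ),
      (∀ x' ∈ (𝔖.toEnv h cap).ball P.N x,
        Alive P (𝔖.toEnv h cap) z (ext 𝔖 (2 * P.N) π x) b x') ↔
      ∀ g ∈ 𝔖.ballG P.N, Alive P (𝔖.toEnv h cap) z (ext 𝔖 (2 * P.N) π x) b (g • x) := by
    intro x b
    constructor
    · intro H g hg
      exact H _ (Sys3.mem_ball.2 ⟨g, hg, rfl⟩)
    · intro H x' hx'
      obtain ⟨g, hg, rfl⟩ := Sys3.mem_ball.1 hx'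
      exact H g hg
  by_cases hA : ∀ g ∈ 𝔖.ballG P.N, ∀ J ∈ (dJ 𝔖 P (2 * P.N) π x0 g).powerset,
      0 < dF 𝔖 h cap P (2 * P.N) z π (4 * P.κ) g J x0
  · have h0 : Alive P (𝔖.toEnv h cap) z (ext 𝔖 (2 * P.N) π x0) (4 * P.κ) x0 := by
      have := (hal.self_of_nhds 1 (𝔖.one_mem_ballG _) (4 * P.κ)).2 (hA 1 (𝔖.one_mem_ballG _))
      rwa [one_smul] at this
    have hc : ∀ (a : Fin r) (θ : ℝ), θ ∈ P.Θ → ContinuousAt (fun x =>
        sw P (𝔖.toEnv h cap) z (ext 𝔖 (2 * P.N) π x) x x (-(5 / 2 * P.κ)) a -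
          sw P (𝔖.toEnv h cap) z (ext 𝔖 (2 * P.N) π x) x x θ a) x0 := fun a θ hθ =>
      (d_sw_cont hr 𝔖 h cap P _ z π x0 h0 (by linarith only [hκ]) a).sub
        (d_sw_cont hr 𝔖 h cap P _ z π x0 h0 (by have := hΘ θ hθ; linarith only [hκ, this]) a)
    by_cases hB : ∀ (a : Fin r), ∀ θ ∈ P.Θ,
        sw P (𝔖.toEnv h cap) z (ext 𝔖 (2 * P.N) π x0) x0 x0 (-(5 / 2 * P.κ)) a -
          sw P (𝔖.toEnv h cap) z (ext 𝔖 (2 * P.N) π x0) x0 x0 θ a < P.Λ * θ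
    · left
      have v1 : ∀ᶠ x in 𝓝 x0, ∀ g ∈ 𝔖.ballG P.N, ∀ J ∈ (dJ 𝔖 P (2 * P.N) π x0 g).powerset,
          0 < dF 𝔖 h cap P (2 * P.N) z π (4 * P.κ) g J x :=
        (Filter.eventually_all_finset _).2 fun g hg =>
          (Filter.eventually_all_finset _).2 fun J hJ =>
            (d_F_cont 𝔖 h cap P (2 * P.N) z π x0 (4 * P.κ) g J).eventually
              (lt_mem_nhds (hA g hg J hJ))
      have v2 : ∀ᶠ x in 𝓝 x0, ∀ (a : Fin r), ∀ θ ∈ P.Θ,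
          sw P (𝔖.toEnv h cap) z (ext 𝔖 (2 * P.N) π x) x x (-(5 / 2 * P.κ)) a -
            sw P (𝔖.toEnv h cap) z (ext 𝔖 (2 * P.N) π x) x x θ a < P.Λ * θ :=
        Filter.eventually_all.2 fun a => (Filter.eventually_all_finset _).2 fun θ hθ =>
          (hc a θ hθ).eventually (gt_mem_nhds (hB a θ hθ))
      filter_upwards [hal, v1, v2] with x hx w1 w2
      exact ⟨(hball x _).2 fun g hg => (hx g hg _).2 (w1 g hg), fun a θ hθ => (w2 a θ hθ).le⟩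
    · right
      push Not at hB
      obtain ⟨a, θ, hθ, hlt⟩ := hB
      have h1 : P.Λ / 2 * θ < P.Λ * θ := by
        have := mul_pos hΛ (hΘ θ hθ)
        linarith only [this]
      filter_upwards [(hc a θ hθ).eventually (lt_mem_nhds (h1.trans_le hlt))] with x hx hK
      exact absurd (hK.2 a θ hθ) (not_le.2 hx)
  · right
    push Not at hA
    obtain ⟨g, hg, J, hJ, hle⟩ := hA
    have hmin : 0 < min 1 P.κ ^ J.card := pow_pos (lt_min one_pos hκ) _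
    filter_upwards [hal, (d_F_cont 𝔖 h cap P (2 * P.N) z π x0 (4 * P.κ) g J).eventually
      (gt_mem_nhds (hle.trans_lt hmin))] with x hx hlt hK
    have h1 := (hball x _).1 hK.1 g hg
    have h2 : Safe 𝔖.y (cs (ext 𝔖 (2 * P.N) π x))
        (fun v => lv P (𝔖.toEnv h cap) z (ext 𝔖 (2 * P.N) π x) (g • x) v - 5 * P.κ)
        (win P (𝔖.toEnv h cap) (ext 𝔖 (2 * P.N) π x) (g • x)) := h1
    have h3 : ∀ U ∈ (dJ 𝔖 P (2 * P.N) π x0 g).powerset,
        0 < dF 𝔖 h cap P (2 * P.N) z π (5 * P.κ) g U x := (hx g hg _).1 h1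
    have h4 : min 1 P.κ ^ J.card ≤ dF 𝔖 h cap P (2 * P.N) z π (4 * P.κ) g J x := by
      have e1 : dF 𝔖 h cap P (2 * P.N) z π (4 * P.κ) g J x =
          ∑ U ∈ (J.image fun k => k • x).powerset,
            (∏ i ∈ (J.image fun k => k • x) \ U, P.κ) * q 𝔖.y (cs (ext 𝔖 (2 * P.N) π x))
              (fun v => lv P (𝔖.toEnv h cap) z (ext 𝔖 (2 * P.N) π x) (g • x) v - 5 * P.κ) U := by
        rw [← q_add hr 𝔖.herm (fun _ => P.κ)]
        unfold dF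
        refine q_congr (fun _ _ => rfl) fun i _ => by ring
      have e2 : ∀ U ∈ (J.image fun k => k • x).powerset, 0 ≤
          (∏ i ∈ (J.image fun k => k • x) \ U, P.κ) * q 𝔖.y (cs (ext 𝔖 (2 * P.N) π x))
              (fun v => lv P (𝔖.toEnv h cap) z (ext 𝔖 (2 * P.N) π x) (g • x) v - 5 * P.κ) U := by
        intro U hU
        obtain ⟨V, hV, rfl⟩ := Finset.subset_image_iff.1 (Finset.mem_powerset.1 hU)
        exact mul_nonneg (Finset.prod_nonneg fun _ _ => hκ.le)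
          (h3 V (Finset.mem_powerset.2 (hV.trans (Finset.mem_powerset.1 hJ)))).le
      rw [e1]
      refine le_trans ?_ (Finset.single_le_sum e2 (Finset.empty_mem_powerset _))
      rw [q_empty, mul_one, Finset.sdiff_empty, Finset.prod_const]
      calc min 1 P.κ ^ J.card ≤ min 1 P.κ ^ (J.image fun k => k • x).card :=
            pow_le_pow_of_le_one (le_min zero_le_one hκ.le) (min_le_left _ _)
              Finset.card_image_le
        _ ≤ P.κ ^ (J.image fun k => k • x).card :=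
            pow_le_pow_left₀ (le_min zero_le_one hκ.le) (min_le_right _ _) _
    exact absurd hlt (not_lt.2 h4)

/-- the same for the self energies -/
theorem allow_dich (hr : 0 < r) (𝔖 : Sys3 X G) (h : FB 1 1 𝔖.y) {cap : ℕ} {P : Par}
    (hcap : 2 * P.N ≤ cap) (hκ : 0 < P.κ) {z : ℝ} (hz : 0 < P.Γ * z) (π : G → St r) (x0 : X)
    (hx0 : Keep P (𝔖.toEnv h cap) (4 * P.κ) P.Λ z (ext 𝔖 (2 * P.N) π x0) x0) (a : Fin r) :
    (∀ᶠ x in 𝓝 x0, sw P (𝔖.toEnv h cap) z (ext 𝔖 (2 * P.N) π x) x x 0 a ≤ 6 * (P.Γ * z)) ∨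
    (∀ᶠ x in 𝓝 x0, ¬ sw P (𝔖.toEnv h cap) z (ext 𝔖 (2 * P.N) π x) x x 0 a ≤ 5 * (P.Γ * z)) := by
  have h0 : Alive P (𝔖.toEnv h cap) z (ext 𝔖 (2 * P.N) π x0) (4 * P.κ) x0 :=
    hx0.1 x0 (Sys3.mem_ball_self 𝔖 _ x0)
  have hc := d_sw_cont hr 𝔖 h cap P _ z π x0 h0 (b := 0) (by linarith only [hκ]) a
  by_cases hlt : sw P (𝔖.toEnv h cap) z (ext 𝔖 (2 * P.N) π x0) x0 x0 0 a < 6 * (P.Γ * z)
  · left
    filter_upwards [hc.eventually (gt_mem_nhds hlt)] with x hx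
    exact hx.le
  · right
    have h1 : 5 * (P.Γ * z) < sw P (𝔖.toEnv h cap) z (ext 𝔖 (2 * P.N) π x0) x0 x0 0 a := by
      have := not_lt.1 hlt
      linarith only [hz, this]
    filter_upwards [hc.eventually (lt_mem_nhds h1)] with x hx
    exact not_le.2 hx

theorem ballG_eq {𝔖 𝔖' : Sys3 X G} (h : 𝔖.S = 𝔖'.S) (n : ℕ) : 𝔖.ballG n = 𝔖'.ballG n := by
  unfold Sys3.ballG
  rw [h]

theorem ext_eq {𝔖 𝔖' : Sys3 X G} (h : 𝔖.S = 𝔖'.S) (n : ℕ) (π : G → St r) (x : X) :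
    ext 𝔖 n π x = ext 𝔖' n π x := by
  funext v
  unfold T.ext
  rw [ballG_eq h]

/-- the clopen sets of the rule: `K` for keeping, `A a` for allowing the colour `a` -/
theorem exists_sets [CompactSpace X] [T2Space X] [TotallyDisconnectedSpace X] (hr : 0 < r)
    {ι : Type} [Fintype ι] (i₀ : ι) (𝔖 : ι → Sys3 X G) (hS : ∀ j, (𝔖 i₀).S = (𝔖 j).S)
    (h : ∀ j, FB 1 1 (𝔖 j).y) {cap : ℕ} {P : Par}
    (hcap : 2 * P.N ≤ cap) (hκ : 0 < P.κ) (hΛ : 0 < P.Λ) (hΘ : ∀ θ ∈ P.Θ, 0 < θ) {z : ℝ}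
    (hz : 0 < P.Γ * z) (π : G → St r) :
    ∃ (K : Set X) (A : Fin r → Set X), IsClopen K ∧ (∀ a, IsClopen (A a)) ∧
      ∀ x, (x ∈ K → ∀ j, Keep P ((𝔖 j).toEnv (h j) cap) (4 * P.κ) P.Λ z
          (ext (𝔖 i₀) (2 * P.N) π x) x) ∧
        ((∀ j, Keep P ((𝔖 j).toEnv (h j) cap) (5 * P.κ) (P.Λ / 2) z
          (ext (𝔖 i₀) (2 * P.N) π x) x) → x ∈ K) ∧
        ∀ a, (x ∈ K → x ∈ A a → ∀ j, sw P ((𝔖 j).toEnv (h j) cap) z
            (ext (𝔖 i₀) (2 * P.N) π x) x x 0 a ≤ 6 * (P.Γ * z)) ∧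
          (x ∈ K → (∀ j, sw P ((𝔖 j).toEnv (h j) cap) z
            (ext (𝔖 i₀) (2 * P.N) π x) x x 0 a ≤ 5 * (P.Γ * z)) → x ∈ A a) := by
  have hext : ∀ j x, ext (𝔖 i₀) (2 * P.N) π x = ext (𝔖 j) (2 * P.N) π x :=
    fun j x => ext_eq (hS j) _ π x
  choose K1 hK1 hK1' hK1'' using fun j => exists_clopen_of_dich
    (A := fun x => Keep P ((𝔖 j).toEnv (h j) cap) (4 * P.κ) P.Λ z (ext (𝔖 j) (2 * P.N) π x) x)
    (B := fun x => Keep P ((𝔖 j).toEnv (h j) cap) (5 * P.κ) (P.Λ / 2) z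
      (ext (𝔖 j) (2 * P.N) π x) x)
    (keep_dich hr (𝔖 j) (h j) hcap hκ hΛ hΘ z π)
  have hK : IsClopen (⋂ j, K1 j) := isClopen_iInter_of_finite hK1
  have hA1 : ∀ (j : ι) (a : Fin r), ∃ A : Set X, IsClopen A ∧
      (∀ x, (x ∈ (⋂ j, K1 j) ∧ sw P ((𝔖 j).toEnv (h j) cap) z (ext (𝔖 j) (2 * P.N) π x) x x 0 a ≤
        5 * (P.Γ * z)) → x ∈ A) ∧
      ∀ x ∈ A, x ∈ (⋂ j, K1 j) → sw P ((𝔖 j).toEnv (h j) cap) z
        (ext (𝔖 j) (2 * P.N) π x) x x 0 a ≤ 6 * (P.Γ * z) := by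
    intro j a
    refine exists_clopen_of_dich fun x0 => ?_
    by_cases hx : x0 ∈ (⋂ j, K1 j)
    · rcases allow_dich hr (𝔖 j) (h j) hcap hκ hz π x0 (hK1'' j x0 (Set.mem_iInter.1 hx j)) a
        with h1 | h1
      · left
        filter_upwards [h1] with x hx _
        exact hx
      · right
        filter_upwards [h1] with x hx h2
        exact hx h2.2
    · left
      filter_upwards [hK.compl.isOpen.mem_nhds hx] with x hx' h2
      exact absurd h2 hx'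
  choose A1 hA1c hA1b hA1a using hA1
  refine ⟨⋂ j, K1 j, fun a => ⋂ j, A1 j a, hK, fun a => isClopen_iInter_of_finite fun j => hA1c j a,
    fun x => ⟨fun hx j => ?_, fun h1 => Set.mem_iInter.2 fun j => hK1' j x ?_, fun a =>
    ⟨fun hx hxa j => ?_, fun hx h1 => Set.mem_iInter.2 fun j => hA1b j a x ⟨hx, ?_⟩⟩⟩⟩
  · rw [hext j]
    exact hK1'' j x (Set.mem_iInter.1 hx j)
  · have := h1 j
    rwa [hext j] at this
  · rw [hext j]
    exact hA1a j a x (Set.mem_iInter.1 hxa j) hx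
  · have := h1 j
    rwa [hext j] at this

end Vale.Agent.P078.MT
end


section
/-! T3-I: existence of the parameters. -/

namespace Vale.Agent.P078.MT

open Vale.Agent.P078.T

open Filter Topology

private theorem ev_inv (c : ℝ) {e : ℝ} (he : 0 < e) {p : ℕ} (hp : p ≠ 0) :
    ∀ᶠ U : ℕ in atTop, c / (U : ℝ) ^ p ≤ e := by
  have h : Tendsto (fun U : ℕ => c / (U : ℝ) ^ p) atTop (𝓝 0) :=
    tendsto_const_nhds.div_atTop ((tendsto_pow_atTop hp).comp tendsto_natCast_atTop_atTop)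
  exact Filter.Tendsto.eventually_le_const he h

private theorem ev_log {K s : ℝ} (hK : 0 < K) (hs : 0 < s) :
    ∀ᶠ U : ℕ in atTop, Real.logb 2 (K * (U : ℝ) ^ 32) * s ≤ U / 2 := by
  have hr : (1 : ℝ) < 2 ^ (1 / (2 * s)) := Real.one_lt_rpow (by norm_num) (by positivity)
  have h := (tendsto_pow_const_div_const_pow_of_one_lt 32 hr).const_mul K
  rw [mul_zero] at h
  filter_upwards [Filter.Tendsto.eventually_le_const one_pos h, eventually_gt_atTop 0]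
    with U hU hU0
  have hU' : (0 : ℝ) < U := by exact_mod_cast hU0
  have h1 : K * (U : ℝ) ^ 32 ≤ (2 : ℝ) ^ ((U : ℝ) / (2 * s)) := by
    have h2 : (2 : ℝ) ^ ((U : ℝ) / (2 * s)) = ((2 : ℝ) ^ (1 / (2 * s))) ^ U := by
      rw [← Real.rpow_natCast, ← Real.rpow_mul (by norm_num)]
      congr 1
      ring
    rw [h2]
    have h3 : (0 : ℝ) < ((2 : ℝ) ^ (1 / (2 * s))) ^ U := by positivity
    rw [← mul_div_assoc, div_le_one h3] at hU
    exact hU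
  have h4 : Real.logb 2 (K * (U : ℝ) ^ 32) ≤ (U : ℝ) / (2 * s) :=
    (Real.logb_le_iff_le_rpow (by norm_num) (by positivity)).2 h1
  calc Real.logb 2 (K * (U : ℝ) ^ 32) * s ≤ (U : ℝ) / (2 * s) * s :=
        mul_le_mul_of_nonneg_right h4 hs.le
    _ = U / 2 := by field_simp

private theorem ev_pow : ∀ᶠ U : ℕ in atTop, 2 * (U : ℝ) ^ 12 ≤ 2 ^ U := by
  have h := (tendsto_pow_const_div_const_pow_of_one_lt 12 (one_lt_two (α := ℝ))).const_mul 2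
  rw [mul_zero] at h
  filter_upwards [Filter.Tendsto.eventually_le_const one_pos h] with U hU
  rwa [← mul_div_assoc, div_le_one (by positivity)] at hU

private theorem ev_main {δ ζ : ℝ} (hδ : 0 < δ) (hζ : 0 < ζ) (Δ : ℕ) :
    ∀ᶠ U : ℕ in atTop,
      12 * (3 * (Δ : ℝ) ^ (40 * U ^ 9) / δ + 10 * ζ * (U : ℝ) ^ 16 + 5) * (Δ : ℝ) ^ (40 * U ^ 9) *
        (4 / 5) ^ (U ^ 10) ≤ δ / 3 := by
  have h1 : ∀ᶠ U : ℕ in atTop, ((Δ : ℝ) + 1) ^ 80 * (8 / 9 : ℝ) ^ U ≤ 1 := by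
    have h := (tendsto_pow_atTop_nhds_zero_of_lt_one (r := (8 / 9 : ℝ)) (by norm_num)
      (by norm_num)).const_mul (((Δ : ℝ) + 1) ^ 80)
    rw [mul_zero] at h
    exact Filter.Tendsto.eventually_le_const one_pos h
  have h2 : ∀ᶠ U : ℕ in atTop, 12 * (3 / δ + 10 * ζ * (U : ℝ) ^ 16 + 5) * (9 / 10 : ℝ) ^ U ≤ δ / 3 := by
    have ha := tendsto_pow_const_mul_const_pow_of_abs_lt_one 16
      (show |(9 / 10 : ℝ)| < 1 by rw [abs_of_pos (by norm_num)]; norm_num)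
    have hb := tendsto_pow_atTop_nhds_zero_of_lt_one (r := (9 / 10 : ℝ)) (by norm_num)
      (by norm_num)
    have hc := (ha.const_mul (120 * ζ)).add (hb.const_mul (12 * (3 / δ + 5)))
    rw [mul_zero, mul_zero, add_zero] at hc
    filter_upwards [Filter.Tendsto.eventually_le_const (show (0 : ℝ) < δ / 3 by positivity) hc]
      with U hU
    refine le_trans (le_of_eq ?_) hU
    ring
  filter_upwards [h1, h2, eventually_gt_atTop 0] with U hU1 hU2 hU0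
  set A : ℝ := ((Δ : ℝ) + 1) ^ (40 * U ^ 9) with hA
  have hA1 : 1 ≤ A := one_le_pow₀ (by linarith only [])
  have hΔA : (Δ : ℝ) ^ (40 * U ^ 9) ≤ A :=
    pow_le_pow_left₀ (Nat.cast_nonneg _) (by linarith only []) _
  have hΔ0 : (0 : ℝ) ≤ (Δ : ℝ) ^ (40 * U ^ 9) := by (clear * -; positivity)
  have hA2 : A ^ 2 * (4 / 5 : ℝ) ^ (U ^ 10) ≤ (9 / 10 : ℝ) ^ U := by
    have e1 : A ^ 2 * (4 / 5 : ℝ) ^ (U ^ 10) =
        ((((Δ : ℝ) + 1) ^ 80 * (8 / 9 : ℝ) ^ U) * (9 / 10 : ℝ) ^ U) ^ (U ^ 9) := by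
      rw [hA, mul_assoc, ← mul_pow, mul_pow, ← pow_mul, ← pow_mul, ← pow_mul]
      norm_num
      ring_nf
    rw [e1]
    calc ((((Δ : ℝ) + 1) ^ 80 * (8 / 9 : ℝ) ^ U) * (9 / 10 : ℝ) ^ U) ^ (U ^ 9)
        ≤ (1 * (9 / 10 : ℝ) ^ U) ^ (U ^ 9) :=
          pow_le_pow_left₀ (by (clear * -; positivity)) (mul_le_mul_of_nonneg_right hU1 (by positivity)) _
      _ ≤ ((9 / 10 : ℝ) ^ U) ^ 1 := by
          rw [one_mul]
          exact pow_le_pow_of_le_one (by positivity) (pow_le_one₀ (by norm_num) (by norm_num))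
            (Nat.one_le_iff_ne_zero.2 (pow_ne_zero _ hU0.ne'))
      _ = (9 / 10 : ℝ) ^ U := pow_one _
  have hq : (0 : ℝ) ≤ (4 / 5 : ℝ) ^ (U ^ 10) := by positivity
  calc 12 * (3 * (Δ : ℝ) ^ (40 * U ^ 9) / δ + 10 * ζ * (U : ℝ) ^ 16 + 5) *
        (Δ : ℝ) ^ (40 * U ^ 9) * (4 / 5) ^ (U ^ 10)
      ≤ 12 * ((3 / δ + 10 * ζ * (U : ℝ) ^ 16 + 5) * A) * A * (4 / 5) ^ (U ^ 10) := by
        refine mul_le_mul_of_nonneg_right ?_ hq
        refine mul_le_mul ?_ hΔA hΔ0 (by (clear * - hδ hζ hU0; positivity))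
        refine mul_le_mul_of_nonneg_left ?_ (by norm_num)
        have t1 : 3 * (Δ : ℝ) ^ (40 * U ^ 9) / δ ≤ 3 / δ * A := by
          rw [div_mul_eq_mul_div]
          exact div_le_div_of_nonneg_right (by linarith only [hΔA]) hδ.le
        have t2 : 10 * ζ * (U : ℝ) ^ 16 + 5 ≤ (10 * ζ * (U : ℝ) ^ 16 + 5) * A :=
          le_mul_of_one_le_right (by positivity) hA1
        (clear * - t1 t2; linarith)
    _ = 12 * (3 / δ + 10 * ζ * (U : ℝ) ^ 16 + 5) * (A ^ 2 * (4 / 5) ^ (U ^ 10)) := by ring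
    _ ≤ 12 * (3 / δ + 10 * ζ * (U : ℝ) ^ 16 + 5) * (9 / 10 : ℝ) ^ U :=
        mul_le_mul_of_nonneg_left hA2 (by positivity)
    _ ≤ δ / 3 := hU2

private theorem theta_mem {ζ x : ℝ} {U : ℕ} (hx1 : 1 ≤ x) (hκfs : 5 * (1 / x ^ 16) < 1 / x ^ 4)
    (hfsζ : 116 * (1 / x ^ 4) ≤ ζ) (a8 : 2 * x ^ 12 ≤ 2 ^ U) (f : ℝ) (hf' : f < 1 / x ^ 4) :
    ∃ θ ∈ ((Finset.range U).image fun j => 29 * (1 / x ^ 16) * 2 ^ j).filter
      (fun θ => 2 * θ ≤ ζ), 29 * max f (1 / x ^ 16) ≤ θ ∧ θ ≤ 58 * max f (1 / x ^ 16) := by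
  have hκ0 : 0 < 1 / x ^ 16 := by positivity
  obtain ⟨g, hg⟩ : ∃ g, g = max f (1 / x ^ 16) := ⟨_, rfl⟩
  rw [← hg]
  have hgκ : 1 / x ^ 16 ≤ g := hg ▸ le_max_right _ _
  have hg4 : g < 1 / x ^ 4 := hg ▸ max_lt hf' (by linarith only [hκfs, hκ0])
  have h3 : 1 / x ^ 16 * (2 * x ^ 12) = 2 * (1 / x ^ 4) := by (clear * - hx1; field_simp)
  generalize 1 / x ^ 16 = κ at *
  generalize 1 / x ^ 4 = fs at *
  have hex : ∃ j : ℕ, g ≤ κ * 2 ^ j := by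
    obtain ⟨j, hj⟩ := pow_unbounded_of_one_lt (g / κ) (one_lt_two (α := ℝ))
    exact ⟨j, by rw [div_lt_iff₀ hκ0] at hj; linarith only [hj]⟩
  obtain ⟨j, hj1, hj2⟩ : ∃ j : ℕ, g ≤ κ * 2 ^ j ∧ κ * 2 ^ j ≤ 2 * g := by
    classical
    have hj1 := Nat.find_spec hex
    have hmin := fun m (hm : m < Nat.find hex) => Nat.find_min hex hm
    generalize Nat.find hex = j at hj1 hmin
    refine ⟨j, hj1, ?_⟩
    rcases Nat.eq_zero_or_pos j with h0 | h0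
    · rw [h0, pow_zero, mul_one]; linarith only [hκ0, hgκ]
    · have h1 := hmin (j - 1) (by omega)
      rw [not_le] at h1
      have h2 : (2 : ℝ) ^ j = 2 * 2 ^ (j - 1) := by
        rw [← pow_succ']
        congr 1
        omega
      rw [h2]
      linarith only [h1]
  have hjU : j < U := by
    by_contra hcon
    rw [not_lt] at hcon
    have h1 : (2 : ℝ) ^ U ≤ 2 ^ j := pow_le_pow_right₀ (by norm_num) hcon
    have h2 : κ * (2 * x ^ 12) ≤ κ * 2 ^ j := mul_le_mul_of_nonneg_left (a8.trans h1) hκ0.le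
    linarith only [hg4, h3, hj2, h2]
  refine ⟨29 * κ * 2 ^ j, ?_, by linarith only [hj1], by linarith only [hj2]⟩
  rw [Finset.mem_filter, Finset.mem_image]
  exact ⟨⟨j, Finset.mem_range.2 hjU, rfl⟩, by linarith only [hfsζ, hg4, hj2]⟩

private theorem main_ineq {δ ζ x A q th : ℝ} {t₁ t₂ : ℕ} (r : ℕ) (hδ : 0 < δ) (hζ : 0 < ζ)
    (hx0 : 0 < x) (hA0 : 0 ≤ A) (hq : 0 ≤ q) (ht1 : 3 * A / δ ≤ t₁)
    (ht1' : (t₁ : ℝ) ≤ 3 * A / δ + 1) (ht2' : (t₂ : ℝ) ≤ 10 * ζ * x ^ 16 + 1) (hΘc : th ≤ x)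
    (a9 : 12 * (3 * A / δ + 10 * ζ * x ^ 16 + 5) * A * q ≤ δ / 3) (a10 : 180 * r / x ^ 3 ≤ δ / 3) :
    A / ((t₁ + t₂ + 1 : ℕ) : ℝ) + 12 * (((t₁ + t₂ + 1 : ℕ) : ℝ) + 2) * A * q +
      180 * r * th / x ^ 4 ≤ δ := by
  have hT : ((t₁ + t₂ + 1 : ℕ) : ℝ) = t₁ + t₂ + 1 := by push_cast; ring
  rw [hT]
  have b1 : A / ((t₁ : ℝ) + t₂ + 1) ≤ δ / 3 := by
    rw [div_le_iff₀ (by (clear * -; positivity))]
    have h3 : 3 * A ≤ t₁ * δ := (div_le_iff₀ hδ).1 ht1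
    have h4 : (0 : ℝ) ≤ δ * (t₂ + 1) := by positivity
    linarith only [h4, h3]
  have b2 : 12 * (((t₁ : ℝ) + t₂ + 1) + 2) * A * q ≤ δ / 3 := by
    refine le_trans ?_ a9
    refine mul_le_mul_of_nonneg_right (mul_le_mul_of_nonneg_right ?_ hA0) hq
    linarith only [ht1', ht2']
  have b3 : 180 * r * th / x ^ 4 ≤ δ / 3 := by
    refine le_trans ?_ a10
    rw [div_le_div_iff₀ (by positivity) (by positivity)]
    have : 180 * (r : ℝ) * th ≤ 180 * r * x := mul_le_mul_of_nonneg_left hΘc (by (clear * -; positivity))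
    calc 180 * (r : ℝ) * th * x ^ 3 ≤ 180 * r * x * x ^ 3 :=
          mul_le_mul_of_nonneg_right this (by positivity)
      _ = 180 * r * x ^ 4 := by ring
  linarith only [b1, b2, b3]

private theorem hL_aux {K x : ℝ} (hK : 0 < K) (hx0 : 0 < x) :
    K ≤ (1 / x ^ 16) ^ 2 * (2 : ℝ) ^ (max 8 (Real.logb 2 (K * x ^ 32))) := by
  have h1 : K * x ^ 32 ≤ (2 : ℝ) ^ (max 8 (Real.logb 2 (K * x ^ 32))) := by
    calc K * x ^ 32 = (2 : ℝ) ^ (Real.logb 2 (K * x ^ 32)) :=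
          (Real.rpow_logb (by norm_num) (by norm_num) (by positivity)).symm
      _ ≤ _ := Real.rpow_le_rpow_of_exponent_le (by norm_num) (le_max_right _ _)
  calc K = (1 / x ^ 16) ^ 2 * (K * x ^ 32) := by (clear * - hx0 hK; field_simp)
    _ ≤ _ := mul_le_mul_of_nonneg_left h1 (by positivity)

private theorem ev_all (r : ℕ) {ζ δ g : ℝ} (hζ : 0 < ζ) (hδ : 0 < δ) {D K : ℝ} (hD : 1 ≤ D)
    (hK : 0 < K) (Δ k : ℕ) : ∀ᶠ U : ℕ in atTop,
      100 / (U : ℝ) ^ 16 ≤ ζ ∧ 800 * D / (U : ℝ) ^ 2 ≤ 1 ∧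
      Real.logb 2 (K * (U : ℝ) ^ 32) * Real.sqrt D ≤ U / 2 ∧ 16 * Real.sqrt D ≤ U ∧
      116 / (U : ℝ) ^ 4 ≤ ζ ∧ 2 / (U : ℝ) ^ 6 ≤ ζ ∧ (46400 + 38400 * g) / (U : ℝ) ^ 2 ≤ ζ ∧
      2 * (U : ℝ) ^ 12 ≤ 2 ^ U ∧
      12 * (3 * (Δ : ℝ) ^ (40 * U ^ 9) / δ + 10 * ζ * (U : ℝ) ^ 16 + 5) *
        (Δ : ℝ) ^ (40 * U ^ 9) * (4 / 5) ^ (U ^ 10) ≤ δ / 3 ∧
      180 * r / (U : ℝ) ^ 3 ≤ δ / 3 ∧ k ≤ U ∧ 2 ≤ U := by
  have hs : 0 < Real.sqrt D := Real.sqrt_pos.2 (by linarith only [hD])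
  have hU16 : ∀ᶠ U : ℕ in atTop, 16 * Real.sqrt D ≤ U :=
    tendsto_natCast_atTop_atTop.eventually_ge_atTop _
  filter_upwards [ev_inv 100 hζ (p := 16) (by norm_num),
    ev_inv (800 * D) one_pos (p := 2) (by norm_num), ev_log hK hs, hU16,
    ev_inv 116 hζ (p := 4) (by norm_num), ev_inv 2 hζ (p := 6) (by norm_num),
    ev_inv (46400 + 38400 * g) hζ (p := 2) (by norm_num), ev_pow, ev_main hδ hζ Δ,
    ev_inv (180 * r) (show 0 < δ / 3 by positivity) (p := 3) (by norm_num),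
    eventually_ge_atTop k, eventually_ge_atTop 2] with U a1 a2 a3 a4 a5 a6 a7 a8 a9 a10 a11 a12
  exact ⟨a1, a2, a3, a4, a5, a6, a7, a8, a9, a10, a11, a12⟩

universe u

theorem exists_par (r : ℕ) {ζ δ Γ : ℝ} (hζ : 0 < ζ) (hδ : 0 < δ) (hΓ : 1 ≤ Γ) {D : ℝ}
    (hD : 1 ≤ D) (Δ k : ℕ) :
    ∃ P : Par, P.ζ = ζ ∧ P.Γ = Γ ∧ k ≤ P.R ∧
      (Δ : ℝ) ^ (2 * P.N) / P.T + 12 * (P.T + 2) * (Δ : ℝ) ^ (2 * P.N) * (4 / 5) ^ P.n +
        180 * r * P.Θ.card / P.Λ ≤ δ ∧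
      ∀ (α : Type u) [DecidableEq α] (E : Env α), E.D = D → 2 * P.N ≤ E.rad → P.Good E := by
  have hs : 0 < Real.sqrt D := Real.sqrt_pos.2 (by linarith only [hD])
  have hg0 : 0 < Γ * ζ := mul_pos (by linarith only [hΓ]) hζ
  set K : ℝ := 250 * (D + 1) * (96 * (Γ * ζ)) with hKdef
  have hK : 0 < K := by positivity
  obtain ⟨U₀, hU₀⟩ := eventually_atTop.1 (ev_all (g := Γ * ζ) r hζ hδ hD hK Δ k)
  obtain ⟨a1, a2, a3, a4, a5, a6, a7, a8, a9, a10, a11, a12⟩ := hU₀ (2 * U₀) (by omega)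
  have hUm : ((2 * U₀ : ℕ) : ℝ) / 2 = (U₀ : ℝ) := by push_cast; ring
  generalize hU : 2 * U₀ = U at *
  set x : ℝ := (U : ℝ) with hx
  have hx2 : 2 ≤ x := by rw [hx]; exact_mod_cast a12
  have hx0 : 0 < x := by linarith only [hs, a4]
  have hx1 : 1 ≤ x := by linarith only [hx2]
  set t₁ : ℕ := ⌈3 * (Δ : ℝ) ^ (40 * U ^ 9) / δ⌉₊ with ht₁
  set t₂ : ℕ := ⌈10 * ζ * x ^ 16⌉₊ with ht₂
  have ht1 : 3 * (Δ : ℝ) ^ (40 * U ^ 9) / δ ≤ t₁ := Nat.le_ceil _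
  have ht2 : 10 * ζ * x ^ 16 ≤ t₂ := Nat.le_ceil _
  have ht1' : (t₁ : ℝ) ≤ 3 * (Δ : ℝ) ^ (40 * U ^ 9) / δ + 1 :=
    (Nat.ceil_lt_add_one (by (clear * - hδ; positivity))).le
  have ht2' : (t₂ : ℝ) ≤ 10 * ζ * x ^ 16 + 1 := (Nat.ceil_lt_add_one (by positivity)).le
  set Θ : Finset ℝ := ((Finset.range U).image fun j => 29 * (1 / x ^ 16) * 2 ^ j).filter
    fun θ => 2 * θ ≤ ζ with hΘ
  have hΘc : (Θ.card : ℝ) ≤ x := by
    have : Θ.card ≤ U := (Finset.card_filter_le _ _).trans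
      (Finset.card_image_le.trans (by rw [Finset.card_range]))
    rw [hx]
    exact_mod_cast this
  let P : Par :=
    { ζ := ζ
      κ := 1 / x ^ 16
      c := x
      Λ := x ^ 4
      M := 46400 * x ^ 4 + 38400 * (Γ * ζ) / (1 / x ^ 4) + 1
      fs := 1 / x ^ 4
      L := max 8 (Real.logb 2 (K * x ^ 32))
      R := 5 * U ^ 9
      R0 := U₀
      n := U ^ 10
      T := t₁ + t₂ + 1
      Θ := Θ
      Γ := Γ }
  have hN : 2 * P.N = 40 * U ^ 9 := by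
    change 2 * (4 * (5 * U ^ 9)) = _
    ring
  have hx16 : (0 : ℝ) < x ^ 16 := by positivity
  refine ⟨P, rfl, rfl, ?_, ?_, ?_⟩
  · change k ≤ 5 * U ^ 9
    have : U ≤ U ^ 9 := Nat.le_self_pow (by norm_num) U
    omega
  · rw [hN]
    change (Δ : ℝ) ^ (40 * U ^ 9) / ((t₁ + t₂ + 1 : ℕ) : ℝ) +
      12 * (((t₁ + t₂ + 1 : ℕ) : ℝ) + 2) * (Δ : ℝ) ^ (40 * U ^ 9) * (4 / 5) ^ (U ^ 10) +
        180 * r * Θ.card / x ^ 4 ≤ δ
    exact main_ineq r hδ hζ hx0 (by (clear * -; positivity)) (by positivity) ht1 ht1' ht2' hΘc a9 a10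
  · intro α _ E hED hrad
    have hκ1 : 1 / x ^ 16 ≤ 1 / x := by
      refine one_div_le_one_div_of_le hx0 ?_
      exact le_self_pow₀ hx1 (by norm_num)
    have hxx : 1 / x ≤ 1 / 2 := one_div_le_one_div_of_le (by norm_num) hx2
    have hLs : max 8 (Real.logb 2 (K * x ^ 32)) * Real.sqrt D ≤ x / 2 := by
      rcases le_total 8 (Real.logb 2 (K * x ^ 32)) with h | h
      · rw [max_eq_right h]; exact a3
      · rw [max_eq_left h]; linarith only [a4]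
    have hx4 : x ^ 4 ≥ 1 := one_le_pow₀ hx1
    have hκfs : 5 * (1 / x ^ 16) < 1 / x ^ 4 := by
      rw [mul_one_div, div_lt_div_iff₀ (by (clear * - a12; positivity)) (by positivity)]
      have : (2 : ℝ) ^ 12 ≤ x ^ 12 := pow_le_pow_left₀ (by norm_num) hx2 _
      have h16 : x ^ 16 = x ^ 12 * x ^ 4 := by ring
      rw [h16]
      nlinarith only [hx4, this]
    have hfsζ : 116 * (1 / x ^ 4) ≤ ζ := by rw [mul_one_div]; exact a5
    refine
      { ζ_pos := hζ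
        Γ_ge := hΓ
        κ_pos := by change 0 < 1 / x ^ 16; (clear * - a12; positivity)
        c_pos := hx1
        D_ge := by rw [hED]; exact hD
        κ_le := by change 100 * (1 / x ^ 16) ≤ ζ; rw [mul_one_div]; exact a1
        κ_le' := hκ1.trans hxx
        rad := hrad
        R_pos := ?_
        hR := ?_
        hc := ?_
        R0_pos := ?_
        R0_le := ?_
        R0_c := ?_
        L_ge := le_max_left _ _
        hL := ?_
        hLR := ?_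
        hLc := ?_
        fs_pos := by change 0 < 1 / x ^ 4; positivity
        fs_le := ?_
        κ_fs := hκfs
        fs_ζ := hfsζ
        Λ_ge := hx4
        hM := le_rfl
        hn := ?_
        Θ_ge := ?_
        Θ_le := ?_
        Θ_mem := ?_
        T_pos := ?_
        T_ge := ?_ }
    · change 10 ≤ 5 * U ^ 9
      have : U ≤ U ^ 9 := Nat.le_self_pow (by norm_num) U
      omega
    · change 20 * x ^ 2 ≤ 1 / x ^ 16 * ((5 * U ^ 9 : ℕ) : ℝ) ^ 2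
      push_cast
      rw [← hx]
      have : 1 / x ^ 16 * (5 * x ^ 9) ^ 2 = 25 * x ^ 2 := by field_simp; ring
      rw [this]
      nlinarith only []
    · change 800 * E.D ≤ x ^ 2
      rw [hED]
      rwa [div_le_one (by positivity)] at a2
    · change 1 ≤ U₀
      omega
    · change 10 * U₀ ≤ 5 * U ^ 9
      have : U ≤ U ^ 9 := Nat.le_self_pow (by norm_num) U
      omega
    · change 2 * (U₀ : ℝ) ≤ x
      rw [← hUm]; linarith only []
    · change 250 * (E.D + 1) * (96 * (Γ * ζ)) ≤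
        (1 / x ^ 16) ^ 2 * (2 : ℝ) ^ (max 8 (Real.logb 2 (K * x ^ 32)))
      rw [hED]
      exact hL_aux hK hx0
    · change max 8 (Real.logb 2 (K * x ^ 32)) * Real.sqrt E.D ≤ (U₀ : ℝ)
      rw [hED, ← hUm]; exact hLs
    · change 2 * (max 8 (Real.logb 2 (K * x ^ 32)) * Real.sqrt E.D) ≤ x
      rw [hED]; linarith only [hLs]
    · change 1 / x ^ 4 ≤ 1
      rw [div_le_one (by positivity)]; exact hx4
    · change ((U ^ 10 : ℕ) : ℝ) * (1 / x ^ 16) *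
        (1 + (46400 * x ^ 4 + 38400 * (Γ * ζ) / (1 / x ^ 4) + 1)) ≤ 13 * ζ
      push_cast
      rw [← hx]
      have : x ^ 10 * (1 / x ^ 16) * (1 + (46400 * x ^ 4 + 38400 * (Γ * ζ) / (1 / x ^ 4) + 1)) =
          2 / x ^ 6 + (46400 + 38400 * (Γ * ζ)) / x ^ 2 := by
        field_simp
        ring
      rw [this]
      linarith only [a7, a6, hζ]
    · intro θ hθ
      change θ ∈ Θ at hθ
      rw [hΘ, Finset.mem_filter, Finset.mem_image] at hθ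
      obtain ⟨⟨j, _, rfl⟩, _⟩ := hθ
      change 29 * (1 / x ^ 16) ≤ 29 * (1 / x ^ 16) * 2 ^ j
      exact le_mul_of_one_le_right (by positivity) (one_le_pow₀ (by norm_num))
    · intro θ hθ
      change θ ∈ Θ at hθ
      rw [hΘ, Finset.mem_filter] at hθ
      exact hθ.2
    · intro f hf hf'
      change f < 1 / x ^ 4 at hf'
      change ∃ θ ∈ Θ, 29 * max f (1 / x ^ 16) ≤ θ ∧ θ ≤ 58 * max f (1 / x ^ 16)
      exact theta_mem hx1 hκfs hfsζ a8 f hf'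
    · change 1 ≤ t₁ + t₂ + 1
      omega
    · change 10 * ζ ≤ 1 / x ^ 16 * ((t₁ + t₂ + 1 : ℕ) : ℝ)
      push_cast
      rw [one_div_mul_eq_div, le_div_iff₀ hx16]
      have : (0 : ℝ) ≤ t₁ := Nat.cast_nonneg _
      linarith only [ht2]

end Vale.Agent.P078.MT
end
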