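import Vale.Agent.P078.H291.MT4

set_option linter.all false

section
/-! T3-E4: averaging over the permutations. -/

namespace Vale.Agent.P078.MT

open Vale.Agent.P078.T

open Finset Polynomial
open Vale.Agent.P078.C (Herm ZD FB qf yc Q)

variable {α : Type*} [DecidableEq α] {r m : ℕ}
variable {P : Par} {E : Env α} {𝓡 : Rule α r} {cls : α → Fin m} {τ : Fin m → ℕ}
variable {ρ : Fin m → Equiv.Perm (Fin r)} {t : ℕ} {x v : α}

/-- averaging over the permutation of one class: a function of the chosen colour -/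
theorem sum_pick {ι : Type} {𝓕 : ι → Env α} (h𝓡 : Valid 𝓡 P 𝓕) (o : α) (O : Finset (Fin r)) (hO : O.Nonempty)
    (F : Fin r → ℝ) :
    O.card * ∑ π : Equiv.Perm (Fin r), F (𝓡.pick o π O) =
      Fintype.card (Equiv.Perm (Fin r)) * ∑ a ∈ O, F a := by
  have hmem : ∀ π, 𝓡.pick o π O ∈ O := fun π => h𝓡.pick_mem o π O hO
  obtain ⟨b, hb⟩ := hO
  have hN : ∀ a ∈ O, (Finset.univ.filter fun π => 𝓡.pick o π O = a).card =
      (Finset.univ.filter fun π => 𝓡.pick o π O = b).card :=
    fun a ha => h𝓡.pick_unif o O a ha b hb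
  have h1 : ∑ π : Equiv.Perm (Fin r), F (𝓡.pick o π O) = ∑ a ∈ O,
      ((Finset.univ.filter fun π => 𝓡.pick o π O = b).card : ℝ) * F a := by
    rw [← Finset.sum_fiberwise_of_maps_to (t := O) (fun π _ => hmem π)]
    refine Finset.sum_congr rfl fun a ha => ?_
    rw [Finset.sum_congr rfl (g := fun _ => F a)
      (fun π hπ => by rw [(Finset.mem_filter.1 hπ).2]), Finset.sum_const, nsmul_eq_mul, hN a ha]
  have h2 : (Fintype.card (Equiv.Perm (Fin r)) : ℝ) =
      O.card * ((Finset.univ.filter fun π => 𝓡.pick o π O = b).card : ℝ) := by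
    rw [← Finset.card_univ, Finset.card_eq_sum_card_fiberwise (t := O)
      (f := fun π => 𝓡.pick o π O) (fun π _ => hmem π)]
    rw [Finset.sum_congr rfl hN, Finset.sum_const, smul_eq_mul]
    push_cast
    rfl
  rw [h1, h2, ← Finset.mul_sum]
  ring

/-- averaging over one coordinate first -/
theorem sum_update (j : Fin m) (F : (Fin m → Equiv.Perm (Fin r)) → ℝ) :
    Fintype.card (Equiv.Perm (Fin r)) * ∑ ρ, F ρ = ∑ ρ, ∑ π, F (Function.update ρ j π) := by
  have h1 : (Fintype.card (Equiv.Perm (Fin r)) : ℝ) * ∑ ρ, F ρ =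
      ∑ x : (Fin m → Equiv.Perm (Fin r)) × Equiv.Perm (Fin r), F x.1 := by
    rw [← Finset.univ_product_univ, Finset.sum_product]
    simp only [mul_sum, sum_const, card_univ, nsmul_eq_mul]
  have h2 : ∑ ρ, ∑ π, F (Function.update ρ j π) =
      ∑ x : (Fin m → Equiv.Perm (Fin r)) × Equiv.Perm (Fin r), F (Function.update x.1 j x.2) := by
    rw [← Finset.univ_product_univ, Finset.sum_product]
  rw [h1, h2]
  refine Fintype.sum_bijective (fun x : (Fin m → Equiv.Perm (Fin r)) × Equiv.Perm (Fin r) =>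
    (Function.update x.1 j x.2, x.1 j)) ?_ _ _ fun x => ?_
  · refine Function.Involutive.bijective fun x => ?_
    ext1
    · simp
    · simp
  · simp

end Vale.Agent.P078.MT
end

section
/-! T3-E2: the potential of a window. -/

namespace Vale.Agent.P078.MT

open Vale.Agent.P078.T

open Finset Polynomial
open Vale.Agent.P078.C (Herm ZD FB qf yc Q)

variable {α : Type*} [DecidableEq α] {r : ℕ}
variable {P : Par} {E : Env α} {S : α → St r} {z u : ℝ} {x o : α}

/-- the potential of the window of centre `x` -/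
noncomputable def PhiW (P : Par) (E : Env α) (z : ℝ) (S : α → St r) (x : α) : ℝ :=
  Phi P.κ P.n E.y (cs S) (lv P E z S x) (win P E S x)

theorem Phi_congr_TDecPhi {κ : ℝ} {n : ℕ} {y : α → α → ℂ} {s s' : α → Option (Fin r)} {l l' : α → ℝ}
    {W : Finset α} (hs : ∀ i ∈ W, s i = s' i) (hl : ∀ i ∈ W, l i = l' i) :
    Phi κ n y s l W = Phi κ n y s' l' W := by
  have h : pl y s l W = pl y s' l' W := by
    unfold pl
    refine Finset.sum_congr rfl fun U hU => ?_
    have hU' := Finset.mem_powerset.1 hU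
    rw [q_congr (fun i hi => hs i (hU' hi)) (fun i hi => hl i (hU' hi))]
  unfold Phi dst
  rw [h]

/-- deletions and raising of the base level -/
theorem PhiW_mono (hr : 0 < r) (hP : P.Good E) {S' : α → St r} {z' : ℝ} (hz : z ≤ z')
    (hx : Alive P E z S P.κ x) (hS : ∀ v ∈ win P E S x, S' v = S v ∨ S' v = some none)
    (hS' : ∀ v, S v = some none → S' v = some none) :
    Alive P E z' S' P.κ x ∧ PhiW P E z' S' x ≤ PhiW P E z S x := by
  have hW : win P E S' x ⊆ win P E S x := by
    intro v hv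
    rw [win, Finset.mem_filter] at hv ⊢
    exact ⟨hv.1, fun h => hv.2 (hS' v h)⟩
  have hSS : ∀ v ∈ win P E S' x, S' v = S v := by
    intro v hv
    rcases hS v (hW hv) with h | h
    · exact h
    · rw [win, Finset.mem_filter] at hv
      exact absurd h hv.2
  have hcs : ∀ v ∈ win P E S' x, cs S v = cs S' v := by
    intro v hv
    simp only [cs, hSS v hv]
  have hlv : ∀ v ∈ win P E S' x, lv P E z' S x v = lv P E z' S' x v := by
    intro v hv
    simp only [lv, hSS v hv]
  have hle : ∀ v, lv P E z S x v ≤ lv P E z' S x v := by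
    intro v
    simp only [lv]
    linarith only [hz]
  have h1 : Safe E.y (cs S) (fun v => lv P E z S x v - P.κ) (win P E S' x) := hx.subset hW
  have h2 : Safe E.y (cs S) (fun v => lv P E z' S x v - P.κ) (win P E S' x) :=
    h1.mono hr E.herm fun v _ => by linarith only [hle v]
  refine ⟨?_, ?_⟩
  · exact h2.congr hcs fun v hv => by rw [hlv v hv]
  · unfold PhiW
    rw [← Phi_congr_TDecPhi hcs hlv]
    refine le_trans (Phi_mono_level hr E.herm E.zd hP.κ_pos P.n h1 fun v _ => hle v) ?_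
    exact Phi_mono_set hr E.herm E.zd hP.κ_pos P.n hx hW

/-- decision of `o` with a uniform colour in `O` -/
theorem PhiW_step (hr : 0 < r) (hP : P.Good E) (hz : P.ζ ≤ z) (hz2 : z ≤ 2 * P.ζ)
    (hSo : S o = none) (hox : o ∈ E.ball P.N x) (hK : Keep P E (4 * P.κ) P.Λ z S o)
    (O : Finset (Fin r)) (hO : r ≤ 2 * O.card) (ha : ∀ a ∈ O, sw P E z S o o 0 a ≤ 6 * (P.Γ * z)) :
    ∑ a ∈ O, PhiW P E z (Function.update S o (some (some a))) x ≤ O.card * PhiW P E z S x := by
  have hκ := hP.κ_pos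
  have hζ := hP.ζ_pos
  have hκζ := hP.κ_le
  have hNrad : P.N ≤ E.rad := by have := hP.rad; omega
  have hxo : x ∈ E.ball P.N o := by
    rw [E.mem_ball _ hNrad] at hox ⊢
    rwa [E.d_symm]
  have hoo : o ∈ E.ball P.N o := by
    rw [E.mem_ball _ hNrad, E.d_self]
    exact Nat.zero_le _
  have hAx : Alive P E z S (4 * P.κ) x := hK.1 x hxo
  have hAo : Alive P E z S (4 * P.κ) o := hK.1 o hoo
  have how : o ∈ win P E S x := by
    rw [win, Finset.mem_filter]
    exact ⟨hox, by rw [hSo]; simp⟩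
  have hins : insert o ((win P E S x).erase o) = win P E S x := Finset.insert_erase how
  have hne : o ∉ (win P E S x).erase o := Finset.notMem_erase o _
  have hwin : ∀ a : Fin r, win P E (Function.update S o (some (some a))) x = win P E S x := by
    intro a
    unfold win
    refine Finset.filter_congr fun v _ => ?_
    by_cases hv : v = o
    · subst hv
      rw [Function.update_self, hSo]
      simp
    · rw [Function.update_of_ne hv]
  have hcsu : ∀ a : Fin r, cs (Function.update S o (some (some a))) =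
      Function.update (cs S) o (some a) := by
    intro a
    funext v
    by_cases hv : v = o
    · subst hv
      simp [cs]
    · simp only [cs, Function.update_of_ne hv]
  have hlvu : ∀ a : Fin r, lv P E z (Function.update S o (some (some a))) x =
      Function.update (lv P E z S x) o (lv P E z S x o + (60 * (P.Γ * P.ζ) + 6 * fx P E x o)) := by
    intro a
    funext v
    by_cases hv : v = o
    · subst hv
      simp only [lv, Function.update_self, reduceCtorEq, ↓reduceIte, hSo, add_zero]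
    · simp only [lv, Function.update_of_ne hv]
  have hf : 0 ≤ fx P E x o := fx_nonneg
  have hlo : lv P E z S x o = z + fx P E x o := by simp [lv, hSo]
  have hcso : cs S o = none := by simp [cs, hSo]
  have hsafe1 : Safe E.y (cs S) (fun i => lv P E z S x i - P.κ)
      (insert o ((win P E S x).erase o)) := by
    rw [hins]
    exact Safe.mono hr E.herm hAx fun v _ => by linarith only [hκ]
  have hsafe2 : Safe E.y (cs S) (fun i => lv P E z S x i - P.κ - P.κ / 4)
      ((win P E S x).erase o) :=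
    Safe.mono hr E.herm (Safe.subset hAx (Finset.erase_subset _ _)) fun v _ => by linarith only [hκ]
  have hsafe3 : Safe E.y (cs S) (fun i => lv P E z S x i + -(5 / 2 * P.κ))
      ((win P E S x).erase o) :=
    Safe.mono hr E.herm (Safe.subset hAx (Finset.erase_subset _ _)) fun v _ => by linarith only [hκ]
  have hsafe1' : Safe E.y (cs S) (fun i => lv P E z S x i - P.κ) ((win P E S x).erase o) :=
    hsafe1.subset (Finset.subset_insert _ _)
  have hsgn : 0 ≤ sg E.y (cs S) o (fun i => lv P E z S x i - P.κ) ((win P E S x).erase o) :=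
    sg_nonneg hr E.herm E.zd hne hsafe1'
  have hsw : ∀ a ∈ O, sg E.y (Function.update (cs S) o (some a)) o
      (fun i => lv P E z S x i - P.κ) ((win P E S x).erase o) ≤ 24 * (P.Γ * z) := by
    intro a haO
    refine le_trans ?_ (sw_le hr hP hz hz2 hSo hox hAx hAo (ha a haO)).1
    unfold sw
    refine sg_anti hr E.herm hne ?_ fun v _ => by linarith only [hκ]
    refine hsafe3.congr (fun v hv => ?_) fun v _ => rfl
    rw [Function.update_of_ne (Finset.ne_of_mem_erase hv)]
  have hder : ∀ a ∈ O, sg E.y (Function.update (cs S) o (some a)) o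
      (fun i => lv P E z S x i - P.κ - P.κ / 4) ((win P E S x).erase o) -
      sg E.y (Function.update (cs S) o (some a)) o
      (fun i => lv P E z S x i - P.κ) ((win P E S x).erase o) ≤ P.M * (P.κ / 4) := by
    intro a haO
    have h := (deriv_bound hr hP hox hSo hK a
      (sw_le hr hP hz hz2 hSo hox hAx hAo (ha a haO)).2).2
    unfold sw at h
    have e1 : (fun v => lv P E z S x v + (-P.κ - P.κ / 4)) =
        fun v => lv P E z S x v - P.κ - P.κ / 4 := by funext v; ring
    have e2 : (fun v => lv P E z S x v + -P.κ) = fun v => lv P E z S x v - P.κ := by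
      funext v; ring
    rwa [e1, e2] at h
  have hΓ := hP.Γ_ge
  have hΓz : P.Γ * z ≤ P.Γ * (2 * P.ζ) := mul_le_mul_of_nonneg_left hz2 (by linarith only [hΓ])
  have hΓζ : P.ζ ≤ P.Γ * P.ζ := le_mul_of_one_le_left hζ.le hΓ
  have hΓζ0 : 0 < P.Γ * P.ζ := lt_of_lt_of_le hζ hΓζ
  have he : Real.exp 1 < 2.7182818286 := Real.exp_one_lt_d9
  have key := Phi_step hr E.herm E.zd hne hcso hκ P.n (δ := 60 * (P.Γ * P.ζ) + 6 * fx P E x o)
    (M := P.M) (η := P.κ / 4) (by (clear * - hΓζ0 hf; linarith)) ?_ hsafe1 O hO ?_ ?_ (by positivity) hsafe2 hder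
  · rw [hins] at key
    unfold PhiW
    refine le_trans (le_of_eq ?_) key
    refine Finset.sum_congr rfl fun a _ => ?_
    rw [hwin, hcsu, hlvu]
  · have := hP.hM
    have h1 : 0 ≤ 38400 * (P.Γ * P.ζ) / P.fs := by
      have := hP.fs_pos
      exact div_nonneg (by linarith only [hΓζ0]) this.le
    have h2 := hP.Λ_ge
    linarith only [h2, h1, this]
  · intro a haO
    have h1 := hsw a haO
    rw [hlo]
    have h2 : 0 ≤ z + fx P E x o := by linarith only [hz, hκ, hκζ, hf]
    have h3 : Real.exp 1 * (z + fx P E x o - P.κ -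
        sg E.y (cs S) o (fun i => lv P E z S x i - P.κ) ((win P E S x).erase o)) ≤
        Real.exp 1 * (z + fx P E x o) :=
      mul_le_mul_of_nonneg_left (by linarith only [hκ, hsgn]) (Real.exp_pos 1).le
    have h4 : Real.exp 1 * (z + fx P E x o) ≤ 2.7182818286 * (z + fx P E x o) :=
      mul_le_mul_of_nonneg_right he.le h2
    linarith only [hz2, hκ, hκζ, hf, h1, h3, h4, hΓz, hΓζ, hζ]
  · intro a haO
    have h1 := hsw a haO
    have h2 := hP.hn
    rw [hlo]
    have h9 : (24 * P.Γ - 1) * z ≤ (24 * P.Γ - 1) * (2 * P.ζ) :=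
      mul_le_mul_of_nonneg_left hz2 (by linarith only [hΓ])
    linarith only [hz, hz2, hκ, hκζ, hf, h1, h2, h9, hΓζ, hζ]

end Vale.Agent.P078.MT
end

section
/-! T3-E3: the Green function of the centre of a window. -/

namespace Vale.Agent.P078.MT

open Vale.Agent.P078.T

open Finset Polynomial
open Vale.Agent.P078.C (Herm ZD FB qf yc Q)

variable {α : Type*} [DecidableEq α] {r : ℕ}
variable {P : Par} {E : Env α} {S : α → St r} {z u : ℝ} {x o : α}

/-- the Green function of the centre of the window, at base level `u` -/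
noncomputable def GW (P : Par) (E : Env α) (u : ℝ) (S : α → St r) (x : α) : ℝ :=
  GG E.y (cs S) (lv P E u S x) (win P E S x) x

private theorem dg_GG_congr {y : α → α → ℂ} {s s' : α → Option (Fin r)} {l l' : α → ℝ}
    {W : Finset α} {v : α} (hs : ∀ i ∈ W, s i = s' i) (hl : ∀ i ∈ W, l i = l' i) :
    GG y s l W v = GG y s' l' W v := by
  unfold GG
  rw [q_congr hs hl, q_congr (fun i hi => hs i (mem_of_mem_erase hi))
    (fun i hi => hl i (mem_of_mem_erase hi))]

private theorem dg_lv_add (S : α → St r) (x v : α) (u z : ℝ) :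
    lv P E u S x v = lv P E z S x v + (u - z) := by
  unfold lv
  ring

private theorem dg_self_ball (hP : P.Good E) (x : α) : x ∈ E.ball P.N x :=
  (E.mem_ball P.N (by have := hP.rad; omega) x x).2 (by rw [E.d_self]; omega)

private theorem dg_safe (hr : 0 < r) {b : ℝ} (hu : z - b ≤ u) (hx : Alive P E z S b x) :
    Safe E.y (cs S) (lv P E u S x) (win P E S x) := by
  refine Safe.mono hr E.herm hx fun i _ => ?_
  rw [dg_lv_add S x i u z]
  linarith only [hu]

theorem GW_mono (hr : 0 < r) (hP : P.Good E) {S' : α → St r} {b u' : ℝ} (hu : z - b ≤ u)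
    (hu' : u ≤ u') (hx : Alive P E z S b x) (hxx : S x ≠ some none) (hxx' : S' x ≠ some none)
    (hS : ∀ v ∈ win P E S x, S' v = S v ∨ S' v = some none)
    (hS' : ∀ v, S v = some none → S' v = some none) :
    0 < GW P E u' S' x ∧ GW P E u' S' x ≤ GW P E u S x := by
  have hsub : win P E S' x ⊆ win P E S x := by
    intro v hv
    unfold win at hv ⊢
    rw [mem_filter] at hv ⊢
    exact ⟨hv.1, fun h => hv.2 (hS' v h)⟩
  have heq : ∀ v ∈ win P E S' x, S' v = S v := by
    intro v hv
    rcases hS v (hsub hv) with h | h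
    · exact h
    · unfold win at hv
      rw [mem_filter] at hv
      exact absurd h hv.2
  have hxW : x ∈ win P E S' x := by
    unfold win
    rw [mem_filter]
    exact ⟨dg_self_ball hP x, hxx'⟩
  have hsafe : Safe E.y (cs S) (lv P E u S x) (win P E S' x) :=
    (dg_safe hr hu hx).subset hsub
  have hsafe' : Safe E.y (cs S) (lv P E u' S x) (win P E S' x) := by
    refine Safe.mono hr E.herm hsafe fun i _ => ?_
    rw [dg_lv_add S x i u' u]
    linarith only [hu']
  have hc : GW P E u' S' x = GG E.y (cs S) (lv P E u' S x) (win P E S' x) x := by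
    unfold GW
    refine dg_GG_congr (fun i hi => ?_) fun i hi => ?_
    · unfold cs
      rw [heq i hi]
    · unfold lv
      rw [heq i hi]
  rw [hc]
  refine ⟨GG_pos hsafe', ?_⟩
  refine (GG_mono_level hr E.herm hsafe hxW fun i _ => ?_).trans
    (GG_mono_set hr E.herm (dg_safe hr hu hx) hxW hsub)
  rw [dg_lv_add S x i u' u]
  linarith only [hu']

theorem GW_step (hr : 0 < r) (hP : P.Good E) (hz : P.ζ ≤ z) (hz2 : z ≤ 2 * P.ζ)
    (hSo : S o = none) (hox : o ∈ E.ball P.N x) (hne : x ≠ o) (hxx : S x ≠ some none)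
    (hu : z - 5 / 2 * P.κ ≤ u) (hu2 : u ≤ 3 * P.ζ)
    (hx : Alive P E z S (4 * P.κ) x) (ho : Alive P E z S (4 * P.κ) o)
    (O : Finset (Fin r)) (hO : r ≤ 2 * O.card) (ha : ∀ a ∈ O, sw P E z S o o 0 a ≤ 6 * (P.Γ * z)) :
    ∑ a ∈ O, GW P E u (Function.update S o (some (some a))) x ≤ O.card * GW P E u S x := by
  have hκ := hP.κ_pos
  have hζ := hP.ζ_pos
  have hf : 0 ≤ fx P E x o := fx_nonneg
  have hmem : o ∈ win P E S x := by
    unfold win
    rw [mem_filter]
    exact ⟨hox, by rw [hSo]; simp⟩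
  have hxmem : x ∈ (win P E S x).erase o := by
    rw [mem_erase]
    refine ⟨hne, ?_⟩
    unfold win
    rw [mem_filter]
    exact ⟨dg_self_ball hP x, hxx⟩
  have hcsn : cs S o = none := by
    unfold cs
    rw [hSo]
    rfl
  have hsafe : Safe E.y (cs S) (lv P E u S x) (insert o ((win P E S x).erase o)) := by
    rw [insert_erase hmem]
    exact dg_safe hr (b := 4 * P.κ) (by linarith only [hu, hκ]) hx
  have hlo : lv P E u S x o = u + fx P E x o := by
    unfold lv
    rw [if_pos hSo]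
    ring
  have hsafe1 : Safe E.y (cs S) (lv P E u S x) ((win P E S x).erase o) :=
    hsafe.subset (subset_insert _ _)
  have hsg0 : 0 ≤ sg E.y (cs S) o (lv P E u S x) ((win P E S x).erase o) :=
    sg_nonneg hr E.herm E.zd (notMem_erase _ _) hsafe1
  have hΓ := hP.Γ_ge
  have hΓz : P.Γ * z ≤ P.Γ * (2 * P.ζ) := mul_le_mul_of_nonneg_left hz2 (by linarith only [hΓ])
  have hΓζ : P.ζ ≤ P.Γ * P.ζ := le_mul_of_one_le_left hζ.le hΓ
  have hΓζ0 : 0 < P.Γ * P.ζ := lt_of_lt_of_le hζ hΓζ
  have key := GG_step (y := E.y) (s := cs S) (l := lv P E u S x) (W := (win P E S x).erase o)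
    (o := o) (v := x) hr E.herm (notMem_erase _ _) hxmem hcsn
    (δ := 60 * (P.Γ * P.ζ) + 6 * fx P E x o) (by (clear * - hΓζ0 hf; linarith)) hsafe O hO ?_
  · rw [insert_erase hmem] at key
    have hL : ∀ a : Fin r, GW P E u (Function.update S o (some (some a))) x =
        GG E.y (Function.update (cs S) o (some a))
          (Function.update (lv P E u S x) o (lv P E u S x o + (60 * (P.Γ * P.ζ) + 6 * fx P E x o)))
          (win P E S x) x := by
      intro a
      have hwin : win P E (Function.update S o (some (some a))) x = win P E S x := by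
        unfold win
        refine filter_congr fun v _ => ?_
        by_cases hv : v = o
        · subst hv
          rw [Function.update_self, hSo]
          simp
        · rw [Function.update_of_ne hv]
      unfold GW
      rw [hwin]
      refine dg_GG_congr (fun v _ => ?_) fun v _ => ?_
      · by_cases hv : v = o
        · subst hv
          simp [cs]
        · rw [Function.update_of_ne hv]
          unfold cs
          rw [Function.update_of_ne hv]
      · by_cases hv : v = o
        · subst hv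
          rw [Function.update_self, hlo]
          unfold lv
          rw [Function.update_self, if_neg (by simp)]
        · rw [Function.update_of_ne hv]
          unfold lv
          rw [Function.update_of_ne hv]
    simp only [hL]
    exact key
  · intro c hc
    have h1 := (sw_le hr hP hz hz2 hSo hox hx ho (ha c hc)).1
    have h2 : sg E.y (Function.update (cs S) o (some c)) o (lv P E u S x)
        ((win P E S x).erase o) ≤ sw P E z S x o (-(5 / 2 * P.κ)) c := by
      have h3 : Safe E.y (Function.update (cs S) o (some c))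
          (fun v => lv P E z S x v + -(5 / 2 * P.κ)) ((win P E S x).erase o) := by
        have h4 : Safe E.y (cs S) (fun v => lv P E z S x v + -(5 / 2 * P.κ))
            ((win P E S x).erase o) :=
          Safe.mono hr E.herm (Safe.subset hx (erase_subset _ _)) (fun i _ => by linarith only [hκ])
        refine Safe.congr h4 (fun i hi => ?_) (fun i _ => rfl)
        rw [Function.update_of_ne (ne_of_mem_erase hi)]
      unfold sw
      refine sg_anti hr E.herm (notMem_erase _ _) h3 fun i _ => ?_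
      rw [dg_lv_add S x i u z]
      linarith only [hu]
    rw [hlo]
    linarith only [h2, h1, hsg0, hf, hζ, hu2, hz2, hΓz, hΓζ]

private theorem dg_fx_self_le (hP : P.Good E) : fx P E o o ≤ P.ζ / 1000 := by
  have h1 := hP.hR
  have h2 := hP.κ_le
  have h3 := hP.c_pos
  have h4 := hP.R_pos
  have h5 := hP.κ_pos
  have hR : (10 : ℝ) ≤ P.R := by exact_mod_cast h4
  have hR2 : (0 : ℝ) < (P.R : ℝ) ^ 2 := by (clear * - h4; positivity)
  unfold fx
  rw [E.d_self, div_pow]
  have hN : ((P.N : ℕ) : ℝ) = 4 * P.R := by unfold Par.N; push_cast; ring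
  rw [hN, Nat.cast_zero, sub_zero]
  have h6 : (P.R : ℝ) ^ 2 ≤ (4 * (P.R : ℝ) + 1) ^ 2 := by nlinarith only [hR]
  have h7 : (0 : ℝ) < (4 * (P.R : ℝ) + 1) ^ 2 := by positivity
  rw [div_le_iff₀ h7]
  have h8 : P.κ * (P.R : ℝ) ^ 2 ≤ P.ζ / 100 * (P.R : ℝ) ^ 2 :=
    mul_le_mul_of_nonneg_right (by linarith only [h2]) hR2.le
  have h9 : P.ζ / 1000 * (P.R : ℝ) ^ 2 ≤ P.ζ / 1000 * (4 * (P.R : ℝ) + 1) ^ 2 :=
    mul_le_mul_of_nonneg_left h6 (by have := hP.ζ_pos; linarith only [h2, h5])
  nlinarith only [h1, h8, h9]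

private theorem dg_inv_sub {D₁ D₂ m : ℝ} (h1 : 0 < D₁) (h2 : D₁ ≤ D₂) (h3 : D₂ ≤ m) :
    D₂ - D₁ ≤ m ^ 2 * (1 / D₁ - 1 / D₂) := by
  have h4 : 0 < D₂ := h1.trans_le h2
  have h5 : m ^ 2 * (1 / D₁ - 1 / D₂) = m ^ 2 / (D₁ * D₂) * (D₂ - D₁) := by
    (clear * - h4 h1; field_simp)
  have h6 : 1 ≤ m ^ 2 / (D₁ * D₂) := by
    rw [one_le_div (mul_pos h1 h4), sq]
    exact mul_le_mul (h2.trans h3) h3 h4.le (h4.le.trans h3)
  rw [h5]
  exact le_mul_of_one_le_left (by linarith only [h2]) h6

/-- the Green function controls the differences of self energies -/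
theorem GW_sub_ge (hr : 0 < r) (hP : P.Good E) (hz : P.ζ ≤ z) (hz2 : z ≤ 2 * P.ζ)
    (hSo : S o = none) (ho : Alive P E z S (4 * P.κ) o) {θ : ℝ} (hθ : θ ∈ P.Θ) (a : Fin r) :
    (sw P E z S o o (-(5 / 2 * P.κ)) a - sw P E z S o o θ a) / r ≤
      (3 * P.ζ) ^ 2 * (GW P E (z - 5 / 2 * P.κ) S o - GW P E (z + θ) S o) := by
  have hκ := hP.κ_pos
  have hζ := hP.ζ_pos
  have hκζ := hP.κ_le
  have hθκ := hP.Θ_ge θ hθ
  have hθζ := hP.Θ_le θ hθ
  have hr' : (0 : ℝ) < r := by exact_mod_cast hr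
  have hmem : o ∈ win P E S o := by
    unfold win
    rw [mem_filter]
    exact ⟨dg_self_ball hP o, by rw [hSo]; simp⟩
  have hcsn : cs S o = none := by
    unfold cs
    rw [hSo]
    rfl
  have hsafe : ∀ b : ℝ, -(4 * P.κ) ≤ b →
      Safe E.y (cs S) (lv P E (z + b) S o) (win P E S o) :=
    fun b hb => dg_safe hr (b := 4 * P.κ) (by linarith only [hb]) ho
  have hav : ∀ b : ℝ, sg E.y (cs S) o (lv P E (z + b) S o) ((win P E S o).erase o) =
      (∑ c, sw P E z S o o b c) / r := by
    intro b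
    rw [sg_avg hr E.herm (notMem_erase _ _) hcsn]
    congr 1
    refine sum_congr rfl fun c _ => ?_
    unfold sw
    congr 1
    funext v
    rw [dg_lv_add S o v (z + b) z]
    ring
  have hanti : ∀ c : Fin r, sw P E z S o o θ c ≤ sw P E z S o o (-(5 / 2 * P.κ)) c := by
    intro c
    have h3 : Safe E.y (Function.update (cs S) o (some c))
        (fun v => lv P E z S o v + -(5 / 2 * P.κ)) ((win P E S o).erase o) := by
      have h4 : Safe E.y (cs S) (fun v => lv P E z S o v + -(5 / 2 * P.κ))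
          ((win P E S o).erase o) :=
        Safe.mono hr E.herm (Safe.subset ho (erase_subset _ _)) (fun i _ => by linarith only [hκ])
      refine Safe.congr h4 (fun i hi => ?_) (fun i _ => rfl)
      rw [Function.update_of_ne (ne_of_mem_erase hi)]
    unfold sw
    exact sg_anti hr E.herm (notMem_erase _ _) h3 fun i _ => by linarith only [hκ, hθκ]
  have hsum : sw P E z S o o (-(5 / 2 * P.κ)) a - sw P E z S o o θ a ≤
      (∑ c, sw P E z S o o (-(5 / 2 * P.κ)) c) - ∑ c, sw P E z S o o θ c := by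
    rw [← sum_sub_distrib]
    exact single_le_sum (f := fun c => sw P E z S o o (-(5 / 2 * P.κ)) c - sw P E z S o o θ c)
      (fun c _ => sub_nonneg.2 (hanti c)) (mem_univ a)
  have hlo : ∀ b : ℝ, lv P E (z + b) S o o = z + b + fx P E o o := by
    intro b
    unfold lv
    rw [if_pos hSo]
    ring
  have hfx := dg_fx_self_le (o := o) hP
  have hs1 := hsafe (-(5 / 2 * P.κ)) (by linarith only [hκ])
  have hs2 := hsafe θ (by linarith only [hκ, hθκ])
  have hsg2 : 0 ≤ sg E.y (cs S) o (lv P E (z + θ) S o) ((win P E S o).erase o) :=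
    sg_nonneg hr E.herm E.zd (notMem_erase _ _) (hs2.subset (erase_subset _ _))
  have hp1 := GG_pos (v := o) hs1
  have e1 := GG_eq hr E.herm hs1 hmem
  have e2 := GG_eq hr E.herm hs2 hmem
  have hd : (sw P E z S o o (-(5 / 2 * P.κ)) a - sw P E z S o o θ a) / r ≤
      sg E.y (cs S) o (lv P E (z + -(5 / 2 * P.κ)) S o) ((win P E S o).erase o) -
        sg E.y (cs S) o (lv P E (z + θ) S o) ((win P E S o).erase o) := by
    rw [hav, hav, ← sub_div]
    exact div_le_div_of_nonneg_right hsum hr'.le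
  have hd0 : 0 ≤ (sw P E z S o o (-(5 / 2 * P.κ)) a - sw P E z S o o θ a) / r :=
    div_nonneg (sub_nonneg.2 (hanti a)) hr'.le
  rw [sub_eq_add_neg z (5 / 2 * P.κ)]
  unfold GW
  rw [e1] at hp1
  rw [e1, e2]
  rw [hlo, hlo] at *
  have hD1 := one_div_pos.1 hp1
  exact (by linarith only [hd, hθκ, hκ] : _ ≤ _).trans (dg_inv_sub hD1 (by linarith only [hd0, hd, hθκ, hκ]) (by linarith only [hz2, hκ, hκζ, hθζ, hfx, hsg2]))

end Vale.Agent.P078.MT
end

section
/-! T3-E7: expected Green functions. -/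

namespace Vale.Agent.P078.MT

open Vale.Agent.P078.T

open Finset Polynomial
open Vale.Agent.P078.C (Herm ZD FB qf yc Q)

variable {α : Type*} [DecidableEq α] {r m : ℕ}
variable {P : Par} {E : Env α} {𝓡 : Rule α r} {cls : α → Fin m} {τ : Fin m → ℕ}
variable {ρ : Fin m → Equiv.Perm (Fin r)} {t : ℕ} {x v : α}
variable {ι : Type} [Fintype ι] {𝓕 : ι → Env α} {i₀ : ι}

/-- the window of centre `x` had the margin `4 κ` up to time `t` -/
def Alv (P : Par) (E : Env α) (𝓡 : Rule α r) (cls : α → Fin m) (τ : Fin m → ℕ)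
    (ρ : Fin m → Equiv.Perm (Fin r)) (t : ℕ) (x : α) : Prop :=
  ∀ s ≤ t, Alive P E (P.zt s) (run P E 𝓡 cls τ ρ s) (4 * P.κ) x

open Classical in
/-- expected Green function of the centre at the base level `u` -/
noncomputable def HG (P : Par) (E : Env α) (𝓡 : Rule α r) (cls : α → Fin m) (τ : Fin m → ℕ)
    (x : α) (t : ℕ) (u : ℝ) : ℝ :=
  ∑ ρ : Fin m → Equiv.Perm (Fin r), if Alv P E 𝓡 cls τ ρ t x then
    GW P E u (run P E 𝓡 cls τ ρ t) x else 0

private theorem Alv.of_succ (h : Alv P E 𝓡 cls τ ρ (t + 1) x) : Alv P E 𝓡 cls τ ρ t x :=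
  fun s hs => h s (hs.trans (Nat.le_succ t))

private theorem Alv.alive (h : Alv P E 𝓡 cls τ ρ t x) :
    Alive P E (P.zt t) (run P E 𝓡 cls τ ρ t) (4 * P.κ) x := h t le_rfl

private theorem hg_mem_ball (hP : P.Good E) (x : α) : x ∈ E.ball P.N x := by
  have h := hP.rad
  rw [E.mem_ball P.N (by omega) x x, E.d_self]
  exact Nat.zero_le _

private theorem hg_run_none (h : t ≤ τ (cls x)) : run P E 𝓡 cls τ ρ t x = none :=
  run_none_iff.2 h

private theorem hg_run_del (v : α) (h : run P E 𝓡 cls τ ρ t v = some none) :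
    run P E 𝓡 cls τ ρ (t + 1) v = some none := by
  show step P E 𝓡 cls τ ρ t (run P E 𝓡 cls τ ρ t) v = some none
  unfold step
  rw [if_neg]
  · exact h
  · rintro ⟨h1, -⟩
    rw [h] at h1
    exact absurd h1 (by simp)

private theorem hg_run_eq {π : Equiv.Perm (Fin r)} {j : Fin m} (hj : t ≤ τ j) :
    run P E 𝓡 cls τ (Function.update ρ j π) t = run P E 𝓡 cls τ ρ t := by
  refine run_congr fun i => ?_
  by_cases hi : i = j
  · subst hi
    exact Or.inr ⟨hj, hj⟩
  · exact Or.inl ⟨rfl, by rw [Function.update_of_ne hi]⟩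

private theorem hg_alv_iff {π : Equiv.Perm (Fin r)} {j : Fin m} (hj : t ≤ τ j) :
    Alv P E 𝓡 cls τ (Function.update ρ j π) t x ↔ Alv P E 𝓡 cls τ ρ t x := by
  unfold Alv
  refine forall_congr' fun s => forall_congr' fun hs => ?_
  rw [hg_run_eq (hs.trans hj)]

/-- the Green function depends only on the states in the ball -/
private theorem GW_congr {S S' : α → St r} {u : ℝ}
    (h : ∀ v ∈ E.ball P.N x, S v = S' v) : GW P E u S x = GW P E u S' x := by
  have hw : win P E S x = win P E S' x := by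
    unfold win
    refine Finset.filter_congr fun v hv => ?_
    rw [h v hv]
  have hsub : ∀ v ∈ win P E S' x, v ∈ E.ball P.N x := fun v hv => (Finset.mem_filter.1 hv).1
  have hs : ∀ v ∈ win P E S' x, cs S v = cs S' v := fun v hv => by
    unfold cs
    rw [h v (hsub v hv)]
  have hl : ∀ v ∈ win P E S' x, lv P E u S x v = lv P E u S' x v := fun v hv => by
    unfold lv
    rw [h v (hsub v hv)]
  unfold GW GG
  rw [hw, q_congr hs hl, q_congr (fun v hv => hs v (Finset.mem_of_mem_erase hv))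
    (fun v hv => hl v (Finset.mem_of_mem_erase hv))]

private theorem hg_zt (hP : P.Good E) (ht : t ≤ P.T) : P.ζ ≤ P.zt t ∧ P.zt t ≤ 2 * P.ζ := by
  have h1 := hP.ζ_pos
  have h2 : (0 : ℝ) < P.T := by exact_mod_cast hP.T_pos
  have h3 : (t : ℝ) / P.T ≤ 1 := by
    rw [div_le_one h2]
    exact_mod_cast ht
  have h4 : (0 : ℝ) ≤ (t : ℝ) / P.T := by positivity
  unfold Par.zt
  constructor <;> nlinarith only [h1, h3, h4]

private theorem hg_self (hr : 0 < r) (hP : P.Good E) {S : α → St r} {z b u u' : ℝ}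
    (hu : z - b ≤ u) (hu' : u ≤ u') (hx : Alive P E z S b x) (hxx : S x ≠ some none) :
    0 < GW P E u' S x ∧ GW P E u' S x ≤ GW P E u S x :=
  GW_mono hr hP hu hu' hx hxx hxx (fun _ _ => Or.inl rfl) (fun _ h => h)

/-- the case of a decision at the point `o` -/
private def BC (P : Par) (E : Env α) (𝓡 : Rule α r) (cls : α → Fin m) (τ : Fin m → ℕ)
    (ρ : Fin m → Equiv.Perm (Fin r)) (t : ℕ) (x o : α) : Prop :=
  o ∈ win P E (run P E 𝓡 cls τ ρ t) x ∧ run P E 𝓡 cls τ ρ t o = none ∧ τ (cls o) = t ∧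
      𝓡.keep t (run P E 𝓡 cls τ ρ t) o ∧
      ∀ ρ' : Fin m → Equiv.Perm (Fin r), (∀ j, j ≠ cls o → ρ' j = ρ j) →
        run P E 𝓡 cls τ ρ' t = run P E 𝓡 cls τ ρ t ∧
        run P E 𝓡 cls τ ρ' (t + 1) o =
          some (some (𝓡.pick o (ρ' (cls o)) (𝓡.allow t (run P E 𝓡 cls τ ρ t) o))) ∧
        ∀ v ∈ win P E (run P E 𝓡 cls τ ρ t) x, v ≠ o →
          run P E 𝓡 cls τ ρ' (t + 1) v = run P E 𝓡 cls τ ρ t v

private theorem BC.unique {o o' : α} (h : BC P E 𝓡 cls τ ρ t x o) (h' : BC P E 𝓡 cls τ ρ t x o') :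
    o = o' := by
  by_contra hne
  have h1 := (h.2.2.2.2 ρ (fun _ _ => rfl)).2.2 o' h'.1 (Ne.symm hne)
  have h2 := (h'.2.2.2.2 ρ (fun _ _ => rfl)).2.1
  rw [h1, h'.2.1] at h2
  exact absurd h2 (by simp)

private theorem BC.update {o : α} (h : BC P E 𝓡 cls τ ρ t x o) (π : Equiv.Perm (Fin r)) :
    BC P E 𝓡 cls τ (Function.update ρ (cls o) π) t x o := by
  have e : run P E 𝓡 cls τ (Function.update ρ (cls o) π) t = run P E 𝓡 cls τ ρ t :=
    hg_run_eq h.2.2.1.ge
  unfold BC
  rw [e]
  refine ⟨h.1, h.2.1, h.2.2.1, h.2.2.2.1, fun ρ' hρ' => ?_⟩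
  exact h.2.2.2.2 ρ' fun j hj => by rw [hρ' j hj, Function.update_of_ne hj]

private theorem BC.update_iff {o : α} (π : Equiv.Perm (Fin r)) :
    BC P E 𝓡 cls τ (Function.update ρ (cls o) π) t x o ↔ BC P E 𝓡 cls τ ρ t x o := by
  refine ⟨fun h => ?_, fun h => h.update π⟩
  have h' := h.update (ρ (cls o))
  rwa [Function.update_idem, Function.update_eq_self] at h'

open Classical in
/-- the term -/
private noncomputable def hgt (P : Par) (E : Env α) (𝓡 : Rule α r) (cls : α → Fin m)
    (τ : Fin m → ℕ) (x : α) (t : ℕ) (u : ℝ) (ρ : Fin m → Equiv.Perm (Fin r)) : ℝ :=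
  if Alv P E 𝓡 cls τ ρ t x then GW P E u (run P E 𝓡 cls τ ρ t) x else 0

/-- deletions only -/
private theorem hgt_A (hr : 0 < r) (hP : P.Good E) (hτ : P.T ≤ τ (cls x)) (ht : t < P.T) {u : ℝ}
    (hu : P.zt t - 5 / 2 * P.κ ≤ u)
    (hA : ∀ v ∈ win P E (run P E 𝓡 cls τ ρ t) x,
      run P E 𝓡 cls τ ρ (t + 1) v = run P E 𝓡 cls τ ρ t v ∨
      run P E 𝓡 cls τ ρ (t + 1) v = some none) :
    hgt P E 𝓡 cls τ x (t + 1) u ρ ≤ hgt P E 𝓡 cls τ x t u ρ := by
  classical
  have hκ := hP.κ_pos
  unfold hgt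
  by_cases h : Alv P E 𝓡 cls τ ρ t x
  · rw [if_pos h]
    have hx0 : run P E 𝓡 cls τ ρ t x = none := hg_run_none (by omega)
    have hx1 : run P E 𝓡 cls τ ρ (t + 1) x = none := hg_run_none (by omega)
    have h1 := GW_mono (u' := u) (b := 4 * P.κ) (z := P.zt t) hr hP (by linarith only [hκ, hu]) le_rfl h.alive
      (by rw [hx0]; simp) (by rw [hx1]; simp) hA hg_run_del
    split_ifs
    · exact h1.2
    · exact (h1.1.trans_le h1.2).le
  · rw [if_neg h, if_neg fun h' => h h'.of_succ]

/-- a decision -/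
private theorem hgt_B (hr : 0 < r) (hP : P.Good E) (hE : 𝓕 i₀ = E) (hF : Fam P 𝓕) (h𝓡 : Valid 𝓡 P 𝓕)
    (hτ : P.T ≤ τ (cls x)) (ht : t < P.T) {u : ℝ}
    (hu : P.zt t - 5 / 2 * P.κ ≤ u) (hu2 : u ≤ 3 * P.ζ) {o : α}
    (hB : BC P E 𝓡 cls τ ρ t x o) :
    ∑ π, hgt P E 𝓡 cls τ x (t + 1) u (Function.update ρ (cls o) π) ≤
      ∑ π, hgt P E 𝓡 cls τ x t u (Function.update ρ (cls o) π) := by
  classical
  obtain ⟨how, hSo, hτo, hkeep, hrun⟩ := hB
  have hle : t ≤ τ (cls o) := hτo.ge
  by_cases h : Alv P E 𝓡 cls τ ρ t x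
  · obtain ⟨hz, hz2⟩ := hg_zt hP ht.le
    have hκ := hP.κ_pos
    have hox : o ∈ E.ball P.N x := (Finset.mem_filter.1 how).1
    have hne : x ≠ o := by
      rintro rfl
      omega
    have hx0 : run P E 𝓡 cls τ ρ t x = none := hg_run_none (by omega)
    have hw := h𝓡.weak t ht _ o hSo hkeep
    have hwE : Keep P E (4 * P.κ) P.Λ (P.zt t) (run P E 𝓡 cls τ ρ t) o := hE ▸ hw i₀
    have ho : Alive P E (P.zt t) (run P E 𝓡 cls τ ρ t) (4 * P.κ) o :=
      hwE.1 o (hg_mem_ball hP o)
    have ha : ∀ a ∈ 𝓡.allow t (run P E 𝓡 cls τ ρ t) o,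
        sw P E (P.zt t) (run P E 𝓡 cls τ ρ t) o o 0 a ≤ 6 * (P.Γ * P.zt t) := fun a haO => by
      have h9 := h𝓡.allow_weak t ht _ o hSo hkeep a haO i₀
      rwa [hE] at h9
    have hO : r ≤ 2 * (𝓡.allow t (run P E 𝓡 cls τ ρ t) o).card :=
      card_allow hr hF.good hF.card hP.Γ_ge hz hSo
        (fun j => (hw j).1 o (by rw [hF.ball j i₀, hE]; exact hg_mem_ball hP o)) _
        (h𝓡.allow_strong t ht _ o hSo hkeep)
    have hOne : (𝓡.allow t (run P E 𝓡 cls τ ρ t) o).Nonempty := by
      rw [← Finset.card_pos]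
      omega
    have e1 : ∀ π, hgt P E 𝓡 cls τ x t u (Function.update ρ (cls o) π) =
        GW P E u (run P E 𝓡 cls τ ρ t) x := by
      intro π
      unfold hgt
      rw [if_pos ((hg_alv_iff hle).2 h), hg_run_eq hle]
    have e2 : ∀ π, hgt P E 𝓡 cls τ x (t + 1) u (Function.update ρ (cls o) π) ≤
        GW P E u (Function.update (run P E 𝓡 cls τ ρ t) o
          (some (some (𝓡.pick o π (𝓡.allow t (run P E 𝓡 cls τ ρ t) o))))) x := by
      intro π
      have hπ := hrun (Function.update ρ (cls o) π) (fun j hj => Function.update_of_ne hj _ _)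
      rw [Function.update_self] at hπ
      have hal := alive_update hr hP hz hz2 hSo hox h.alive ho
        (ha _ (h𝓡.pick_mem o π _ hOne))
      have hpos := (hg_self (u := u) (u' := u) hr hP hu le_rfl hal
        (by rw [Function.update_of_ne hne, hx0]; simp)).1
      have hc : GW P E u (run P E 𝓡 cls τ (Function.update ρ (cls o) π) (t + 1)) x =
          GW P E u (Function.update (run P E 𝓡 cls τ ρ t) o
          (some (some (𝓡.pick o π (𝓡.allow t (run P E 𝓡 cls τ ρ t) o))))) x := by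
        refine GW_congr fun v hv => ?_
        by_cases hvo : v = o
        · subst hvo
          rw [Function.update_self]
          exact hπ.2.1
        · rw [Function.update_of_ne hvo]
          by_cases hd : run P E 𝓡 cls τ ρ t v = some none
          · rw [hd]
            refine hg_run_del v ?_
            rw [hπ.1, hd]
          · exact hπ.2.2 v (Finset.mem_filter.2 ⟨hv, hd⟩) hvo
      unfold hgt
      split_ifs
      · exact hc.le
      · exact hpos.le
    refine (Finset.sum_le_sum fun π _ => e2 π).trans ?_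
    simp only [e1]
    have h3 := sum_pick h𝓡 o (𝓡.allow t (run P E 𝓡 cls τ ρ t) o) hOne
      (fun a => GW P E u (Function.update (run P E 𝓡 cls τ ρ t) o (some (some a))) x)
    have h4 := GW_step hr hP hz hz2 hSo hox hne (by rw [hx0]; simp) hu hu2 h.alive ho _ hO ha
    have h5 : (0 : ℝ) < (𝓡.allow t (run P E 𝓡 cls τ ρ t) o).card := by
      exact_mod_cast Finset.card_pos.2 hOne
    rw [Finset.sum_const, Finset.card_univ, nsmul_eq_mul]
    refine le_of_mul_le_mul_left ?_ h5
    rw [h3]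
    have h6 : (0 : ℝ) ≤ Fintype.card (Equiv.Perm (Fin r)) := Nat.cast_nonneg _
    calc (Fintype.card (Equiv.Perm (Fin r)) : ℝ) *
          ∑ a ∈ 𝓡.allow t (run P E 𝓡 cls τ ρ t) o,
            GW P E u (Function.update (run P E 𝓡 cls τ ρ t) o (some (some a))) x
        ≤ (Fintype.card (Equiv.Perm (Fin r)) : ℝ) *
          ((𝓡.allow t (run P E 𝓡 cls τ ρ t) o).card *
            GW P E u (run P E 𝓡 cls τ ρ t) x) := mul_le_mul_of_nonneg_left h4 h6
      _ = _ := by ring
  · refine Finset.sum_le_sum fun π _ => ?_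
    have h1 : ¬ Alv P E 𝓡 cls τ (Function.update ρ (cls o) π) t x := fun h' =>
      h ((hg_alv_iff hle).1 h')
    unfold hgt
    rw [if_neg h1, if_neg fun h' => h1 h'.of_succ]

/-- it does not increase in time -/
theorem HG_step (hr : 0 < r) (hP : P.Good E) (hE : 𝓕 i₀ = E) (hF : Fam P 𝓕) (h𝓡 : Valid 𝓡 P 𝓕)
    (hsp : SparseCls P E cls) (hτ : P.T ≤ τ (cls x)) (ht : t < P.T) {u : ℝ}
    (hu : P.zt t - 5 / 2 * P.κ ≤ u) (hu2 : u ≤ 3 * P.ζ) :
    HG P E 𝓡 cls τ x (t + 1) u ≤ HG P E 𝓡 cls τ x t u := by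
  classical
  have hHG : ∀ t, HG P E 𝓡 cls τ x t u = ∑ ρ, hgt P E 𝓡 cls τ x t u ρ := fun t => rfl
  rw [hHG, hHG, ← sub_nonpos, ← Finset.sum_sub_distrib]
  have h1 : ∀ ρ : Fin m → Equiv.Perm (Fin r),
      hgt P E 𝓡 cls τ x (t + 1) u ρ - hgt P E 𝓡 cls τ x t u ρ ≤
      ∑ j, if ∃ o, cls o = j ∧ BC P E 𝓡 cls τ ρ t x o then
        hgt P E 𝓡 cls τ x (t + 1) u ρ - hgt P E 𝓡 cls τ x t u ρ else 0 := by
    intro ρ
    by_cases hB : ∃ o, BC P E 𝓡 cls τ ρ t x o
    · obtain ⟨o, ho⟩ := hB
      rw [Finset.sum_eq_single (cls o)]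
      · rw [if_pos ⟨o, rfl, ho⟩]
      · intro j _ hj
        rw [if_neg]
        rintro ⟨o', rfl, ho'⟩
        exact hj (by rw [ho.unique ho'])
      · exact fun h => absurd (Finset.mem_univ _) h
    · have hA := (step_cases (𝓡 := 𝓡) (τ := τ) (ρ := ρ) hsp hP.rad x t).resolve_right
        (fun ⟨o, h⟩ => hB ⟨o, h⟩)
      have h2 := hgt_A hr hP hτ ht hu hA
      rw [Finset.sum_eq_zero]
      · linarith only [h2]
      · intro j _
        rw [if_neg]
        rintro ⟨o, -, ho⟩
        exact hB ⟨o, ho⟩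
  refine (Finset.sum_le_sum fun ρ _ => h1 ρ).trans ?_
  rw [Finset.sum_comm]
  refine Finset.sum_nonpos fun j _ => ?_
  have hc : (0 : ℝ) < Fintype.card (Equiv.Perm (Fin r)) := by exact_mod_cast Fintype.card_pos
  have h3 := sum_update (r := r) j (fun ρ => if ∃ o, cls o = j ∧ BC P E 𝓡 cls τ ρ t x o then
        hgt P E 𝓡 cls τ x (t + 1) u ρ - hgt P E 𝓡 cls τ x t u ρ else 0)
  have h4 : ∑ ρ : Fin m → Equiv.Perm (Fin r), ∑ π,
      (if ∃ o, cls o = j ∧ BC P E 𝓡 cls τ (Function.update ρ j π) t x o then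
        hgt P E 𝓡 cls τ x (t + 1) u (Function.update ρ j π) -
          hgt P E 𝓡 cls τ x t u (Function.update ρ j π) else 0) ≤ 0 := by
    refine Finset.sum_nonpos fun ρ _ => ?_
    by_cases hB : ∃ o, cls o = j ∧ BC P E 𝓡 cls τ ρ t x o
    · obtain ⟨o, rfl, ho⟩ := hB
      have h5 : ∀ π : Equiv.Perm (Fin r), ∃ o', cls o' = cls o ∧
          BC P E 𝓡 cls τ (Function.update ρ (cls o) π) t x o' :=
        fun π => ⟨o, rfl, ho.update π⟩
      simp only [h5, if_true]
      rw [Finset.sum_sub_distrib]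
      have := hgt_B hr hP hE hF h𝓡 hτ ht hu hu2 ho
      linarith only [this]
    · refine le_of_eq (Finset.sum_eq_zero fun π _ => ?_)
      rw [if_neg]
      rintro ⟨o, rfl, ho⟩
      exact hB ⟨o, rfl, (BC.update_iff π).1 ho⟩
  rw [← h3] at h4
  by_contra hcon
  push Not at hcon
  have := mul_pos hc hcon
  linarith only [h4, this]

theorem HG_zero (hr : 0 < r) (hP : P.Good E) (hi : Ini P E r) {u : ℝ}
    (hu : P.ζ - 5 / 2 * P.κ ≤ u) :
    HG P E 𝓡 cls τ x 0 u ≤ Fintype.card (Fin m → Equiv.Perm (Fin r)) * (4 / P.ζ) := by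
  classical
  have hζ := hP.ζ_pos
  have hκ := hP.κ_pos
  have hκζ := hP.κ_le
  have hpos : 0 < 4 / P.ζ := by positivity
  have key : GW P E u (fun _ => (none : St r)) x ≤ 4 / P.ζ := by
    have hx := hg_mem_ball hP x
    have hxw : x ∈ win P E (fun _ => (none : St r)) x :=
      Finset.mem_filter.2 ⟨hx, by simp⟩
    have hcs : cs (fun _ : α => (none : St r)) = fun _ => none := rfl
    have hl : ∀ v, 2 / 3 * P.ζ ≤ lv P E u (fun _ => (none : St r)) x v := by
      intro v
      unfold lv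
      have := fx_nonneg (P := P) (E := E) (x := x) (o := v)
      simp only [if_true]
      linarith only [hu, hκ, hκζ, this]
    have hS0 := hi (win P E (fun _ => (none : St r)) x)
    have hS : Safe E.y (fun _ => (none : Option (Fin r))) (lv P E u (fun _ => (none : St r)) x)
        (win P E (fun _ => (none : St r)) x) :=
      hS0.mono hr E.herm fun i _ => hl i
    unfold GW
    rw [hcs, GG_eq hr E.herm hS hxw]
    have hne : x ∉ (win P E (fun _ => (none : St r)) x).erase x := Finset.notMem_erase _ _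
    have h1 := (safe_insert_iff hr E.herm hne).1 (by rw [Finset.insert_erase hxw]; exact hS0)
    have h2 := sg_anti hr E.herm hne h1.1 (l' := lv P E u (fun _ => (none : St r)) x)
      fun i _ => hl i
    have h3 : u ≤ lv P E u (fun _ => (none : St r)) x x := by
      unfold lv
      have := fx_nonneg (P := P) (E := E) (x := x) (o := x)
      simp only [if_true]
      linarith only [this]
    have h4 : P.ζ / 4 ≤ lv P E u (fun _ => (none : St r)) x x -
        sg E.y (fun _ => (none : Option (Fin r))) x (lv P E u (fun _ => (none : St r)) x)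
          ((win P E (fun _ => (none : St r)) x).erase x) := by
      have := h1.2
      linarith only [this, h3, h2, hκζ, hκ, hu]
    have h5 : 4 / P.ζ = 1 / (P.ζ / 4) := by
      rw [one_div, inv_div]
    rw [h5]
    exact one_div_le_one_div_of_le (by positivity) h4
  unfold HG
  refine (Finset.sum_le_sum (g := fun _ => 4 / P.ζ) fun ρ _ => ?_).trans ?_
  · split_ifs
    · exact key
    · exact hpos.le
  · rw [Finset.sum_const, Finset.card_univ, nsmul_eq_mul]

theorem HG_anti (hr : 0 < r) (hP : P.Good E) (hτ : P.T ≤ τ (cls x)) (ht : t ≤ P.T) {u u' : ℝ}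
    (hu : P.zt t - 5 / 2 * P.κ ≤ u) (huu : u ≤ u') :
    0 ≤ HG P E 𝓡 cls τ x t u' ∧ HG P E 𝓡 cls τ x t u' ≤ HG P E 𝓡 cls τ x t u := by
  classical
  have hκ := hP.κ_pos
  have h : ∀ ρ : Fin m → Equiv.Perm (Fin r), Alv P E 𝓡 cls τ ρ t x →
      0 < GW P E u' (run P E 𝓡 cls τ ρ t) x ∧
      GW P E u' (run P E 𝓡 cls τ ρ t) x ≤ GW P E u (run P E 𝓡 cls τ ρ t) x := by
    intro ρ hA
    refine hg_self (b := 4 * P.κ) (z := P.zt t) hr hP (by linarith only [hκ, hu]) huu hA.alive ?_
    rw [hg_run_none (by omega)]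
    simp
  unfold HG
  constructor
  · refine Finset.sum_nonneg fun ρ _ => ?_
    split_ifs with hA
    · exact (h ρ hA).1.le
    · exact le_rfl
  · refine Finset.sum_le_sum fun ρ _ => ?_
    split_ifs with hA
    · exact (h ρ hA).2
    · exact le_rfl

end Vale.Agent.P078.MT
end
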