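import Vale.Agent.P078.H291.MT5

set_option linter.all false

section
/-! T3-E6: the probability that a window is dead. -/

namespace Vale.Agent.P078.MT

open Vale.Agent.P078.T

open Finset Polynomial
open Vale.Agent.P078.C (Herm ZD FB qf yc Q)

variable {α : Type*} [DecidableEq α] {r m : ℕ}
variable {P : Par} {E : Env α} {𝓡 : Rule α r} {cls : α → Fin m} {τ : Fin m → ℕ}
variable {ρ : Fin m → Equiv.Perm (Fin r)} {t : ℕ} {x v : α}
variable {ι : Type} [Fintype ι] {𝓕 : ι → Env α} {i₀ : ι}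

/-! ### Parameters -/

theorem pp_zt_mono (hP : P.Good E) (t : ℕ) : P.zt t ≤ P.zt (t + 1) := by
  have h1 := hP.ζ_pos
  have h2 : (0 : ℝ) < P.T := by exact_mod_cast hP.T_pos
  unfold Par.zt
  have h3 : (t : ℝ) / P.T ≤ ((t + 1 : ℕ) : ℝ) / P.T := by
    apply div_le_div_of_nonneg_right _ h2.le
    push_cast
    linarith only []
  have := mul_le_mul_of_nonneg_left h3 h1.le
  linarith only [this]

theorem pp_le_zt (hP : P.Good E) (t : ℕ) : P.ζ ≤ P.zt t := by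
  have h1 := hP.ζ_pos
  unfold Par.zt
  have : 0 ≤ P.ζ * ((t : ℝ) / P.T) := by positivity
  linarith

theorem pp_zt_le (hP : P.Good E) (ht : t ≤ P.T) : P.zt t ≤ 2 * P.ζ := by
  have h1 := hP.ζ_pos
  have h2 : (0 : ℝ) < P.T := by exact_mod_cast hP.T_pos
  have h3 : (t : ℝ) / P.T ≤ 1 := by
    rw [div_le_one h2]
    exact_mod_cast ht
  unfold Par.zt
  have := mul_le_mul_of_nonneg_left h3 h1.le
  linarith only [this]

theorem pp_N_le (hP : P.Good E) : P.N ≤ E.rad := by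
  have := hP.rad
  omega

/-- `n κ` is small compared with `ζ` -/
theorem pp_nκ (hP : P.Good E) : P.n * P.κ ≤ P.ζ / 1000 := by
  have h1 := hP.ζ_pos
  have h2 := hP.κ_pos
  have hΓ := hP.Γ_ge
  have h3 : 0 ≤ 38400 * (P.Γ * P.ζ) / P.fs := by
    have := hP.fs_pos
    positivity
  have h4 := hP.hM
  have h5 := hP.Λ_ge
  have h6 : (46400 : ℝ) ≤ 1 + P.M := by linarith only [h5, h4, h3]
  have h7 : P.n * P.κ * 46400 ≤ P.n * P.κ * (1 + P.M) :=
    mul_le_mul_of_nonneg_left h6 (by (clear * - h2; positivity))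
  have h8 := hP.hn
  linarith only [h1, h7, h8]

theorem pp_pow_le (hP : P.Good E) : (P.ζ / 3 / (P.ζ / 3 - P.κ)) ^ P.n ≤ 3 := by
  have h1 := hP.ζ_pos
  have h2 := hP.κ_pos
  have h3 := hP.κ_le
  have h4 := pp_nκ hP
  have h5 : P.ζ / 4 ≤ P.ζ / 3 - P.κ := by linarith only [h2, h3]
  have h6 : 0 < P.ζ / 3 - P.κ := by linarith only [h2, h3]
  have h7 : P.ζ / 3 / (P.ζ / 3 - P.κ) = P.κ / (P.ζ / 3 - P.κ) + 1 := by
    rw [div_add_one h6.ne']
    congr 1
    ring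
  have h8 : P.κ / (P.ζ / 3 - P.κ) ≤ P.κ / (P.ζ / 4) :=
    div_le_div_of_nonneg_left h2.le (by positivity) h5
  have h9 : P.ζ / 3 / (P.ζ / 3 - P.κ) ≤ Real.exp (P.κ / (P.ζ / 4)) := by
    rw [h7]
    exact (Real.add_one_le_exp _).trans (Real.exp_le_exp.2 h8)
  calc (P.ζ / 3 / (P.ζ / 3 - P.κ)) ^ P.n ≤ (Real.exp (P.κ / (P.ζ / 4))) ^ P.n :=
        pow_le_pow_left₀ (by (clear * - h1 h6; positivity)) h9 _
    _ = Real.exp (P.n * (P.κ / (P.ζ / 4))) := (Real.exp_nat_mul _ _).symm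
    _ ≤ Real.exp 1 := by
        apply Real.exp_le_exp.2
        have : P.n * (P.κ / (P.ζ / 4)) = 4 * (P.n * P.κ) / P.ζ := by
          (clear * - h1 h2; field_simp)
        rw [this, div_le_one h1]
        linarith only [h2, h3, h4]
    _ ≤ 3 := by
        have := Real.exp_one_lt_d9
        linarith only [this]

/-! ### Safety -/

theorem pp_alive_mono (hr : 0 < r) {z : ℝ} {S : α → St r} {b b' : ℝ} (hb : b' ≤ b)
    (h : Alive P E z S b x) : Alive P E z S b' x :=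
  Safe.mono hr E.herm h fun i _ => by linarith only [hb]

theorem pp_keep_deleted {v : α} (h : run P E 𝓡 cls τ ρ t v = some none) :
    run P E 𝓡 cls τ ρ (t + 1) v = some none := by
  have h1 : run P E 𝓡 cls τ ρ (t + 1) = step P E 𝓡 cls τ ρ t (run P E 𝓡 cls τ ρ t) := rfl
  rw [h1]
  unfold step
  rw [if_neg, h]
  rintro ⟨h2, -⟩
  rw [h] at h2
  cases h2

/-- the acting point is unique -/
theorem pp_unique (hP : P.Good E) {ρ : Fin m → Equiv.Perm (Fin r)} {o o' : α}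
    (ho : o ∈ E.ball P.N x) (ho' : o' ∈ E.ball P.N x) (hτ' : τ (cls o') = t)
    {a : Fin r} (h : run P E 𝓡 cls τ ρ (t + 1) o = some (some a))
    (hn : run P E 𝓡 cls τ ρ t o = none) (hτ : τ (cls o) = t) : o' = o := by
  by_contra hne
  have h1 : run P E 𝓡 cls τ ρ (t + 1) = step P E 𝓡 cls τ ρ t (run P E 𝓡 cls τ ρ t) := rfl
  rw [h1] at h
  unfold step at h
  rw [if_pos ⟨hn, hτ⟩, if_pos] at h
  · cases h
  · left
    refine ⟨o', ?_, hne, hτ'⟩
    rw [E.mem_ball _ hP.rad]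
    have e1 := (E.mem_ball _ (pp_N_le hP) x o).1 ho
    have e2 := (E.mem_ball _ (pp_N_le hP) x o').1 ho'
    have e3 := E.d_tri o x o'
    rw [E.d_symm o x] at e3
    omega

theorem pp_mem_win {S : α → St r} {o : α} (h : o ∈ win P E S x) : o ∈ E.ball P.N x :=
  (Finset.mem_filter.1 h).1

theorem pp_sum_nonneg_card : 0 < (Fintype.card (Equiv.Perm (Fin r)) : ℝ) := by
  exact_mod_cast Fintype.card_pos

/-- one step: averaging over the class of the acting point -/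
theorem pp_step_avg (hr : 0 < r) (hP : P.Good E) (hE : 𝓕 i₀ = E) (hF : Fam P 𝓕) (h𝓡 : Valid 𝓡 P 𝓕)
    (ht : t < P.T)
    (ρ₀ : Fin m → Equiv.Perm (Fin r)) {o : α}
    (ho : o ∈ win P E (run P E 𝓡 cls τ ρ₀ t) x) (hn : run P E 𝓡 cls τ ρ₀ t o = none)
    (hkeep : 𝓡.keep t (run P E 𝓡 cls τ ρ₀ t) o)
    (hall : ∀ ρ' : Fin m → Equiv.Perm (Fin r), (∀ j, j ≠ cls o → ρ' j = ρ₀ j) →
        run P E 𝓡 cls τ ρ' t = run P E 𝓡 cls τ ρ₀ t ∧
        run P E 𝓡 cls τ ρ' (t + 1) o =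
          some (some (𝓡.pick o (ρ' (cls o)) (𝓡.allow t (run P E 𝓡 cls τ ρ₀ t) o))) ∧
        ∀ v ∈ win P E (run P E 𝓡 cls τ ρ₀ t) x, v ≠ o →
          run P E 𝓡 cls τ ρ' (t + 1) v = run P E 𝓡 cls τ ρ₀ t v) :
    ∑ π, PhiW P E (P.zt (t + 1)) (run P E 𝓡 cls τ (Function.update ρ₀ (cls o) π) (t + 1)) x ≤
      ∑ π, PhiW P E (P.zt t) (run P E 𝓡 cls τ (Function.update ρ₀ (cls o) π) t) x := by
  set S := run P E 𝓡 cls τ ρ₀ t with hS
  set O := 𝓡.allow t S o with hO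
  have hz := pp_le_zt hP t
  have hz2 := pp_zt_le hP ht.le
  have hox := pp_mem_win ho
  have hKj := h𝓡.weak t ht S o hn hkeep
  have hK : Keep P E (4 * P.κ) P.Λ (P.zt t) S o := hE ▸ hKj i₀
  have hoo : o ∈ E.ball P.N o := by
    rw [E.mem_ball _ (pp_N_le hP), E.d_self]
    exact Nat.zero_le _
  have hxo : x ∈ E.ball P.N o := by
    rw [E.mem_ball _ (pp_N_le hP), E.d_symm]
    exact (E.mem_ball _ (pp_N_le hP) x o).1 hox
  have hAo := hK.1 o hoo
  have hAx := hK.1 x hxo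
  have hcard : r ≤ 2 * O.card := card_allow hr hF.good hF.card hP.Γ_ge hz hn
    (fun j => (hKj j).1 o (by rw [hF.ball j i₀, hE]; exact hoo)) O fun a h1 =>
    h𝓡.allow_strong t ht S o hn hkeep a h1
  have hOne : O.Nonempty := by
    rw [← Finset.card_pos]
    omega
  have ha : ∀ a ∈ O, sw P E (P.zt t) S o o 0 a ≤ 6 * (P.Γ * P.zt t) := fun a ha => by
    have h9 := h𝓡.allow_weak t ht S o hn hkeep a ha i₀
    rwa [hE] at h9
  -- pointwise comparison
  have hpt : ∀ π, PhiW P E (P.zt (t + 1))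
      (run P E 𝓡 cls τ (Function.update ρ₀ (cls o) π) (t + 1)) x ≤
      PhiW P E (P.zt t) (Function.update S o (some (some (𝓡.pick o π O)))) x := by
    intro π
    obtain ⟨h1, h2, h3⟩ := hall (Function.update ρ₀ (cls o) π)
      (fun j hj => Function.update_of_ne hj _ _)
    rw [Function.update_self] at h2
    have hal : Alive P E (P.zt t) (Function.update S o (some (some (𝓡.pick o π O)))) P.κ x :=
      pp_alive_mono hr (by linarith only [hP.κ_pos]) (alive_update hr hP hz hz2 hn hox hAx hAo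
        (ha _ (h𝓡.pick_mem o π O hOne)))
    refine (PhiW_mono hr hP (pp_zt_mono hP t) hal ?_ ?_).2
    · intro v hv
      by_cases hvo : v = o
      · subst hvo
        left
        rw [h2, Function.update_self]
      · left
        rw [Function.update_of_ne hvo]
        refine h3 v ?_ hvo
        have h4 := (Finset.mem_filter.1 hv).2
        rw [Function.update_of_ne hvo] at h4
        exact Finset.mem_filter.2 ⟨(Finset.mem_filter.1 hv).1, h4⟩
    · intro v hv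
      by_cases hvo : v = o
      · subst hvo
        rw [Function.update_self] at hv
        cases hv
      · rw [Function.update_of_ne hvo] at hv
        apply pp_keep_deleted
        rw [h1]
        exact hv
  have hR : ∀ π, PhiW P E (P.zt t) (run P E 𝓡 cls τ (Function.update ρ₀ (cls o) π) t) x =
      PhiW P E (P.zt t) S x := by
    intro π
    obtain ⟨h1, -, -⟩ := hall (Function.update ρ₀ (cls o) π)
      (fun j hj => Function.update_of_ne hj _ _)
    rw [h1]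
  simp only [hR, Finset.sum_const, Finset.card_univ, nsmul_eq_mul]
  refine (Finset.sum_le_sum fun π _ => hpt π).trans ?_
  have e1 := sum_pick h𝓡 o O hOne fun a =>
    PhiW P E (P.zt t) (Function.update S o (some (some a))) x
  have e2 := PhiW_step hr hP hz hz2 hn hox hK O hcard ha
  have hOpos : (0 : ℝ) < O.card := by exact_mod_cast hOne.card_pos
  have hc := pp_sum_nonneg_card (r := r)
  rw [← mul_le_mul_iff_right₀ hOpos]
  rw [e1]
  calc _ ≤ (Fintype.card (Equiv.Perm (Fin r)) : ℝ) * (O.card * PhiW P E (P.zt t) S x) :=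
        mul_le_mul_of_nonneg_left e2 hc.le
    _ = _ := by ring

/-- one step -/
theorem pp_step (hr : 0 < r) (hP : P.Good E) (hE : 𝓕 i₀ = E) (hF : Fam P 𝓕) (h𝓡 : Valid 𝓡 P 𝓕)
    (hsp : SparseCls P E cls) (hi : Ini P E r) (ht : t < P.T) (x : α) :
    ∑ ρ : Fin m → Equiv.Perm (Fin r),
        PhiW P E (P.zt (t + 1)) (run P E 𝓡 cls τ ρ (t + 1)) x ≤
      ∑ ρ : Fin m → Equiv.Perm (Fin r), PhiW P E (P.zt t) (run P E 𝓡 cls τ ρ t) x := by
  classical
  -- the case of a deletion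
  have hdel : ∀ ρ : Fin m → Equiv.Perm (Fin r), (∀ v ∈ win P E (run P E 𝓡 cls τ ρ t) x,
      run P E 𝓡 cls τ ρ (t + 1) v = run P E 𝓡 cls τ ρ t v ∨
      run P E 𝓡 cls τ ρ (t + 1) v = some none) →
      PhiW P E (P.zt (t + 1)) (run P E 𝓡 cls τ ρ (t + 1)) x ≤
        PhiW P E (P.zt t) (run P E 𝓡 cls τ ρ t) x := fun ρ h =>
    (PhiW_mono hr hP (pp_zt_mono hP t) (inv hE hF hr hP h𝓡 hsp hi t ht.le x) h
      fun v hv => pp_keep_deleted hv).2
  by_cases hex : ∃ ρ₀ : Fin m → Equiv.Perm (Fin r), ¬ ∀ v ∈ win P E (run P E 𝓡 cls τ ρ₀ t) x,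
      run P E 𝓡 cls τ ρ₀ (t + 1) v = run P E 𝓡 cls τ ρ₀ t v ∨
      run P E 𝓡 cls τ ρ₀ (t + 1) v = some none
  · obtain ⟨ρ₀, hρ₀⟩ := hex
    obtain ⟨o₀, ho₀, -, hτ₀, -, -⟩ := (step_cases hsp hP.rad x t).resolve_left hρ₀
    have hc := pp_sum_nonneg_card (r := r)
    rw [← mul_le_mul_iff_right₀ hc, sum_update (cls o₀), sum_update (cls o₀)]
    refine Finset.sum_le_sum fun ρ _ => ?_
    by_cases hall : ∀ π, ∀ v ∈ win P E
        (run P E 𝓡 cls τ (Function.update ρ (cls o₀) π) t) x,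
        run P E 𝓡 cls τ (Function.update ρ (cls o₀) π) (t + 1) v =
          run P E 𝓡 cls τ (Function.update ρ (cls o₀) π) t v ∨
        run P E 𝓡 cls τ (Function.update ρ (cls o₀) π) (t + 1) v = some none
    · exact Finset.sum_le_sum fun π _ => hdel _ (hall π)
    · obtain ⟨π₁, hπ₁⟩ := not_forall.1 hall
      set ρ₁ := Function.update ρ (cls o₀) π₁ with hρ₁
      obtain ⟨o, ho, hn, hτ, hkeep, hrest⟩ := (step_cases hsp hP.rad x t).resolve_left hπ₁
      have heq : o₀ = o := by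
        refine pp_unique hP (pp_mem_win ho) (pp_mem_win ho₀) hτ₀ (hrest ρ₁ fun j _ => rfl).2.1
          hn hτ
      have hup : ∀ π, Function.update ρ (cls o₀) π = Function.update ρ₁ (cls o) π := by
        intro π
        rw [hρ₁, heq, Function.update_idem]
      simp only [hup]
      exact pp_step_avg hr hP hE hF h𝓡 ht ρ₁ ho hn hkeep hrest
  · push Not at hex
    exact Finset.sum_le_sum fun ρ _ => hdel ρ (hex ρ)

theorem pp_zero (hr : 0 < r) (hP : P.Good E) (hi : Ini P E r) (x : α) :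
    PhiW P E (P.zt 0) (fun _ => none : α → St r) x ≤ 3 * (E.Δ : ℝ) ^ P.N := by
  have h1 := hP.ζ_pos
  have h2 := hP.κ_pos
  have h3 := hP.κ_le
  unfold PhiW
  have hs : Safe E.y (cs (fun _ => none : α → St r))
      (fun i => lv P E (P.zt 0) (fun _ => none : α → St r) x i - P.ζ / 3)
      (win P E (fun _ => none : α → St r) x) := by
    have h4 : Safe E.y (cs (fun _ => none : α → St r)) (fun _ => 2 / 3 * P.ζ)
        (win P E (fun _ => none : α → St r) x) := hi _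
    refine h4.mono hr E.herm fun i _ => ?_
    have h5 : 0 ≤ fx P E x i := fx_nonneg
    simp only [lv, Par.zt, if_true]
    simp only [CharP.cast_eq_zero, zero_div, mul_zero, add_zero, ge_iff_le]
    linarith
  refine (Phi_le hr E.herm h2 (a := P.ζ / 3) (by linarith only [h2, h3]) P.n hs).trans ?_
  have h6 : ((win P E (fun _ => none : α → St r) x).card : ℝ) ≤ (E.Δ : ℝ) ^ P.N := by
    have h7 : (win P E (fun _ => none : α → St r) x).card ≤ E.Δ ^ P.N :=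
      (Finset.card_filter_le _ _).trans (E.card_ball _ (pp_N_le hP) x)
    exact_mod_cast h7
  calc _ ≤ (E.Δ : ℝ) ^ P.N * 3 :=
        mul_le_mul h6 (pp_pow_le hP) (by
          have : 0 < P.ζ / 3 - P.κ := by linarith only [h2, h3]
          positivity) (by (clear * -; positivity))
    _ = _ := by ring

/-- expected potential -/
theorem sum_PhiW (hr : 0 < r) (hP : P.Good E) (hE : 𝓕 i₀ = E) (hF : Fam P 𝓕) (h𝓡 : Valid 𝓡 P 𝓕)
    (hsp : SparseCls P E cls) (hi : Ini P E r) (t : ℕ) (ht : t ≤ P.T) (x : α) :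
    ∑ ρ : Fin m → Equiv.Perm (Fin r), PhiW P E (P.zt t) (run P E 𝓡 cls τ ρ t) x ≤
      Fintype.card (Fin m → Equiv.Perm (Fin r)) * (3 * (E.Δ : ℝ) ^ P.N) := by
  induction t with
  | zero =>
    have h1 : ∀ ρ : Fin m → Equiv.Perm (Fin r),
        PhiW P E (P.zt 0) (run P E 𝓡 cls τ ρ 0) x ≤ 3 * (E.Δ : ℝ) ^ P.N := fun ρ =>
      pp_zero hr hP hi x
    refine (Finset.sum_le_sum fun ρ _ => h1 ρ).trans ?_
    rw [Finset.sum_const, Finset.card_univ, nsmul_eq_mul]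
  | succ t ih => exact (pp_step hr hP hE hF h𝓡 hsp hi ht x).trans (ih (by omega))

open Classical in
/-- probability that a window has not the margin `5 κ` at time `t` -/
theorem prob_dead (hr : 0 < r) (hP : P.Good E) (hE : 𝓕 i₀ = E) (hF : Fam P 𝓕) (h𝓡 : Valid 𝓡 P 𝓕)
    (hsp : SparseCls P E cls) (hi : Ini P E r) (t : ℕ) (ht : t ≤ P.T) (x : α) :
    ((Finset.univ.filter fun ρ : Fin m → Equiv.Perm (Fin r) =>
      ¬ Alive P E (P.zt t) (run P E 𝓡 cls τ ρ t) (5 * P.κ) x).card : ℝ) ≤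
      Fintype.card (Fin m → Equiv.Perm (Fin r)) * (3 * (E.Δ : ℝ) ^ P.N * (4 / 5) ^ P.n) := by
  have hκ := hP.κ_pos
  have key := sum_PhiW (τ := τ) hr hP hE hF h𝓡 hsp hi t ht x
  have h0 : ∀ ρ : Fin m → Equiv.Perm (Fin r),
      0 ≤ PhiW P E (P.zt t) (run P E 𝓡 cls τ ρ t) x := fun ρ =>
    Phi_nonneg hr E.herm hκ _ (inv hE hF hr hP h𝓡 hsp hi t ht x)
  have h1 : ∀ ρ ∈ Finset.univ.filter fun ρ : Fin m → Equiv.Perm (Fin r) =>
      ¬ Alive P E (P.zt t) (run P E 𝓡 cls τ ρ t) (5 * P.κ) x,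
      (5 / 4 : ℝ) ^ P.n ≤ PhiW P E (P.zt t) (run P E 𝓡 cls τ ρ t) x := by
    intro ρ hρ
    have h2 := Phi_ge hr E.herm hκ (a := 5 * P.κ) (by linarith only [hκ]) P.n
      (inv hE hF hr hP h𝓡 hsp hi t ht x (τ := τ) (ρ := ρ)) (Finset.mem_filter.1 hρ).2
    have h3 : 5 * P.κ / (5 * P.κ - P.κ) = 5 / 4 := by
      have : 5 * P.κ - P.κ = 4 * P.κ := by ring
      rw [this]
      field_simp
    rwa [h3] at h2
  have h2 : ((Finset.univ.filter fun ρ : Fin m → Equiv.Perm (Fin r) =>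
      ¬ Alive P E (P.zt t) (run P E 𝓡 cls τ ρ t) (5 * P.κ) x).card : ℝ) * (5 / 4 : ℝ) ^ P.n ≤
      ∑ ρ : Fin m → Equiv.Perm (Fin r), PhiW P E (P.zt t) (run P E 𝓡 cls τ ρ t) x := by
    rw [← nsmul_eq_mul]
    exact (Finset.card_nsmul_le_sum _ _ _ h1).trans
      (Finset.sum_le_univ_sum_of_nonneg h0)
  have h3 := h2.trans key
  have h4 : (0 : ℝ) < (4 / 5 : ℝ) ^ P.n := by positivity
  have h5 : (5 / 4 : ℝ) ^ P.n * (4 / 5 : ℝ) ^ P.n = 1 := by
    rw [← mul_pow]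
    norm_num
  have h6 := mul_le_mul_of_nonneg_right h3 h4.le
  rw [mul_assoc, h5, mul_one] at h6
  calc _ ≤ _ := h6
    _ = _ := by ring

end Vale.Agent.P078.MT
end

section
/-! T3-E8: the probability of large variations of self energies. -/

namespace Vale.Agent.P078.MT

open Vale.Agent.P078.T

open Finset Polynomial
open Vale.Agent.P078.C (Herm ZD FB qf yc Q)

variable {α : Type*} [DecidableEq α] {r m : ℕ}
variable {P : Par} {E : Env α} {𝓡 : Rule α r} {cls : α → Fin m} {τ : Fin m → ℕ}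
variable {ρ : Fin m → Equiv.Perm (Fin r)} {t : ℕ} {x v : α}
variable {ι : Type} [Fintype ι] {𝓕 : ι → Env α} {i₀ : ι}

private theorem zt_mono_aux (hP : P.Good E) {s t : ℕ} (h : s ≤ t) : P.zt s ≤ P.zt t := by
  unfold Par.zt
  have h1 : (0 : ℝ) < P.T := by exact_mod_cast hP.T_pos
  have h2 : (s : ℝ) ≤ t := by exact_mod_cast h
  have h3 := hP.ζ_pos
  have h4 : (s : ℝ) / P.T ≤ t / P.T := by (clear * - h2 h1; gcongr)
  linarith only [mul_nonneg (le_of_lt (sub_pos.2 h3)) (sub_nonneg.2 h4)]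

private theorem zt_ge_aux (hP : P.Good E) (t : ℕ) : P.ζ ≤ P.zt t := by
  unfold Par.zt
  have h3 := hP.ζ_pos
  have h4 : (0 : ℝ) ≤ t / P.T := by (clear * -; positivity)
  nlinarith only [h3, h4]

private theorem zt_le_aux (hP : P.Good E) {t : ℕ} (h : t ≤ P.T) : P.zt t ≤ 2 * P.ζ := by
  unfold Par.zt
  have h1 : (0 : ℝ) < P.T := by exact_mod_cast hP.T_pos
  have h2 : (t : ℝ) ≤ P.T := by exact_mod_cast h
  have h3 := hP.ζ_pos
  have h4 : (t : ℝ) / P.T ≤ 1 := by rw [div_le_one h1]; exact h2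
  linarith only [mul_nonneg (le_of_lt (sub_pos.2 h3)) (sub_nonneg.2 h4)]

/-- repeated steps at a fixed base level -/
private theorem HG_steps_aux (hr : 0 < r) (hP : P.Good E) (hE : 𝓕 i₀ = E) (hF : Fam P 𝓕) (h𝓡 : Valid 𝓡 P 𝓕) (hsp : SparseCls P E cls) (hτ : P.T ≤ τ (cls x)) {u : ℝ} (t k : ℕ)
    (htk : t + k ≤ P.T) (hu : P.zt (t + k) - 5 / 2 * P.κ ≤ u) (hu2 : u ≤ 3 * P.ζ) :
    HG P E 𝓡 cls τ x (t + k) u ≤ HG P E 𝓡 cls τ x t u := by
  induction k with
  | zero => simp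
  | succ k ih =>
    have h1 : P.zt (t + k) ≤ P.zt (t + (k + 1)) := zt_mono_aux hP (by omega)
    have h2 := ih (by omega) (by linarith only [hu, h1])
    have h3 := HG_step (x := x) hr hP hE hF h𝓡 hsp hτ (t := t + k) (by omega) (u := u)
      (by linarith only [h1, hu]) hu2
    exact h3.trans h2

/-- telescoping -/
private theorem telescope_aux (a b : ℕ → ℝ) (T K : ℕ) (c : ℝ) (hK : K ≤ T)
    (hb : ∀ t, t < T → 0 ≤ b t) (hab : ∀ t, t + K < T → a (t + K) ≤ b t)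
    (ha : ∀ t, t < T → a t ≤ c) :
    ∑ t ∈ Finset.range T, (a t - b t) ≤ K * c := by
  rw [Finset.sum_sub_distrib]
  obtain ⟨n, rfl⟩ : ∃ n, T = K + n := ⟨T - K, by omega⟩
  rw [Finset.sum_range_add a K n]
  have h1 : ∑ t ∈ Finset.range n, b t ≤ ∑ t ∈ Finset.range (K + n), b t := by
    refine Finset.sum_le_sum_of_subset_of_nonneg ?_ ?_
    · intro t ht
      simp only [Finset.mem_range] at ht ⊢
      omega
    · intro t ht _
      exact hb t (Finset.mem_range.1 ht)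
  have h2 : ∑ t ∈ Finset.range n, a (K + t) ≤ ∑ t ∈ Finset.range n, b t := by
    refine Finset.sum_le_sum fun t ht => ?_
    have h := Finset.mem_range.1 ht
    have := hab t (by omega)
    rwa [Nat.add_comm t K] at this
  have h3 : ∑ t ∈ Finset.range K, a t ≤ K * c := by
    calc ∑ t ∈ Finset.range K, a t ≤ ∑ _t ∈ Finset.range K, c :=
          Finset.sum_le_sum fun t ht => ha t (by have := Finset.mem_range.1 ht; omega)
      _ = K * c := by simp only [sum_const, card_range, nsmul_eq_mul]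
  linarith only [h1, h2, h3]

/-- the sum over time of the variations of the Green function -/
theorem sum_HG (hr : 0 < r) (hP : P.Good E) (hE : 𝓕 i₀ = E) (hF : Fam P 𝓕) (h𝓡 : Valid 𝓡 P 𝓕)
    (hsp : SparseCls P E cls) (hi : Ini P E r) (hτ : P.T ≤ τ (cls x)) {θ : ℝ} (hθ : θ ∈ P.Θ) :
    ∑ t ∈ Finset.range P.T, (HG P E 𝓡 cls τ x t (P.zt t - 5 / 2 * P.κ) -
      HG P E 𝓡 cls τ x t (P.zt t + θ)) ≤
      P.T * Fintype.card (Fin m → Equiv.Perm (Fin r)) * (5 * θ / P.ζ ^ 2) := by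
  have hζ := hP.ζ_pos
  have hκ := hP.κ_pos
  have hθκ := hP.Θ_ge θ hθ
  have hθζ := hP.Θ_le θ hθ
  have hT := hP.T_ge
  have hT0 : (0 : ℝ) < P.T := by exact_mod_cast hP.T_pos
  have hθ0 : 0 < θ := by linarith only [hκ, hθκ]
  obtain ⟨K, hK⟩ : ∃ K : ℕ, K = ⌈(θ + 5 / 2 * P.κ) * P.T / P.ζ⌉₊ := ⟨_, rfl⟩
  have hK1 : (θ + 5 / 2 * P.κ) * P.T / P.ζ ≤ K := hK ▸ Nat.le_ceil _
  have hK2 : (K : ℝ) < (θ + 5 / 2 * P.κ) * P.T / P.ζ + 1 :=
    hK ▸ Nat.ceil_lt_add_one (by (clear * - hθ0 hκ hT0 hζ; positivity))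
  have hK1' : (θ + 5 / 2 * P.κ) * P.T ≤ K * P.ζ := by
    rwa [div_le_iff₀ hζ] at hK1
  have hK2' : (K : ℝ) * P.ζ ≤ 11 / 10 * θ * P.T := by
    have h1 : (K : ℝ) * P.ζ ≤ (θ + 5 / 2 * P.κ) * P.T + P.ζ := by
      have h2 : ((θ + 5 / 2 * P.κ) * P.T / P.ζ + 1) * P.ζ = (θ + 5 / 2 * P.κ) * P.T + P.ζ := by
        (clear * - hζ hθ0 hκ hT0; field_simp)
      rw [← h2]
      exact mul_le_mul_of_nonneg_right hK2.le hζ.le
    have h3 : 29 * P.κ * P.T ≤ θ * P.T := mul_le_mul_of_nonneg_right hθκ hT0.le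
    nlinarith only [hκ, hT, h1, h3]
  have hKT : K ≤ P.T := by
    have h1 : (K : ℝ) * P.ζ ≤ P.T * P.ζ := by
      have h3 : 2 * θ * P.T ≤ P.ζ * P.T := mul_le_mul_of_nonneg_right hθζ hT0.le
      nlinarith only [hκ, hK1', hK2', h3]
    exact_mod_cast le_of_mul_le_mul_right h1 hζ
  have key := telescope_aux (fun t => HG P E 𝓡 cls τ x t (P.zt t - 5 / 2 * P.κ))
    (fun t => HG P E 𝓡 cls τ x t (P.zt t + θ)) P.T K
    (Fintype.card (Fin m → Equiv.Perm (Fin r)) * (4 / P.ζ)) hKT ?_ ?_ ?_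
  · refine key.trans ?_
    have hc : (0 : ℝ) ≤ Fintype.card (Fin m → Equiv.Perm (Fin r)) := by (clear * -; positivity)
    have h1 : (K : ℝ) * (Fintype.card (Fin m → Equiv.Perm (Fin r)) * (4 / P.ζ)) =
        (K * P.ζ) * Fintype.card (Fin m → Equiv.Perm (Fin r)) * (4 / P.ζ ^ 2) := by
      (clear * - hζ; field_simp)
    rw [h1]
    have h2 : (P.T : ℝ) * Fintype.card (Fin m → Equiv.Perm (Fin r)) * (5 * θ / P.ζ ^ 2) =
        (5 / 4 * θ * P.T) * Fintype.card (Fin m → Equiv.Perm (Fin r)) * (4 / P.ζ ^ 2) := by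
      ring
    rw [h2]
    refine mul_le_mul_of_nonneg_right (mul_le_mul_of_nonneg_right ?_ hc) (by positivity)
    have h3 : 0 < θ * P.T := by (clear * - hθ0 hT0; positivity)
    nlinarith only [hκ, hK1', hK2']
  · intro t ht
    exact (HG_anti (x := x) hr hP hτ ht.le (u := P.zt t + θ) (u' := P.zt t + θ)
      (by linarith only [hκ, hθκ]) le_rfl).1
  · intro t ht
    have h0 : P.zt t + θ ≤ P.zt (t + K) - 5 / 2 * P.κ := by
      have h1 : P.zt (t + K) = P.zt t + K * P.ζ / P.T := by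
        unfold Par.zt
        push_cast
        field_simp
        ring
      have h2 : θ + 5 / 2 * P.κ ≤ K * P.ζ / P.T := by
        rw [le_div_iff₀ hT0]
        exact hK1'
      linarith only [h1, h2]
    have h1 := HG_steps_aux (x := x) hr hP hE hF h𝓡 hsp hτ
      (u := P.zt (t + K) - 5 / 2 * P.κ) t K ht.le le_rfl
      (by linarith only [hκ, hθκ, hθζ, zt_le_aux hP (t := t + K) ht.le])
    have h2 := (HG_anti (E := E) (𝓡 := 𝓡) (cls := cls) (x := x) hr hP hτ (t := t) (by (clear * - hK ht; omega))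
      (u := P.zt t + θ) (u' := P.zt (t + K) - 5 / 2 * P.κ) (by linarith only [hκ, hθκ]) h0).2
    exact h1.trans h2
  · intro t ht
    have h0 : P.ζ ≤ P.zt t := zt_ge_aux hP t
    have h1 := HG_steps_aux (x := x) hr hP hE hF h𝓡 hsp hτ
      (u := P.zt t - 5 / 2 * P.κ) 0 t (by omega) (by simp only [zero_add, Std.le_refl])
      (by linarith only [hκ, hθκ, hθζ, zt_le_aux hP (t := t) ht.le])
    simp only [Nat.zero_add] at h1
    exact h1.trans (HG_zero hr hP hi (by linarith only [h0]))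

open Classical in
/-- number of bad times and permutations -/
theorem prob_diff (hr : 0 < r) (hP : P.Good E) (hE : 𝓕 i₀ = E) (hF : Fam P 𝓕) (h𝓡 : Valid 𝓡 P 𝓕)
    (hsp : SparseCls P E cls) (hi : Ini P E r) (hτ : P.T ≤ τ (cls x)) {θ : ℝ} (hθ : θ ∈ P.Θ) :
    ∑ t ∈ Finset.range P.T, ((Finset.univ.filter fun ρ : Fin m → Equiv.Perm (Fin r) =>
      Alv P E 𝓡 cls τ ρ t x ∧ ∃ a, P.Λ / 2 * θ <
        sw P E (P.zt t) (run P E 𝓡 cls τ ρ t) x x (-(5 / 2 * P.κ)) a -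
        sw P E (P.zt t) (run P E 𝓡 cls τ ρ t) x x θ a).card : ℝ) ≤
      P.T * Fintype.card (Fin m → Equiv.Perm (Fin r)) * (90 * r / P.Λ) := by
  have hζ := hP.ζ_pos
  have hκ := hP.κ_pos
  have hθκ := hP.Θ_ge θ hθ
  have hΛ := hP.Λ_ge
  have hθ0 : 0 < θ := by linarith only [hκ, hθκ]
  have hΛ0 : 0 < P.Λ := by linarith only [hΛ]
  have hr0 : (0 : ℝ) < r := by exact_mod_cast hr
  have key : ∀ t ∈ Finset.range P.T,
      ((Finset.univ.filter fun ρ : Fin m → Equiv.Perm (Fin r) =>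
      Alv P E 𝓡 cls τ ρ t x ∧ ∃ a, P.Λ / 2 * θ <
        sw P E (P.zt t) (run P E 𝓡 cls τ ρ t) x x (-(5 / 2 * P.κ)) a -
        sw P E (P.zt t) (run P E 𝓡 cls τ ρ t) x x θ a).card : ℝ) ≤
      (18 * r * P.ζ ^ 2 / (P.Λ * θ)) * (HG P E 𝓡 cls τ x t (P.zt t - 5 / 2 * P.κ) -
        HG P E 𝓡 cls τ x t (P.zt t + θ)) := by
    intro t ht
    have htT := Finset.mem_range.1 ht
    unfold HG
    rw [← Finset.sum_sub_distrib, Finset.mul_sum, Finset.card_filter]
    push_cast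
    refine Finset.sum_le_sum fun ρ _ => ?_
    have hx0 : run P E 𝓡 cls τ ρ t x = none := run_none_iff.2 (by omega)
    by_cases hA : Alv P E 𝓡 cls τ ρ t x
    · have hA' := hA t le_rfl
      simp only [hA, true_and, if_true]
      have hm := GW_mono hr hP (S := run P E 𝓡 cls τ ρ t) (S' := run P E 𝓡 cls τ ρ t)
        (x := x) (z := P.zt t) (b := 4 * P.κ) (u := P.zt t - 5 / 2 * P.κ) (u' := P.zt t + θ)
        (by linarith only [hκ]) (by linarith only [hθκ, hκ]) hA' (by rw [hx0]; simp) (by rw [hx0]; simp)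
        (fun v _ => Or.inl rfl) (fun v h => h)
      split_ifs with hex
      · obtain ⟨a, ha⟩ := hex
        have h1 := GW_sub_ge hr hP (zt_ge_aux hP t) (zt_le_aux hP htT.le) hx0 hA' hθ a
        have h2 : P.Λ / 2 * θ / r < (3 * P.ζ) ^ 2 * (GW P E (P.zt t - 5 / 2 * P.κ)
            (run P E 𝓡 cls τ ρ t) x - GW P E (P.zt t + θ) (run P E 𝓡 cls τ ρ t) x) :=
          lt_of_lt_of_le (div_lt_div_of_pos_right ha hr0) h1
        have h3 : (18 * r * P.ζ ^ 2 / (P.Λ * θ)) * (GW P E (P.zt t - 5 / 2 * P.κ)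
            (run P E 𝓡 cls τ ρ t) x - GW P E (P.zt t + θ) (run P E 𝓡 cls τ ρ t) x) =
            (2 * r / (P.Λ * θ)) * ((3 * P.ζ) ^ 2 * (GW P E (P.zt t - 5 / 2 * P.κ)
            (run P E 𝓡 cls τ ρ t) x - GW P E (P.zt t + θ) (run P E 𝓡 cls τ ρ t) x)) := by
          ring
        rw [h3]
        have h4 : (1 : ℝ) = (2 * r / (P.Λ * θ)) * (P.Λ / 2 * θ / r) := by
          (clear * - hr hΛ hθ0; field_simp)
        calc (1 : ℝ) = (2 * r / (P.Λ * θ)) * (P.Λ / 2 * θ / r) := h4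
          _ ≤ _ := mul_le_mul_of_nonneg_left h2.le (by positivity)
      · exact mul_nonneg (by (clear * - hr hζ hΛ hθ0; positivity)) (sub_nonneg.2 hm.2)
    · simp only [hA, false_and, ↓reduceIte, sub_self, mul_zero, Std.le_refl]
  refine (Finset.sum_le_sum key).trans ?_
  rw [← Finset.mul_sum]
  have h1 := sum_HG hr hP hE hF h𝓡 hsp hi hτ hθ (x := x)
  calc _ ≤ (18 * r * P.ζ ^ 2 / (P.Λ * θ)) *
        (P.T * Fintype.card (Fin m → Equiv.Perm (Fin r)) * (5 * θ / P.ζ ^ 2)) :=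
        mul_le_mul_of_nonneg_left h1 (by (clear * - hr hζ hΛ hθ0; positivity))
    _ = _ := by
        field_simp
        ring

end Vale.Agent.P078.MT
end

section
/-! T3-E9: the probability of deletion. -/

namespace Vale.Agent.P078.MT

open Vale.Agent.P078.T

open Finset Polynomial
open Vale.Agent.P078.C (Herm ZD FB qf yc Q)

variable {α : Type*} [DecidableEq α] {r m : ℕ}
variable {P : Par} {E : Env α} {𝓡 : Rule α r} {cls : α → Fin m} {τ : Fin m → ℕ}
variable {ρ : Fin m → Equiv.Perm (Fin r)} {t : ℕ} {x v : α}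
variable {ι : Type} [Fintype ι] {𝓕 : ι → Env α} {i₀ : ι}

private theorem pd_run_fam (i j : ι) (hF : Fam P 𝓕) :
    run P (𝓕 i) 𝓡 cls τ ρ t = run P (𝓕 j) 𝓡 cls τ ρ t := by
  induction t with
  | zero => rfl
  | succ t ih =>
    show step P (𝓕 i) 𝓡 cls τ ρ t (run P (𝓕 i) 𝓡 cls τ ρ t) =
      step P (𝓕 j) 𝓡 cls τ ρ t (run P (𝓕 j) 𝓡 cls τ ρ t)
    rw [ih]
    funext v
    unfold step
    rw [hF.ball i j]

private theorem pd_sum_upd {A : Type*} [Fintype A] (j : Fin m) (F : (Fin m → A) → ℝ) :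
    Fintype.card A * ∑ ω, F ω = ∑ ω, ∑ v : A, F (Function.update ω j v) := by
  have h : ∑ p : (Fin m → A) × A, F (Function.update p.1 j p.2) = ∑ p : (Fin m → A) × A, F p.1 := by
    refine Fintype.sum_equiv
      { toFun := fun p => (Function.update p.1 j p.2, p.1 j)
        invFun := fun p => (Function.update p.1 j p.2, p.1 j)
        left_inv := fun p => by simp only [Function.update_idem, Function.update_eq_self, Function.update_self, Prod.mk.eta]
        right_inv := fun p => by simp } _ _ fun p => rfl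
  rw [Fintype.sum_prod_type, Fintype.sum_prod_type] at h
  rw [h]
  simp only [Finset.sum_const, Finset.card_univ, nsmul_eq_mul, Finset.mul_sum]

private theorem pd_mono {Ω : Type*} [Fintype Ω] {p q : Ω → Prop}
    {i1 : DecidablePred p} {i2 : DecidablePred q} (h : ∀ ω, p ω → q ω) :
    ((Finset.univ.filter p).card : ℝ) ≤ ((Finset.univ.filter q).card : ℝ) := by
  have h1 : Finset.univ.filter p ⊆ Finset.univ.filter q := by
    intro ω hω
    simp only [Finset.mem_filter, Finset.mem_univ, true_and] at hω ⊢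
    exact h ω hω
  exact_mod_cast Finset.card_le_card h1

private theorem pd_ite {Ω : Type*} [Fintype Ω] {p : Ω → Prop}
    {i1 : DecidablePred p} {i2 : DecidablePred p} :
    ∑ ω, (@ite ℝ (p ω) (i1 ω) 1 0) ≤ ((@Finset.filter Ω p i2 Finset.univ).card : ℝ) := by
  rw [Finset.card_filter]
  push_cast
  refine Finset.sum_le_sum fun ω _ => ?_
  by_cases h : p ω
  · rw [if_pos h, if_pos h]
  · rw [if_neg h, if_neg h]

private theorem pd_union {ι Ω : Type*} [Fintype Ω] (s : Finset ι) (p : ι → Ω → Prop)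
    [DecidablePred fun ω => ∃ i ∈ s, p i ω] [∀ i, DecidablePred (p i)] :
    ((Finset.univ.filter fun ω => ∃ i ∈ s, p i ω).card : ℝ) ≤
      ∑ i ∈ s, ((Finset.univ.filter (p i)).card : ℝ) := by
  classical
  have h : (Finset.univ.filter fun ω => ∃ i ∈ s, p i ω) ⊆
      s.biUnion fun i => Finset.univ.filter (p i) := by
    intro ω hω
    simp only [Finset.mem_filter, Finset.mem_univ, true_and] at hω
    obtain ⟨i, hi, h⟩ := hω
    simp only [Finset.mem_biUnion, Finset.mem_filter, Finset.mem_univ, true_and]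
    exact ⟨i, hi, h⟩
  exact_mod_cast (Finset.card_le_card h).trans Finset.card_biUnion_le

private theorem pd_prod {Ω₁ Ω₂ : Type*} [Fintype Ω₁] [Fintype Ω₂] (p : Ω₁ × Ω₂ → Prop)
    [DecidablePred p] [∀ a, DecidablePred fun b => p (a, b)] :
    ((Finset.univ.filter p).card : ℝ) =
      ∑ a, ((Finset.univ.filter fun b => p (a, b)).card : ℝ) := by
  simp only [Finset.card_filter, Nat.cast_sum]
  rw [Fintype.sum_prod_type]

private theorem pd_alive_mono (hr : 0 < r) {z : ℝ} {S : α → St r} {b b' : ℝ} (h : b ≤ b')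
    (hA : Alive P E z S b' x) : Alive P E z S b x :=
  Safe.mono hr E.herm hA fun i _ => by linarith only [h]

private theorem pd_delta (hP : P.Good E) (x : α) : 1 ≤ E.Δ := by
  have hN : 2 * P.N ≤ E.rad := hP.rad
  have h1 : x ∈ E.ball P.N x := by
    rw [E.mem_ball _ (by omega), E.d_self]
    exact Nat.zero_le _
  have h2 : 1 ≤ E.Δ ^ P.N := (Finset.card_pos.2 ⟨x, h1⟩).trans_le (E.card_ball _ (by omega) x)
  have hR := hP.R_pos
  have h3 : P.N ≠ 0 := by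
    unfold Par.N
    omega
  rcases Nat.eq_zero_or_pos E.Δ with h | h
  · rw [h, zero_pow h3] at h2
    omega
  · exact h

open Classical in
private theorem pd_bad1 (hr : 0 < r) (hP : P.Good E) (hE : 𝓕 i₀ = E) (hF : Fam P 𝓕) (h𝓡 : Valid 𝓡 P 𝓕)
    (hsp : SparseCls P E cls) (hi : Ini P E r) (t : ℕ) (ht : t ≤ P.T) (x : α) :
    ((Finset.univ.filter fun ρ : Fin m → Equiv.Perm (Fin r) =>
      ∃ x' ∈ E.ball P.N x, ¬ Alive P E (P.zt t) (run P E 𝓡 cls τ ρ t) (5 * P.κ) x').card : ℝ) ≤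
      Fintype.card (Fin m → Equiv.Perm (Fin r)) *
        (3 * (E.Δ : ℝ) ^ (2 * P.N) * (4 / 5) ^ P.n) := by
  have h0 := pd_union (E.ball P.N x) (fun x' (ρ : Fin m → Equiv.Perm (Fin r)) =>
    ¬ Alive P E (P.zt t) (run P E 𝓡 cls τ ρ t) (5 * P.κ) x')
  have h0' := Finset.sum_le_sum (s := E.ball P.N x) fun x' _ =>
    prob_dead (τ := τ) hr hP hE hF h𝓡 hsp hi t ht x'
  refine h0.trans (h0'.trans ?_)
  rw [Finset.sum_const, nsmul_eq_mul]
  have h1 : ((E.ball P.N x).card : ℝ) ≤ (E.Δ : ℝ) ^ P.N := by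
    have := hP.rad
    exact_mod_cast E.card_ball _ (by omega) x
  have h2 : (0 : ℝ) ≤ Fintype.card (Fin m → Equiv.Perm (Fin r)) *
      (3 * (E.Δ : ℝ) ^ P.N * (4 / 5) ^ P.n) := by (clear * -; positivity)
  refine (mul_le_mul_of_nonneg_right h1 h2).trans (le_of_eq ?_)
  rw [two_mul, pow_add]
  ring

open Classical in
private theorem pd_bad2 (hr : 0 < r) (hP : P.Good E) (hE : 𝓕 i₀ = E) (hF : Fam P 𝓕) (h𝓡 : Valid 𝓡 P 𝓕)
    (hsp : SparseCls P E cls) (hi : Ini P E r) (t : ℕ) (ht : t < P.T) (x : α) :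
    ((Finset.univ.filter fun ρ : Fin m → Equiv.Perm (Fin r) =>
      ∃ s ∈ Finset.range (t + 1),
        ¬ Alive P E (P.zt s) (run P E 𝓡 cls τ ρ s) (5 * P.κ) x).card : ℝ) ≤
      Fintype.card (Fin m → Equiv.Perm (Fin r)) *
        (P.T * (3 * (E.Δ : ℝ) ^ (2 * P.N) * (4 / 5) ^ P.n)) := by
  have h0 := pd_union (Finset.range (t + 1)) (fun s (ρ : Fin m → Equiv.Perm (Fin r)) =>
    ¬ Alive P E (P.zt s) (run P E 𝓡 cls τ ρ s) (5 * P.κ) x)
  have h0' := Finset.sum_le_sum (s := Finset.range (t + 1)) fun s hs =>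
    prob_dead (τ := τ) hr hP hE hF h𝓡 hsp hi s (by have := Finset.mem_range.1 hs; omega) x
  refine h0.trans (h0'.trans ?_)
  rw [Finset.sum_const, nsmul_eq_mul, Finset.card_range]
  have h1 : ((t + 1 : ℕ) : ℝ) ≤ P.T := by exact_mod_cast ht
  have hΔ : (1 : ℝ) ≤ E.Δ := by exact_mod_cast pd_delta hP x
  have h3 : (E.Δ : ℝ) ^ P.N ≤ (E.Δ : ℝ) ^ (2 * P.N) := pow_le_pow_right₀ hΔ (by omega)
  have h4 : (3 * (E.Δ : ℝ) ^ P.N * (4 / 5) ^ P.n) ≤ 3 * (E.Δ : ℝ) ^ (2 * P.N) * (4 / 5) ^ P.n := by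
    have : (0 : ℝ) ≤ (4 / 5) ^ P.n := by positivity
    linarith only [mul_nonneg (sub_nonneg.2 h3) (sub_nonneg.2 this)]
  calc ((t + 1 : ℕ) : ℝ) * (Fintype.card (Fin m → Equiv.Perm (Fin r)) *
      (3 * (E.Δ : ℝ) ^ P.N * (4 / 5) ^ P.n))
      ≤ P.T * (Fintype.card (Fin m → Equiv.Perm (Fin r)) *
      (3 * (E.Δ : ℝ) ^ (2 * P.N) * (4 / 5) ^ P.n)) :=
        mul_le_mul h1 (mul_le_mul_of_nonneg_left h4 (by (clear * -; positivity))) (by positivity) (by (clear * -; positivity))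
    _ = _ := by ring

/-- the third bad event -/
private def BadC (P : Par) (E : Env α) (𝓡 : Rule α r) (cls : α → Fin m) (τ : Fin m → ℕ)
    (ρ : Fin m → Equiv.Perm (Fin r)) (x : α) (θ : ℝ) (t : ℕ) : Prop :=
  Alv P E 𝓡 cls τ ρ t x ∧ ∃ a, P.Λ / 2 * θ <
    sw P E (P.zt t) (run P E 𝓡 cls τ ρ t) x x (-(5 / 2 * P.κ)) a -
    sw P E (P.zt t) (run P E 𝓡 cls τ ρ t) x x θ a

private theorem pd_run_upd {s : ℕ} (h1 : s ≤ τ (cls x)) (h2 : s ≤ P.T) :
    run P E 𝓡 cls (Function.update τ (cls x) P.T) ρ s = run P E 𝓡 cls τ ρ s := by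
  refine run_congr fun j => ?_
  by_cases hj : j = cls x
  · subst hj
    right
    simp [h1, h2]
  · left
    simp [Function.update_of_ne hj]

private theorem pd_badC_upd {θ : ℝ} {t : ℕ} (h1 : t ≤ τ (cls x)) (h2 : t ≤ P.T) :
    BadC P E 𝓡 cls (Function.update τ (cls x) P.T) ρ x θ t ↔ BadC P E 𝓡 cls τ ρ x θ t := by
  unfold BadC
  rw [pd_run_upd h1 h2]
  have : Alv P E 𝓡 cls (Function.update τ (cls x) P.T) ρ t x ↔ Alv P E 𝓡 cls τ ρ t x := by
    unfold Alv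
    refine forall_congr' fun s => forall_congr' fun hs => ?_
    rw [pd_run_upd (hs.trans h1) (hs.trans h2)]
  rw [this]

open Classical in
private theorem pd_bad3 (hr : 0 < r) (hP : P.Good E) (hE : 𝓕 i₀ = E) (hF : Fam P 𝓕) (h𝓡 : Valid 𝓡 P 𝓕)
    (hsp : SparseCls P E cls) (hi : Ini P E r) (x : α) {θ : ℝ} (hθ : θ ∈ P.Θ) :
    ∑ ω : Fin m → Fin P.T, ((Finset.univ.filter fun ρ : Fin m → Equiv.Perm (Fin r) =>
      BadC P E 𝓡 cls (fun j => (ω j : ℕ)) ρ x θ (ω (cls x) : ℕ)).card : ℝ) ≤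
      Fintype.card (Fin m → Fin P.T) * Fintype.card (Fin m → Equiv.Perm (Fin r)) *
        (90 * r / P.Λ) := by
  set G : (Fin m → Fin P.T) → ℕ → ℝ := fun ω t =>
    ((Finset.univ.filter fun ρ : Fin m → Equiv.Perm (Fin r) =>
      BadC P E 𝓡 cls (Function.update (fun j => (ω j : ℕ)) (cls x) P.T) ρ x θ t).card : ℝ) with hG
  have h1 : ∀ ω : Fin m → Fin P.T, ((Finset.univ.filter fun ρ : Fin m → Equiv.Perm (Fin r) =>
      BadC P E 𝓡 cls (fun j => (ω j : ℕ)) ρ x θ (ω (cls x) : ℕ)).card : ℝ) =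
      G ω (ω (cls x) : ℕ) := by
    intro ω
    have h0 : ∀ ρ : Fin m → Equiv.Perm (Fin r),
        BadC P E 𝓡 cls (fun j => (ω j : ℕ)) ρ x θ (ω (cls x) : ℕ) =
        BadC P E 𝓡 cls (Function.update (fun j => (ω j : ℕ)) (cls x) P.T) ρ x θ
          (ω (cls x) : ℕ) := fun ρ =>
      propext (pd_badC_upd (τ := fun j => (ω j : ℕ)) le_rfl (ω (cls x)).isLt.le).symm
    simp only [hG, h0]
  simp only [h1]
  have h2 := pd_sum_upd (cls x) (fun ω : Fin m → Fin P.T => G ω (ω (cls x) : ℕ))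
  have h3 : ∀ ω : Fin m → Fin P.T, ∀ v : Fin P.T,
      G (Function.update ω (cls x) v) ((Function.update ω (cls x) v) (cls x) : ℕ) = G ω (v : ℕ) := by
    intro ω v
    simp only [hG, Function.update_self]
    have : Function.update (fun j => ((Function.update ω (cls x) v) j : ℕ)) (cls x) P.T =
        Function.update (fun j => (ω j : ℕ)) (cls x) P.T := by
      funext j
      by_cases hj : j = cls x
      · subst hj
        simp
      · simp [Function.update_of_ne hj]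
    rw [this]
  simp only [h3, Fintype.card_fin] at h2
  have h4 : ∀ ω : Fin m → Fin P.T, ∑ v : Fin P.T, G ω (v : ℕ) ≤
      P.T * Fintype.card (Fin m → Equiv.Perm (Fin r)) * (90 * r / P.Λ) := by
    intro ω
    rw [Fin.sum_univ_eq_sum_range (fun t => G ω t) P.T]
    refine le_trans (Finset.sum_le_sum fun t _ => ?_)
      (prob_diff (τ := Function.update (fun j => (ω j : ℕ)) (cls x) P.T) hr hP hE hF h𝓡 hsp hi
        (by rw [Function.update_self]) hθ)
    exact pd_mono fun ρ h => h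
  have h5 : (P.T : ℝ) * ∑ ω : Fin m → Fin P.T, G ω (ω (cls x) : ℕ) ≤
      P.T * (Fintype.card (Fin m → Fin P.T) * Fintype.card (Fin m → Equiv.Perm (Fin r)) *
        (90 * r / P.Λ)) := by
    rw [h2]
    refine (Finset.sum_le_sum fun ω _ => h4 ω).trans (le_of_eq ?_)
    rw [Finset.sum_const, Finset.card_univ, nsmul_eq_mul]
    ring
  have hT : (0 : ℝ) < P.T := by exact_mod_cast hP.T_pos
  exact le_of_mul_le_mul_left h5 hT

open Classical in
private theorem pd_not_keep (hr : 0 < r) (hP : P.Good E) {t : ℕ}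
    (h : ¬ Keep P E (5 * P.κ) (P.Λ / 2) (P.zt t) (run P E 𝓡 cls τ ρ t) x) :
    (∃ x' ∈ E.ball P.N x, ¬ Alive P E (P.zt t) (run P E 𝓡 cls τ ρ t) (5 * P.κ) x') ∨
    (∃ s ∈ Finset.range (t + 1), ¬ Alive P E (P.zt s) (run P E 𝓡 cls τ ρ s) (5 * P.κ) x) ∨
    ∃ θ ∈ P.Θ, BadC P E 𝓡 cls τ ρ x θ t := by
  by_contra hc
  simp only [not_or, not_exists, not_and, not_not] at hc
  obtain ⟨h1, h2, h3⟩ := hc
  refine h ⟨h1, fun a θ hθ => ?_⟩
  by_contra h4
  refine h3 θ hθ ⟨fun s hs => ?_, a, not_le.1 h4⟩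
  have hκ := hP.κ_pos
  exact pd_alive_mono hr (by linarith only [hκ]) (h2 s (Finset.mem_range.2 (by omega)))

open Classical in
private theorem pd_total (hr : 0 < r) (hP : P.Good E) (hE : 𝓕 i₀ = E) (hF : Fam P 𝓕) (h𝓡 : Valid 𝓡 P 𝓕)
    (hsp : SparseCls P E cls) (hi : Ini P E r) (x : α) :
    ∑ ω : Fin m → Fin P.T, ((Finset.univ.filter fun ρ : Fin m → Equiv.Perm (Fin r) =>
      ¬ Keep P E (5 * P.κ) (P.Λ / 2) (P.zt (ω (cls x) : ℕ))
        (run P E 𝓡 cls (fun j => (ω j : ℕ)) ρ (ω (cls x) : ℕ)) x).card : ℝ) ≤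
      Fintype.card (Fin m → Fin P.T) * Fintype.card (Fin m → Equiv.Perm (Fin r)) *
        (3 * (P.T + 1) * (E.Δ : ℝ) ^ (2 * P.N) * (4 / 5) ^ P.n + 90 * r * P.Θ.card / P.Λ) := by
  have hstep : ∀ ω : Fin m → Fin P.T, ((Finset.univ.filter fun ρ : Fin m → Equiv.Perm (Fin r) =>
      ¬ Keep P E (5 * P.κ) (P.Λ / 2) (P.zt (ω (cls x) : ℕ))
        (run P E 𝓡 cls (fun j => (ω j : ℕ)) ρ (ω (cls x) : ℕ)) x).card : ℝ) ≤
      Fintype.card (Fin m → Equiv.Perm (Fin r)) *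
        (3 * (E.Δ : ℝ) ^ (2 * P.N) * (4 / 5) ^ P.n) +
      Fintype.card (Fin m → Equiv.Perm (Fin r)) *
        (P.T * (3 * (E.Δ : ℝ) ^ (2 * P.N) * (4 / 5) ^ P.n)) +
      ∑ θ ∈ P.Θ, ((Finset.univ.filter fun ρ : Fin m → Equiv.Perm (Fin r) =>
        BadC P E 𝓡 cls (fun j => (ω j : ℕ)) ρ x θ (ω (cls x) : ℕ)).card : ℝ) := by
    intro ω
    have h1 := pd_bad1 (τ := fun j => (ω j : ℕ)) hr hP hE hF h𝓡 hsp hi (ω (cls x) : ℕ)
      (ω (cls x)).isLt.le x
    have h2 := pd_bad2 (τ := fun j => (ω j : ℕ)) hr hP hE hF h𝓡 hsp hi (ω (cls x) : ℕ)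
      (ω (cls x)).isLt x
    have h3 := pd_union P.Θ (fun θ (ρ : Fin m → Equiv.Perm (Fin r)) =>
        BadC P E 𝓡 cls (fun j => (ω j : ℕ)) ρ x θ (ω (cls x) : ℕ))
    refine le_trans ?_ (add_le_add (add_le_add h1 h2) h3)
    have h4 : (Finset.univ.filter fun ρ : Fin m → Equiv.Perm (Fin r) =>
      ¬ Keep P E (5 * P.κ) (P.Λ / 2) (P.zt (ω (cls x) : ℕ))
        (run P E 𝓡 cls (fun j => (ω j : ℕ)) ρ (ω (cls x) : ℕ)) x) ⊆
      ((Finset.univ.filter fun ρ : Fin m → Equiv.Perm (Fin r) =>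
        ∃ x' ∈ E.ball P.N x, ¬ Alive P E (P.zt (ω (cls x) : ℕ))
          (run P E 𝓡 cls (fun j => (ω j : ℕ)) ρ (ω (cls x) : ℕ)) (5 * P.κ) x') ∪
      (Finset.univ.filter fun ρ : Fin m → Equiv.Perm (Fin r) =>
        ∃ s ∈ Finset.range ((ω (cls x) : ℕ) + 1),
          ¬ Alive P E (P.zt s) (run P E 𝓡 cls (fun j => (ω j : ℕ)) ρ s) (5 * P.κ) x)) ∪
      (Finset.univ.filter fun ρ : Fin m → Equiv.Perm (Fin r) =>
        ∃ θ ∈ P.Θ, BadC P E 𝓡 cls (fun j => (ω j : ℕ)) ρ x θ (ω (cls x) : ℕ)) := by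
      intro ρ hρ
      simp only [Finset.mem_filter, Finset.mem_univ, true_and] at hρ
      simp only [Finset.mem_union, Finset.mem_filter, Finset.mem_univ, true_and]
      rcases pd_not_keep hr hP hρ with h | h | h
      · exact Or.inl (Or.inl h)
      · exact Or.inl (Or.inr h)
      · exact Or.inr h
    have h5 := (Finset.card_le_card h4).trans ((Finset.card_union_le _ _).trans
      (Nat.add_le_add_right (Finset.card_union_le _ _) _))
    exact_mod_cast h5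
  refine (Finset.sum_le_sum fun ω _ => hstep ω).trans ?_
  rw [Finset.sum_add_distrib, Finset.sum_comm, Finset.sum_const, Finset.card_univ, nsmul_eq_mul]
  refine (add_le_add_right (Finset.sum_le_sum fun θ hθ => pd_bad3 hr hP hE hF h𝓡 hsp hi x hθ) _).trans
    (le_of_eq ?_)
  rw [Finset.sum_const, nsmul_eq_mul]
  ring

open Classical in
private theorem pd_tie (hP : P.Good E) (hsp : SparseCls P E cls) (x : α) :
    ((Finset.univ.filter fun ω : Fin m → Fin P.T =>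
      ∃ w ∈ E.ball (2 * P.N) x, w ≠ x ∧ ω (cls w) = ω (cls x)).card : ℝ) ≤
      Fintype.card (Fin m → Fin P.T) * ((E.Δ : ℝ) ^ (2 * P.N) / P.T) := by
  have hT : (0 : ℝ) < P.T := by exact_mod_cast hP.T_pos
  have h0 := pd_union (E.ball (2 * P.N) x) (fun w (ω : Fin m → Fin P.T) =>
    w ≠ x ∧ ω (cls w) = ω (cls x))
  refine (pd_mono fun ω h => h).trans (h0.trans ?_)
  have h1 : ∀ w ∈ E.ball (2 * P.N) x, ((Finset.univ.filter fun ω : Fin m → Fin P.T =>
      w ≠ x ∧ ω (cls w) = ω (cls x)).card : ℝ) ≤ Fintype.card (Fin m → Fin P.T) / P.T := by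
    intro w hw
    by_cases hwx : w = x
    · simp only [hwx, ne_eq, not_true_eq_false, false_and, Finset.filter_false, Finset.card_empty,
        Nat.cast_zero]
      positivity
    have hd : E.d x w ≤ 2 * P.N := (E.mem_ball _ hP.rad x w).1 hw
    have hc : cls w ≠ cls x := by
      intro h
      have := hsp w x hwx h
      rw [E.d_symm] at this
      omega
    have h2 := pd_sum_upd (cls w) (fun ω : Fin m → Fin P.T =>
      if ω (cls w) = ω (cls x) then (1 : ℝ) else 0)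
    simp only [Function.update_self, Function.update_of_ne hc.symm, Finset.sum_ite_eq',
      Finset.mem_univ, if_true, Fintype.card_fin, Finset.sum_const, Finset.card_univ,
      nsmul_eq_mul, mul_one] at h2
    rw [le_div_iff₀ hT]
    simp only [ne_eq, hwx, not_false_eq_true, true_and]
    rw [mul_comm]
    refine le_trans (le_of_eq ?_) h2.le
    simp only [Finset.card_filter, Nat.cast_sum, Nat.cast_ite, Nat.cast_one, Nat.cast_zero]
  refine (Finset.sum_le_sum h1).trans ?_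
  rw [Finset.sum_const, nsmul_eq_mul]
  have h3 : ((E.ball (2 * P.N) x).card : ℝ) ≤ (E.Δ : ℝ) ^ (2 * P.N) := by
    exact_mod_cast E.card_ball _ hP.rad x
  calc ((E.ball (2 * P.N) x).card : ℝ) * (Fintype.card (Fin m → Fin P.T) / P.T)
      ≤ (E.Δ : ℝ) ^ (2 * P.N) * (Fintype.card (Fin m → Fin P.T) / P.T) :=
        mul_le_mul_of_nonneg_right h3 (by (clear * - hT; (clear * - hT; positivity)))
    _ = _ := by ring

/-- a deleted point -/
private theorem pd_deleted (hE : 𝓕 i₀ = E) (hF : Fam P 𝓕) (h𝓡 : Valid 𝓡 P 𝓕)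
    (hlt : τ (cls x) < P.T) (h : run P E 𝓡 cls τ ρ P.T x = some none) :
    (∃ w ∈ E.ball (2 * P.N) x, w ≠ x ∧ τ (cls w) = τ (cls x)) ∨
    ∃ j ∈ (Finset.univ : Finset ι), ¬ Keep P (𝓕 j) (5 * P.κ) (P.Λ / 2) (P.zt (τ (cls x)))
      (run P (𝓕 j) 𝓡 cls τ ρ (τ (cls x))) x := by
  have h0 : run P E 𝓡 cls τ ρ (τ (cls x)) x = none := run_none_iff.2 le_rfl
  have h1 : ∀ k, run P E 𝓡 cls τ ρ (τ (cls x) + 1 + k) x = run P E 𝓡 cls τ ρ (τ (cls x) + 1) x := by
    intro k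
    induction k with
    | zero => rfl
    | succ k ih =>
      rw [← ih]
      show step P E 𝓡 cls τ ρ (τ (cls x) + 1 + k) (run P E 𝓡 cls τ ρ (τ (cls x) + 1 + k)) x = _
      unfold step
      rw [if_neg]
      rintro ⟨_, h3⟩
      omega
  have h2 : run P E 𝓡 cls τ ρ (τ (cls x) + 1) x = some none := by
    rw [← h1 (P.T - (τ (cls x) + 1)), Nat.add_sub_cancel' hlt]
    exact h
  by_contra hc
  simp only [not_or, not_exists, not_and, not_not, Finset.mem_univ, true_imp_iff] at hc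
  obtain ⟨h3, h4⟩ := hc
  have h5 : ∀ j, Keep P (𝓕 j) (5 * P.κ) (P.Λ / 2) (P.zt (τ (cls x)))
      (run P E 𝓡 cls τ ρ (τ (cls x))) x := fun j => by
    have h6 := h4 j
    rwa [pd_run_fam j i₀ hF, hE] at h6
  have hk := h𝓡.strong _ hlt _ x h0 h5
  change step P E 𝓡 cls τ ρ _ (run P E 𝓡 cls τ ρ (τ (cls x))) x = some none at h2
  unfold step at h2
  rw [if_pos ⟨h0, rfl⟩, if_neg] at h2
  · simp at h2
  · rintro (h6 | h6)
    · obtain ⟨w, h7, h8, h9⟩ := h6
      exact h3 w h7 h8 h9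
    · exact h6 hk

open Classical in
/-- probability of deletion -/
theorem prob_del (hr : 0 < r) (hP : P.Good E) (hE : 𝓕 i₀ = E) (hF : Fam P 𝓕)
    (h𝓡 : Valid 𝓡 P 𝓕) (hd : ∀ j, (𝓕 j).d = E.d) (hΔ : ∀ j, (𝓕 j).Δ = E.Δ)
    (hsp : SparseCls P E cls) (hi : ∀ j, Ini P (𝓕 j) r) {δ : ℝ}
    (hδ : Fintype.card ι * ((E.Δ : ℝ) ^ (2 * P.N) / P.T +
      12 * (P.T + 2) * (E.Δ : ℝ) ^ (2 * P.N) * (4 / 5) ^ P.n + 180 * r * P.Θ.card / P.Λ) ≤ δ)
    (x : α) :
    ((Finset.univ.filter fun ω : (Fin m → Fin P.T) × (Fin m → Equiv.Perm (Fin r)) =>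
      run P E 𝓡 cls (fun j => (ω.1 j : ℕ)) ω.2 P.T x = some none).card : ℝ) ≤
      δ * Fintype.card ((Fin m → Fin P.T) × (Fin m → Equiv.Perm (Fin r))) := by
  have hq : 1 ≤ Fintype.card ι := Fintype.card_pos_iff.2 ⟨i₀⟩
  have hA : ∀ j : ι, ∑ ω : Fin m → Fin P.T,
      ((Finset.univ.filter fun ρ : Fin m → Equiv.Perm (Fin r) =>
      ¬ Keep P (𝓕 j) (5 * P.κ) (P.Λ / 2) (P.zt (ω (cls x) : ℕ))
        (run P (𝓕 j) 𝓡 cls (fun j => (ω j : ℕ)) ρ (ω (cls x) : ℕ)) x).card : ℝ) ≤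
      Fintype.card (Fin m → Fin P.T) * Fintype.card (Fin m → Equiv.Perm (Fin r)) *
        (3 * (P.T + 1) * (E.Δ : ℝ) ^ (2 * P.N) * (4 / 5) ^ P.n + 90 * r * P.Θ.card / P.Λ) := by
    intro j
    have h1 := pd_total (m := m) (i₀ := j) hr (hF.good j) rfl hF h𝓡
      (fun v w h1 h2 => by rw [hd j]; exact hsp v w h1 h2) (hi j) x
    rwa [hΔ j] at h1
  have hC := pd_tie (m := m) hP hsp x
  refine le_trans (le_trans (pd_mono fun ω h => h) (le_of_eq (pd_prod
    (fun ω : (Fin m → Fin P.T) × (Fin m → Equiv.Perm (Fin r)) =>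
      run P E 𝓡 cls (fun j => (ω.1 j : ℕ)) ω.2 P.T x = some none)))) ?_
  set R : ℝ := (Fintype.card (Fin m → Equiv.Perm (Fin r)) : ℝ) with hR
  set C : ℝ := (Fintype.card (Fin m → Fin P.T) : ℝ) with hCdef
  have hstep : ∀ ω : Fin m → Fin P.T, ((Finset.univ.filter fun ρ : Fin m → Equiv.Perm (Fin r) =>
      run P E 𝓡 cls (fun j => (ω j : ℕ)) ρ P.T x = some none).card : ℝ) ≤
      R * (if ∃ w ∈ E.ball (2 * P.N) x, w ≠ x ∧ ω (cls w) = ω (cls x) then 1 else 0) +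
      ∑ j : ι, ((Finset.univ.filter fun ρ : Fin m → Equiv.Perm (Fin r) =>
        ¬ Keep P (𝓕 j) (5 * P.κ) (P.Λ / 2) (P.zt (ω (cls x) : ℕ))
          (run P (𝓕 j) 𝓡 cls (fun j => (ω j : ℕ)) ρ (ω (cls x) : ℕ)) x).card : ℝ) := by
    intro ω
    have h2 : (0 : ℝ) ≤ ∑ j : ι, ((Finset.univ.filter fun ρ : Fin m → Equiv.Perm (Fin r) =>
        ¬ Keep P (𝓕 j) (5 * P.κ) (P.Λ / 2) (P.zt (ω (cls x) : ℕ))
          (run P (𝓕 j) 𝓡 cls (fun j => (ω j : ℕ)) ρ (ω (cls x) : ℕ)) x).card : ℝ) :=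
      Finset.sum_nonneg fun j _ => Nat.cast_nonneg _
    by_cases htie : ∃ w ∈ E.ball (2 * P.N) x, w ≠ x ∧ ω (cls w) = ω (cls x)
    · rw [if_pos htie, mul_one]
      have h1 : ((Finset.univ.filter fun ρ : Fin m → Equiv.Perm (Fin r) =>
        run P E 𝓡 cls (fun j => (ω j : ℕ)) ρ P.T x = some none).card : ℝ) ≤ R := by
        rw [hR]
        exact_mod_cast Finset.card_le_univ _
      linarith only [h1, h2]
    · rw [if_neg htie, mul_zero, zero_add]
      have h3 := pd_union (Finset.univ : Finset ι) (fun j (ρ : Fin m → Equiv.Perm (Fin r)) =>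
        ¬ Keep P (𝓕 j) (5 * P.κ) (P.Λ / 2) (P.zt (ω (cls x) : ℕ))
          (run P (𝓕 j) 𝓡 cls (fun j => (ω j : ℕ)) ρ (ω (cls x) : ℕ)) x)
      refine le_trans ?_ h3
      refine pd_mono fun ρ hρ => ?_
      rcases pd_deleted (τ := fun j => (ω j : ℕ)) hE hF h𝓡 (ω (cls x)).isLt hρ with h | h
      · obtain ⟨w, hw, h1, h2⟩ := h
        exact absurd ⟨w, hw, h1, Fin.ext h2⟩ htie
      · exact h
  refine (Finset.sum_le_sum fun ω _ => hstep ω).trans ?_
  rw [Finset.sum_add_distrib, ← Finset.mul_sum, Finset.sum_comm]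
  have hC' : ∑ ω : Fin m → Fin P.T,
      (if ∃ w ∈ E.ball (2 * P.N) x, w ≠ x ∧ ω (cls w) = ω (cls x) then (1 : ℝ) else 0) ≤
      C * ((E.Δ : ℝ) ^ (2 * P.N) / P.T) := by
    exact pd_ite.trans hC
  have hcard : (Fintype.card ((Fin m → Fin P.T) × (Fin m → Equiv.Perm (Fin r))) : ℝ) = C * R := by
    rw [Fintype.card_prod]
    push_cast
    rfl
  rw [hcard]
  have hR0 : 0 ≤ R := Nat.cast_nonneg _
  have hC0 : 0 ≤ C := Nat.cast_nonneg _
  have hq' : (0 : ℝ) ≤ ((E.Δ : ℝ) ^ (2 * P.N) * (4 / 5) ^ P.n) := by (clear * -; positivity)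
  have hΛ : 0 < P.Λ := by linarith only [hP.Λ_ge]
  have h6 := mul_le_mul_of_nonneg_left hC' hR0
  have hsum := Finset.sum_le_sum fun j (_ : j ∈ (Finset.univ : Finset ι)) => hA j
  rw [Finset.sum_const, Finset.card_univ, nsmul_eq_mul] at hsum
  set q : ℝ := (Fintype.card ι : ℝ) with hqd
  have hq1 : 1 ≤ q := by rw [hqd]; exact_mod_cast hq
  set a1 : ℝ := (E.Δ : ℝ) ^ (2 * P.N) / P.T with ha1
  set a2 : ℝ := 3 * (P.T + 1) * (E.Δ : ℝ) ^ (2 * P.N) * (4 / 5) ^ P.n with ha2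
  set a3 : ℝ := 90 * r * P.Θ.card / P.Λ with ha3
  have b1 : 0 ≤ a1 := by rw [ha1]; positivity
  have b3 : 0 ≤ a3 := by rw [ha3]; positivity
  have b2 : 0 ≤ a2 := by rw [ha2]; positivity
  have e1 : (180 * r * P.Θ.card / P.Λ : ℝ) = 2 * a3 := by
    rw [ha3]
    ring
  have e2 : a2 ≤ 12 * (P.T + 2) * (E.Δ : ℝ) ^ (2 * P.N) * (4 / 5) ^ P.n := by
    rw [ha2]
    have e3 : (0 : ℝ) ≤ (P.T : ℝ) * ((E.Δ : ℝ) ^ (2 * P.N) * (4 / 5) ^ P.n) := by
      (clear * -; positivity)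
    nlinarith only [hq', e3]
  rw [e1] at hδ
  have h7 : a1 + q * (a2 + a3) ≤ δ := by
    refine le_trans ?_ hδ
    have e4 : a1 ≤ q * a1 := le_mul_of_one_le_left b1 hq1
    have e5 : q * (a1 + a2 + a3) ≤ q * (a1 + 12 * (P.T + 2) * (E.Δ : ℝ) ^ (2 * P.N) *
        (4 / 5) ^ P.n + 2 * a3) :=
      mul_le_mul_of_nonneg_left (by linarith only [e2, b3]) (by linarith only [hq1])
    linarith only [e4, e5]
  have h8 := mul_le_mul_of_nonneg_right h7 (mul_nonneg hC0 hR0)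
  calc _ ≤ R * (C * a1) + q * (C * R * (a2 + a3)) := add_le_add h6 hsum
    _ ≤ _ := by linarith only [h8]

end Vale.Agent.P078.MT
end
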