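import Vale.Agent.P078.Bdl.T4

set_option linter.all false

/-!
P078, joint order: systems in which every point uses a random kernel of a finite family
(`Fin (ν + 1)`) besides its colour. Definitions and basic properties of the expected determinant.
-/

namespace Vale.Agent.P078.TX

open Finset Polynomial
open Vale.Agent.P078.C (qf yc)

/-- families of kernels -/
abbrev Ker (ν : ℕ) (α : Type*) := Fin (ν + 1) → α → α → ℂ

variable {α β : Type*} [DecidableEq α] [DecidableEq β] {r ν : ℕ}

/-- Hermitian kernels -/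
def Herm {α : Type*} (y : Ker ν α) : Prop := ∀ k, C.Herm (y k)

/-- zero diagonals -/
def ZD {α : Type*} (y : Ker ν α) : Prop := ∀ k, C.ZD (y k)

/-- form bounds -/
def FB {α : Type*} (a b : ℝ) (y : Ker ν α) : Prop := ∀ k, C.FB a b (y k)

/-- states: the index of the kernel stays random, the colour is `s i` if it is decided -/
def slx {α : Type*} {r : ℕ} (ν : ℕ) (s : α → Option (Fin r)) :
    α → Fin (ν + 1) × Fin r → Fin (ν + 1) × Fin r :=
  fun i w => (w.1, (s i).getD w.2)

/-- expected determinant; kernel index and colours of the undecided points are random -/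
noncomputable def Q (y : Ker ν α) (s : α → Option (Fin r)) (z : α → ℂ) (W : Finset α) : ℂ :=
  D.Q (fun w : Fin (ν + 1) × Fin r => y w.1) (slx ν s) z W

variable {y y' : Ker ν α} {s s' : α → Option (Fin r)} {z z' : α → ℂ} {W W' : Finset α} {w : α}

theorem card_pos' (hr : 0 < r) : 0 < Fintype.card (Fin (ν + 1) × Fin r) := by
  rw [Fintype.card_prod, Fintype.card_fin, Fintype.card_fin]
  positivity

theorem Q_empty : Q y s z ∅ = 1 := D.Q_empty

theorem Q_congr (hy : ∀ k, ∀ i ∈ W, ∀ j ∈ W, y k i j = y' k i j) (hs : ∀ i ∈ W, s i = s' i)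
    (hz : ∀ i ∈ W, z i = z' i) : Q y s z W = Q y' s' z' W := by
  unfold Q
  refine D.Q_congr (fun b i hi j hj => hy b.1 i hi j hj) (fun i hi => ?_) hz
  funext w
  simp only [slx, hs i hi]

theorem Q_insert (hr : 0 < r) (hw : w ∉ W) :
    Q y s z (insert w W) = z w * Q y s z W + Q y s (Function.update z w 0) (insert w W) :=
  D.Q_insert (card_pos' hr) hw

theorem Q_expand (hr : 0 < r) :
    Q y s z W = ∑ S ∈ W.powerset, (∏ i ∈ W \ S, z i) * Q y s 0 S :=
  D.Q_expand (card_pos' hr)

theorem Q_map (f : β ↪ α) (W : Finset β) :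
    Q y s z (W.map f) =
      Q (fun k i j => y k (f i) (f j)) (fun i => s (f i)) (fun i => z (f i)) W := by
  unfold Q
  rw [D.Q_map]
  rfl

theorem Q_union (hr : 0 < r) (hd : Disjoint W W')
    (h : ∀ k, ∀ i ∈ W, ∀ j ∈ W', y k i j = 0 ∧ y k j i = 0) :
    Q y s z (W ∪ W') = Q y s z W * Q y s z W' :=
  D.Q_union (card_pos' hr) hd fun b => h b.1

theorem Q_star (hy : Herm y) : Q y s (fun i => star (z i)) W = star (Q y s z W) :=
  D.Q_star fun b => hy b.1

theorem Q_ne_zero (hr : 0 < r) (hy : Herm y) (hz : ∀ i ∈ W, 0 < (z i).im) : Q y s z W ≠ 0 :=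
  D.Q_ne_zero (card_pos' hr) (fun b => hy b.1) hz

theorem Q_ratio_im (hr : 0 < r) (hy : Herm y) (hz : ∀ i ∈ W, 0 < (z i).im) (hw : w ∈ W) :
    (z w).im ≤ (Q y s z W / Q y s z (W.erase w)).im :=
  D.Q_ratio_im (card_pos' hr) (fun b => hy b.1) hz hw

theorem Q_real_im (hy : Herm y) (x : α → ℝ) : (Q y s (fun i => (x i : ℂ)) W).im = 0 :=
  D.Q_real_im (y := fun w : Fin (ν + 1) × Fin r => y w.1) (s := slx ν s) (fun b => hy b.1) x

theorem Q_def (y : Ker ν α) (s : α → Option (Fin r)) (z : α → ℂ) (W : Finset α) :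
    Q y s z W = ((Fintype.card (Fin (ν + 1) × Fin r) : ℂ) ^ W.card)⁻¹ *
      ∑ c : W → Fin (ν + 1) × Fin r, Matrix.det (Matrix.of fun i j : W =>
        (if i = j then z i else 0) -
          if slx ν s i (c i) = slx ν s j (c j) then y (c i).1 i j else 0) := rfl

theorem continuous_Q {Z : Type*} [TopologicalSpace Z] {y : Z → Ker ν α} {z : Z → α → ℂ}
    (hy : ∀ k, ∀ i ∈ W, ∀ j ∈ W, Continuous fun t => y t k i j)
    (hz : ∀ i ∈ W, Continuous fun t => z t i) :
    Continuous fun t => Q (y t) s (z t) W :=
  D.continuous_Q (y := fun t (w : Fin (ν + 1) × Fin r) => y t w.1) (fun b => hy b.1) hz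

theorem Q_update_add (hr : 0 < r) (z : α → ℂ) (δ : ℂ) (hw : w ∈ W) :
    Q y s (Function.update z w (z w + δ)) W = Q y s z W + δ * Q y s z (W.erase w) :=
  D.Q_update_add (card_pos' hr) z δ hw

theorem Q_avg (hr : 0 < r) (hw : w ∈ W) (hs : s w = none) :
    Q y s z W = (r : ℂ)⁻¹ * ∑ a : Fin r, Q y (Function.update s w (some a)) z W := by
  have h0 := card_pos' (ν := ν) hr
  have hr' : (r : ℂ) ≠ 0 := by exact_mod_cast hr.ne'
  unfold Q
  rw [D.Q_avg h0 hw]
  have h1 : ∀ a : Fin r, D.Q (fun w : Fin (ν + 1) × Fin r => y w.1)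
      (slx ν (Function.update s w (some a))) z W =
      (Fintype.card (Fin (ν + 1) × Fin r) : ℂ)⁻¹ * (r * ∑ β : Fin (ν + 1),
        D.Q (fun w : Fin (ν + 1) × Fin r => y w.1)
          (Function.update (slx ν s) w fun _ => (β, a)) z W) := by
    intro a
    rw [D.Q_avg h0 hw, Fintype.sum_prod_type]
    congr 1
    have h2 : ∀ (β : Fin (ν + 1)) (k : Fin r), D.Q (fun w : Fin (ν + 1) × Fin r => y w.1)
        (Function.update (slx ν (Function.update s w (some a))) w
          fun _ => slx ν (Function.update s w (some a)) w (β, k)) z W =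
        D.Q (fun w : Fin (ν + 1) × Fin r => y w.1)
          (Function.update (slx ν s) w fun _ => (β, a)) z W := by
      intro β k
      refine D.Q_congr (fun _ _ _ _ _ => rfl) (fun i _ => ?_) (fun _ _ => rfl)
      by_cases hi : i = w
      · subst hi
        rw [Function.update_self, Function.update_self]
        funext c
        simp [slx]
      · rw [Function.update_of_ne hi, Function.update_of_ne hi]
        funext c
        simp [slx, Function.update_of_ne hi]
    simp only [h2, Finset.sum_const, Finset.card_univ, Fintype.card_fin, nsmul_eq_mul]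
    rw [Finset.mul_sum]
  simp only [h1]
  rw [Fintype.sum_prod_type, ← Finset.mul_sum]
  have h3 : ∀ (β : Fin (ν + 1)) (a : Fin r), D.Q (fun w : Fin (ν + 1) × Fin r => y w.1)
      (Function.update (slx ν s) w fun _ => slx ν s w (β, a)) z W =
      D.Q (fun w : Fin (ν + 1) × Fin r => y w.1)
        (Function.update (slx ν s) w fun _ => (β, a)) z W := by
    intro β a
    have : slx ν s w (β, a) = (β, a) := by simp [slx, hs]
    rw [this]
  simp only [h3]
  rw [← Finset.mul_sum, Finset.sum_comm]
  field_simp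

/-- gauge invariance, with a gauge depending on the kernel -/
theorem Q_gauge (u : Fin (ν + 1) → α → ℂ) (hu : ∀ k, ∀ i ∈ W, ‖u k i‖ = 1)
    (h : ∀ k, ∀ i ∈ W, ∀ j ∈ W, y' k i j = star (u k i) * y k i j * u k j) :
    Q y' s z W = Q y s z W := by
  unfold Q D.Q
  congr 1
  refine Finset.sum_congr rfl fun c _ => ?_
  have h1 : (Matrix.of fun i j : W => (if i = j then z i else 0) -
      if slx ν s i (c i) = slx ν s j (c j) then y' (slx ν s i (c i)).1 i j else 0) =
      Matrix.diagonal (fun i : W => star (u (c i).1 i)) *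
      (Matrix.of fun i j : W => (if i = j then z i else 0) -
        if slx ν s i (c i) = slx ν s j (c j) then y (slx ν s i (c i)).1 i j else 0) *
      Matrix.diagonal (fun i : W => u (c i).1 i) := by
    ext i j
    rw [Matrix.mul_diagonal, Matrix.diagonal_mul]
    simp only [Matrix.of_apply]
    rw [h _ i i.2 j j.2]
    by_cases hij : i = j
    · subst hij
      have hn : star (u (c i).1 i) * u (c i).1 i = 1 := by
        have := hu (c i).1 i i.2
        rw [Complex.star_def, Complex.conj_mul', this]
        simp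
      simp only [if_true]
      have e : (slx ν s i (c i)).1 = (c i).1 := rfl
      rw [e]
      linear_combination (-(z i)) * hn
    · by_cases hs : slx ν s i (c i) = slx ν s j (c j)
      · have e1 : (slx ν s i (c i)).1 = (c i).1 := rfl
        have e2 : (c j).1 = (c i).1 := (congrArg Prod.fst hs).symm
        simp only [hij, if_false, hs, if_true]
        have e3 : (slx ν s j (c j)).1 = (c i).1 := (congrArg Prod.fst hs).symm.trans rfl
        rw [e3, e2]
        ring
      · simp only [hij, if_false, hs]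
        ring
  rw [h1, Matrix.det_mul, Matrix.det_mul, Matrix.det_diagonal, Matrix.det_diagonal, mul_right_comm,
    ← Finset.prod_mul_distrib]
  have h2 : ∏ i : W, star (u (c i).1 i) * u (c i).1 i = 1 := by
    refine Finset.prod_eq_one fun i _ => ?_
    rw [Complex.star_def, Complex.conj_mul', hu (c i).1 i i.2]
    simp
  rw [h2, one_mul]

end Vale.Agent.P078.TX
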