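import Vale.Agent.P078.H291.X0

set_option linter.all false

section
/-!
P078, Cartan inclusions of arbitrary type. Definitions for the finite part: `q`, the cone `Safe`,
self energies `sg`, distances to the roots `dst`, the potential `Phi`, the Green function `GG`.
-/

namespace Vale.Agent.P078.TX

open Finset Polynomial
open Vale.Agent.P078.C (qf yc)

variable {α : Type*} [DecidableEq α] {r ν : ℕ}

/-- expected determinant at real levels -/
noncomputable def q (y : Ker ν α) (s : α → Option (Fin r)) (l : α → ℝ) (W : Finset α) : ℝ :=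
  (Q y s (fun i => (l i : ℂ)) W).re

/-- the levels `l` are above the spectrum on `W` -/
def Safe (y : Ker ν α) (s : α → Option (Fin r)) (l : α → ℝ) (W : Finset α) : Prop :=
  ∀ U ⊆ W, 0 < q y s l U

/-- the self energy of `o ∉ W` with respect to `W` -/
noncomputable def sg (y : Ker ν α) (s : α → Option (Fin r)) (o : α) (l : α → ℝ)
    (W : Finset α) : ℝ :=
  -q y s (Function.update l o 0) (insert o W) / q y s l W

/-- the polynomial `t ↦ q_W(l + t)` (see `eval_pl`) -/
noncomputable def pl (y : Ker ν α) (s : α → Option (Fin r)) (l : α → ℝ) (W : Finset α) : ℝ[X] :=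
  ∑ U ∈ W.powerset, Polynomial.C (q y s l U) * Polynomial.X ^ (W.card - U.card)

/-- the distances from `l` to the roots: the roots of `t ↦ q_W(l - t)` -/
noncomputable def dst (y : Ker ν α) (s : α → Option (Fin r)) (l : α → ℝ) (W : Finset α) :
    Multiset ℝ := (pl y s l W).roots.map fun t => -t

/-- the potential -/
noncomputable def Phi (κ : ℝ) (n : ℕ) (y : Ker ν α) (s : α → Option (Fin r)) (l : α → ℝ)
    (W : Finset α) : ℝ := ((dst y s l W).map fun a => (a / (a - κ)) ^ n).sum

/-- diagonal Green function -/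
noncomputable def GG (y : Ker ν α) (s : α → Option (Fin r)) (l : α → ℝ) (W : Finset α)
    (v : α) : ℝ := q y s l (W.erase v) / q y s l W

end Vale.Agent.P078.TX
end

section
/-! T3-A1: basic calculus of `q`, `Safe`, `sg`. -/

namespace Vale.Agent.P078.TX

open Finset Polynomial
open Vale.Agent.P078.C (qf yc)

variable {α : Type*} [DecidableEq α] {r ν : ℕ}
variable {y : Ker ν α} {s s' : α → Option (Fin r)} {l l' : α → ℝ} {W W' : Finset α} {o : α}

theorem q_empty : q y s l ∅ = 1 := by
  simp [q, Q_empty]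

theorem q_coe (hy : Herm y) : Q y s (fun i => (l i : ℂ)) W = (q y s l W : ℂ) := by
  refine Complex.ext ?_ ?_
  · rw [Complex.ofReal_re, q]
  · rw [Complex.ofReal_im, Q_real_im hy l]

theorem q_congr (hs : ∀ i ∈ W, s i = s' i) (hl : ∀ i ∈ W, l i = l' i) :
    q y s l W = q y s' l' W := by
  unfold q
  rw [Q_congr (y' := y) (s' := s') (z' := fun i => (l' i : ℂ)) (fun _ _ _ _ _ => rfl) hs
    (fun i hi => by rw [hl i hi])]

theorem q_congr_y {y' : Ker ν α} (h : ∀ k, ∀ i ∈ W, ∀ j ∈ W, y k i j = y' k i j) :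
    q y s l W = q y' s l W := by
  unfold q
  rw [Q_congr (y' := y') (s' := s) (z' := fun i => (l i : ℂ)) h (fun _ _ => rfl)
    (fun _ _ => rfl)]

private theorem coe_update (l : α → ℝ) (o : α) (t : ℝ) :
    (fun i => ((Function.update l o t i : ℝ) : ℂ)) =
      Function.update (fun i => (l i : ℂ)) o (t : ℂ) := by
  funext i
  by_cases h : i = o
  · subst h; simp
  · simp [Function.update_of_ne h]

private theorem q_insert' (hr : 0 < r) (ho : o ∉ W) :
    q y s l (insert o W) = l o * q y s l W + q y s (Function.update l o 0) (insert o W) := by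
  unfold q
  rw [Q_insert hr ho, Complex.add_re, Complex.re_ofReal_mul, coe_update, Complex.ofReal_zero]

theorem q_insert (hr : 0 < r) (hy : Herm y) (ho : o ∉ W) :
    q y s l (insert o W) = l o * q y s l W + q y s (Function.update l o 0) (insert o W) :=
  q_insert' hr ho

theorem q_insert_sg (hr : 0 < r) (hy : Herm y) (ho : o ∉ W) (h : 0 < q y s l W) :
    q y s l (insert o W) = q y s l W * (l o - sg y s o l W) := by
  rw [q_insert hr hy ho, sg]
  field_simp
  ring

private theorem q_upd_add (hr : 0 < r) (l : α → ℝ) (t : ℝ) (ho : o ∈ W) :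
    q y s (Function.update l o (l o + t)) W = q y s l W + t * q y s l (W.erase o) := by
  have h1 := q_insert' (y := y) (s := s) (l := Function.update l o (l o + t)) hr
    (notMem_erase o W)
  have h2 := q_insert' (y := y) (s := s) (l := l) hr (notMem_erase o W)
  rw [insert_erase ho, Function.update_self, Function.update_idem] at h1
  rw [insert_erase ho] at h2
  have h3 : q y s (Function.update l o (l o + t)) (W.erase o) = q y s l (W.erase o) :=
    q_congr (fun _ _ => rfl) fun i hi => Function.update_of_ne (mem_erase.1 hi).1 _ _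
  rw [h1, h2, h3]
  ring

private theorem q_add_aux (hr : 0 < r) (l t : α → ℝ) (U : Finset α) : ∀ W : Finset α, U ⊆ W →
    q y s (fun i => if i ∈ U then l i + t i else l i) W =
      ∑ R ∈ U.powerset, (∏ i ∈ R, t i) * q y s l (W \ R) := by
  induction U using Finset.induction_on with
  | empty =>
    intro W _
    simp only [notMem_empty, if_false, powerset_empty, sum_singleton, prod_empty, one_mul,
      sdiff_empty]
  | insert w U hw ih =>
    intro W hW
    have hwW : w ∈ W := hW (mem_insert_self w U)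
    have hUW : U ⊆ W := fun i hi => hW (mem_insert_of_mem hi)
    have hUW' : U ⊆ W.erase w := fun i hi =>
      mem_erase.2 ⟨fun h => hw (h ▸ hi), hUW hi⟩
    have e0 : (fun i => if i ∈ insert w U then l i + t i else l i) =
        Function.update (fun i => if i ∈ U then l i + t i else l i) w
          ((fun i => if i ∈ U then l i + t i else l i) w + t w) := by
      funext i
      by_cases h : i = w
      · subst h
        simp only [mem_insert, hw, or_false, ↓reduceIte, Function.update_self]
      · simp only [mem_insert, h, false_or, ne_eq, not_false_eq_true, Function.update_of_ne]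
    rw [e0, q_upd_add hr _ _ hwW, ih _ hUW, ih _ hUW', sum_powerset_insert hw, Finset.mul_sum]
    congr 1
    refine Finset.sum_congr rfl fun R hR => ?_
    have hwR : w ∉ R := fun h => hw (mem_powerset.1 hR h)
    rw [prod_insert hwR, mul_assoc]
    congr 3
    ext i
    simp only [mem_sdiff, mem_erase, mem_insert]
    (clear * -; tauto)

theorem q_add (hr : 0 < r) (hy : Herm y) (t : α → ℝ) :
    q y s (fun i => l i + t i) W = ∑ U ∈ W.powerset, (∏ i ∈ W \ U, t i) * q y s l U := by
  have h := q_add_aux (y := y) (s := s) hr l t W W subset_rfl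
  have h1 : q y s (fun i => if i ∈ W then l i + t i else l i) W =
      q y s (fun i => l i + t i) W :=
    q_congr (fun _ _ => rfl) fun i hi => by simp [hi]
  rw [← h1, h]
  refine Finset.sum_bij' (fun R _ => W \ R) (fun R _ => W \ R) ?_ ?_ ?_ ?_ ?_
  · intro R _; exact mem_powerset.2 sdiff_subset
  · intro R _; exact mem_powerset.2 sdiff_subset
  · intro R hR; exact Finset.sdiff_sdiff_eq_self (mem_powerset.1 hR)
  · intro R hR; exact Finset.sdiff_sdiff_eq_self (mem_powerset.1 hR)
  · intro R hR
    rw [Finset.sdiff_sdiff_eq_self (mem_powerset.1 hR)]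

theorem Safe.subset (h : Safe y s l W) (hW : W' ⊆ W) : Safe y s l W' :=
  fun U hU => h U (hU.trans hW)

theorem Safe.congr (h : Safe y s l W) (hs : ∀ i ∈ W, s i = s' i) (hl : ∀ i ∈ W, l i = l' i) :
    Safe y s' l' W := by
  intro U hU
  rw [← q_congr (y := y) (fun i hi => hs i (hU hi)) (fun i hi => hl i (hU hi))]
  exact h U hU

theorem Safe.mono (hr : 0 < r) (hy : Herm y) (h : Safe y s l W) (hl : ∀ i ∈ W, l i ≤ l' i) :
    Safe y s l' W := by
  intro U hU
  have h1 := q_add (y := y) (s := s) (l := l) (W := U) hr hy (fun i => l' i - l i)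
  have h2 : q y s (fun i => l i + (l' i - l i)) U = q y s l' U :=
    q_congr (fun _ _ => rfl) fun i _ => by ring
  rw [← h2, h1]
  refine Finset.sum_pos' ?_ ⟨U, Finset.mem_powerset_self U, ?_⟩
  · intro V hV
    have hVU := mem_powerset.1 hV
    refine mul_nonneg (Finset.prod_nonneg fun i hi => ?_) (h V (hVU.trans hU)).le
    exact sub_nonneg.2 (hl i (hU (mem_sdiff.1 hi).1))
  · rw [sdiff_self, Finset.bot_eq_empty, prod_empty, one_mul]
    exact h U hU

theorem q_singleton_zd (hr : 0 < r) (hz : ZD y) : q y s l {o} = l o := by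
  have hr' : (Fintype.card (Fin (ν + 1) × Fin r) : ℂ) ≠ 0 := by
    exact_mod_cast (card_pos' hr).ne'
  have : Unique (({o} : Finset α) : Type _) := Finset.instUniqueSubtypeMemSingleton o
  unfold q
  rw [Q_def]
  have h : ∀ c : (({o} : Finset α) : Type _) → Fin (ν + 1) × Fin r,
      Matrix.det (Matrix.of fun i j : (({o} : Finset α) : Type _) =>
        (if i = j then ((l i : ℝ) : ℂ) else 0) -
          if slx ν s i (c i) = slx ν s j (c j) then y (c i).1 i j else 0) = (l o : ℂ) := by
    intro c
    rw [Matrix.det_eq_elem_of_subsingleton _ ⟨o, mem_singleton_self o⟩]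
    simp [hz (c ⟨o, mem_singleton_self o⟩).1 o]
  rw [Finset.sum_congr rfl fun c _ => h c]
  simp only [sum_const, card_univ, Fintype.card_fun, Fintype.card_coe,
    card_singleton, pow_one, nsmul_eq_mul]
  rw [← mul_assoc, inv_mul_cancel₀ hr', one_mul, Complex.ofReal_re]

theorem Safe.pos (hr : 0 < r) (hz : ZD y) (h : Safe y s l W) (ho : o ∈ W) : 0 < l o := by
  have h1 := h {o} (singleton_subset_iff.2 ho)
  rwa [q_singleton_zd hr hz] at h1

theorem sg_congr (hs : ∀ i ∈ insert o W, s i = s' i) (hl : ∀ i ∈ W, l i = l' i) (ho : o ∉ W) :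
    sg y s o l W = sg y s' o l' W := by
  unfold sg
  rw [q_congr (y := y) (fun i hi => hs i (mem_insert_of_mem hi)) hl,
    q_congr (y := y) (l := Function.update l o 0) (l' := Function.update l' o 0) hs ?_]
  intro i hi
  by_cases h : i = o
  · subst h; simp
  · rw [Function.update_of_ne h, Function.update_of_ne h]
    exact hl i ((mem_insert.1 hi).resolve_left h)

end Vale.Agent.P078.TX
end

section
/-!
P078, Cartan inclusions of arbitrary type: finite range kernels, windows, levels, parameters.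
-/

namespace Vale.Agent.P078.TX

open Finset Polynomial
open Vale.Agent.P078.C (qf yc)

/-- kernels of range one on a discrete (pseudo-)metric space -/
structure Env (ν : ℕ) (α : Type*) [DecidableEq α] where
  y : Ker ν α
  herm : Herm y
  zd : ZD y
  d : α → α → ℕ
  d_self : ∀ x, d x x = 0
  d_symm : ∀ x v, d x v = d v x
  d_tri : ∀ x v w, d x w ≤ d x v + d v w
  edge : ∀ k v w, y k v w ≠ 0 → d v w ≤ 1
  /-- balls are defined up to the radius `rad` -/
  rad : ℕ
  ball : ℕ → α → Finset α
  mem_ball : ∀ n ≤ rad, ∀ x v, v ∈ ball n x ↔ d x v ≤ n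
  Δ : ℕ
  card_ball : ∀ n ≤ rad, ∀ x, (ball n x).card ≤ Δ ^ n
  /-- bound of the row sums -/
  D : ℝ
  row : ∀ (k : Fin (ν + 1)) (v : α) (W : Finset α), ∑ w ∈ W, ‖y k v w‖ ≤ D

/-- the kernels with the other sign -/
def Env.neg {ν : ℕ} {α : Type*} [DecidableEq α] (E : Env ν α) : Env ν α where
  y := fun k i j => -E.y k i j
  herm := fun k i j => by simp [E.herm k i j]
  zd := fun k i => by simp [E.zd k i]
  d := E.d
  d_self := E.d_self
  d_symm := E.d_symm
  d_tri := E.d_tri
  edge := fun k v w h => E.edge k v w (by simpa using h)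
  rad := E.rad
  ball := E.ball
  mem_ball := E.mem_ball
  Δ := E.Δ
  card_ball := E.card_ball
  D := E.D
  row := fun k v W => by simpa using E.row k v W

/-- state of a point: `none` undecided, `some none` deleted, `some (some a)` coloured -/
abbrev St (r : ℕ) := Option (Option (Fin r))

/-- parameters -/
structure Par where
  /-- base level: `2 / 3 * ζ` is above the roots of the undecided system -/
  ζ : ℝ
  /-- margin -/
  κ : ℝ
  /-- strength of the level profile -/
  c : ℝ
  /-- bound of the differences of self energies -/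
  Λ : ℝ
  /-- bound of the derivative of self energies -/
  M : ℝ
  /-- threshold of the level profile -/
  fs : ℝ
  /-- decay exponent -/
  L : ℝ
  /-- a quarter of the radius of the windows -/
  R : ℕ
  R0 : ℕ
  /-- exponent of the potential -/
  n : ℕ
  /-- number of time steps -/
  T : ℕ
  /-- scales -/
  Θ : Finset ℝ

namespace Par

variable (P : Par)

/-- radius of the windows -/
def N : ℕ := 4 * P.R

/-- base level at time `t` -/
noncomputable def zt (t : ℕ) : ℝ := P.ζ + P.ζ * (t / P.T)

end Par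

variable {α : Type*} [DecidableEq α] {r ν : ℕ}

/-- The inequalities between the parameters used in the deterministic part. -/
structure Par.Good (P : Par) (E : Env ν α) : Prop where
  ζ_pos : 0 < P.ζ
  κ_pos : 0 < P.κ
  c_pos : 1 ≤ P.c
  D_ge : 1 ≤ E.D
  κ_le : 100 * P.κ ≤ P.ζ
  κ_le' : P.κ ≤ 1 / 2
  rad : 2 * P.N ≤ E.rad
  R_pos : 10 ≤ P.R
  hR : 20 * P.c ^ 2 ≤ P.κ * P.R ^ 2
  hc : 800 * E.D ≤ P.c ^ 2
  R0_pos : 1 ≤ P.R0
  R0_le : 10 * P.R0 ≤ P.R
  R0_c : 2 * (P.R0 : ℝ) ≤ P.c
  L_ge : 8 ≤ P.L
  hL : 250 * (E.D + 1) * (96 * P.ζ) ≤ P.κ ^ 2 * 2 ^ P.L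
  hLR : P.L * Real.sqrt E.D ≤ P.R0
  hLc : 2 * (P.L * Real.sqrt E.D) ≤ P.c
  fs_pos : 0 < P.fs
  fs_le : P.fs ≤ 1
  κ_fs : 5 * P.κ < P.fs
  fs_ζ : 116 * P.fs ≤ P.ζ
  Λ_ge : 1 ≤ P.Λ
  hM : 46400 * P.Λ + 38400 * P.ζ / P.fs + 1 ≤ P.M
  hn : P.n * P.κ * (1 + P.M) ≤ 13 * P.ζ
  Θ_ge : ∀ θ ∈ P.Θ, 29 * P.κ ≤ θ
  Θ_le : ∀ θ ∈ P.Θ, 2 * θ ≤ P.ζ
  Θ_mem : ∀ f, 0 ≤ f → f < P.fs → ∃ θ ∈ P.Θ, 29 * max f P.κ ≤ θ ∧ θ ≤ 58 * max f P.κ
  T_pos : 1 ≤ P.T
  T_ge : 10 * P.ζ ≤ P.κ * P.T

/-- level profile of the window of centre `x` -/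
noncomputable def fx (P : Par) (E : Env ν α) (x v : α) : ℝ :=
  (P.c / ((P.N : ℝ) + 1 - (E.d x v : ℝ))) ^ 2

/-- colours of the coloured points -/
def cs (S : α → St r) (v : α) : Option (Fin r) := (S v).join

/-- the window of centre `x` -/
noncomputable def win (P : Par) (E : Env ν α) (S : α → St r) (x : α) : Finset α :=
  (E.ball P.N x).filter fun v => S v ≠ some none

/-- the levels in the window of centre `x`, at base level `z` -/
noncomputable def lv (P : Par) (E : Env ν α) (z : ℝ) (S : α → St r) (x v : α) : ℝ :=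
  z + fx P E x v + if S v = none then 0 else 60 * P.ζ + 6 * fx P E x v

/-- self energy, for the colour `a`, of the undecided point `o` in the window of centre `x`, the
levels being shifted by `b` -/
noncomputable def sw (P : Par) (E : Env ν α) (z : ℝ) (S : α → St r) (x o : α) (b : ℝ) (a : Fin r) :
    ℝ :=
  sg E.y (Function.update (cs S) o (some a)) o (fun v => lv P E z S x v + b)
    ((win P E S x).erase o)

/-- the window of centre `x` is safe with margin `b` -/
def Alive (P : Par) (E : Env ν α) (z : ℝ) (S : α → St r) (b : ℝ) (x : α) : Prop :=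
  Safe E.y (cs S) (fun v => lv P E z S x v - b) (win P E S x)

/-- the condition for deciding `o`: all windows containing `o` have the margin `b`, the self
energies of `o` in its own window vary by at most `Λ' θ`. -/
def Keep (P : Par) (E : Env ν α) (b Λ' z : ℝ) (S : α → St r) (o : α) : Prop :=
  (∀ x ∈ E.ball P.N o, Alive P E z S b x) ∧
    ∀ a : Fin r, ∀ θ ∈ P.Θ,
      sw P E z S o o (-(5 / 2 * P.κ)) a - sw P E z S o o θ a ≤ Λ' * θ

end Vale.Agent.P078.TX
end

section
/-! T3-A2: Rayleigh inequality, monotonicity of the self energy. -/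

namespace Vale.Agent.P078.TX

open Finset Polynomial
open Vale.Agent.P078.C (qf yc)

variable {α : Type*} [DecidableEq α] {r ν : ℕ}
variable {y : Ker ν α} {s s' : α → Option (Fin r)} {l l' : α → ℝ} {W W' : Finset α} {o : α}

private theorem Q_herm_im (hr : 0 < r) (hy : Herm y) {z : α → ℂ} {w : α}
    (hz : ∀ i ∈ W, 0 ≤ (z i).im) (hw : w ∈ W) :
    (z w).im * ‖Q y s z (W.erase w)‖ ^ 2 ≤ (Q y s z W * star (Q y s z (W.erase w))).im := by
  have key : ∀ ε : ℝ, 0 < ε → ((z w).im + ε) * ‖Q y s (fun i => z i + ε * Complex.I) (W.erase w)‖ ^ 2 ≤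
      (Q y s (fun i => z i + ε * Complex.I) W *
        star (Q y s (fun i => z i + ε * Complex.I) (W.erase w))).im := by
    intro ε hε
    have him : ∀ i, (z i + ε * Complex.I).im = (z i).im + ε := fun i => by simp
    have h0 : ∀ i ∈ W, 0 < (z i + ε * Complex.I).im := by
      intro i hi
      rw [him]
      have := hz i hi
      linarith only [hε, this]
    have h1 := Q_ratio_im (s := s) (z := fun i => z i + ε * Complex.I) hr hy h0 hw
    have h2 : Q y s (fun i => z i + ε * Complex.I) (W.erase w) ≠ 0 :=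
      Q_ne_zero hr hy fun i hi => h0 i (mem_of_mem_erase hi)
    set A := Q y s (fun i => z i + ε * Complex.I) W
    set B := Q y s (fun i => z i + ε * Complex.I) (W.erase w)
    have h3 : (A * star B) = (A / B) * ((‖B‖ ^ 2 : ℝ) : ℂ) := by
      rw [Complex.ofReal_pow, ← Complex.conj_mul', Complex.star_def]
      (clear * - h2; field_simp)
    rw [h3, Complex.mul_im, Complex.ofReal_re, Complex.ofReal_im, mul_zero, zero_add]
    rw [him] at h1
    have h4 : 0 ≤ ‖B‖ ^ 2 := by positivity
    exact mul_le_mul_of_nonneg_right h1 h4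
  have c1 : ∀ V : Finset α, Continuous fun ε : ℝ => Q y s (fun i => z i + ε * Complex.I) V := by
    intro V
    exact continuous_Q (fun _ _ _ _ _ => continuous_const) fun i _ => by fun_prop
  have c2 : Continuous fun ε : ℝ => ((z w).im + ε) *
      ‖Q y s (fun i => z i + ε * Complex.I) (W.erase w)‖ ^ 2 := by
    have := c1 (W.erase w)
    fun_prop
  have c3 : Continuous fun ε : ℝ => (Q y s (fun i => z i + ε * Complex.I) W *
        star (Q y s (fun i => z i + ε * Complex.I) (W.erase w))).im :=
    Complex.continuous_im.comp ((c1 W).mul (continuous_star.comp (c1 (W.erase w))))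
  have h5 := le_of_tendsto_of_tendsto ((c2.tendsto 0).mono_left nhdsWithin_le_nhds)
    ((c3.tendsto 0).mono_left nhdsWithin_le_nhds)
    (Filter.eventually_of_mem (self_mem_nhdsWithin (s := Set.Ioi (0 : ℝ))) fun ε hε => key ε hε)
  simpa only [RCLike.star_def, Complex.mul_im, Complex.conj_im, mul_neg, Complex.conj_re, le_neg_add_iff_add_le,     ge_iff_le, add_zero, Complex.ofReal_zero, zero_mul] using h5

/-- Rayleigh inequality -/
theorem q_rayleigh (hr : 0 < r) (hy : Herm y) {w v : α} (hw : w ∈ W) (hv : v ∈ W) (hne : v ≠ w) :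
    q y s l W * q y s l ((W.erase w).erase v) ≤ q y s l (W.erase w) * q y s l (W.erase v) := by
  have hv' : v ∈ W.erase w := mem_erase.2 ⟨hne, hv⟩
  have h1 := Q_herm_im (s := s) (z := Function.update (fun i => (l i : ℂ)) v ((l v : ℂ) + Complex.I))
    hr hy (W := W) (w := w) ?_ hw
  · have e1 := Q_update_add (y := y) (s := s) hr (fun i => (l i : ℂ)) Complex.I hv
    have e2 := Q_update_add (y := y) (s := s) hr (fun i => (l i : ℂ)) Complex.I hv'
    rw [e1, e2, Function.update_of_ne hne.symm, Complex.ofReal_im, zero_mul,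
      q_coe (s := s) (l := l) (W := W) hy, q_coe (s := s) (l := l) (W := W.erase v) hy,
      q_coe (s := s) (l := l) (W := W.erase w) hy,
      q_coe (s := s) (l := l) (W := (W.erase w).erase v) hy] at h1
    simp only [Complex.star_def, map_add, map_mul, Complex.conj_ofReal, Complex.conj_I,
      Complex.mul_im, Complex.add_re, Complex.add_im, Complex.mul_re, Complex.ofReal_re,
      Complex.ofReal_im, Complex.I_re, Complex.I_im, Complex.neg_re, Complex.neg_im] at h1
    linarith
  · intro i _
    by_cases hi : i = v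
    · subst hi
      simp only [Function.update_self, Complex.add_im, Complex.ofReal_im, Complex.I_im, zero_add, zero_le_one]
    · rw [Function.update_of_ne hi]
      simp

private theorem q_update_add (hr : 0 < r) (hy : Herm y) (t : ℝ) {w : α} (hw : w ∈ W) :
    q y s (Function.update l w (l w + t)) W = q y s l W + t * q y s l (W.erase w) := by
  have h := Q_update_add (y := y) (s := s) hr (fun i => (l i : ℂ)) (t : ℂ) hw
  have e : Function.update (fun i => (l i : ℂ)) w ((l w : ℂ) + (t : ℂ)) =
      fun i => ((Function.update l w (l w + t) i : ℝ) : ℂ) := by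
    funext i
    by_cases hi : i = w
    · subst hi
      simp only [Function.update_self, Complex.ofReal_add]
    · rw [Function.update_of_ne hi, Function.update_of_ne hi]
  rw [e, q_coe hy, q_coe hy, q_coe hy] at h
  exact_mod_cast h

/-- Rayleigh with a vertex at the level zero. -/
private theorem ray_o (hr : 0 < r) (hy : Herm y) {v : α} (hv : v ∈ W) (ho : o ∉ W) :
    q y s (Function.update l o 0) (insert o W) * q y s l (W.erase v) ≤
      q y s l W * q y s (Function.update l o 0) (insert o (W.erase v)) := by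
  have hvo : v ≠ o := fun h => ho (h ▸ hv)
  have h := q_rayleigh (s := s) (l := Function.update l o 0) (W := insert o W) hr hy
    (mem_insert_self o W) (mem_insert_of_mem hv) hvo
  rw [erase_insert ho, Finset.erase_insert_of_ne hvo.symm] at h
  have e : ∀ V : Finset α, o ∉ V → q y s (Function.update l o 0) V = q y s l V := fun V hV =>
    q_congr (fun _ _ => rfl) fun i hi =>
      Function.update_of_ne (fun h' : i = o => hV (h' ▸ hi)) _ _
  rwa [e _ ho, e _ fun h => ho (mem_of_mem_erase h)] at h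

theorem sg_empty (hr : 0 < r) (hz : ZD y) : sg y s o l ∅ = 0 := by
  unfold sg
  have h : q y s (Function.update l o 0) (insert o ∅) = 0 := by
    have e : (insert o ∅ : Finset α) = {o} := by simp
    rw [e, q_singleton_zd hr hz, Function.update_self]
  rw [h, neg_zero, zero_div]

private theorem sg_mono_one (hr : 0 < r) (hy : Herm y) {v : α} (hv : v ∈ W) (ho : o ∉ W)
    (h : Safe y s l W) : sg y s o l (W.erase v) ≤ sg y s o l W := by
  unfold sg
  have h1 := h W subset_rfl
  have h2 := h (W.erase v) (erase_subset _ _)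
  have h3 := ray_o (s := s) (l := l) hr hy hv ho
  rw [neg_div, neg_div, neg_le_neg_iff, div_le_div_iff₀ h1 h2]
  (clear * - h3; linarith)

theorem sg_mono_set (hr : 0 < r) (hy : Herm y) (hW : W' ⊆ W) (ho : o ∉ W) (h : Safe y s l W) :
    sg y s o l W' ≤ sg y s o l W := by
  obtain ⟨n, hn⟩ : ∃ n, (W \ W').card = n := ⟨_, rfl⟩
  induction n generalizing W with
  | zero =>
    have h1 : W \ W' = ∅ := Finset.card_eq_zero.1 hn
    have h2 : W = W' := Finset.Subset.antisymm (Finset.sdiff_eq_empty_iff_subset.1 h1) hW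
    rw [← h2]
  | succ n ih =>
    obtain ⟨w, hw⟩ : (W \ W').Nonempty := by
      rw [← Finset.card_pos]
      omega
    obtain ⟨hw1, hw2⟩ := Finset.mem_sdiff.1 hw
    refine (ih (W := W.erase w) ?_ (fun h => ho (mem_of_mem_erase h))
      (h.subset (erase_subset _ _)) ?_).trans (sg_mono_one hr hy hw1 ho h)
    · exact fun i hi => mem_erase.2 ⟨fun h => hw2 (h ▸ hi), hW hi⟩
    · rw [Finset.erase_sdiff_comm, Finset.card_erase_of_mem hw, hn]
      rfl

theorem sg_nonneg (hr : 0 < r) (hy : Herm y) (hz : ZD y) (ho : o ∉ W) (h : Safe y s l W) :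
    0 ≤ sg y s o l W := by
  have h1 := sg_mono_set hr hy (empty_subset W) ho h
  rwa [sg_empty hr hz] at h1

private theorem sg_anti_one (hr : 0 < r) (hy : Herm y) {v : α} (hv : v ∈ W) (ho : o ∉ W)
    (h : Safe y s l W) {t : ℝ} (ht : 0 ≤ t) :
    sg y s o (Function.update l v (l v + t)) W ≤ sg y s o l W := by
  have hvo : v ≠ o := fun h => ho (h ▸ hv)
  unfold sg
  have h1 := h W subset_rfl
  have h2 := h (W.erase v) (erase_subset _ _)
  have h3 := ray_o (s := s) (l := l) hr hy hv ho
  have e1 := q_update_add (s := s) (l := l) hr hy t hv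
  have e2 := q_update_add (s := s) (l := Function.update l o 0) (W := insert o W) hr hy t
    (mem_insert_of_mem hv)
  rw [Function.update_of_ne hvo, Finset.erase_insert_of_ne hvo.symm] at e2
  rw [Function.update_comm hvo.symm] at e2
  rw [e1, e2]
  have h4 : 0 < q y s l W + t * q y s l (W.erase v) := by (clear * - h1 ht h2; positivity)
  rw [neg_div, neg_div, neg_le_neg_iff, div_le_div_iff₀ h1 h4]
  linarith only [mul_nonneg (sub_nonneg.2 h3) (sub_nonneg.2 ht)]

theorem sg_anti (hr : 0 < r) (hy : Herm y) (ho : o ∉ W) (h : Safe y s l W)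
    (hl : ∀ i ∈ W, l i ≤ l' i) : sg y s o l' W ≤ sg y s o l W := by
  have key : ∀ S ⊆ W, sg y s o (fun i => if i ∈ S then l' i else l i) W ≤ sg y s o l W := by
    intro S
    induction S using Finset.induction_on with
    | empty => intro _; simp
    | insert v S hv ih =>
      intro hS
      have hS' : S ⊆ W := fun i hi => hS (mem_insert_of_mem hi)
      have hvW : v ∈ W := hS (mem_insert_self v S)
      refine le_trans ?_ (ih hS')
      have hsafe : Safe y s (fun i => if i ∈ S then l' i else l i) W :=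
        h.mono hr hy fun i hi => by
          by_cases hiS : i ∈ S
          · simp only [hiS, if_true]; exact hl i hi
          · simp only [hiS, if_false]; exact le_rfl
      have h1 := sg_anti_one hr hy hvW ho hsafe (t := l' v - l v) (by linarith only [hl v hvW])
      have e : Function.update (fun i => if i ∈ S then l' i else l i) v
          ((if v ∈ S then l' v else l v) + (l' v - l v)) =
          fun i => if i ∈ insert v S then l' i else l i := by
        funext i
        by_cases hi : i = v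
        · subst hi
          simp [hv]
        · rw [Function.update_of_ne hi]
          simp [Finset.mem_insert, hi]
      rw [e] at h1
      exact h1
  refine le_trans (le_of_eq ?_) (key W subset_rfl)
  exact sg_congr (fun _ _ => rfl) (fun i hi => by simp [hi]) ho

theorem safe_insert_iff (hr : 0 < r) (hy : Herm y) (ho : o ∉ W) :
    Safe y s l (insert o W) ↔ Safe y s l W ∧ sg y s o l W < l o := by
  constructor
  · intro h
    have h1 : Safe y s l W := h.subset (subset_insert o W)
    refine ⟨h1, ?_⟩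
    have h2 := h (insert o W) subset_rfl
    have h3 := h1 W subset_rfl
    rw [q_insert_sg hr hy ho h3] at h2
    have h4 := (mul_pos_iff_of_pos_left h3).1 h2
    linarith only [h4]
  · rintro ⟨h, hlt⟩ U hU
    by_cases hoU : o ∈ U
    · have hU' : U.erase o ⊆ W := by
        intro i hi
        have h1 := hU (mem_of_mem_erase hi)
        exact mem_of_mem_insert_of_ne h1 (ne_of_mem_erase hi)
      have h1 := h _ hU'
      have h2 := sg_mono_set hr hy hU' ho h
      have h3 := q_insert_sg (s := s) (l := l) hr hy (notMem_erase o U) h1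
      rw [insert_erase hoU] at h3
      rw [h3]
      exact mul_pos h1 (by linarith only [hlt, h2])
    · refine h U fun i hi => ?_
      exact mem_of_mem_insert_of_ne (hU hi) fun h => hoU (h ▸ hi)

end Vale.Agent.P078.TX
end

section
/-! T3-A3: averaging, scaling, decoupling. -/

namespace Vale.Agent.P078.TX

open Finset Polynomial
open Vale.Agent.P078.C (qf yc)

variable {α : Type*} [DecidableEq α] {r ν : ℕ}
variable {y : Ker ν α} {s s' : α → Option (Fin r)} {l l' : α → ℝ} {W W' : Finset α} {o : α}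

/-- multiplication of the rows by `u` and of the columns by `v` -/
private theorem Q_lr (y : Ker ν α) (s : α → Option (Fin r)) (z : α → ℂ) (W : Finset α)
    (u v : α → ℂ) : Q (fun k i j => u i * y k i j * v j) s (fun i => u i * v i * z i) W =
      (∏ i ∈ W, u i * v i) * Q y s z W := by
  rw [Q_def, Q_def, mul_left_comm]
  congr 1
  rw [Finset.mul_sum]
  refine Finset.sum_congr rfl fun c _ => ?_
  have h1 : (Matrix.of fun i j : W => (if i = j then u i * v i * z i else 0) -
      if slx ν s i (c i) = slx ν s j (c j) then u i * y (c i).1 i j * v j else 0) =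
      Matrix.diagonal (fun i : W => u i) * (Matrix.of fun i j : W =>
      (if i = j then z i else 0) - if slx ν s i (c i) = slx ν s j (c j) then
        y (c i).1 i j else 0) * Matrix.diagonal (fun i : W => v i) := by
    ext i j
    rw [Matrix.mul_diagonal, Matrix.diagonal_mul]
    simp only [Matrix.of_apply]
    by_cases hij : i = j
    · subst hij
      simp only [if_true]
      ring
    · split_ifs <;> ring
  rw [h1, Matrix.det_mul, Matrix.det_mul, Matrix.det_diagonal, Matrix.det_diagonal,
    mul_right_comm, ← Finset.prod_mul_distrib]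
  congr 1
  exact Finset.prod_coe_sort W (fun i => u i * v i)

private theorem q_lr (y : Ker ν α) (s : α → Option (Fin r)) (l : α → ℝ) (W : Finset α)
    (u v : α → ℝ) : q (fun k i j => (u i : ℂ) * y k i j * (v j : ℂ)) s (fun i => u i * v i * l i) W =
      (∏ i ∈ W, u i * v i) * q y s l W := by
  have h := Q_lr y s (fun i => (l i : ℂ)) W (fun i => (u i : ℂ)) (fun i => (v i : ℂ))
  have h2 : (∏ i ∈ W, (u i : ℂ) * (v i : ℂ)) = ((∏ i ∈ W, u i * v i : ℝ) : ℂ) := by
    push_cast
    rfl
  have h3 : q (fun k i j => (u i : ℂ) * y k i j * (v j : ℂ)) s (fun i => u i * v i * l i) W =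
      (Q (fun k i j => (u i : ℂ) * y k i j * (v j : ℂ)) s
        (fun i => (u i : ℂ) * (v i : ℂ) * (l i : ℂ)) W).re := by
    unfold q
    congr 2
    funext i
    push_cast
    rfl
  rw [h3, h, h2, Complex.re_ofReal_mul]
  rfl

theorem q_avg (hr : 0 < r) (ho : o ∈ W) (hs : s o = none) :
    q y s l W = (∑ c, q y (Function.update s o (some c)) l W) / r := by
  unfold q
  rw [Q_avg hr ho hs]
  have h : ((r : ℂ)⁻¹) = (((r : ℝ)⁻¹ : ℝ) : ℂ) := by
    push_cast
    rfl
  rw [h, Complex.re_ofReal_mul, Complex.re_sum]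
  rw [div_eq_mul_inv, mul_comm]

/-- averaging over the colour of an undecided point -/
theorem sg_avg (hr : 0 < r) (hy : Herm y) (ho : o ∉ W) (hs : s o = none) :
    sg y s o l W = (∑ c, sg y (Function.update s o (some c)) o l W) / r := by
  have h1 : ∀ c : Fin r, q y (Function.update s o (some c)) l W = q y s l W := by
    intro c
    refine q_congr (fun i hi => ?_) (fun _ _ => rfl)
    rw [Function.update_of_ne]
    rintro rfl
    exact ho hi
  simp only [sg, h1]
  rw [q_avg hr (mem_insert_self o W) hs, ← Finset.sum_div, Finset.sum_neg_distrib]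
  ring

theorem q_smul (t : ℝ) : q (fun k i j => (t : ℂ) * y k i j) s (fun i => t * l i) W =
    t ^ W.card * q y s l W := by
  have h := q_lr y s l W (fun _ => t) (fun _ => 1)
  simp only [Complex.ofReal_one, mul_one, Finset.prod_const] at h
  exact h

theorem sg_smul {t : ℝ} (ht : 0 < t) (ho : o ∉ W) :
    sg (fun k i j => (t : ℂ) * y k i j) s o (fun i => t * l i) W = t * sg y s o l W := by
  have h1 : Function.update (fun i => t * l i) o 0 = fun i => t * Function.update l o 0 i := by
    funext i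
    by_cases hi : i = o
    · subst hi
      simp
    · simp [hi]
  have ht' : t ^ W.card ≠ 0 := pow_ne_zero _ ht.ne'
  unfold sg
  rw [h1, q_smul, q_smul, card_insert_of_notMem ho, pow_succ]
  by_cases hq : q y s l W = 0
  · simp only [hq, mul_zero, div_zero]
  · (clear * - ht' hq ht; field_simp)

/-- diagonal scaling -/
theorem q_scale (χ : α → ℝ) :
    q (fun k i j => (χ i : ℂ) * y k i j * (χ j : ℂ)) s (fun i => χ i ^ 2 * l i) W =
      (∏ i ∈ W, χ i ^ 2) * q y s l W := by
  have h := q_lr y s l W χ χ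
  simp only [← pow_two] at h
  exact h

/-- scaling only the row and column of `o` -/
theorem sg_row (hr : 0 < r) (hz : ZD y) (ho : o ∉ W) (t : ℝ) :
    sg (fun k i j => if i = o ∨ j = o then (t : ℂ) * y k i j else y k i j) s o l W =
      t ^ 2 * sg y s o l W := by
  have h1 : q (fun k i j => if i = o ∨ j = o then (t : ℂ) * y k i j else y k i j) s l W =
      q y s l W := by
    refine q_congr_y fun k i hi j hj => ?_
    have hi' : i ≠ o := fun h => ho (h ▸ hi)
    have hj' : j ≠ o := fun h => ho (h ▸ hj)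
    simp [hi', hj']
  have h2 : q (fun k i j => if i = o ∨ j = o then (t : ℂ) * y k i j else y k i j) s
      (Function.update l o 0) (insert o W) = t ^ 2 * q y s (Function.update l o 0) (insert o W) := by
    have h := q_scale (y := y) (s := s) (l := Function.update l o 0) (W := insert o W)
      (fun i => if i = o then t else 1)
    have h3 : (∏ i ∈ insert o W, (if i = o then t else 1 : ℝ) ^ 2) = t ^ 2 := by
      rw [prod_insert ho, if_pos rfl]
      have : ∏ i ∈ W, (if i = o then t else 1 : ℝ) ^ 2 = 1 := by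
        refine prod_eq_one fun i hi => ?_
        have hi' : i ≠ o := fun h => ho (h ▸ hi)
        simp [hi']
      rw [this, mul_one]
    rw [h3] at h
    rw [← h]
    have h4 : (fun i => (if i = o then t else 1 : ℝ) ^ 2 * Function.update l o 0 i) =
        Function.update l o 0 := by
      funext i
      by_cases hi : i = o
      · subst hi
        simp
      · simp [hi]
    rw [h4]
    refine q_congr_y fun k i _ j _ => ?_
    by_cases hi : i = o
    · by_cases hj : j = o
      · subst hi
        subst hj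
        simp [hz k j]
      · simp [hi, hj]
    · by_cases hj : j = o
      · simp [hi, hj, mul_comm]
      · simp [hi, hj]
  unfold sg
  rw [h1, h2]
  ring

/-- no coupling -/
theorem q_union (hr : 0 < r) (hy : Herm y) (hd : Disjoint W W')
    (h0 : ∀ k, ∀ i ∈ W, ∀ j ∈ W', y k i j = 0) :
    q y s l (W ∪ W') = q y s l W * q y s l W' := by
  have h := Q_union (y := y) (s := s) (z := fun i => (l i : ℂ)) hr hd
    (fun k i hi j hj => ⟨h0 k i hi j hj, by rw [hy k i j, h0 k i hi j hj, star_zero]⟩)
  rw [q_coe hy, q_coe hy, q_coe hy] at h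
  exact_mod_cast h

end Vale.Agent.P078.TX
end

section
/-! T3-A4: diagonal dominance, form bound. -/

namespace Vale.Agent.P078.TX

open Finset Polynomial
open Vale.Agent.P078.C (qf yc)
open scoped ComplexOrder

variable {α : Type*} [DecidableEq α] {r ν : ℕ}
variable {y : Ker ν α} {s s' : α → Option (Fin r)} {l l' : α → ℝ} {W W' : Finset α} {o : α}

private theorem herm_mat {K : W → W → ℂ} (hK : ∀ i j, K j i = star (K i j)) (x : α → ℝ) :
    (Matrix.of fun i j : W => (if i = j then (x i : ℂ) else 0) - K i j).IsHermitian := by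
  ext i j
  rw [Matrix.conjTranspose_apply, Matrix.of_apply, Matrix.of_apply, star_sub, ← hK j i]
  congr 1
  by_cases hij : i = j
  · subst hij; simp only [↓reduceIte, RCLike.star_def, Complex.conj_ofReal]
  · rw [if_neg hij, if_neg fun h => hij h.symm, star_zero]

/-- a strictly diagonally dominant Hermitian matrix has positive determinant -/
private theorem det_pos_of_dom {K : W → W → ℂ} (hK : ∀ i j, K j i = star (K i j)) {x : α → ℝ}
    (h : ∀ i : W, ∑ j : W, ‖K i j‖ < x i) :
    0 < (Matrix.det (Matrix.of fun i j : W => (if i = j then (x i : ℂ) else 0) - K i j)).re := by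
  set B : Matrix W W ℂ := Matrix.of fun i j : W => (if i = j then (x i : ℂ) else 0) - K i j
    with hBdef
  have hB : B.IsHermitian := herm_mat hK x
  have hne : ∀ μ : ℝ, μ ≤ 0 → (B - Matrix.scalar W (μ : ℂ)).det ≠ 0 := by
    intro μ hμ
    refine det_ne_zero_of_sum_row_lt_diag fun k => ?_
    have h1 : ∀ j ∈ Finset.univ.erase k, ‖(B - Matrix.scalar W (μ : ℂ)) k j‖ = ‖K k j‖ := by
      intro j hj
      have hkj : ¬ k = j := fun h' => (Finset.mem_erase.1 hj).1 h'.symm
      rw [Matrix.sub_apply, hBdef, Matrix.of_apply, if_neg hkj, Matrix.scalar_apply,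
        Matrix.diagonal_apply_ne _ hkj, sub_zero, zero_sub, norm_neg]
    rw [Finset.sum_congr rfl h1]
    have h2 : (B - Matrix.scalar W (μ : ℂ)) k k = ((x k - μ : ℝ) : ℂ) - K k k := by
      rw [Matrix.sub_apply, hBdef, Matrix.of_apply, if_pos rfl, Matrix.scalar_apply,
        Matrix.diagonal_apply_eq]
      push_cast
      ring
    have h3 : x k - μ - ‖K k k‖ ≤ ‖(B - Matrix.scalar W (μ : ℂ)) k k‖ := by
      rw [h2]
      have h4 := norm_sub_norm_le ((x k - μ : ℝ) : ℂ) (K k k)
      rw [Complex.norm_real, Real.norm_eq_abs] at h4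
      have h5 := le_abs_self (x k - μ)
      linarith only [h4, h5]
    have h4 := h k
    rw [← Finset.add_sum_erase Finset.univ (fun j => ‖K k j‖) (Finset.mem_univ k)] at h4
    linarith only [h3, h4, hμ]
  have hev : ∀ k, 0 < hB.eigenvalues k := by
    intro k
    by_contra hcon
    push Not at hcon
    refine hne _ hcon ?_
    have h1 : (B.charpoly).eval ((hB.eigenvalues k : ℝ) : ℂ) = 0 := by
      rw [hB.charpoly_eq, Polynomial.eval_prod]
      refine Finset.prod_eq_zero (Finset.mem_univ k) ?_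
      simp
    rw [Matrix.eval_charpoly, ← neg_sub, Matrix.det_neg] at h1
    rcases mul_eq_zero.1 h1 with h5 | h5
    · exact absurd h5 (pow_ne_zero _ (by norm_num))
    · exact h5
  have e : B.det = ((∏ i, hB.eigenvalues i : ℝ) : ℂ) := by
    rw [hB.det_eq_prod_eigenvalues, Complex.ofReal_prod]
    rfl
  rw [e, Complex.ofReal_re]
  exact Finset.prod_pos fun k _ => hev k

/-- strict diagonal dominance -/
theorem safe_of_dom (hr : 0 < r) (hy : Herm y) (h : ∀ k, ∀ v ∈ W, ∑ w ∈ W, ‖y k v w‖ < l v) :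
    Safe y s l W := by
  intro U hU
  unfold q
  rw [Q_def]
  have e : ((Fintype.card (Fin (ν + 1) × Fin r) : ℂ) ^ U.card)⁻¹ =
      (((Fintype.card (Fin (ν + 1) × Fin r) : ℝ) ^ U.card)⁻¹ : ℝ) := by push_cast; rfl
  rw [e, Complex.re_ofReal_mul, Complex.re_sum]
  have : Nonempty (Fin r) := ⟨⟨0, hr⟩⟩
  have hr' : (0 : ℝ) < Fintype.card (Fin (ν + 1) × Fin r) := by exact_mod_cast card_pos' hr
  refine mul_pos (by positivity) (Finset.sum_pos (fun c _ => ?_) univ_nonempty)
  refine det_pos_of_dom (K := fun i j : U =>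
    if slx ν s i (c i) = slx ν s j (c j) then y (c i).1 i j else 0) ?_ ?_
  · intro i j
    by_cases hc : slx ν s i (c i) = slx ν s j (c j)
    · have e1 : (c j).1 = (c i).1 := (congrArg Prod.fst hc).symm
      rw [if_pos hc, if_pos hc.symm, e1, hy _ i j]
    · rw [if_neg hc, if_neg fun h' => hc h'.symm, star_zero]
  · intro i
    refine lt_of_le_of_lt ?_ (h (c i).1 i (hU i.2))
    calc ∑ j : U, ‖if slx ν s i (c i) = slx ν s j (c j) then y (c i).1 i j else 0‖
        ≤ ∑ j : U, ‖y (c i).1 i j‖ := by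
          refine Finset.sum_le_sum fun j _ => ?_
          split_ifs
          · exact le_rfl
          · rw [norm_zero]; exact norm_nonneg _
      _ = ∑ j ∈ U, ‖y (c i).1 i j‖ := Finset.sum_coe_sort U (fun j => ‖y (c i).1 i j‖)
      _ ≤ ∑ j ∈ W, ‖y (c i).1 i j‖ :=
          Finset.sum_le_sum_of_subset_of_nonneg hU fun j _ _ => norm_nonneg _

end Vale.Agent.P078.TX
end

section
/-! T3-A5: hyperbolicity in the direction of a safe pair. -/

namespace Vale.Agent.P078.TX

open Finset Polynomial
open Vale.Agent.P078.C (qf yc)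

variable {α : Type*} [DecidableEq α] {r ν : ℕ}
variable {y₁ y₂ : Ker ν α} {s : α → Option (Fin r)} {l₁ l₂ : α → ℝ} {W : Finset α}

/-- the pencil `(c, a) + σ (d, b)` is a polynomial in `σ` -/
private theorem hyp_poly (a b : Ker ν α) (c d : α → ℂ) (s : α → Option (Fin r))
    (W : Finset α) :
    ∃ p : ℂ[X], p.natDegree ≤ W.card ∧ p.coeff W.card = Q b s d W ∧
      ∀ σ : ℂ, p.eval σ = Q (fun k i j => a k i j + σ * b k i j) s (fun i => c i + σ * d i) W := by
  set A : (W → Fin (ν + 1) × Fin r) → Matrix W W ℂ := fun k => Matrix.of fun i j : W =>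
    (if i = j then d i else 0) -
      if slx ν s i (k i) = slx ν s j (k j) then b (k i).1 i j else 0 with hA
  set B : (W → Fin (ν + 1) × Fin r) → Matrix W W ℂ := fun k => Matrix.of fun i j : W =>
    (if i = j then c i else 0) -
      if slx ν s i (k i) = slx ν s j (k j) then a (k i).1 i j else 0 with hB
  have hc : W.card = Fintype.card W := (Fintype.card_coe W).symm
  refine ⟨Polynomial.C (((Fintype.card (Fin (ν + 1) × Fin r) : ℂ) ^ W.card)⁻¹) *
    ∑ k, Matrix.det ((X : ℂ[X]) • (A k).map Polynomial.C + (B k).map Polynomial.C), ?_, ?_, ?_⟩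
  · refine (natDegree_C_mul_le _ _).trans (natDegree_sum_le_of_forall_le _ _ fun k _ => ?_)
    rw [hc]
    exact natDegree_det_X_add_C_le _ _
  · rw [coeff_C_mul, finsetSum_coeff, Q_def]
    congr 1
    refine Finset.sum_congr rfl fun k _ => ?_
    rw [hc, coeff_det_X_add_C_card]
  · intro σ
    rw [eval_mul, eval_C, eval_finsetSum, Q_def]
    congr 1
    refine Finset.sum_congr rfl fun k _ => ?_
    rw [← coe_evalRingHom, RingHom.map_det]
    congr 1
    ext i j
    simp only [hA, hB, RingHom.mapMatrix_apply, Matrix.map_apply, Matrix.add_apply,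
      Matrix.smul_apply, Matrix.of_apply, smul_eq_mul, map_add, coe_evalRingHom,
      eval_C, eval_X, eval_mul]
    split_ifs <;> ring

private theorem hyp_smul (a : Ker ν α) (c : α → ℂ) (s : α → Option (Fin r)) (W : Finset α)
    (σ : ℂ) : Q (fun k i j => σ * a k i j) s (fun i => σ * c i) W = σ ^ W.card * Q a s c W := by
  rw [Q_def, Q_def, mul_left_comm]
  congr 1
  rw [Finset.mul_sum]
  refine Finset.sum_congr rfl fun k _ => ?_
  rw [← Fintype.card_coe W, ← Matrix.det_smul]
  congr 1
  ext i j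
  simp only [Matrix.smul_apply, Matrix.of_apply, smul_eq_mul]
  split_ifs <;> ring

/-- roots in the direction `1` of a safe pair are negative -/
private theorem hyp_root (hr : 0 < r) (hy₂ : Herm y₂) (h : Safe y₂ s l₂ W) {τ : ℂ}
    (hτ : τ.im ≠ 0 ∨ 0 ≤ τ.re) : Q y₂ s (fun i => (l₂ i : ℂ) + τ) W ≠ 0 := by
  rcases lt_trichotomy τ.im 0 with h1 | h1 | h1
  · intro h0
    have h2 := Q_star (s := s) (W := W) (z := fun i => (l₂ i : ℂ) + τ) hy₂
    rw [h0, star_zero] at h2
    refine Q_ne_zero hr hy₂ (fun i _ => ?_) h2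
    simp only [Complex.star_def, Complex.conj_im, Complex.add_im, Complex.ofReal_im, zero_add]
    linarith only [h1]
  · have hτ' : 0 ≤ τ.re := hτ.resolve_left (by simp [h1])
    have h3 : τ = ((τ.re : ℝ) : ℂ) := Complex.ext (by simp) (by simp [h1])
    have h4 : 0 < q y₂ s (fun i => l₂ i + τ.re) W :=
      Safe.mono hr hy₂ h (fun i _ => by linarith only [hτ']) W subset_rfl
    have h5 := q_coe (s := s) (l := fun i => l₂ i + τ.re) (W := W) hy₂
    have h6 : (fun i => (l₂ i : ℂ) + τ) = fun i => ((l₂ i + τ.re : ℝ) : ℂ) := by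
      funext i
      conv_lhs => rw [h3]
      push_cast
      rfl
    rw [h6, h5]
    exact_mod_cast h4.ne'
  · exact Q_ne_zero hr hy₂ (fun i _ => by simpa only [Complex.add_im, Complex.ofReal_im, zero_add] using h1)

/-- a neighbourhood of the direction -/
private theorem hyp_nhds (y₁ : Ker ν α) (l₁ : α → ℝ) (hr : 0 < r) (hy₂ : Herm y₂)
    (h : Safe y₂ s l₂ W) : ∃ δ > 0, ∀ ξ η : ℂ, ‖ξ‖ < δ → ‖η‖ < δ →
    Q (fun k i j => ξ * y₁ k i j + y₂ k i j) s (fun i => ξ * l₁ i + l₂ i + η) W ≠ 0 := by
  have hc : Continuous fun p : ℂ × ℂ =>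
      Q (fun k i j => p.1 * y₁ k i j + y₂ k i j) s (fun i => p.1 * l₁ i + l₂ i + p.2) W :=
    continuous_Q (fun k i _ j _ => by fun_prop) (fun i _ => by fun_prop)
  have h0 : Q (fun k i j => (0 : ℂ × ℂ).1 * y₁ k i j + y₂ k i j) s
      (fun i => (0 : ℂ × ℂ).1 * l₁ i + l₂ i + (0 : ℂ × ℂ).2) W ≠ 0 := by
    have h1 := hyp_root (τ := 0) hr hy₂ h (Or.inr le_rfl)
    simpa only [Prod.fst_zero, zero_mul, zero_add, Prod.snd_zero, add_zero, ne_eq] using h1
  obtain ⟨δ, hδ, hd⟩ := Metric.eventually_nhds_iff.1 (hc.continuousAt.eventually_ne h0)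
  refine ⟨δ, hδ, fun ξ η hξ hη => ?_⟩
  exact hd (y := (ξ, η)) (by
    rw [Prod.dist_eq]
    simpa only [Prod.fst_zero, dist_zero_right, Prod.snd_zero, sup_lt_iff] using ⟨hξ, hη⟩)

/-- lower bound for a polynomial without roots in the upper half plane -/
private theorem hyp_lower (p : ℂ[X]) (n : ℕ) (q₀ : ℝ) (hq₀ : 0 < q₀) (hd : p.natDegree ≤ n)
    (hc : p.coeff n = q₀) (hp : ∀ σ : ℂ, 0 < σ.im → p.eval σ ≠ 0) (σ : ℂ) (hσ : 0 < σ.im) :
    q₀ * σ.im ^ n ≤ ‖p.eval σ‖ := by
  have hdn : p.natDegree = n := le_antisymm hd (le_natDegree_of_ne_zero (by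
    rw [hc]
    exact_mod_cast hq₀.ne'))
  have hsp : p.Splits := IsAlgClosed.splits p
  have hcard : Multiset.card p.roots = n := by
    rw [← hdn]
    exact hsp.natDegree_eq_card_roots.symm
  have hlead : p.leadingCoeff = q₀ := by rw [leadingCoeff, hdn, hc]
  have key : ∀ m : Multiset ℂ, (∀ z ∈ m, z.im ≤ 0) →
      σ.im ^ Multiset.card m ≤ ‖(m.map fun z => σ - z).prod‖ := by
    intro m
    induction m using Multiset.induction_on with
    | empty => intro _; simp only [Multiset.card_zero, pow_zero, Multiset.map_zero, Multiset.prod_zero, norm_one, Std.le_refl]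
    | cons a m ih =>
      intro hm
      rw [Multiset.map_cons, Multiset.prod_cons, Multiset.card_cons, pow_succ', norm_mul]
      refine mul_le_mul ?_ (ih fun z hz => hm z (Multiset.mem_cons_of_mem hz))
        (pow_nonneg hσ.le _) (norm_nonneg _)
      have h1 := hm a (Multiset.mem_cons_self a m)
      have h2 : σ.im ≤ (σ - a).im := by rw [Complex.sub_im]; linarith only [h1]
      exact h2.trans ((le_abs_self _).trans (Complex.abs_im_le_norm _))
  have h1 := key p.roots fun z hz => by
    by_contra h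
    exact hp z (not_le.1 h) (mem_roots'.1 hz).2
  rw [hcard] at h1
  rw [hsp.eval_eq_prod_roots, norm_mul, hlead, Complex.norm_real, Real.norm_of_nonneg hq₀.le]
  exact mul_le_mul_of_nonneg_left h1 hq₀.le

/-- hyperbolicity with a positive shift -/
private theorem hyp_shift (hr : 0 < r) (hy₁ : Herm y₁) (hy₂ : Herm y₂) (h : Safe y₂ s l₂ W)
    {u : ℝ} (hu : 0 < u) (x : ℝ) (σ : ℂ) (hσ : 0 < σ.im) :
    q y₂ s l₂ W * σ.im ^ W.card ≤ ‖Q (fun k i j => (x : ℂ) * y₁ k i j + σ * y₂ k i j) s
      (fun i => ((x : ℂ) * l₁ i + u * Complex.I) + σ * l₂ i) W‖ := by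
  set F : ℝ → ℂ → ℂ := fun x σ => Q (fun k i j => (x : ℂ) * y₁ k i j + σ * y₂ k i j) s
      (fun i => ((x : ℂ) * l₁ i + u * Complex.I) + σ * l₂ i) W with hF
  have hq₀ : 0 < q y₂ s l₂ W := h W subset_rfl
  -- real parameters
  have hreal : ∀ x t : ℝ, F x t ≠ 0 := by
    intro x t
    refine Q_ne_zero hr (fun k i j => ?_) fun i _ => ?_
    · simp only [star_add, star_mul', Complex.star_def, Complex.conj_ofReal]
      rw [hy₁ k i j, hy₂ k i j]
      rfl
    · simp only [Complex.add_im, Complex.mul_im, Complex.ofReal_re, Complex.ofReal_im,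
        Complex.I_re, Complex.I_im]
      linarith only [hu]
  -- lower bounds
  have hlow : ∀ x : ℝ, (∀ σ : ℂ, 0 < σ.im → F x σ ≠ 0) → ∀ σ : ℂ, 0 < σ.im →
      q y₂ s l₂ W * σ.im ^ W.card ≤ ‖F x σ‖ := by
    intro x hx σ hσ
    obtain ⟨p, hp1, hp2, hp3⟩ := hyp_poly (fun k i j => (x : ℂ) * y₁ k i j) y₂
      (fun i => (x : ℂ) * l₁ i + u * Complex.I) (fun i => (l₂ i : ℂ)) s W
    rw [q_coe hy₂] at hp2
    have h1 := hyp_lower p W.card _ hq₀ hp1 hp2 (fun σ hσ => by
      rw [hp3]
      exact hx σ hσ) σ hσ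
    rw [hp3] at h1
    exact h1
  have hcont : Continuous fun p : ℝ × ℂ => F p.1 p.2 :=
    continuous_Q (fun k i _ j _ => by fun_prop) (fun i _ => by fun_prop)
  -- the good parameters form a clopen set
  set L : Set ℝ := {x | ∀ σ : ℂ, 0 < σ.im → F x σ ≠ 0} with hL
  have hL' : L = ⋂ σ : {σ : ℂ // 0 < σ.im}, {x | q y₂ s l₂ W * σ.1.im ^ W.card ≤ ‖F x σ‖} := by
    ext x
    simp only [hL, Set.mem_ofPred_eq, Set.mem_iInter, Subtype.forall]
    refine ⟨fun hx σ hσ => hlow x hx σ hσ, fun hx σ hσ h0 => ?_⟩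
    have h1 := hx σ hσ
    rw [h0, norm_zero] at h1
    exact absurd h1 (not_le.2 (by (clear * - hq₀ hσ; positivity)))
  have hclosed : IsClosed L := by
    rw [hL']
    refine isClosed_iInter fun σ => isClosed_le continuous_const ?_
    exact (hcont.comp (continuous_id.prodMk continuous_const)).norm
  obtain ⟨δ, hδ, hd⟩ := hyp_nhds y₁ l₁ hr hy₂ h
  have hopen : IsOpen L := by
    rw [isOpen_iff_mem_nhds]
    intro x₀ hx₀
    set R : ℝ := (|x₀| + 1 + u) / δ with hR
    have hRp : 0 < R := by (clear * - hu hδ; positivity)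
    have hK : IsCompact (Metric.closedBall (0 : ℂ) R ∩ {σ : ℂ | 0 ≤ σ.im}) :=
      (isCompact_closedBall _ _).inter_right (isClosed_le continuous_const Complex.continuous_im)
    have h1 : ∀ᶠ x in nhds x₀, ∀ σ ∈ Metric.closedBall (0 : ℂ) R ∩ {σ : ℂ | 0 ≤ σ.im},
        F x σ ≠ 0 := by
      refine hK.eventually_forall_of_forall_eventually fun σ hσ => ?_
      have h2 : F x₀ σ ≠ 0 := by
        rcases (show (0 : ℝ) ≤ σ.im from hσ.2).lt_or_eq with h3 | h3
        · exact hx₀ σ h3
        · have h4 : σ = ((σ.re : ℝ) : ℂ) := Complex.ext (by simp) (by simp [← h3])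
          rw [h4]
          exact hreal x₀ σ.re
      exact hcont.continuousAt.eventually_ne h2
    have h2 : ∀ᶠ x in nhds x₀, |x - x₀| < 1 := by
      have := Metric.ball_mem_nhds x₀ one_pos
      filter_upwards [this] with x hx
      rwa [Metric.mem_ball, Real.dist_eq] at hx
    filter_upwards [h1, h2] with x hx1 hx2
    intro σ hσ
    by_cases hσR : ‖σ‖ ≤ R
    · exact hx1 σ ⟨by simpa only [Metric.mem_closedBall, dist_zero_right] using hσR, hσ.le⟩
    · have hσR' : R < ‖σ‖ := not_le.1 hσR
      have hσ0 : σ ≠ 0 := fun h0 => by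
        rw [h0, norm_zero] at hσR'
        linarith only [hRp, hσR']
      have hn : 0 < ‖σ‖ := norm_pos_iff.2 hσ0
      have hxb : |x| ≤ |x₀| + 1 := by
        have := abs_sub_abs_le_abs_sub x x₀
        linarith only [hx2, this]
      have hRδ : |x₀| + 1 + u < δ * ‖σ‖ := by
        rw [hR, div_lt_iff₀ hδ] at hσR'
        linarith only [hσR']
      have h3 := hd ((x : ℂ) / σ) (u * Complex.I / σ) (by
          rw [norm_div, Complex.norm_real, Real.norm_eq_abs, div_lt_iff₀ hn]
          linarith only [hu, hxb, hRδ]) (by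
          rw [norm_div, norm_mul, Complex.norm_I, mul_one, Complex.norm_real,
            Real.norm_of_nonneg hu.le, div_lt_iff₀ hn]
          linarith only [hRδ, abs_nonneg x₀])
      have h4 : F x σ = σ ^ W.card * Q (fun k i j => (x : ℂ) / σ * y₁ k i j + y₂ k i j) s
          (fun i => (x : ℂ) / σ * l₁ i + l₂ i + u * Complex.I / σ) W := by
        rw [← hyp_smul]
        have h5 : (fun k i j => (x : ℂ) * y₁ k i j + σ * y₂ k i j) =
            fun k i j => σ * ((x : ℂ) / σ * y₁ k i j + y₂ k i j) := by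
          funext k i j
          (clear * - hσ0; field_simp)
        have h6 : (fun i => ((x : ℂ) * l₁ i + u * Complex.I) + σ * l₂ i) =
            fun i => σ * ((x : ℂ) / σ * l₁ i + l₂ i + u * Complex.I / σ) := by
          funext i
          field_simp
          ring
        simp only [hF]
        rw [h5, h6]
      rw [h4]
      exact mul_ne_zero (pow_ne_zero _ hσ0) h3
  have hzero : (0 : ℝ) ∈ L := by
    intro σ hσ
    have hσ0 : σ ≠ 0 := fun h0 => by simp [h0] at hσ
    have h4 : F 0 σ = σ ^ W.card * Q y₂ s (fun i => (l₂ i : ℂ) + u * Complex.I / σ) W := by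
      rw [← hyp_smul]
      have h5 : (fun k i j => ((0 : ℝ) : ℂ) * y₁ k i j + σ * y₂ k i j) = fun k i j => σ * y₂ k i j := by
        funext k i j
        simp
      have h6 : (fun i => (((0 : ℝ) : ℂ) * l₁ i + u * Complex.I) + σ * l₂ i) =
          fun i => σ * ((l₂ i : ℂ) + u * Complex.I / σ) := by
        funext i
        field_simp
        push_cast
        ring
      simp only [hF]
      rw [h5, h6]
    rw [h4]
    refine mul_ne_zero (pow_ne_zero _ hσ0) (hyp_root hr hy₂ h (Or.inr ?_))
    have hns : 0 < Complex.normSq σ := Complex.normSq_pos.2 hσ0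
    rw [Complex.div_re]
    simp only [Complex.mul_re, Complex.mul_im, Complex.ofReal_re, Complex.ofReal_im,
      Complex.I_re, Complex.I_im]
    have : 0 ≤ u * σ.im / Complex.normSq σ := by (clear * - hu hσ hns; (clear * - hu hσ hns; positivity))
    simpa only [mul_zero, mul_one, sub_self, zero_mul, zero_div, add_zero, zero_add, ge_iff_le] using this
  have huniv : L = Set.univ := IsClopen.eq_univ ⟨hclosed, hopen⟩ ⟨0, hzero⟩
  have hx : x ∈ L := by rw [huniv]; exact Set.mem_univ _
  exact hlow x hx σ hσ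

/-- hyperbolicity in the direction of a safe pair -/
theorem ne_zero_of_safe (hr : 0 < r) (hy₁ : Herm y₁) (hy₂ : Herm y₂) (h : Safe y₂ s l₂ W) {z : ℂ}
    (hz : 0 < z.im) :
    Q (fun k i j => y₁ k i j + z * y₂ k i j) s (fun i => (l₁ i : ℂ) + z * l₂ i) W ≠ 0 := by
  have hq₀ : 0 < q y₂ s l₂ W := h W subset_rfl
  have hcont : Continuous fun u : ℝ => ‖Q (fun k i j => ((1 : ℝ) : ℂ) * y₁ k i j + z * y₂ k i j) s
      (fun i => (((1 : ℝ) : ℂ) * l₁ i + u * Complex.I) + z * l₂ i) W‖ :=
    (continuous_Q (fun k i _ j _ => by fun_prop) (fun i _ => by fun_prop)).norm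
  have h1 : q y₂ s l₂ W * z.im ^ W.card ≤ ‖Q (fun k i j => ((1 : ℝ) : ℂ) * y₁ k i j + z * y₂ k i j) s
      (fun i => (((1 : ℝ) : ℂ) * l₁ i + ((0 : ℝ) : ℂ) * Complex.I) + z * l₂ i) W‖ := by
    refine ge_of_tendsto (x := nhdsWithin (0 : ℝ) (Set.Ioi 0))
      ((hcont.tendsto 0).mono_left nhdsWithin_le_nhds) ?_
    filter_upwards [self_mem_nhdsWithin] with u hu
    exact hyp_shift hr hy₁ hy₂ h hu 1 z hz
  intro h0
  have h2 : Q (fun k i j => ((1 : ℝ) : ℂ) * y₁ k i j + z * y₂ k i j) s
      (fun i => (((1 : ℝ) : ℂ) * l₁ i + ((0 : ℝ) : ℂ) * Complex.I) + z * l₂ i) W = 0 := by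
    rw [← h0]
    congr 1
    · funext k i j
      simp
    · funext i
      simp only [Complex.ofReal_one, one_mul, Complex.ofReal_zero, zero_mul, add_zero]
  rw [h2, norm_zero] at h1
  exact absurd h1 (not_le.2 (by (clear * - hq₀ hz; positivity)))

end Vale.Agent.P078.TX
end

section
/-! T3-A6: Garding's theorem for the cone `Safe` (jointly convex in levels and kernel). -/

namespace Vale.Agent.P078.TX

open Finset Polynomial
open Vale.Agent.P078.C (qf yc)

variable {α : Type*} [DecidableEq α] {r ν : ℕ}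
variable {y₁ y₂ : Ker ν α} {s : α → Option (Fin r)} {l₁ l₂ : α → ℝ} {W : Finset α}

/-- conjugation along a line -/
private theorem gd_star (hy₁ : Herm y₁) (hy₂ : Herm y₂) (z : ℂ) :
    Q (fun k i j => y₁ k i j + star z * y₂ k i j) s (fun i => (l₁ i : ℂ) + star z * l₂ i) W =
      star (Q (fun k i j => y₁ k i j + z * y₂ k i j) s (fun i => (l₁ i : ℂ) + z * l₂ i) W) := by
  rw [Q_def, Q_def]
  simp only [star_mul', star_inv₀, star_pow, star_natCast, star_sum]
  congr 1
  refine Finset.sum_congr rfl fun c _ => ?_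
  rw [← Matrix.det_conjTranspose]
  congr 1
  ext i j
  simp only [Matrix.of_apply, Matrix.conjTranspose_apply, star_sub]
  congr 1
  · by_cases h : i = j
    · subst h; simp only [↓reduceIte, RCLike.star_def, star_add, Complex.conj_ofReal, star_mul']
    · have h' : j ≠ i := fun h' => h h'.symm
      simp [h, h']
  · by_cases h : slx ν s i (c i) = slx ν s j (c j)
    · have e1 : (c j).1 = (c i).1 := (congrArg Prod.fst h).symm
      rw [if_pos h, if_pos h.symm, e1, star_add, star_mul', ← hy₁ _ j i, ← hy₂ _ j i]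
    · rw [if_neg h, if_neg fun h' => h h'.symm, star_zero]

/-- the polynomial of a line -/
private noncomputable def gdP (y₁ y₂ : Ker ν α) (s : α → Option (Fin r)) (l₁ l₂ : α → ℝ)
    (W : Finset α) : ℂ[X] :=
  Polynomial.C (((Fintype.card (Fin (ν + 1) × Fin r) : ℂ) ^ W.card)⁻¹) *
    ∑ c : W → Fin (ν + 1) × Fin r, Matrix.det (Matrix.of fun i j : W =>
    (if i = j then Polynomial.C (l₁ i : ℂ) + X * Polynomial.C (l₂ i : ℂ) else 0) -
      if slx ν s i (c i) = slx ν s j (c j) then
        Polynomial.C (y₁ (c i).1 i j) + X * Polynomial.C (y₂ (c i).1 i j) else 0)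

private theorem gdP_eval (y₁ y₂ : Ker ν α) (s : α → Option (Fin r)) (l₁ l₂ : α → ℝ)
    (W : Finset α) (z : ℂ) : (gdP y₁ y₂ s l₁ l₂ W).eval z =
      Q (fun k i j => y₁ k i j + z * y₂ k i j) s (fun i => (l₁ i : ℂ) + z * l₂ i) W := by
  unfold gdP
  rw [Q_def, eval_mul, eval_C, eval_finsetSum]
  congr 1
  refine Finset.sum_congr rfl fun c _ => ?_
  rw [← Polynomial.coe_evalRingHom, RingHom.map_det]
  congr 1
  ext i j
  simp only [RingHom.mapMatrix_apply, Matrix.map_apply, Matrix.of_apply,
    Polynomial.coe_evalRingHom]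
  split_ifs <;> simp <;> ring

/-- a polynomial with negative roots -/
private theorem gd_norm_le {P : ℂ[X]} (h : ∀ z, P ≠ 0 → P.eval z = 0 → z.im = 0 ∧ z.re < 0)
    {x : ℝ} (hx : 0 ≤ x) : ‖P.eval 0‖ ≤ ‖P.eval (x : ℂ)‖ := by
  by_cases hP : P = 0
  · simp [hP]
  have e := (IsAlgClosed.splits P).eval_eq_prod_roots
  rw [e, e, norm_mul, norm_mul]
  refine mul_le_mul_of_nonneg_left ?_ (norm_nonneg _)
  have hr : ∀ a ∈ P.roots, a.im = 0 ∧ a.re < 0 := fun a ha => h a hP (mem_roots'.1 ha).2
  generalize P.roots = R at hr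
  induction R using Multiset.induction_on with
  | empty => simp only [zero_sub, Multiset.map_zero, Multiset.prod_zero, norm_one, Std.le_refl]
  | cons a R ih =>
    have ha := hr a (Multiset.mem_cons_self a R)
    have hR := ih fun b hb => hr b (Multiset.mem_cons_of_mem hb)
    simp only [Multiset.map_cons, Multiset.prod_cons, norm_mul]
    refine mul_le_mul ?_ hR (norm_nonneg _) (norm_nonneg _)
    have hae : a = (a.re : ℂ) := Complex.ext (by simp) (by simp [ha.1])
    rw [hae, zero_sub, norm_neg, ← Complex.ofReal_sub, Complex.norm_real, Complex.norm_real,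
      Real.norm_eq_abs, Real.norm_eq_abs, abs_of_neg ha.2, abs_of_pos (by linarith only [hx, ha])]
    linarith only [hx]

omit [DecidableEq α] in
/-- the line of kernels is Hermitian -/
private theorem gd_herm (hy₁ : Herm y₁) (hy₂ : Herm y₂) (x : ℝ) :
    Herm (fun k i j => y₁ k i j + (x : ℂ) * y₂ k i j) := by
  intro k i j
  simp only [star_add, star_mul', Complex.star_def, Complex.conj_ofReal]
  rw [hy₁ k i j, hy₂ k i j]
  rfl

private theorem gd_coe (hy₁ : Herm y₁) (hy₂ : Herm y₂) (x : ℝ) :
    Q (fun k i j => y₁ k i j + (x : ℂ) * y₂ k i j) s (fun i => (l₁ i : ℂ) + (x : ℂ) * l₂ i) W =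
      (q (fun k i j => y₁ k i j + (x : ℂ) * y₂ k i j) s (fun i => l₁ i + x * l₂ i) W : ℂ) := by
  rw [← q_coe (gd_herm hy₁ hy₂ x)]
  congr 1
  ext i
  push_cast
  rfl

/-- positive on the half line implies at least the value at zero -/
private theorem gd_ge (hr : 0 < r) (hy₁ : Herm y₁) (hy₂ : Herm y₂) (h₂ : Safe y₂ s l₂ W)
    (hp : ∀ x : ℝ, 0 ≤ x → 0 < q (fun k i j => y₁ k i j + (x : ℂ) * y₂ k i j) s
      (fun i => l₁ i + x * l₂ i) W) {x : ℝ} (hx : 0 ≤ x) :
    q y₁ s l₁ W ≤ q (fun k i j => y₁ k i j + (x : ℂ) * y₂ k i j) s (fun i => l₁ i + x * l₂ i) W := by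
  have h := gd_norm_le (P := gdP y₁ y₂ s l₁ l₂ W) ?_ hx
  · rw [gdP_eval, gdP_eval, gd_coe hy₁ hy₂, Complex.norm_real, Real.norm_eq_abs,
      abs_of_pos (hp x hx)] at h
    have e0 : Q (fun k i j => y₁ k i j + 0 * y₂ k i j) s (fun i => (l₁ i : ℂ) + 0 * l₂ i) W =
        (q y₁ s l₁ W : ℂ) := by
      rw [← q_coe hy₁]
      congr 1
      · ext k i j; simp
      · ext i; simp
    rw [e0, Complex.norm_real, Real.norm_eq_abs] at h
    exact (le_abs_self _).trans h
  · intro z _ hz
    rw [gdP_eval] at hz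
    have h1 : ¬ 0 < z.im := fun h' => ne_zero_of_safe hr hy₁ hy₂ h₂ h' hz
    have h2 : ¬ 0 < (star z).im := fun h' => ne_zero_of_safe (l₁ := l₁) hr hy₁ hy₂ h₂ h' (by
      rw [gd_star hy₁ hy₂, hz, star_zero])
    rw [Complex.star_def, Complex.conj_im] at h2
    have h3 : z.im = 0 := by linarith only [h2, h1]
    refine ⟨h3, ?_⟩
    by_contra h4
    rw [not_lt] at h4
    have hze : z = (z.re : ℂ) := Complex.ext (by simp) (by simp [h3])
    rw [hze, gd_coe hy₁ hy₂] at hz
    have h5 := hp z.re h4
    have h6 : q (fun k i j => y₁ k i j + (z.re : ℂ) * y₂ k i j) s (fun i => l₁ i + z.re * l₂ i) W = 0 := by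
      exact_mod_cast hz
    linarith only [h5, h6]

/-- raising the level of one point -/
private theorem gd_raise {y : Ker ν α} {l : α → ℝ} (hr : 0 < r) (hy : Herm y) {v : α}
    (hv : v ∈ W) (t : ℝ) : q y s (fun i => l i + if i = v then t else 0) W =
      q y s l W + t * q y s l (W.erase v) := by
  have h1 := q_insert (s := s) (l := fun i => l i + if i = v then t else 0) hr hy
    (notMem_erase v W)
  have h2 := q_insert (s := s) (l := l) hr hy (notMem_erase v W)
  rw [insert_erase hv] at h1 h2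
  have e1 : Function.update (fun i => l i + if i = v then t else 0) v 0 =
      Function.update l v 0 := by
    ext i
    by_cases hi : i = v
    · subst hi; simp
    · simp only [ne_eq, hi, not_false_eq_true, Function.update_of_ne, ↓reduceIte, add_zero]
  have e2 : q y s (fun i => l i + if i = v then t else 0) (W.erase v) = q y s l (W.erase v) :=
    q_congr (fun _ _ => rfl) fun i hi => by simp [ne_of_mem_erase hi]
  rw [h1, h2, e1, e2]
  simp only [if_true]
  ring

private theorem gd_cont (y₁ y₂ : Ker ν α) (s : α → Option (Fin r)) (l₁ l₂ : α → ℝ)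
    (W : Finset α) : Continuous fun x : ℝ =>
      q (fun k i j => y₁ k i j + (x : ℂ) * y₂ k i j) s (fun i => l₁ i + x * l₂ i) W := by
  unfold q
  refine Complex.continuous_re.comp (continuous_Q ?_ ?_)
  · intro i _ j _
    fun_prop
  · intro i _
    (clear * -; fun_prop)

private theorem gd_large (h₂ : Safe y₂ s l₂ W) : ∃ S : ℝ, 0 < S ∧ ∀ x : ℝ, S ≤ x →
    0 < q (fun k i j => y₁ k i j + (x : ℂ) * y₂ k i j) s (fun i => l₁ i + x * l₂ i) W := by
  have hc := gd_cont y₂ y₁ s l₂ l₁ W
  have h0 : 0 < q (fun k i j => y₂ k i j + ((0 : ℝ) : ℂ) * y₁ k i j) s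
      (fun i => l₂ i + (0 : ℝ) * l₁ i) W := by
    have := h₂ W subset_rfl
    simpa only [Complex.ofReal_zero, zero_mul, add_zero, gt_iff_lt] using this
  obtain ⟨ε, hε, hb⟩ := Metric.eventually_nhds_iff.1
    ((hc.tendsto 0).eventually (lt_mem_nhds h0))
  refine ⟨2 / ε, by positivity, fun x hx => ?_⟩
  have hx0 : 0 < x := lt_of_lt_of_le (by positivity) hx
  have hu : dist (1 / x) 0 < ε := by
    rw [Real.dist_eq, sub_zero, abs_of_pos (by positivity), div_lt_iff₀ hx0]
    rw [div_le_iff₀ hε] at hx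
    linarith
  have h1 := hb hu
  have h2 := q_smul (y := fun k i j => y₂ k i j + ((1 / x : ℝ) : ℂ) * y₁ k i j) (s := s)
    (l := fun i => l₂ i + 1 / x * l₁ i) (W := W) x
  have e : q (fun k i j => y₁ k i j + (x : ℂ) * y₂ k i j) s (fun i => l₁ i + x * l₂ i) W =
      q (fun k i j => (x : ℂ) * (y₂ k i j + ((1 / x : ℝ) : ℂ) * y₁ k i j)) s
        (fun i => x * (l₂ i + 1 / x * l₁ i)) W := by
    congr 1
    · ext k i j
      have : (x : ℂ) ≠ 0 := by exact_mod_cast hx0.ne'
      push_cast
      field_simp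
      ring
    · ext i
      field_simp
      ring
  rw [e, h2]
  exact mul_pos (pow_pos hx0 _) h1

private theorem gd_main (hr : 0 < r) (s : α → Option (Fin r)) (W : Finset α) :
    ∀ (y₁ y₂ : Ker ν α) (l₁ l₂ : α → ℝ), Herm y₁ → Herm y₂ → Safe y₁ s l₁ W →
      Safe y₂ s l₂ W → 0 < q (fun k i j => y₁ k i j + y₂ k i j) s (fun i => l₁ i + l₂ i) W := by
  induction W using Finset.strongInduction with
  | H W ih =>
    intro y₁ y₂ l₁ l₂ hy₁ hy₂ h₁ h₂
    rcases W.eq_empty_or_nonempty with rfl | ⟨v, hv⟩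
    · rw [q_empty]
      exact one_pos
    have hsm : ∀ x : ℝ, 0 < x → Safe (fun k i j => (x : ℂ) * y₂ k i j) s (fun i => x * l₂ i) W :=
      fun x hx U hU => by
        rw [q_smul]
        exact mul_pos (pow_pos hx _) (h₂ U hU)
    have hhm : ∀ x : ℝ, Herm (fun k i j => (x : ℂ) * y₂ k i j) := fun x k i j => by
      simp only [hy₂ k i j, Complex.star_def, star_mul', Complex.conj_ofReal]
    set f : ℝ → ℝ := fun x =>
      q (fun k i j => y₁ k i j + (x : ℂ) * y₂ k i j) s (fun i => l₁ i + x * l₂ i) W with hf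
    set g : ℝ → ℝ := fun x =>
      q (fun k i j => y₁ k i j + (x : ℂ) * y₂ k i j) s (fun i => l₁ i + x * l₂ i) (W.erase v) with hg
    have hfc : Continuous f := gd_cont y₁ y₂ s l₁ l₂ W
    have hgc : Continuous g := gd_cont y₁ y₂ s l₁ l₂ (W.erase v)
    have hf0 : f 0 = q y₁ s l₁ W := by simp [hf]
    have hg0 : g 0 = q y₁ s l₁ (W.erase v) := by simp [hg]
    have hf0p : 0 < f 0 := by
      rw [hf0]
      exact h₁ W subset_rfl
    have hgp : ∀ x : ℝ, 0 ≤ x → 0 < g x := by
      intro x hx
      rcases hx.eq_or_lt with rfl | hx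
      · rw [hg0]
        exact h₁ _ (erase_subset v W)
      · exact ih (W.erase v) (erase_ssubset hv) y₁ _ l₁ _ hy₁ (hhm x)
          (h₁.subset (erase_subset v W)) ((hsm x hx).subset (erase_subset v W))
    obtain ⟨S, hS0, hS⟩ := gd_large (y₁ := y₁) (l₁ := l₁) h₂
    -- bounds on the compact interval
    obtain ⟨a, haS, ha⟩ := (isCompact_Icc (a := (0 : ℝ)) (b := S)).exists_isMinOn
      (Set.nonempty_Icc.2 hS0.le) hgc.continuousOn
    obtain ⟨b, hbS, hb⟩ := (isCompact_Icc (a := (0 : ℝ)) (b := S)).exists_isMaxOn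
      (Set.nonempty_Icc.2 hS0.le) hgc.continuousOn
    obtain ⟨c, hcS, hc⟩ := (isCompact_Icc (a := (0 : ℝ)) (b := S)).exists_isMinOn
      (Set.nonempty_Icc.2 hS0.le) hfc.continuousOn
    have hga := hgp a haS.1
    have hgb := hgp b hbS.1
    -- positivity on the half line gives the uniform lower bound
    have step : ∀ t : ℝ, 0 ≤ t → (∀ x : ℝ, 0 ≤ x → 0 < f x + t * g x) →
        ∀ x : ℝ, 0 ≤ x → f 0 ≤ f x + t * g x := by
      intro t ht hp x hx
      have e : ∀ x : ℝ, q (fun k i j => y₁ k i j + (x : ℂ) * y₂ k i j) s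
          (fun i => (l₁ i + if i = v then t else 0) + x * l₂ i) W = f x + t * g x := by
        intro x
        have h := gd_raise (s := s) (l := fun i => l₁ i + x * l₂ i) hr (gd_herm hy₁ hy₂ x) hv t
        rw [← h]
        congr 1
        ext i
        ring
      have h := gd_ge (l₁ := fun i => l₁ i + if i = v then t else 0) hr hy₁ hy₂ h₂
        (fun x hx => by rw [e x]; exact hp x hx) hx
      rw [e x, gd_raise hr hy₁ hv t, ← hf0, ← hg0] at h
      have := mul_nonneg ht (hgp 0 le_rfl).le
      linarith only [h, this]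
    set t0 : ℝ := (|f c| + 1) / g a with ht0
    set δ : ℝ := f 0 / (2 * g b) with hδ
    have hδp : 0 < δ := by (clear * - hf0p hgb; positivity)
    have ht0p : 0 ≤ t0 := by (clear * - hga; (clear * - hga; positivity))
    have key : ∀ k : ℕ, ∀ x : ℝ, 0 ≤ x → 0 < f x + max (t0 - k * δ) 0 * g x := by
      intro k
      induction k with
      | zero =>
        intro x hx
        rw [Nat.cast_zero, zero_mul, sub_zero, max_eq_left ht0p]
        rcases le_total S x with hSx | hSx
        · have := hS x hSx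
          have := mul_nonneg ht0p (hgp x hx).le
          show 0 < f x + t0 * g x
          (clear hr hf hfc hgc hf0 hf0p hS0 ha b hbS hb hcS hc hgb step ht0 δ hδ hδp; linarith [hS x hSx])
        · have h1 : f c ≤ f x := hc ⟨hx, hSx⟩
          have h2 : g a ≤ g x := ha ⟨hx, hSx⟩
          have h3 : t0 * g a = |f c| + 1 := by
            rw [ht0]
            (clear * - hga; field_simp)
          have h4 := mul_le_mul_of_nonneg_left h2 ht0p
          have h5 := neg_abs_le (f c)
          linarith only [h1, h3, h4, h5]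
      | succ k ihk =>
        intro x hx
        set t : ℝ := max (t0 - k * δ) 0 with ht
        set t' : ℝ := max (t0 - (k + 1 : ℕ) * δ) 0 with ht'
        have ht0' : 0 ≤ t := le_max_right _ _
        have ht'0 : 0 ≤ t' := le_max_right _ _
        have hd : t - t' ≤ δ := by
          have h1 := le_max_left (t0 - (k + 1 : ℕ) * δ) 0
          rw [← ht'] at h1
          push_cast at h1
          rcases max_cases (t0 - k * δ) 0 with ⟨h2, h3⟩ | ⟨h2, h3⟩
          · rw [← ht] at h2
            linarith only [h2, h1]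
          · rw [← ht] at h2
            linarith only [hδp, ht'0, h2]
        rcases le_total S x with hSx | hSx
        · have h1 := hS x hSx
          have h2 := mul_nonneg ht'0 (hgp x hx).le
          show 0 < f x + t' * g x
          have h3 : 0 < f x := h1
          linarith only [h1, h2]
        · have h1 := step t ht0' ihk x hx
          have h2 : g x ≤ g b := hb ⟨hx, hSx⟩
          have h3 : (t - t') * g x ≤ δ * g b :=
            (mul_le_mul_of_nonneg_right hd (hgp x hx).le).trans
              (mul_le_mul_of_nonneg_left h2 hδp.le)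
          have h4 : δ * g b = f 0 / 2 := by
            rw [hδ]
            (clear * - hgb hf0p; field_simp)
          linarith only [h4, h3, h1, hf0p]
    obtain ⟨k, hk⟩ := exists_nat_ge (t0 / δ)
    have h1 := key k 1 zero_le_one
    rw [div_le_iff₀ hδp] at hk
    rw [max_eq_right (by linarith only [hk]), zero_mul, add_zero] at h1
    simpa [hf] using h1

/-- the cone is closed under addition -/
theorem safe_add (hr : 0 < r) (hy₁ : Herm y₁) (hy₂ : Herm y₂) (h₁ : Safe y₁ s l₁ W)
    (h₂ : Safe y₂ s l₂ W) : Safe (fun k i j => y₁ k i j + y₂ k i j) s (fun i => l₁ i + l₂ i) W :=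
  fun U hU => gd_main hr s U y₁ y₂ l₁ l₂ hy₁ hy₂ (h₁.subset hU) (h₂.subset hU)

end Vale.Agent.P078.TX
end

section
/-! T3-A7: consequences of the convexity: sublinearity of the self energy, IMS localization. -/

namespace Vale.Agent.P078.TX

open Finset Polynomial
open Vale.Agent.P078.C (qf yc)

variable {α : Type*} [DecidableEq α] {r ν : ℕ}
variable {y y₁ y₂ : Ker ν α} {s : α → Option (Fin r)} {l l₁ l₂ : α → ℝ} {W N : Finset α} {o : α}

omit [DecidableEq α] in
/-- scaled kernels are Hermitian -/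
theorem ims_herm_smul (hy : Herm y) (t : ℝ) : Herm (fun k i j => (t : ℂ) * y k i j) := by
  intro k i j
  show (t : ℂ) * y k j i = star ((t : ℂ) * y k i j)
  rw [star_mul', hy k i j, RCLike.star_def, Complex.conj_ofReal]

/-- the scaled pair is safe -/
theorem ims_safe_smul (h : Safe y s l W) {t : ℝ} (ht : 0 < t) :
    Safe (fun k i j => (t : ℂ) * y k i j) s (fun i => t * l i) W := by
  intro U hU
  rw [q_smul]
  exact mul_pos (pow_pos ht _) (h U hU)

/-- row and column scaling keeps a kernel Hermitian -/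
theorem ims_herm_row (hy : Herm y) (o : α) (t : ℝ) :
    Herm (fun k i j => if i = o ∨ j = o then (t : ℂ) * y k i j else y k i j) := by
  intro k i j
  show (if j = o ∨ i = o then (t : ℂ) * y k j i else y k j i) =
    star (if i = o ∨ j = o then (t : ℂ) * y k i j else y k i j)
  by_cases h : i = o ∨ j = o
  · rw [if_pos h, if_pos h.symm, star_mul', hy k i j, RCLike.star_def, Complex.conj_ofReal]
  · rw [if_neg h, if_neg (fun h' => h h'.symm)]
    exact hy k i j

/-- the self energy of `o` does not see the level at `o` -/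
theorem ims_sg_update (ho : o ∉ W) (a : ℝ) : sg y s o (Function.update l o a) W = sg y s o l W :=
  sg_congr (fun _ _ => rfl)
    (fun _ hi => Function.update_of_ne (ne_of_mem_of_not_mem hi ho) _ _) ho

theorem ims_safe_update (hr : 0 < r) (hy : Herm y) (ho : o ∉ W) (h : Safe y s l W) {a : ℝ}
    (ha : sg y s o l W < a) : Safe y s (Function.update l o a) (insert o W) := by
  rw [safe_insert_iff hr hy ho, ims_sg_update ho, Function.update_self]
  exact ⟨h.congr (fun _ _ => rfl)
    (fun _ hi => (Function.update_of_ne (ne_of_mem_of_not_mem hi ho) _ _).symm), ha⟩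

/-- the self energy is sublinear in (kernel, levels) -/
theorem sg_add_le (hr : 0 < r) (hy₁ : Herm y₁) (hy₂ : Herm y₂) (ho : o ∉ W)
    (h₁ : Safe y₁ s l₁ W) (h₂ : Safe y₂ s l₂ W) :
    sg (fun k i j => y₁ k i j + y₂ k i j) s o (fun i => l₁ i + l₂ i) W ≤
      sg y₁ s o l₁ W + sg y₂ s o l₂ W := by
  refine le_of_forall_pos_le_add fun ε hε => ?_
  have hy : Herm (fun k i j => y₁ k i j + y₂ k i j) := by
    intro k i j
    show y₁ k j i + y₂ k j i = star (y₁ k i j + y₂ k i j)
    rw [star_add, hy₁ k i j, hy₂ k i j]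
  have e₁ := ims_safe_update hr hy₁ ho h₁ (a := sg y₁ s o l₁ W + ε / 2) (by (clear * - hε; linarith))
  have e₂ := ims_safe_update hr hy₂ ho h₂ (a := sg y₂ s o l₂ W + ε / 2) (by linarith only [hε])
  have h3 := ((safe_insert_iff hr hy ho).1 (safe_add hr hy₁ hy₂ e₁ e₂)).2
  rw [Function.update_self, Function.update_self] at h3
  have h4 : sg (fun k i j => y₁ k i j + y₂ k i j) s o
      (fun i => Function.update l₁ o (sg y₁ s o l₁ W + ε / 2) i +
        Function.update l₂ o (sg y₂ s o l₂ W + ε / 2) i) W =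
      sg (fun k i j => y₁ k i j + y₂ k i j) s o (fun i => l₁ i + l₂ i) W := by
    refine sg_congr (fun _ _ => rfl) (fun i hi => ?_) ho
    have hne : i ≠ o := fun h => ho (h ▸ hi)
    rw [Function.update_of_ne hne, Function.update_of_ne hne]
  rw [h4] at h3
  linarith only [h3]

/-- convexity in the levels -/
theorem sg_conv (hr : 0 < r) (hy : Herm y) (ho : o ∉ W) (h₁ : Safe y s l₁ W)
    (h₂ : Safe y s l₂ W) {t : ℝ} (ht0 : 0 ≤ t) (ht1 : t ≤ 1) :
    sg y s o (fun i => (1 - t) * l₁ i + t * l₂ i) W ≤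
      (1 - t) * sg y s o l₁ W + t * sg y s o l₂ W := by
  rcases ht0.eq_or_lt with rfl | ht0
  · simp
  rcases ht1.eq_or_lt with rfl | ht1
  · simp
  have h1t : 0 < 1 - t := sub_pos.2 ht1
  have h := sg_add_le hr (ims_herm_smul hy (1 - t)) (ims_herm_smul hy t) ho
    (ims_safe_smul h₁ h1t) (ims_safe_smul h₂ ht0)
  rw [sg_smul h1t ho, sg_smul ht0 ho] at h
  have e : (fun k i j => ((1 - t : ℝ) : ℂ) * y k i j + (t : ℂ) * y k i j) = y := by
    funext k i j
    push_cast
    ring
  rw [e] at h
  exact h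

/-- the self energy is controlled up to a fixed part of the distance to the boundary -/
theorem sg_scal (hr : 0 < r) (hy : Herm y) (hz : ZD y) (ho : o ∉ W) {g : α → ℝ}
    (h : Safe y s l W) (hg : Safe y s (fun i => l i - g i) W) {t : ℝ} (ht0 : 0 ≤ t) (ht1 : t < 1) :
    sg y s o (fun i => l i - t * g i) W ≤ sg y s o l W / (1 - t) := by
  rcases ht0.eq_or_lt with rfl | ht0
  · simp
  have h1t : 0 < 1 - t := sub_pos.2 ht1
  have hB : Safe (fun k i j => if i = o ∨ j = o then ((0 : ℝ) : ℂ) * y k i j else y k i j) s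
      (fun i => l i - g i) W := by
    intro U hU
    have e : q (fun k i j => if i = o ∨ j = o then ((0 : ℝ) : ℂ) * y k i j else y k i j) s
        (fun i => l i - g i) U = q y s (fun i => l i - g i) U := by
      refine q_congr_y fun k i hi j hj => ?_
      have h1 : i ≠ o := fun h => ho (h ▸ hU hi)
      have h2 : j ≠ o := fun h => ho (h ▸ hU hj)
      rw [if_neg (not_or.2 ⟨h1, h2⟩)]
    rw [e]
    exact hg U hU
  have h3 := sg_add_le hr (ims_herm_smul hy (1 - t)) (ims_herm_smul (ims_herm_row hy o 0) t) ho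
    (ims_safe_smul h h1t) (ims_safe_smul hB ht0)
  rw [sg_smul h1t ho, sg_smul ht0 ho, sg_row hr hz ho] at h3
  have e1 : (fun k i j => ((1 - t : ℝ) : ℂ) * y k i j +
      (t : ℂ) * (if i = o ∨ j = o then ((0 : ℝ) : ℂ) * y k i j else y k i j)) =
      fun k i j => if i = o ∨ j = o then ((1 - t : ℝ) : ℂ) * y k i j else y k i j := by
    funext k i j
    split_ifs
    · push_cast
      ring
    · push_cast
      ring
  have e2 : (fun i => (1 - t) * l i + t * (l i - g i)) = fun i => l i - t * g i := by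
    funext i
    ring
  rw [e1, e2, sg_row hr hz ho] at h3
  rw [le_div_iff₀ h1t]
  have h4 : (1 - t) * (sg y s o (fun i => l i - t * g i) W * (1 - t)) ≤
      (1 - t) * sg y s o l W := by
    linarith only [h3]
  exact le_of_mul_le_mul_left h4 h1t

end Vale.Agent.P078.TX
end

section
/-! T3-A7: IMS localization with two cutoffs. -/

namespace Vale.Agent.P078.TX

open Finset Polynomial
open Vale.Agent.P078.C (qf yc)

variable {α : Type*} [DecidableEq α] {r ν : ℕ}
variable {y y₁ y₂ : Ker ν α} {s : α → Option (Fin r)} {l l₁ l₂ : α → ℝ} {W N : Finset α} {o : α}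

/-- the kernel cut off by `χ` -/
private noncomputable def cutk (y : Ker ν α) (χ : α → ℝ) : Ker ν α :=
  fun k i j => (χ i : ℂ) * y k i j * (χ j : ℂ)

omit [DecidableEq α] in
private theorem herm_cutk (hy : Herm y) (χ : α → ℝ) : Herm (cutk y χ) := by
  intro k i j
  simp only [cutk, hy k i j, star_mul', Complex.star_def, Complex.conj_ofReal]
  ring

omit [DecidableEq α] in
private theorem zd_cutk (hz : ZD y) (χ : α → ℝ) : ZD (cutk y χ) := by
  intro k i
  simp [cutk, hz k i]

/-- self energies depend on the kernel on `insert o W` only -/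
private theorem sg_congr_y {y' : Ker ν α}
    (h : ∀ k, ∀ i ∈ insert o W, ∀ j ∈ insert o W, y k i j = y' k i j) :
    sg y s o l W = sg y' s o l W := by
  unfold sg
  rw [q_congr_y h, q_congr_y (fun k i hi j hj => h k i (Finset.mem_insert_of_mem hi) j
    (Finset.mem_insert_of_mem hj))]

/-- self energies vanish if the row of `o` vanishes -/
private theorem sg_zero_row (hr : 0 < r) (hz : ZD y) (ho : o ∉ W)
    (h1 : ∀ k, ∀ j ∈ W, y k o j = 0) (h2 : ∀ k, ∀ i ∈ W, y k i o = 0) : sg y s o l W = 0 := by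
  have h := sg_row (y := y) (s := s) (l := l) hr hz ho 0
  rw [← sg_congr_y (y := y)] at h
  · rw [h]; ring
  · intro k i hi j hj
    rw [Finset.mem_insert] at hi hj
    split_ifs with hc
    · rcases hi with rfl | hi
      · rcases hj with rfl | hj
        · simp [hz k _]
        · simp [h1 k j hj]
      · rcases hj with rfl | hj
        · simp [h2 k i hi]
        · exfalso
          rcases hc with rfl | rfl
          · exact ho hi
          · exact ho hj
    · rfl

/-- safety of the cut off kernel on the support -/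
private theorem safe_cut_supp {χ : α → ℝ} {V : Finset α} (hV : V ⊆ N) (hχ : ∀ v ∈ V, χ v ≠ 0)
    (h : Safe y s l₁ N) : Safe (cutk y χ) s (fun i => χ i ^ 2 * l₁ i) V := by
  intro U hU
  unfold cutk
  rw [q_scale]
  exact mul_pos (Finset.prod_pos fun i hi => by have := hχ i (hU hi); positivity)
    (h U (hU.trans hV))

/-- safety of the cut off kernel off the support -/
private theorem safe_cut_off (hr : 0 < r) (hy : Herm y) {χ : α → ℝ} {V : Finset α}
    (hχ : ∀ v ∈ V, χ v = 0) {η : ℝ} (hη : 0 < η) :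
    Safe (cutk y χ) s (fun i => χ i ^ 2 * l₁ i + η) V := by
  apply safe_of_dom hr (herm_cutk hy χ)
  intro k v hv
  have : ∑ w ∈ V, ‖cutk y χ k v w‖ = 0 := by
    apply Finset.sum_eq_zero
    intro w _
    simp [cutk, hχ v hv]
  rw [this, hχ v hv]
  simpa only [ne_eq, OfNat.ofNat_ne_zero, not_false_eq_true, zero_pow, zero_mul, zero_add, gt_iff_lt] using hη

/-- safety of the cut off kernel -/
private theorem safe_cut (hr : 0 < r) (hy : Herm y) {χ : α → ℝ}
    (hN : ∀ v ∈ W, χ v ≠ 0 → v ∈ N) {η : ℝ} (hη : 0 < η) (h : Safe y s l₁ N) :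
    Safe (cutk y χ) s (fun i => χ i ^ 2 * l₁ i + η) W := by
  classical
  intro U hU
  have hd : U = U.filter (fun v => χ v ≠ 0) ∪ U.filter (fun v => ¬ χ v ≠ 0) :=
    (Finset.filter_union_filter_not_eq _ _).symm
  rw [hd, q_union hr (herm_cutk hy χ) (Finset.disjoint_filter_filter_not _ _ _)]
  · apply mul_pos
    · refine Safe.mono hr (herm_cutk hy χ) (safe_cut_supp (N := N) ?_ ?_ h) ?_ _ (Finset.Subset.refl _)
      · intro v hv
        rw [Finset.mem_filter] at hv
        exact hN v (hU hv.1) hv.2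
      · intro v hv
        exact (Finset.mem_filter.1 hv).2
      · intro i _
        linarith only [hη]
    · refine safe_cut_off hr hy (V := U.filter (fun v => ¬ χ v ≠ 0)) ?_ hη _ (Finset.Subset.refl _)
      intro v hv
      exact not_not.1 (Finset.mem_filter.1 hv).2
  · intro k i _ j hj
    have := not_not.1 (Finset.mem_filter.1 hj).2
    simp [cutk, this]

/-- the self energy of the cut off kernel -/
private theorem sg_cut_le (hr : 0 < r) (hy : Herm y) (ho : o ∉ W) (hNW : N ⊆ W) {χ : α → ℝ}
    (hN : ∀ v ∈ W, χ v ≠ 0 → v ∈ N) (ho1 : χ o = 1) {η : ℝ} (hη : 0 < η) (h : Safe y s l₁ N) :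
    sg (cutk y χ) s o (fun i => χ i ^ 2 * l₁ i + η) W ≤ sg y s o l₁ N := by
  classical
  set A : Finset α := W.filter (fun v => χ v ≠ 0) with hA
  set B : Finset α := W.filter (fun v => ¬ χ v ≠ 0) with hB
  have hAW : A ⊆ W := Finset.filter_subset _ _
  have hAN : A ⊆ N := fun v hv => hN v (hAW hv) (Finset.mem_filter.1 hv).2
  have hAχ : ∀ v ∈ A, χ v ≠ 0 := fun v hv => (Finset.mem_filter.1 hv).2
  have hBχ : ∀ v ∈ B, χ v = 0 := fun v hv => not_not.1 (Finset.mem_filter.1 hv).2
  have hWd : W = A ∪ B := (Finset.filter_union_filter_not_eq _ _).symm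
  have hdis : Disjoint A B := Finset.disjoint_filter_filter_not _ _ _
  have hoA : o ∉ A := fun hh => ho (hAW hh)
  have hoB : o ∉ B := fun hh => ho (Finset.filter_subset _ _ hh)
  have hoN : o ∉ N := fun hh => ho (hNW hh)
  have hBpos : 0 < q (cutk y χ) s (fun i => χ i ^ 2 * l₁ i + η) B :=
    safe_cut_off hr hy hBχ hη _ (Finset.Subset.refl _)
  have hSA : Safe (cutk y χ) s (fun i => χ i ^ 2 * l₁ i) A := safe_cut_supp hAN hAχ h
  -- reduction to `A`
  have h1 : sg (cutk y χ) s o (fun i => χ i ^ 2 * l₁ i + η) W =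
      sg (cutk y χ) s o (fun i => χ i ^ 2 * l₁ i + η) A := by
    unfold sg
    have e1 : q (cutk y χ) s (Function.update (fun i => χ i ^ 2 * l₁ i + η) o 0) (insert o W) =
        q (cutk y χ) s (Function.update (fun i => χ i ^ 2 * l₁ i + η) o 0) (insert o A) *
          q (cutk y χ) s (fun i => χ i ^ 2 * l₁ i + η) B := by
      have e2 : insert o W = insert o A ∪ B := by
        rw [Finset.insert_union, ← hWd]
      rw [e2, q_union hr (herm_cutk hy χ)]
      · congr 1
        apply q_congr (fun _ _ => rfl)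
        intro i hi
        rw [Function.update_of_ne]
        rintro rfl
        exact hoB hi
      · rw [Finset.disjoint_insert_left]
        exact ⟨hoB, hdis⟩
      · intro k i _ j hj
        simp [cutk, hBχ j hj]
    have e3 : q (cutk y χ) s (fun i => χ i ^ 2 * l₁ i + η) W =
        q (cutk y χ) s (fun i => χ i ^ 2 * l₁ i + η) A *
          q (cutk y χ) s (fun i => χ i ^ 2 * l₁ i + η) B := by
      conv_lhs => rw [hWd]
      rw [q_union hr (herm_cutk hy χ) hdis]
      intro k i _ j hj
      simp [cutk, hBχ j hj]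
    rw [e1, e3, ← neg_mul, mul_div_mul_right _ _ hBpos.ne']
  have h2 : sg (cutk y χ) s o (fun i => χ i ^ 2 * l₁ i + η) A ≤
      sg (cutk y χ) s o (fun i => χ i ^ 2 * l₁ i) A := by
    apply sg_anti hr (herm_cutk hy χ) hoA hSA
    intro i _
    linarith only [hη]
  have h3 : sg (cutk y χ) s o (fun i => χ i ^ 2 * l₁ i) A = sg y s o l₁ A := by
    unfold sg
    have e1 : Function.update (fun i => χ i ^ 2 * l₁ i) o 0 =
        fun i => χ i ^ 2 * (Function.update l₁ o 0) i := by
      funext i
      by_cases hi : i = o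
      · subst hi; simp
      · simp [Function.update_of_ne hi]
    rw [e1]
    unfold cutk
    rw [q_scale, q_scale, Finset.prod_insert hoA, ho1]
    have hp : (∏ i ∈ A, χ i ^ 2) ≠ 0 := by
      apply Finset.prod_ne_zero_iff.2
      intro i hi
      exact pow_ne_zero 2 (hAχ i hi)
    rw [one_pow, one_mul, ← mul_neg, mul_div_mul_left _ _ hp]
  calc _ = _ := h1
    _ ≤ _ := h2
    _ = _ := h3
    _ ≤ _ := sg_mono_set hr hy hAN hoN h

/-- IMS localization with two cutoffs -/
theorem ims (hr : 0 < r) (hy : Herm y) (hz : ZD y) (ho : o ∉ W) (hNW : N ⊆ W) {χ₁ χ₂ : α → ℝ}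
    (hχ : ∀ v, χ₁ v ^ 2 + χ₂ v ^ 2 = 1) (hN : ∀ v ∈ W, χ₁ v ≠ 0 → v ∈ N) (ho1 : χ₁ o = 1)
    (hnb : ∀ k, ∀ v ∈ W, y k o v ≠ 0 → χ₁ v = 1) {e : α → ℝ}
    (he : ∀ k, ∀ v ∈ W, 1 / 2 * ∑ w ∈ W, ‖y k v w‖ * ((χ₁ v - χ₁ w) ^ 2 + (χ₂ v - χ₂ w) ^ 2) ≤ e v)
    {η : ℝ} (hη : 0 < η) (hl : ∀ v ∈ W, χ₁ v ^ 2 * l₁ v + χ₂ v ^ 2 * l₂ v + e v + η ≤ l v)
    (h₁ : Safe y s l₁ N) (h₂ : Safe y s l₂ W) :
    Safe y s l W ∧ sg y s o l W ≤ sg y s o l₁ N := by
  have hη3 : 0 < η / 3 := by (clear * - hη; positivity)
  -- the remainder kernel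
  set E : Ker ν α := fun k i j =>
    y k i j * ((1 - χ₁ i * χ₁ j - χ₂ i * χ₂ j : ℝ) : ℂ) with hE
  have hEH : Herm E := by
    intro k i j
    simp only [hE, hy k i j, star_mul', Complex.star_def, Complex.conj_ofReal]
    congr 2
    ring
  have hEZ : ZD E := by
    intro k i
    simp only [hE, Complex.ofReal_sub, Complex.ofReal_one, Complex.ofReal_mul, hz k i, zero_mul]
  have hEn : ∀ k v w, ‖E k v w‖ = 1 / 2 * (‖y k v w‖ * ((χ₁ v - χ₁ w) ^ 2 + (χ₂ v - χ₂ w) ^ 2)) := by
    intro k v w
    have hid : 1 - χ₁ v * χ₁ w - χ₂ v * χ₂ w =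
        1 / 2 * ((χ₁ v - χ₁ w) ^ 2 + (χ₂ v - χ₂ w) ^ 2) := by
      nlinarith only [hχ v, hχ w]
    simp only [hE]
    rw [norm_mul, Complex.norm_real, hid, Real.norm_of_nonneg (by (clear * -; positivity))]
    ring
  have hES : Safe E s (fun i => e i + η / 3) W := by
    apply safe_of_dom hr hEH
    intro k v hv
    have := he k v hv
    simp_rw [hEn]
    rw [← Finset.mul_sum]
    linarith only [this, hη]
  have hS1 : Safe (cutk y χ₁) s (fun i => χ₁ i ^ 2 * l₁ i + η / 3) W := safe_cut hr hy hN hη3 h₁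
  have hS2 : Safe (cutk y χ₂) s (fun i => χ₂ i ^ 2 * l₂ i + η / 3) W :=
    safe_cut hr hy (fun v hv _ => hv) hη3 h₂
  have hH1 := herm_cutk hy χ₁
  have hH2 := herm_cutk hy χ₂
  have hS12 := safe_add hr hH1 hH2 hS1 hS2
  have hH12 : Herm (fun k i j => cutk y χ₁ k i j + cutk y χ₂ k i j) := by
    intro k i j
    simp only [hH1 k i j, hH2 k i j, star_add]
  have hS := safe_add hr hH12 hEH hS12 hES
  have hker : (fun k i j => cutk y χ₁ k i j + cutk y χ₂ k i j + E k i j) = y := by
    funext k i j
    simp only [cutk, hE]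
    push_cast
    ring
  have hsum := sg_add_le hr hH12 hEH ho hS12 hES
  rw [hker] at hS hsum
  have hlev : ∀ i ∈ W, χ₁ i ^ 2 * l₁ i + η / 3 + (χ₂ i ^ 2 * l₂ i + η / 3) + (e i + η / 3) ≤ l i := by
    intro i hi
    have := hl i hi
    linarith only [this]
  refine ⟨Safe.mono hr hy hS hlev, ?_⟩
  have hχ2o : χ₂ o = 0 := by
    have := hχ o
    rw [ho1] at this
    have h0 : χ₂ o ^ 2 = 0 := by linarith only [this]
    exact pow_eq_zero_iff (two_ne_zero) |>.1 h0
  have hz2 : sg (cutk y χ₂) s o (fun i => χ₂ i ^ 2 * l₂ i + η / 3) W = 0 := by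
    apply sg_zero_row hr (zd_cutk hz χ₂) ho
    · intro k j _
      simp [cutk, hχ2o]
    · intro k j _
      simp [cutk, hχ2o]
  have hEo : ∀ k, ∀ j ∈ W, E k o j = 0 := by
    intro k j hj
    by_cases h0 : y k o j = 0
    · simp [hE, h0]
    · simp [hE, ho1, hχ2o, hnb k j hj h0]
  have hzE : sg E s o (fun i => e i + η / 3) W = 0 := by
    apply sg_zero_row hr hEZ ho hEo
    intro k i hi
    rw [hEH k o i, hEo k i hi, star_zero]
  have hs12 := sg_add_le hr hH1 hH2 ho hS1 hS2
  have hc := sg_cut_le hr hy ho hNW hN ho1 hη3 h₁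
  have ha := sg_anti hr hy ho hS hlev
  (clear * - hsum hz2 hzE hs12 hc ha; linarith)

end Vale.Agent.P078.TX
end
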