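import Vale.Agent.P078.H291.X1

set_option linter.all false

/-!
P078, joint order: from the system with random kernels to the single kernels.
-/

namespace Vale.Agent.P078.TX

open Finset Polynomial
open Vale.Agent.P078.C (qf yc)

variable {α : Type*} [DecidableEq α] {r ν : ℕ}
variable {y : Ker ν α} {s : α → Option (Fin r)} {l : α → ℝ} {W : Finset α}

/-- the family in which the kernels other than `b` do not see the points of `S` -/
private noncomputable def killS (y : Ker ν α) (b : Fin (ν + 1)) (S : Finset α) : Ker ν α :=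
  fun k i j => if k ≠ b ∧ (i ∈ S ∨ j ∈ S) then 0 else y k i j

private theorem herm_killS (hy : Herm y) (b : Fin (ν + 1)) (S : Finset α) :
    Herm (killS y b S) := by
  intro k i j
  unfold killS
  by_cases h : k ≠ b ∧ (i ∈ S ∨ j ∈ S)
  · rw [if_pos h, if_pos ⟨h.1, h.2.symm⟩, star_zero]
  · rw [if_neg h, if_neg fun h' => h ⟨h'.1, h'.2.symm⟩]
    exact hy k i j

private theorem q_gauge {y' : Ker ν α} (u : Fin (ν + 1) → α → ℂ)
    (hu : ∀ k, ∀ i ∈ W, ‖u k i‖ = 1)
    (h : ∀ k, ∀ i ∈ W, ∀ j ∈ W, y' k i j = star (u k i) * y k i j * u k j) :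
    q y' s l W = q y s l W := by
  unfold q
  rw [Q_gauge u hu h]

/-- killing the other kernels keeps the system safe -/
private theorem safe_killS (hr : 0 < r) (hy : Herm y) (hz : ZD y) (b : Fin (ν + 1))
    (h : Safe y s l W) (S : Finset α) : Safe (killS y b S) s l W := by
  induction S using Finset.induction_on with
  | empty =>
    have e : killS y b ∅ = y := by
      funext k i j
      unfold killS
      simp
    rw [e]
    exact h
  | insert o S ho ih =>
    -- the gauge transform
    obtain ⟨u, hu⟩ : ∃ u : Fin (ν + 1) → α → ℂ,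
        ∀ k i, u k i = if k ≠ b ∧ i = o then -1 else 1 := ⟨_, fun _ _ => rfl⟩
    have hun : ∀ k i, ‖u k i‖ = 1 := by
      intro k i
      rw [hu]
      split_ifs <;> simp
    set y₁ : Ker ν α := killS y b S with hy₁
    set y₂ : Ker ν α := fun k i j => star (u k i) * y₁ k i j * u k j with hy₂
    have h₁ : Herm y₁ := herm_killS hy b S
    have h₂ : Herm y₂ := by
      intro k i j
      show star (u k j) * y₁ k j i * u k i = star (star (u k i) * y₁ k i j * u k j)
      rw [h₁ k i j, star_mul', star_mul', star_star]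
      ring
    have hs₂ : Safe y₂ s l W := by
      intro U hU
      rw [q_gauge (y := y₁) u (fun k i _ => hun k i) (fun k i _ j _ => rfl)]
      exact ih U hU
    have hadd := safe_add hr h₁ h₂ ih hs₂
    have hhalf := ims_safe_smul hadd (t := 1 / 2) (by norm_num)
    have e1 : (fun k i j => (((1 / 2 : ℝ)) : ℂ) * (y₁ k i j + y₂ k i j)) =
        killS y b (insert o S) := by
      funext k i j
      have hzk : y k o o = 0 := hz k o
      simp only [hy₂, hy₁, killS, hu]
      by_cases hk : k = b
      · simp only [hk, ne_eq, not_true, false_and, if_false, star_one]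
        push_cast
        ring
      · by_cases hi : i = o
        · by_cases hj : j = o
          · subst hi
            subst hj
            simp [hk, ho, hzk]
          · subst hi
            simp [hk, hj]
            split_ifs <;> ring
        · by_cases hj : j = o
          · subst hj
            simp [hk, hi]
          · have e2 : (k ≠ b ∧ (i ∈ insert o S ∨ j ∈ insert o S)) ↔
                (k ≠ b ∧ (i ∈ S ∨ j ∈ S)) := by
              rw [Finset.mem_insert, Finset.mem_insert]
              (clear * - hi hj; tauto)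
            simp only [e2, hk, hi, hj, and_false, if_false, star_one]
            push_cast
            ring
    have e2 : (fun i => 1 / 2 * (l i + l i)) = l := by
      funext i
      ring
    rw [e1, e2] at hhalf
    exact hhalf

/-- the family with one kernel -/
private noncomputable def only (y : Ker ν α) (b : Fin (ν + 1)) : Ker ν α :=
  fun k i j => if k = b then y b i j else 0

private theorem safe_only (hr : 0 < r) (hy : Herm y) (hz : ZD y) (b : Fin (ν + 1))
    (h : Safe y s l W) : Safe (only y b) s l W := by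
  have h1 := safe_killS hr hy hz b h W
  intro U hU
  rw [q_congr_y (y' := killS y b W)]
  · exact h1 U hU
  · intro k i hi j _
    unfold only killS
    by_cases hk : k = b
    · subst hk
      simp
    · rw [if_neg hk, if_pos ⟨hk, Or.inl (hU hi)⟩]

/-- the expected determinant at zero -/
private theorem Q_only_zero (hr : 0 < r) (y : Ker ν α) (b : Fin (ν + 1)) (s : α → Option (Fin r))
    (W : Finset α) : Q (only y b) s 0 W = (((ν + 1 : ℕ) : ℂ) ^ W.card)⁻¹ * C.Q (y b) s 0 W := by
  rw [Q_def]
  unfold C.Q
  have hsum : ∑ c : W → Fin r, Matrix.det (Matrix.of fun i j : W =>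
        (if i = j then (0 : α → ℂ) i else 0) -
          if (s i).getD (c i) = (s j).getD (c j) then y b i j else 0) =
      ∑ c : W → Fin (ν + 1) × Fin r, Matrix.det (Matrix.of fun i j : W =>
        (if i = j then (0 : α → ℂ) i else 0) -
          if slx ν s i (c i) = slx ν s j (c j) then only y b (c i).1 i j else 0) := by
    refine Fintype.sum_of_injective (fun (c : W → Fin r) (i : W) => (b, c i)) ?_ _ _ ?_ ?_
    · intro c c' h
      funext i
      exact congrArg Prod.snd (congrFun h i)
    · intro c hc
      have hex : ∃ i : W, (c i).1 ≠ b := by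
        by_contra hcon
        push Not at hcon
        exact hc ⟨fun i => (c i).2, funext fun i => Prod.ext (hcon i).symm rfl⟩
      obtain ⟨i, hi⟩ := hex
      refine Matrix.det_eq_zero_of_row_eq_zero i fun j => ?_
      rw [Matrix.of_apply]
      have e1 : only y b (c i).1 i j = 0 := by
        unfold only
        rw [if_neg hi]
      rw [e1]
      simp
    · intro c
      congr 1
      ext i j
      rw [Matrix.of_apply, Matrix.of_apply]
      have e1 : only y b (b, c i).1 i j = y b i j := by
        unfold only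
        rw [if_pos rfl]
      rw [e1]
      have e2 : (slx ν s i (b, c i) = slx ν s j (b, c j)) ↔
          (s i).getD (c i) = (s j).getD (c j) := by
        unfold slx
        constructor
        · intro h
          exact congrArg Prod.snd h
        · intro h
          exact Prod.ext rfl h
      simp only [e2]
  rw [hsum, Fintype.card_prod, Fintype.card_fin, Fintype.card_fin, ← mul_assoc]
  congr 1
  have h1 : (r : ℂ) ≠ 0 := by exact_mod_cast hr.ne'
  have h2 : ((ν + 1 : ℕ) : ℂ) ≠ 0 := by exact_mod_cast (Nat.succ_ne_zero ν)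
  rw [Nat.cast_mul, mul_pow]
  field_simp

private theorem q_only (hr : 0 < r) (hy : Herm y) (b : Fin (ν + 1)) :
    T.q (y b) s (fun i => ((ν + 1 : ℕ) : ℝ) * l i) W =
      ((ν + 1 : ℕ) : ℝ) ^ W.card * q (only y b) s l W := by
  have hK : ((ν + 1 : ℕ) : ℂ) ≠ 0 := by exact_mod_cast (Nat.succ_ne_zero ν)
  have key : C.Q (y b) s (fun i => (((((ν + 1 : ℕ) : ℝ) * l i : ℝ)) : ℂ)) W =
      ((ν + 1 : ℕ) : ℂ) ^ W.card * Q (only y b) s (fun i => (l i : ℂ)) W := by
    rw [C.Q_expand hr, Q_expand hr, Finset.mul_sum]
    refine Finset.sum_congr rfl fun S hS => ?_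
    rw [Q_only_zero hr]
    have hSW := Finset.mem_powerset.1 hS
    have h1 : (∏ i ∈ W \ S, (((((ν + 1 : ℕ) : ℝ) * l i : ℝ)) : ℂ)) =
        ((ν + 1 : ℕ) : ℂ) ^ (W \ S).card * ∏ i ∈ W \ S, (l i : ℂ) := by
      rw [← Finset.prod_const, ← Finset.prod_mul_distrib]
      refine Finset.prod_congr rfl fun i _ => ?_
      push_cast
      ring
    have h2 : ((ν + 1 : ℕ) : ℂ) ^ W.card =
        ((ν + 1 : ℕ) : ℂ) ^ (W \ S).card * ((ν + 1 : ℕ) : ℂ) ^ S.card := by
      rw [← pow_add, Finset.card_sdiff_add_card_eq_card hSW]
    rw [h1, h2]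
    have h3 : ((ν + 1 : ℕ) : ℂ) ^ S.card ≠ 0 := pow_ne_zero _ hK
    field_simp
  unfold T.q q
  rw [key]
  have h4 : ((ν + 1 : ℕ) : ℂ) ^ W.card = ((((ν + 1 : ℕ) : ℝ) ^ W.card : ℝ) : ℂ) := by
    push_cast
    rfl
  rw [h4, Complex.re_ofReal_mul]

/-- each kernel is safe at `ν + 1` times the levels -/
theorem safe_single (hr : 0 < r) (hy : Herm y) (hz : ZD y) (h : Safe y s l W)
    (b : Fin (ν + 1)) : T.Safe (y b) s (fun i => ((ν + 1 : ℕ) : ℝ) * l i) W := by
  have h1 := safe_only hr hy hz b h
  intro U hU
  rw [q_only hr hy b]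
  exact mul_pos (by positivity) (h1 U hU)

/-- all points decided: form bound -/
theorem form_le_of_safe (hr : 0 < r) (hy : Herm y) (hz : ZD y) (h : Safe y s l W) (c : α → Fin r)
    (hc : ∀ v ∈ W, s v = some (c v)) (b : Fin (ν + 1)) (v : α → ℂ) :
    qf (yc (y b) c) W v ≤ ∑ i ∈ W, ((ν + 1 : ℕ) : ℝ) * l i * ‖v i‖ ^ 2 :=
  T.form_le_of_safe hr (hy b) (safe_single hr hy hz h b) c hc v

end Vale.Agent.P078.TX
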