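import Vale.Agent.P078.H291.X1

set_option linter.all false

section
/-! T3-B1: decay of the influence of far away levels. -/

namespace Vale.Agent.P078.TX

open Finset Polynomial
open Vale.Agent.P078.C (qf yc)

variable {α : Type*} [DecidableEq α] {r ν : ℕ}
variable {y : Ker ν α} {s : α → Option (Fin r)} {l m : α → ℝ} {W : Finset α} {o : α}

private theorem dk_low {m : α → ℝ} (W : Finset α) (hm : ∀ v ∈ W, 0 < m v) :
    ∃ η : ℝ, 0 < η ∧ ∀ v ∈ W, η ≤ m v := by
  rcases W.eq_empty_or_nonempty with h | h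
  · exact ⟨1, one_pos, by simp only [h, notMem_empty, IsEmpty.forall_iff, implies_true]⟩
  · exact ⟨W.inf' h m, (Finset.lt_inf'_iff h).2 hm, fun v hv => Finset.inf'_le m hv⟩

private theorem dk_cos (x z : ℝ) :
    (Real.cos x - Real.cos z) ^ 2 + (Real.sin x - Real.sin z) ^ 2 ≤ (x - z) ^ 2 := by
  have h1 := Real.one_sub_sq_div_two_le_cos (x := x - z)
  have h2 : (Real.cos x - Real.cos z) ^ 2 + (Real.sin x - Real.sin z) ^ 2 =
      2 - 2 * Real.cos (x - z) := by
    rw [Real.cos_sub]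
    have h3 := Real.sin_sq_add_cos_sq x
    have h4 := Real.sin_sq_add_cos_sq z
    linarith
  linarith only [h2, h1]

private theorem dk_e {y : α → α → ℂ} {D c : ℝ} {v : α} {θ : α → ℝ}
    (hrow : ∑ w ∈ W, ‖y v w‖ ≤ D) (hc : 0 ≤ c)
    (h : ∀ w ∈ W, y v w ≠ 0 → (θ v - θ w) ^ 2 ≤ c) :
    1 / 2 * ∑ w ∈ W, ‖y v w‖ * (θ v - θ w) ^ 2 ≤ 1 / 2 * (D * c) := by
  have h1 : ∑ w ∈ W, ‖y v w‖ * (θ v - θ w) ^ 2 ≤ ∑ w ∈ W, ‖y v w‖ * c := by
    refine Finset.sum_le_sum fun w hw => ?_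
    by_cases h0 : y v w = 0
    · simp [h0]
    · exact mul_le_mul_of_nonneg_left (h w hw h0) (norm_nonneg _)
  rw [← Finset.sum_mul] at h1
  have h2 := mul_le_mul_of_nonneg_right hrow hc
  linarith only [h1, h2]

/-- the angle of the cutoff -/
private noncomputable def dk_T (t a : ℝ) (k : ℕ) : ℝ :=
  if k ≤ 1 then 0 else min (Real.pi / 2) (t * (1 + a) ^ k)

private theorem dk_T0 {t a : ℝ} {k : ℕ} (h : k ≤ 1) : dk_T t a k = 0 := if_pos h

private theorem dk_Tmid {t a : ℝ} (ht : 0 ≤ t) (ha : 0 ≤ a) {R k : ℕ}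
    (hR : t * (1 + a) ^ R = Real.pi / 2) (h2 : 2 ≤ k) (hk : k ≤ R) :
    dk_T t a k = t * (1 + a) ^ k := by
  unfold dk_T
  rw [if_neg (by omega)]
  refine min_eq_right ?_
  rw [← hR]
  exact mul_le_mul_of_nonneg_left (pow_le_pow_right₀ (by linarith only [ha]) hk) ht

private theorem dk_Tbig {t a : ℝ} (ht : 0 ≤ t) (ha : 0 ≤ a) {R k : ℕ} (hR2 : 2 ≤ R)
    (hR : t * (1 + a) ^ R = Real.pi / 2) (hk : R ≤ k) : dk_T t a k = Real.pi / 2 := by
  unfold dk_T
  rw [if_neg (by omega)]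
  refine min_eq_left ?_
  rw [← hR]
  exact mul_le_mul_of_nonneg_left (pow_le_pow_right₀ (by linarith only [ha]) hk) ht

private theorem dk_far {D t a ε mv η : ℝ} {R k : ℕ} {e : ℝ} (ht : 0 < t)
    (ha0 : 0 < a) (hR : 8 ≤ R) (hRt : t * (1 + a) ^ R = Real.pi / 2) (hη2 : η ≤ 1 / 2 * mv)
    (hkR : R < k)
    (he : ∀ c : ℝ, 0 ≤ c → (∀ j : ℕ, j ≤ k + 1 → k ≤ j + 1 → (dk_T t a k - dk_T t a j) ^ 2 ≤ c) →
      e ≤ 1 / 2 * (D * c)) :
    e + η + (if R ≤ k then mv / 2 else 0) ≤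
      Real.cos (dk_T t a k) ^ 2 * ε + Real.sin (dk_T t a k) ^ 2 * mv := by
  have h1 : dk_T t a k = Real.pi / 2 := dk_Tbig ht.le ha0.le (by omega) hRt (by omega)
  have h2 := he 0 le_rfl fun j hj hj' => by
    rw [h1, dk_Tbig ht.le ha0.le (by omega) hRt (show R ≤ j by omega)]
    simp
  rw [h1, Real.cos_pi_div_two, Real.sin_pi_div_two, if_pos hkR.le]
  linarith only [hη2, h2]

private theorem dk_at {D t a m₁ ε mv η : ℝ} {R k : ℕ} {e : ℝ} (ht : 0 < t)
    (ha0 : 0 < a) (ha : D * a ^ 2 ≤ 3 / 10 * m₁) (hm₁0 : 0 < m₁) (ht1 : t ≤ 1 / 10)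
    (hpp : Real.pi ^ 2 < 9.93)
    (hR : 8 ≤ R) (hRt : t * (1 + a) ^ R = Real.pi / 2) (hmm : m₁ ≤ mv)
    (hη1 : η ≤ 1 / 4 * t ^ 2 * m₁) (hkR : k = R)
    (he : ∀ c : ℝ, 0 ≤ c → (∀ j : ℕ, j ≤ k + 1 → k ≤ j + 1 → (dk_T t a k - dk_T t a j) ^ 2 ≤ c) →
      e ≤ 1 / 2 * (D * c)) :
    e + η + (if R ≤ k then mv / 2 else 0) ≤
      Real.cos (dk_T t a k) ^ 2 * ε + Real.sin (dk_T t a k) ^ 2 * mv := by
  have h1 : dk_T t a k = Real.pi / 2 := dk_Tbig ht.le ha0.le (by omega) hRt (by omega)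
  have h2 := he ((a * (Real.pi / 2)) ^ 2) (by positivity) fun j hj hj' => by
    rcases lt_or_ge j R with hjR | hjR
    · obtain ⟨τ, hτ⟩ : ∃ τ : ℝ, τ = t * (1 + a) ^ j := ⟨_, rfl⟩
      have hjj : j + 1 = R := by omega
      have h4 : 0 < τ := by rw [hτ]; positivity
      rw [h1, dk_Tmid ht.le ha0.le hRt (by omega) (by omega), ← hτ]
      have h3 : τ * (1 + a) = Real.pi / 2 := by
        rw [← hRt, ← hjj, pow_succ, hτ]; ring
      have h3' : τ * (1 + a) = τ + a * τ := by ring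
      have h4' : 0 ≤ a * τ := by (clear * - ha0 h4; positivity)
      have h5 : Real.pi / 2 - τ = a * τ := by rw [← h3, h3']; ring
      rw [h5]
      have h6 : τ ≤ Real.pi / 2 := by rw [← h3, h3']; linarith only [h4']
      exact pow_le_pow_left₀ h4' (mul_le_mul_of_nonneg_left h6 ha0.le) 2
    · rw [h1, dk_Tbig ht.le ha0.le (by (clear * - hR hkR; omega)) hRt hjR, sub_self, zero_pow two_ne_zero]
      (clear * - ha0; positivity)
  have h7 : 1 / 2 * (D * (a * (Real.pi / 2)) ^ 2) = 1 / 8 * Real.pi ^ 2 * (D * a ^ 2) := by ring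
  have h8 : 1 / 8 * Real.pi ^ 2 * (D * a ^ 2) ≤ 1 / 8 * Real.pi ^ 2 * (3 / 10 * m₁) :=
    mul_le_mul_of_nonneg_left ha (by positivity)
  have h9 : 1 / 8 * Real.pi ^ 2 * (3 / 10 * m₁) ≤ 2 / 5 * m₁ := by
    have := mul_le_mul_of_nonneg_right hpp.le hm₁0.le
    linarith only [this, hm₁0]
  have h10 : η ≤ 1 / 10 * m₁ := by
    refine hη1.trans ?_
    have h0 : t ^ 2 ≤ 1 / 100 := by
      have := pow_le_pow_left₀ ht.le ht1 2
      norm_num at this ⊢
      exact this
    have h0' := mul_le_mul_of_nonneg_right h0 hm₁0.le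
    linarith only [h0', hm₁0]
  rw [h1, Real.cos_pi_div_two, Real.sin_pi_div_two, if_pos hkR.ge]
  rw [h7] at h2
  linarith only [hmm, h2, h8, h9, h10]

private theorem dk_mid {D t a m₁ ε mv η : ℝ} {R k : ℕ} {e : ℝ} (ht : 0 < t)
    (ha0 : 0 < a) (ha : D * a ^ 2 ≤ 3 / 10 * m₁) (hm₁0 : 0 < m₁) (hpp : Real.pi ^ 2 < 9.93)
    (hRt : t * (1 + a) ^ R = Real.pi / 2) (hmm : m₁ ≤ mv) (hε : 0 ≤ ε)
    (hη1 : η ≤ 1 / 4 * t ^ 2 * m₁) (hkR : k < R) (hk3 : 3 ≤ k)
    (he : ∀ c : ℝ, 0 ≤ c → (∀ j : ℕ, j ≤ k + 1 → k ≤ j + 1 → (dk_T t a k - dk_T t a j) ^ 2 ≤ c) →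
      e ≤ 1 / 2 * (D * c)) :
    e + η + (if R ≤ k then mv / 2 else 0) ≤
      Real.cos (dk_T t a k) ^ 2 * ε + Real.sin (dk_T t a k) ^ 2 * mv := by
  have h1a : (1 : ℝ) ≤ 1 + a := by linarith only [ha0]
  have h1 : dk_T t a k = t * (1 + a) ^ k := dk_Tmid ht.le ha0.le hRt (by omega) hkR.le
  obtain ⟨θ, hθ⟩ : ∃ θ : ℝ, θ = t * (1 + a) ^ k := ⟨_, rfl⟩
  have hθ0 : 0 < θ := by rw [hθ]; positivity
  have hθt : t ≤ θ := by
    rw [hθ]
    exact le_mul_of_one_le_right ht.le (one_le_pow₀ h1a)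
  have hθπ : θ ≤ Real.pi / 2 := by
    rw [hθ, ← hRt]
    exact mul_le_mul_of_nonneg_left (pow_le_pow_right₀ h1a hkR.le) ht.le
  have h2 := he ((a * θ) ^ 2) (by positivity) fun j hj hj' => by
    rw [h1, ← hθ, dk_Tmid ht.le ha0.le hRt (show 2 ≤ j by omega) (by omega)]
    have hcase : j = k ∨ j = k + 1 ∨ j + 1 = k := by omega
    rcases hcase with h | h | h
    · rw [h, ← hθ, sub_self, zero_pow two_ne_zero]; (clear * - ha0 hθ0; positivity)
    · have h3 : t * (1 + a) ^ j = (1 + a) * θ := by rw [h, hθ, pow_succ]; ring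
      rw [h3]
      refine le_of_eq ?_
      ring
    · have h3 : θ = (1 + a) * (t * (1 + a) ^ j) := by rw [hθ, ← h, pow_succ]; ring
      obtain ⟨τ, hτ⟩ : ∃ τ : ℝ, τ = t * (1 + a) ^ j := ⟨_, rfl⟩
      have hτ0 : 0 < τ := by rw [hτ]; positivity
      rw [← hτ] at h3 ⊢
      have h4 : θ - τ = a * τ := by rw [h3]; ring
      have h5 : τ ≤ θ := by
        have : 0 ≤ a * τ := by positivity
        linarith only [h3, this]
      rw [h4]
      exact pow_le_pow_left₀ (by (clear * - ha0 hτ0; positivity)) (mul_le_mul_of_nonneg_left h5 ha0.le) 2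
  have h7 : 1 / 2 * (D * (a * θ) ^ 2) = 1 / 2 * θ ^ 2 * (D * a ^ 2) := by ring
  have h8 : 1 / 2 * θ ^ 2 * (D * a ^ 2) ≤ 1 / 2 * θ ^ 2 * (3 / 10 * m₁) :=
    mul_le_mul_of_nonneg_left ha (by positivity)
  have h9 := Real.mul_le_sin hθ0.le hθπ
  have h10 : 2 / 5 * θ ^ 2 ≤ Real.sin θ ^ 2 := by
    have h11 : (2 / Real.pi * θ) ^ 2 ≤ Real.sin θ ^ 2 :=
      pow_le_pow_left₀ (by positivity) h9 2
    have h12 : 2 / 5 ≤ (2 / Real.pi) ^ 2 := by
      rw [div_pow, div_le_div_iff₀ (by norm_num) (by positivity)]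
      norm_num
      linarith only [hpp]
    have h13 : 2 / 5 * θ ^ 2 ≤ (2 / Real.pi) ^ 2 * θ ^ 2 :=
      mul_le_mul_of_nonneg_right h12 (by (clear * - hθ0; positivity))
    rw [mul_pow] at h11
    exact h13.trans h11
  have h14 : 2 / 5 * θ ^ 2 * m₁ ≤ Real.sin θ ^ 2 * mv :=
    mul_le_mul h10 hmm hm₁0.le (by (clear * -; positivity))
  have h15 : η ≤ 1 / 4 * (θ ^ 2 * m₁) := by
    refine hη1.trans ?_
    have h0 : t ^ 2 ≤ θ ^ 2 := pow_le_pow_left₀ ht.le hθt 2
    have h0' := mul_le_mul_of_nonneg_right h0 hm₁0.le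
    linarith only [h0']
  have h16 : 0 ≤ Real.cos θ ^ 2 * ε := by (clear * - hε; positivity)
  have h17 : 0 ≤ θ ^ 2 * m₁ := by positivity
  rw [h1, ← hθ, if_neg (by (clear * - hkR; omega)), add_zero]
  rw [h7] at h2
  linarith only [h16, h15, h14, h8, h2]

private theorem dk_near {D t a m₁ ε mv η : ℝ} {R k : ℕ} {e : ℝ} (hD : 1 ≤ D) (ht : 0 < t)
    (ha0 : 0 < a) (ha1 : a ≤ 1) (hm₁1 : m₁ ≤ 1) (ht1 : t ≤ 1 / 10)
    (hR : 8 ≤ R) (hRt : t * (1 + a) ^ R = Real.pi / 2)
    (hε : 100 * (D + 1) * t ^ 2 ≤ ε) (hmv : 0 < mv)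
    (hη1 : η ≤ 1 / 4 * t ^ 2 * m₁) (hk3 : k < 3)
    (he : ∀ c : ℝ, 0 ≤ c → (∀ j : ℕ, j ≤ k + 1 → k ≤ j + 1 → (dk_T t a k - dk_T t a j) ^ 2 ≤ c) →
      e ≤ 1 / 2 * (D * c)) :
    e + η + (if R ≤ k then mv / 2 else 0) ≤
      Real.cos (dk_T t a k) ^ 2 * ε + Real.sin (dk_T t a k) ^ 2 * mv := by
  have hεpos : 0 ≤ ε := le_trans (by (clear * - hD ht; positivity)) hε
  have hT : ∀ j : ℕ, j ≤ 3 → 0 ≤ dk_T t a j ∧ dk_T t a j ≤ t * 2 ^ j := by
    intro j hj
    rcases le_or_gt j 1 with h | h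
    · rw [dk_T0 h]; exact ⟨le_rfl, by positivity⟩
    · rw [dk_Tmid ht.le ha0.le hRt (by omega) (by omega)]
      refine ⟨by positivity, mul_le_mul_of_nonneg_left ?_ ht.le⟩
      exact pow_le_pow_left₀ (by linarith only [ha0]) (by linarith only [ha1]) j
  have hT8 : ∀ j : ℕ, j ≤ 3 → dk_T t a j ≤ 8 * t := by
    intro j hj
    have h1 : (2 : ℝ) ^ j ≤ 8 := by
      have := pow_le_pow_right₀ (show (1 : ℝ) ≤ 2 by norm_num) hj
      norm_num at this
      exact this
    have h2 := (hT j hj).2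
    have h1' := mul_le_mul_of_nonneg_left h1 ht.le
    linarith only [h2, h1']
  have h2 := he ((8 * t) ^ 2) (by positivity) fun j hj hj' => by
    have h3 := (hT k (by omega)).1
    have h4 := (hT j (by omega)).1
    have h5 := hT8 k (by omega)
    have h6 := hT8 j (by omega)
    exact sq_le_sq' (by linarith only [h3, h6]) (by linarith only [h4, h5])
  have h3 := hT k (by omega)
  have h4 : dk_T t a k ≤ 2 / 5 := by
    have h1 : (2 : ℝ) ^ k ≤ 4 := by
      have := pow_le_pow_right₀ (show (1 : ℝ) ≤ 2 by norm_num) (show k ≤ 2 by omega)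
      norm_num at this
      exact this
    have h1' := mul_le_mul_of_nonneg_left h1 ht.le
    linarith only [ht1, h3, h1']
  have h5 := Real.one_sub_sq_div_two_le_cos (x := dk_T t a k)
  have h6 : 1 / 2 ≤ Real.cos (dk_T t a k) ^ 2 := by
    have h7 : (dk_T t a k) ^ 2 ≤ (2 / 5) ^ 2 := pow_le_pow_left₀ h3.1 h4 2
    have h8 : 9 / 10 ≤ Real.cos (dk_T t a k) := by linarith only [h5, h7]
    have h9 := pow_le_pow_left₀ (by norm_num) h8 2
    norm_num at h9 ⊢
    linarith only [h9]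
  have h9 : 1 / 2 * ε ≤ Real.cos (dk_T t a k) ^ 2 * ε := mul_le_mul_of_nonneg_right h6 hεpos
  have h10 : 0 ≤ Real.sin (dk_T t a k) ^ 2 * mv := by (clear * - hmv; positivity)
  have h15 : 0 ≤ t ^ 2 := by positivity
  have h11 : η ≤ t ^ 2 := by
    have h0 : t ^ 2 * m₁ ≤ t ^ 2 * 1 := mul_le_mul_of_nonneg_left hm₁1 h15
    linarith only [hη1, h15, h0]
  have h12 : 0 ≤ D * t ^ 2 := by positivity
  have h13 : 1 / 2 * (D * (8 * t) ^ 2) = 32 * (D * t ^ 2) := by ring
  have h14 : 100 * (D + 1) * t ^ 2 = 100 * (D * t ^ 2) + 100 * t ^ 2 := by ring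
  rw [if_neg (by omega), add_zero]
  rw [h13] at h2
  rw [h14] at hε
  clear h3 h4 h5 h6 hT hT8 he hRt
  linarith only [h11, h15, h10, h9, h2, hεpos, hε]

private theorem dk_main {D t a m₁ ε mv η : ℝ} {R k : ℕ} {e : ℝ} (hD : 1 ≤ D) (ht : 0 < t)
    (ha0 : 0 < a) (ha1 : a ≤ 1) (ha : D * a ^ 2 ≤ 3 / 10 * m₁) (hm₁0 : 0 < m₁) (hm₁1 : m₁ ≤ 1)
    (hR : 8 ≤ R) (hRt : t * (1 + a) ^ R = Real.pi / 2) (hgr : 16 ≤ (1 + a) ^ R)
    (hε : 100 * (D + 1) * t ^ 2 ≤ ε) (hmv : 0 < mv) (hk : k ≤ R → m₁ ≤ mv)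
    (hη1 : η ≤ 1 / 4 * t ^ 2 * m₁) (hη2 : η ≤ 1 / 2 * mv)
    (he : ∀ c : ℝ, 0 ≤ c → (∀ j : ℕ, j ≤ k + 1 → k ≤ j + 1 → (dk_T t a k - dk_T t a j) ^ 2 ≤ c) →
      e ≤ 1 / 2 * (D * c)) :
    e + η + (if R ≤ k then mv / 2 else 0) ≤
      Real.cos (dk_T t a k) ^ 2 * ε + Real.sin (dk_T t a k) ^ 2 * mv := by
  have hpi := Real.pi_gt_three
  have hpi2 := Real.pi_lt_d2
  have hpp : Real.pi ^ 2 < 9.93 := by nlinarith only [hpi2, hpi]
  have ht1 : t ≤ 1 / 10 := by
    have h1 := mul_le_mul_of_nonneg_left hgr ht.le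
    rw [hRt] at h1
    linarith only [hpi2, h1]
  have hεpos : 0 ≤ ε := le_trans (by positivity) hε
  rcases lt_or_ge R k with hkR | hkR
  · exact dk_far ht ha0 hR hRt hη2 hkR he
  rcases eq_or_lt_of_le hkR with hkR | hkR
  · exact dk_at ht ha0 ha hm₁0 ht1 hpp hR hRt (hk hkR.le) hη1 hkR he
  rcases le_or_gt 3 k with hk3 | hk3
  · exact dk_mid ht ha0 ha hm₁0 hpp hRt (hk hkR.le) hεpos hη1 hkR hk3 he
  · exact dk_near hD ht ha0 ha1 hm₁1 ht1 hR hRt hε hmv hη1 hk3 he

/-- Lowering the levels by `m / 2` at distance `≥ R` from `o` has less effect than lowering all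
levels by `ε` (growing cutoff `θ(v) = min (π / 2) (θ₀ (1 + a) ^ ρ(v))` for `2 ≤ ρ(v)`, `0` for
`ρ(v) ≤ 1`, with `θ₀ (1 + a) ^ R = π / 2`). -/
theorem decay (hr : 0 < r) (hy : Herm y) (hz : ZD y) (ho : o ∉ W) {ρ : α → ℕ} (hρo : ρ o = 0)
    (hρ1 : ∀ k, ∀ v ∈ W, y k o v ≠ 0 → ρ v ≤ 1)
    (hρ : ∀ k, ∀ v ∈ W, ∀ w ∈ W, y k v w ≠ 0 → ρ w ≤ ρ v + 1 ∧ ρ v ≤ ρ w + 1)
    {D : ℝ} (hD : 1 ≤ D) (hrow : ∀ k, ∀ v ∈ W, ∑ w ∈ W, ‖y k v w‖ ≤ D)
    (hm : ∀ v ∈ W, 0 < m v) (hS : Safe y s (fun v => l v - m v) W) {m₁ : ℝ} (hm₁0 : 0 < m₁)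
    (hm₁1 : m₁ ≤ 1) {R : ℕ} (hR : 8 ≤ R) (hm₁ : ∀ v ∈ W, ρ v ≤ R → m₁ ≤ m v)
    {a : ℝ} (ha0 : 0 < a) (ha1 : a ≤ 1) (ha : D * a ^ 2 ≤ 3 / 10 * m₁)
    (hgr : 16 ≤ (1 + a) ^ R) {ε : ℝ} (hε : 250 * (D + 1) / ((1 + a) ^ R) ^ 2 ≤ ε)
    (hSε : Safe y s (fun v => l v - ε) W) :
    Safe y s (fun v => l v - if R ≤ ρ v then m v / 2 else 0) W ∧
      sg y s o (fun v => l v - if R ≤ ρ v then m v / 2 else 0) W ≤
        sg y s o (fun v => l v - ε) W := by
  classical
  obtain ⟨G, hG⟩ : ∃ G : ℝ, G = (1 + a) ^ R := ⟨_, rfl⟩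
  have hG0 : 0 < G := by rw [hG]; (clear * - ha0; positivity)
  obtain ⟨t, ht⟩ : ∃ t : ℝ, t = Real.pi / 2 / G := ⟨_, rfl⟩
  have hpi := Real.pi_gt_three
  have hpi2 := Real.pi_lt_d2
  have ht0 : 0 < t := by rw [ht]; (clear * - hG0; positivity)
  have hRt : t * (1 + a) ^ R = Real.pi / 2 := by
    rw [ht, ← hG]; (clear * - hG0; field_simp)
  have hε' : 100 * (D + 1) * t ^ 2 ≤ ε := by
    refine le_trans ?_ hε
    rw [ht, ← hG, div_pow, ← mul_div_assoc]
    refine div_le_div_of_nonneg_right ?_ (by (clear * - hG0; positivity))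
    have h1 : (Real.pi / 2) ^ 2 ≤ 5 / 2 := by nlinarith only [hpi2, hpi]
    have h2 : 0 ≤ 100 * (D + 1) := by linarith only [hD]
    have h3 := mul_le_mul_of_nonneg_left h1 h2
    linarith only [h3]
  obtain ⟨η', hη'0, hη'⟩ := dk_low W hm
  obtain ⟨η, hη⟩ : ∃ η : ℝ, η = min (1 / 4 * t ^ 2 * m₁) (1 / 2 * η') := ⟨_, rfl⟩
  have hη0 : 0 < η := by
    rw [hη]
    exact lt_min (by (clear * - ht0 hm₁0; positivity)) (by positivity)
  have key := ims (l := fun v => l v - if R ≤ ρ v then m v / 2 else 0)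
    (l₁ := fun v => l v - ε) (l₂ := fun v => l v - m v) (W := W) (s := s)
    (N := W.filter fun v => Real.cos (dk_T t a (ρ v)) ≠ 0) hr hy hz ho (Finset.filter_subset _ _)
    (χ₁ := fun v => Real.cos (dk_T t a (ρ v))) (χ₂ := fun v => Real.sin (dk_T t a (ρ v)))
    (fun v => by rw [add_comm]; exact Real.sin_sq_add_cos_sq _)
    (fun v hv hc => Finset.mem_filter.2 ⟨hv, hc⟩)
    (by rw [dk_T0 (by omega), Real.cos_zero])
    (fun k v hv hv' => by rw [dk_T0 (hρ1 k v hv hv'), Real.cos_zero])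
    (e := fun v => Finset.univ.sup' Finset.univ_nonempty fun k =>
      1 / 2 * ∑ w ∈ W, ‖y k v w‖ * (dk_T t a (ρ v) - dk_T t a (ρ w)) ^ 2)
    (fun k v hv => by
      refine le_trans (mul_le_mul_of_nonneg_left (Finset.sum_le_sum fun w hw => ?_)
        (by norm_num)) (Finset.le_sup' (f := fun k =>
          1 / 2 * ∑ w ∈ W, ‖y k v w‖ * (dk_T t a (ρ v) - dk_T t a (ρ w)) ^ 2)
          (Finset.mem_univ k))
      exact mul_le_mul_of_nonneg_left (dk_cos _ _) (norm_nonneg _))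
    hη0
    (fun v hv => by
      have h1 := dk_main (D := D) (t := t) (a := a) (m₁ := m₁) (ε := ε) (mv := m v) (η := η)
        (R := R) (k := ρ v)
        (e := Finset.univ.sup' Finset.univ_nonempty fun k =>
          1 / 2 * ∑ w ∈ W, ‖y k v w‖ * (dk_T t a (ρ v) - dk_T t a (ρ w)) ^ 2) hD ht0 ha0 ha1 ha
        hm₁0 hm₁1 hR hRt hgr hε' (hm v hv) (hm₁ v hv) (by rw [hη]; exact min_le_left _ _)
        (by
          have h2 := hη' v hv
          have h3 : η ≤ 1 / 2 * η' := by rw [hη]; exact min_le_right _ _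
          linarith only [h2, h3])
        (fun c hc h => Finset.sup'_le _ _ fun k _ =>
          dk_e (θ := fun v => dk_T t a (ρ v)) (hrow k v hv) hc fun w hw hw' =>
            h (ρ w) (hρ k v hv w hw hw').1 (hρ k v hv w hw hw').2)
      have h2 := Real.sin_sq_add_cos_sq (dk_T t a (ρ v))
      have h3 : Real.cos (dk_T t a (ρ v)) ^ 2 = 1 - Real.sin (dk_T t a (ρ v)) ^ 2 := by linarith only [h2]
      have h4 : Real.cos (dk_T t a (ρ v)) ^ 2 * (l v - ε) +
          Real.sin (dk_T t a (ρ v)) ^ 2 * (l v - m v) =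
          l v - (Real.cos (dk_T t a (ρ v)) ^ 2 * ε + Real.sin (dk_T t a (ρ v)) ^ 2 * m v) := by
        have : Real.cos (dk_T t a (ρ v)) ^ 2 * l v + Real.sin (dk_T t a (ρ v)) ^ 2 * l v = l v := by
          rw [h3]; ring
        linarith only [this]
      rw [h4]
      linarith only [h1])
    (hSε.subset (Finset.filter_subset _ _)) hS
  exact ⟨key.1, key.2.trans (sg_mono_set hr hy (Finset.filter_subset _ _) ho hSε)⟩

end Vale.Agent.P078.TX
end

section
/-! T3-B3: transfer of lower bounds. -/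

namespace Vale.Agent.P078.TX

open Finset Polynomial
open Vale.Agent.P078.C (qf yc)

variable {α : Type*} [DecidableEq α] {r ν : ℕ}
variable {P : Par} {E : Env ν α} {S : α → St r} {z : ℝ} {x o : α}

/-- clamp to `[0, 1]` -/
private noncomputable def td_cl (t : ℝ) : ℝ := max 0 (min 1 t)

private theorem td_cl_lip (s t : ℝ) : |td_cl s - td_cl t| ≤ |s - t| := by
  have h1 := neg_abs_le (s - t)
  have h2 := le_abs_self (s - t)
  have h3 := abs_nonneg (s - t)
  rw [abs_le]
  unfold td_cl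
  constructor <;> (simp only [max_def, min_def]; split_ifs <;> linarith)

/-- chord and arc -/
private theorem td_chord (a b : ℝ) :
    (Real.cos a - Real.cos b) ^ 2 + (Real.sin a - Real.sin b) ^ 2 ≤ (a - b) ^ 2 := by
  have h1 := Real.one_sub_sq_div_two_le_cos (x := a - b)
  have h2 := Real.cos_sub a b
  have h3 := Real.sin_sq_add_cos_sq a
  have h4 := Real.sin_sq_add_cos_sq b
  linarith

/-- the angle at the distance `m` -/
private noncomputable def td_ang (k m : ℕ) : ℝ := Real.pi / 2 * td_cl (((m : ℝ) - k) / k)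

private theorem td_ang_zero {k m : ℕ} (h : m ≤ k) : td_ang k m = 0 := by
  unfold td_ang td_cl
  have h1 : ((m : ℝ) - k) / k ≤ 0 := by
    apply div_nonpos_of_nonpos_of_nonneg
    · have : (m : ℝ) ≤ k := by exact_mod_cast h
      linarith only [this]
    · positivity
  rw [min_eq_right (by linarith only [h1]), max_eq_left h1, mul_zero]

private theorem td_ang_top {k m : ℕ} (hk : 0 < k) (h : 2 * k ≤ m) : td_ang k m = Real.pi / 2 := by
  unfold td_ang td_cl
  have hk' : (0 : ℝ) < k := by exact_mod_cast hk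
  have h1 : 1 ≤ ((m : ℝ) - k) / k := by
    rw [le_div_iff₀ hk']
    have : (2 : ℝ) * k ≤ m := by exact_mod_cast h
    linarith only [this]
  rw [min_eq_left h1, max_eq_right zero_le_one, mul_one]

private theorem td_ang_lip {k : ℕ} (hk : 0 < k) {m n : ℕ} (h1 : m ≤ n + 1) (h2 : n ≤ m + 1) :
    (td_ang k m - td_ang k n) ^ 2 ≤ (Real.pi / (2 * k)) ^ 2 := by
  have hk' : (0 : ℝ) < k := by exact_mod_cast hk
  rw [← sq_abs (td_ang k m - td_ang k n)]
  refine pow_le_pow_left₀ (abs_nonneg _) ?_ 2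
  unfold td_ang
  rw [← mul_sub, abs_mul, abs_of_nonneg (by positivity : (0 : ℝ) ≤ Real.pi / 2)]
  have h3 := td_cl_lip (((m : ℝ) - k) / k) (((n : ℝ) - k) / k)
  have h4 : |((m : ℝ) - k) / k - ((n : ℝ) - k) / k| ≤ 1 / k := by
    have e : ((m : ℝ) - k) / k - ((n : ℝ) - k) / k = ((m : ℝ) - n) / k := by ring
    rw [e, abs_div, abs_of_pos hk']
    refine div_le_div_of_nonneg_right ?_ hk'.le
    have a1 : (m : ℝ) ≤ n + 1 := by exact_mod_cast h1
    have a2 : (n : ℝ) ≤ m + 1 := by exact_mod_cast h2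
    rw [abs_le]
    constructor <;> linarith only [a1, a2]
  calc Real.pi / 2 * |td_cl (((m : ℝ) - k) / k) - td_cl (((n : ℝ) - k) / k)|
      ≤ Real.pi / 2 * (1 / k) := mul_le_mul_of_nonneg_left (h3.trans h4) (by positivity)
    _ = Real.pi / (2 * k) := by field_simp

private theorem td_fx_nonneg (x v : α) : 0 ≤ fx P E x v := sq_nonneg _

private theorem td_real {c1 c2 lx lo f κ e θ : ℝ} (hs : c2 + c1 = 1) (h0 : 0 ≤ c1) (h2 : 0 ≤ c2)
    (hκ : 0 < κ) (hf : 0 ≤ f) (he : e ≤ f / 10) (hθ : 28 * f + f / 10 + 9 / 10 * κ ≤ θ)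
    (h : c1 * (lx - lo) ≤ c1 * (28 * f)) :
    c1 * (lx + -κ) + c2 * lo + e + 9 / 10 * κ ≤ lo + θ := by
  have h3 : c1 * (28 * f) ≤ 1 * (28 * f) :=
    mul_le_mul_of_nonneg_right (by linarith only [hs, h2]) (by positivity)
  have h4 : 0 ≤ c1 * κ := by positivity
  have h5 : c2 = 1 - c1 := by linarith only [hs]
  have h6 : c1 * (lx + -κ) + c2 * lo = lo + c1 * (lx - lo) - c1 * κ := by rw [h5]; ring
  rw [h6]
  linarith

/-- transfer of lower bounds -/
theorem trans_down (hr : 0 < r) (hP : P.Good E) (hox : o ∈ E.ball P.N x) (hSo : S o = none)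
    (hx : Alive P E z S (4 * P.κ) x) (ho : Alive P E z S (4 * P.κ) o) (a : Fin r)
    (hf : fx P E x o < P.fs) {θ : ℝ} (hθ : 29 * max (fx P E x o) P.κ ≤ θ) :
    sw P E z S o o θ a ≤ sw P E z S x o (-P.κ) a := by
  have hκ := hP.κ_pos
  have hrad : P.N ≤ E.rad := by have := hP.rad; omega
  have hdo : E.d x o ≤ P.N := (E.mem_ball _ hrad x o).1 hox
  obtain ⟨ρ, hρ⟩ : ∃ ρ : ℕ, ρ = P.N + 1 - E.d x o := ⟨_, rfl⟩
  have hρN : ρ + E.d x o = P.N + 1 := by omega
  have hρ1 : 1 ≤ ρ := by omega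
  have hρR : ((P.N : ℝ) + 1 - (E.d x o : ℝ)) = ρ := by
    have : (ρ : ℝ) + (E.d x o : ℝ) = (P.N : ℝ) + 1 := by exact_mod_cast hρN
    linarith only [this]
  have hρpos : (0 : ℝ) < ρ := by exact_mod_cast hρ1
  set f : ℝ := fx P E x o with hfdef
  have hfe : f = (P.c / ρ) ^ 2 := by rw [hfdef, fx, hρR]
  have hc1 := hP.c_pos
  have hD1 := hP.D_ge
  have hc := hP.hc
  have hf1 : f < 1 := hf.trans_le hP.fs_le
  -- `ρ` is large
  have hcρ : P.c < ρ := by
    rw [hfe, div_pow, div_lt_one (by (clear * - hρ1; positivity))] at hf1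
    exact lt_of_pow_lt_pow_left₀ 2 hρpos.le hf1
  have hρ28 : 28 < ρ := by
    have h1 : (28 : ℝ) < ρ := by nlinarith only [hD1, hc, hcρ, hc1]
    exact_mod_cast h1
  set k : ℕ := ρ / 4 with hk
  have hk7 : 7 ≤ k := by omega
  have hk0 : 0 < k := by omega
  have hk4 : ρ ≤ 4 * k + 3 := by omega
  have hk4' : 4 * k ≤ ρ := by omega
  have hkR : (0 : ℝ) < k := by exact_mod_cast hk0
  -- sets and cutoffs
  set W : Finset α := (win P E S o).erase o with hW
  set N : Finset α := W.filter (fun v => E.d o v < 2 * k) with hN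
  set χ₁ : α → ℝ := fun v => Real.cos (td_ang k (E.d o v)) with hχ1
  set χ₂ : α → ℝ := fun v => Real.sin (td_ang k (E.d o v)) with hχ2
  set s' : α → Option (Fin r) := Function.update (cs S) o (some a) with hs'
  have hoW : o ∉ W := by simp [hW]
  have hNW : N ⊆ W := Finset.filter_subset _ _
  have hNx : N ⊆ (win P E S x).erase o := by
    intro v hv
    rw [hN, Finset.mem_filter, hW, Finset.mem_erase, win, Finset.mem_filter] at hv
    obtain ⟨⟨h1, -, h2⟩, h3⟩ := hv
    rw [Finset.mem_erase, win, Finset.mem_filter]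
    refine ⟨h1, (E.mem_ball _ hrad x v).2 ?_, h2⟩
    have := E.d_tri x o v
    omega
  -- safety
  have hsW : ∀ V : Finset α, o ∉ V → ∀ i ∈ V, cs S i = s' i := by
    intro V hV i hi
    rw [hs', Function.update_of_ne]
    rintro rfl
    exact hV hi
  have hSx : Safe E.y s' (fun v => lv P E z S x v + -P.κ) ((win P E S x).erase o) := by
    refine Safe.mono hr E.herm ((hx.subset (Finset.erase_subset _ _)).congr
      (hsW _ (by simp)) (fun _ _ => rfl)) fun i _ => ?_
    linarith only [hκ]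
  have hSN : Safe E.y s' (fun v => lv P E z S x v + -P.κ) N := hSx.subset hNx
  have hSW : Safe E.y s' (fun v => lv P E z S o v) W := by
    refine Safe.mono hr E.herm ((ho.subset (Finset.erase_subset _ _)).congr
      (hsW _ (by simp)) (fun _ _ => rfl)) fun i _ => ?_
    linarith only [hκ]
  -- the error of the localization
  set e : ℝ := 1 / 2 * (E.D * (Real.pi / (2 * k)) ^ 2) with he
  have hef : e ≤ f / 10 := by
    have hpi : Real.pi ^ 2 ≤ 10 := by nlinarith only [Real.pi_lt_d2, Real.pi_pos]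
    have hρk : (ρ : ℝ) ≤ 5 * k := by
      have : ρ ≤ 5 * k := by omega
      exact_mod_cast this
    have h1 : E.D / (k : ℝ) ^ 2 ≤ P.c ^ 2 / 800 * (25 / ρ ^ 2) := by
      have h2 : E.D ≤ P.c ^ 2 / 800 := by linarith only [hc]
      have h3 : 1 / (k : ℝ) ^ 2 ≤ 25 / ρ ^ 2 := by
        rw [div_le_div_iff₀ (by (clear * - hk7; positivity)) (by positivity)]
        nlinarith only [hρk]
      calc E.D / (k : ℝ) ^ 2 = E.D * (1 / (k : ℝ) ^ 2) := by ring
        _ ≤ P.c ^ 2 / 800 * (25 / ρ ^ 2) := by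
            apply mul_le_mul h2 h3 (by (clear * - hk7; positivity)) (by positivity)
    have h4 : e = 1 / 8 * Real.pi ^ 2 * (E.D / (k : ℝ) ^ 2) := by
      rw [he]; field_simp; ring
    have h5 : f = P.c ^ 2 / ρ ^ 2 := by rw [hfe, div_pow]
    rw [h4, h5]
    have h6 : 0 ≤ E.D / (k : ℝ) ^ 2 := by (clear * - hD1 hk7; positivity)
    calc 1 / 8 * Real.pi ^ 2 * (E.D / (k : ℝ) ^ 2) ≤ 1 / 8 * 10 * (E.D / (k : ℝ) ^ 2) := by
          (clear * - hpi hD1 hk7; gcongr)
      _ ≤ 1 / 8 * 10 * (P.c ^ 2 / 800 * (25 / ρ ^ 2)) := by (clear * - h1; gcongr)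
      _ ≤ P.c ^ 2 / ρ ^ 2 / 10 := by
          have h7 : 0 ≤ P.c ^ 2 / (ρ : ℝ) ^ 2 := by (clear * - hc1 hρ1; positivity)
          have h8 : 1 / 8 * 10 * (P.c ^ 2 / 800 * (25 / (ρ : ℝ) ^ 2)) =
              (1 / 8 * 10 / 800 * 25) * (P.c ^ 2 / (ρ : ℝ) ^ 2) := by ring
          rw [h8]
          nlinarith only [hfe, h5]
  have hmax1 : f ≤ max f P.κ := le_max_left _ _
  have hmax2 : P.κ ≤ max f P.κ := le_max_right _ _
  have hf0 : 0 ≤ f := td_fx_nonneg x o
  have hlv : ∀ v, Real.cos (td_ang k (E.d o v)) ^ 2 * (lv P E z S x v - lv P E z S o v) ≤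
      Real.cos (td_ang k (E.d o v)) ^ 2 * (28 * f) := by
    intro v
    by_cases hvN : E.d o v < 2 * k
    · refine mul_le_mul_of_nonneg_left ?_ (sq_nonneg _)
      have hdv : E.d x v ≤ E.d x o + E.d o v := E.d_tri x o v
      have hdN : 2 * E.d x v + ρ ≤ 2 * (P.N + 1) := by omega
      have hden : (ρ : ℝ) / 2 ≤ (P.N : ℝ) + 1 - (E.d x v : ℝ) := by
        have : 2 * (E.d x v : ℝ) + ρ ≤ 2 * ((P.N : ℝ) + 1) := by exact_mod_cast hdN
        linarith only [this]
      have hfv : fx P E x v ≤ 4 * f := by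
        rw [hfe, fx]
        have h1 : P.c / ((P.N : ℝ) + 1 - (E.d x v : ℝ)) ≤ P.c / (ρ / 2) :=
          div_le_div_of_nonneg_left (by linarith only [hc1]) (by positivity) hden
        have h2 : 0 ≤ P.c / ((P.N : ℝ) + 1 - (E.d x v : ℝ)) :=
          div_nonneg (by linarith only [hc1]) (by linarith only [hcρ, hden])
        calc (P.c / ((P.N : ℝ) + 1 - (E.d x v : ℝ))) ^ 2 ≤ (P.c / (ρ / 2)) ^ 2 :=
              pow_le_pow_left₀ h2 h1 2
          _ = 4 * (P.c / ρ) ^ 2 := by field_simp; ring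
      have hfo := td_fx_nonneg (P := P) (E := E) o v
      have hfxv := td_fx_nonneg (P := P) (E := E) x v
      unfold lv
      split_ifs
      · linarith only [hf0, hfv, hfo]
      · linarith only [hfv, hfo]
    · rw [td_ang_top hk0 (not_lt.1 hvN), Real.cos_pi_div_two]
      simp
  -- localization
  have key := ims (y := E.y) (s := s') (l := fun v => lv P E z S o v + θ)
    (l₁ := fun v => lv P E z S x v + -P.κ) (l₂ := fun v => lv P E z S o v) (W := W) (N := N)
    (o := o) hr E.herm E.zd hoW hNW (χ₁ := χ₁) (χ₂ := χ₂)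
    (fun v => by
      simp only [hχ1, hχ2]
      linarith only [Real.sin_sq_add_cos_sq (td_ang k (E.d o v))])
    (fun v hv hne => by
      rw [hN, Finset.mem_filter]
      refine ⟨hv, ?_⟩
      by_contra hcon
      apply hne
      simp only [hχ1]
      rw [td_ang_top hk0 (not_lt.1 hcon), Real.cos_pi_div_two])
    (by
      simp only [hχ1]
      rw [E.d_self, td_ang_zero (Nat.zero_le _), Real.cos_zero])
    (fun b v _ hne => by
      simp only [hχ1]
      rw [td_ang_zero ((E.edge b o v hne).trans (by omega)), Real.cos_zero])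
    (e := fun _ => e)
    (fun b v _ => by
      rw [he]
      refine mul_le_mul_of_nonneg_left ?_ (by norm_num)
      calc ∑ w ∈ W, ‖E.y b v w‖ * ((χ₁ v - χ₁ w) ^ 2 + (χ₂ v - χ₂ w) ^ 2)
          ≤ ∑ w ∈ W, ‖E.y b v w‖ * (Real.pi / (2 * k)) ^ 2 := by
            refine Finset.sum_le_sum fun w _ => ?_
            by_cases h0 : E.y b v w = 0
            · rw [h0, norm_zero, zero_mul, zero_mul]
            · refine mul_le_mul_of_nonneg_left ?_ (norm_nonneg _)
              have h1 := E.edge b v w h0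
              have h2 := E.d_tri o v w
              have h3 := E.d_tri o w v
              have h4 := E.d_symm v w
              exact (td_chord _ _).trans (td_ang_lip hk0 (by omega) (by omega))
        _ = (∑ w ∈ W, ‖E.y b v w‖) * (Real.pi / (2 * k)) ^ 2 := by rw [Finset.sum_mul]
        _ ≤ E.D * (Real.pi / (2 * k)) ^ 2 :=
            mul_le_mul_of_nonneg_right (E.row b v W) (by (clear * - hk7; positivity)))
    (η := 9 / 10 * P.κ) (by positivity)
    (fun v hv => by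
      refine td_real (Real.sin_sq_add_cos_sq (td_ang k (E.d o v))) (sq_nonneg _) (sq_nonneg _)
        hκ hf0 hef (by linarith only [hθ, hmax1, hmax2]) ?_
      exact hlv v)
    hSN hSW
  have h2 := sg_mono_set (y := E.y) (s := s') (l := fun v => lv P E z S x v + -P.κ) (o := o)
    hr E.herm hNx (by simp) hSx
  exact key.2.trans h2

end Vale.Agent.P078.TX
end

section
/-! T3-B2: transfer of upper bounds from the own window of `o` to the other windows. -/

namespace Vale.Agent.P078.TX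

open Finset Polynomial
open Vale.Agent.P078.C (qf yc)

variable {α : Type*} [DecidableEq α] {r ν : ℕ}
variable {P : Par} {E : Env ν α} {S : α → St r} {z : ℝ} {x o : α}

theorem fx_nonneg : 0 ≤ fx P E x o := sq_nonneg _

/-- the angle of the cutoff around `o` -/
private noncomputable def ang (R ρ : ℝ) : ℝ := Real.pi / 2 * max 0 (min 1 ((ρ - R) / R))

private theorem ang_zero {R ρ : ℝ} (hR : 0 < R) (h : ρ ≤ R) : ang R ρ = 0 := by
  have h1 : (ρ - R) / R ≤ 0 := div_nonpos_of_nonpos_of_nonneg (by linarith) hR.le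
  have h2 : min 1 ((ρ - R) / R) ≤ 0 := (min_le_right _ _).trans h1
  simp only [ang, max_eq_left h2, mul_zero]

private theorem ang_top {R ρ : ℝ} (hR : 0 < R) (h : 2 * R ≤ ρ) : ang R ρ = Real.pi / 2 := by
  have h1 : 1 ≤ (ρ - R) / R := by rw [le_div_iff₀ hR]; linarith only [h]
  simp only [ang, min_eq_left h1, max_eq_right zero_le_one, mul_one]

private theorem ang_lip {R : ℝ} (hR : 0 < R) {ρ ρ' : ℝ} (h : |ρ - ρ'| ≤ 1) :
    |ang R ρ - ang R ρ'| ≤ Real.pi / 2 / R := by
  have h1 : |max 0 (min 1 ((ρ - R) / R)) - max 0 (min 1 ((ρ' - R) / R))| ≤ 1 / R := by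
    refine (abs_max_sub_max_le_max _ _ _ _).trans (max_le ?_ ?_)
    · simp only [sub_self, abs_zero]; positivity
    refine (abs_min_sub_min_le_max _ _ _ _).trans (max_le ?_ ?_)
    · simp only [sub_self, abs_zero]; positivity
    rw [← sub_div, abs_div, abs_of_pos hR]
    refine div_le_div_of_nonneg_right ?_ hR.le
    rwa [sub_sub_sub_cancel_right]
  rw [ang, ang, ← mul_sub, abs_mul, abs_of_pos (by positivity : (0 : ℝ) < Real.pi / 2)]
  calc Real.pi / 2 * |max 0 (min 1 ((ρ - R) / R)) - max 0 (min 1 ((ρ' - R) / R))|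
      ≤ Real.pi / 2 * (1 / R) := by gcongr
    _ = Real.pi / 2 / R := by ring

private theorem trig_le (s t : ℝ) :
    (Real.cos s - Real.cos t) ^ 2 + (Real.sin s - Real.sin t) ^ 2 ≤ (s - t) ^ 2 := by
  have h1 := Real.one_sub_sq_div_two_le_cos (x := s - t)
  rw [Real.cos_sub] at h1
  linarith only [Real.sin_sq_add_cos_sq t, Real.sin_sq_add_cos_sq s, h1]

private theorem mem_win_of (hP : P.Good E) {v : α} (hv : v ∈ win P E S x)
    (ho : E.d o v < 2 * P.R) : v ∈ win P E S o := by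
  have hrad := hP.rad
  have hN : P.N = 4 * P.R := rfl
  unfold win at hv ⊢
  rw [Finset.mem_filter] at hv ⊢
  exact ⟨(E.mem_ball P.N (by omega) o v).2 (by (clear * - ho hN; omega)), hv.2⟩

private theorem fx_small (hP : P.Good E) {v : α} (h : E.d o v < 2 * P.R) :
    7 * fx P E o v ≤ 1 / 10 * P.κ := by
  have hR : (0 : ℝ) < P.R := by exact_mod_cast (lt_of_lt_of_le (by norm_num) hP.R_pos : 0 < P.R)
  have hd : (E.d o v : ℝ) < 2 * P.R := by exact_mod_cast h
  have hN : (P.N : ℝ) = 4 * P.R := by simp only [Par.N, Nat.cast_mul, Nat.cast_ofNat]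
  have hu : 2 * (P.R : ℝ) ≤ (P.N : ℝ) + 1 - E.d o v := by rw [hN]; linarith only [hd]
  have hu0 : 0 < 2 * (P.R : ℝ) := by positivity
  have hκ := hP.κ_pos
  have hRR := hP.hR
  have h1 : fx P E o v ≤ P.κ / 80 := by
    unfold fx
    rw [div_pow, div_le_iff₀ (pow_pos (lt_of_lt_of_le hu0 hu) 2)]
    have h2 : (2 * (P.R : ℝ)) ^ 2 ≤ ((P.N : ℝ) + 1 - E.d o v) ^ 2 := by
      exact pow_le_pow_left₀ hu0.le hu 2
    linarith only [mul_nonneg (le_of_lt (sub_pos.2 hκ)) (sub_nonneg.2 h2), mul_nonneg (mul_self_nonneg (1 : ℝ)) (sub_nonneg.2 hRR)]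
  linarith only [hκ, h1]

private theorem up_aux (hr : 0 < r) (hP : P.Good E)
    (hx : Alive P E z S (4 * P.κ) x) (ho : Alive P E z S (4 * P.κ) o) (a : Fin r)
    {b₁ b₂ : ℝ} (hb₁ : b₁ ≤ 4 * P.κ) (hb₂ : b₂ ≤ 4 * P.κ) {g : α → ℝ}
    (hg1 : ∀ v, E.d o v ≤ P.R → g v + 3 / 10 * P.κ ≤ fx P E x v + b₁)
    (hg2 : ∀ v, P.R < E.d o v → g v + 3 / 10 * P.κ ≤ b₁ ∧ g v + 3 / 10 * P.κ ≤ b₂) :
    Safe E.y (Function.update (cs S) o (some a)) (fun v => lv P E z S x v - g v)
      ((win P E S x).erase o) ∧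
    sg E.y (Function.update (cs S) o (some a)) o (fun v => lv P E z S x v - g v)
      ((win P E S x).erase o) ≤ sw P E z S o o (-b₁) a := by
  have hR : (0 : ℝ) < P.R := by exact_mod_cast (lt_of_lt_of_le (by norm_num) hP.R_pos : 0 < P.R)
  have hκ := hP.κ_pos
  set s' := Function.update (cs S) o (some a) with hs'
  set χ : α → ℝ := fun v => ang P.R (E.d o v) with hχ
  -- the windows
  have hcong : ∀ (U : Finset α), ∀ i ∈ U.erase o, cs S i = s' i := fun U i hi => by
    rw [hs', Function.update_of_ne (Finset.ne_of_mem_erase hi)]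
  have hso : Safe E.y s' (fun v => lv P E z S o v + -b₁) ((win P E S o).erase o) := by
    refine Safe.congr (Safe.mono hr E.herm (Safe.subset ho (Finset.erase_subset _ _))
      (l' := fun v => lv P E z S o v + -b₁) ?_) (hcong _) (fun _ _ => rfl)
    intro i _
    show lv P E z S o i - 4 * P.κ ≤ lv P E z S o i + -b₁
    linarith only [hb₁]
  have hsx : Safe E.y s' (fun v => lv P E z S x v - b₂) ((win P E S x).erase o) := by
    refine Safe.congr (Safe.mono hr E.herm (Safe.subset hx (Finset.erase_subset _ _))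
      (l' := fun v => lv P E z S x v - b₂) ?_) (hcong _) (fun _ _ => rfl)
    intro i _
    show lv P E z S x i - 4 * P.κ ≤ lv P E z S x i - b₂
    linarith only [hb₂]
  set N : Finset α := ((win P E S x).erase o).filter fun v => E.d o v < 2 * P.R with hN
  have hNo : N ⊆ (win P E S o).erase o := by
    intro v hv
    rw [hN, Finset.mem_filter, Finset.mem_erase] at hv
    exact Finset.mem_erase.2 ⟨hv.1.1, mem_win_of hP hv.1.2 hv.2⟩
  have hmono := sg_mono_set hr E.herm hNo (Finset.notMem_erase o _) hso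
  -- the bound of the localization error
  have hD := hP.D_ge
  have he0 : 1 / 2 * (E.D * (Real.pi / 2 / P.R) ^ 2) ≤ 1 / 10 * P.κ := by
    have h1 : E.D ≤ P.κ * P.R ^ 2 / 16000 := by
      have h2 := hP.hR
      have h3 := hP.hc
      linarith only [h2, h3]
    have h4 : (Real.pi / 2 / P.R) ^ 2 = Real.pi ^ 2 / (4 * P.R ^ 2) := by
      field_simp
      ring
    have h5 : Real.pi ^ 2 ≤ 16 := by nlinarith only [Real.pi_le_four, Real.pi_pos]
    rw [h4]
    calc 1 / 2 * (E.D * (Real.pi ^ 2 / (4 * P.R ^ 2)))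
        ≤ 1 / 2 * (P.κ * P.R ^ 2 / 16000 * (16 / (4 * P.R ^ 2))) := by (clear * - h1 h5 hR hκ; gcongr)
      _ = P.κ / 8000 := by field_simp; ring
      _ ≤ 1 / 10 * P.κ := by linarith only [hκ]
  have key := ims (y := E.y) (s := s') (l := fun v => lv P E z S x v - g v)
    (l₁ := fun v => lv P E z S o v + -b₁) (l₂ := fun v => lv P E z S x v - b₂)
    (W := (win P E S x).erase o) (N := N) (o := o) hr E.herm E.zd (Finset.notMem_erase o _)
    (Finset.filter_subset _ _) (χ₁ := fun v => Real.cos (χ v)) (χ₂ := fun v => Real.sin (χ v))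
    (fun v => Real.cos_sq_add_sin_sq _) ?_ ?_ ?_
    (e := fun _ => 1 / 10 * P.κ) ?_ (η := 1 / 10 * P.κ) (by (clear * - hκ; positivity)) ?_
    (Safe.subset hso hNo) hsx
  · exact ⟨key.1, key.2.trans hmono⟩
  · -- support
    intro v hv hne
    rw [hN, Finset.mem_filter]
    refine ⟨hv, ?_⟩
    by_contra hcon
    apply hne
    have h1 : (2 : ℝ) * P.R ≤ E.d o v := by exact_mod_cast not_lt.1 hcon
    show Real.cos (ang P.R (E.d o v)) = 0
    rw [ang_top hR h1, Real.cos_pi_div_two]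
  · show Real.cos (ang P.R (E.d o o)) = 1
    rw [E.d_self, ang_zero hR (by simp only [CharP.cast_eq_zero, Nat.cast_nonneg]), Real.cos_zero]
  · intro b v _ hne
    have h1 : (E.d o v : ℝ) ≤ P.R := by
      have h2 := E.edge b o v hne
      have h3 := hP.R_pos
      exact_mod_cast (by omega : E.d o v ≤ P.R)
    show Real.cos (ang P.R (E.d o v)) = 1
    rw [ang_zero hR h1, Real.cos_zero]
  · intro b v hv
    have h1 : ∀ w ∈ (win P E S x).erase o, ‖E.y b v w‖ * ((Real.cos (χ v) - Real.cos (χ w)) ^ 2 +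
        (Real.sin (χ v) - Real.sin (χ w)) ^ 2) ≤ ‖E.y b v w‖ * (Real.pi / 2 / P.R) ^ 2 := by
      intro w _
      by_cases hvw : E.y b v w = 0
      · simp only [hvw, norm_zero, zero_mul, Std.le_refl]
      have h2 := E.edge b v w hvw
      have h3 : |(E.d o v : ℝ) - E.d o w| ≤ 1 := by
        have h4 := E.d_tri o v w
        have h5 := E.d_tri o w v
        rw [E.d_symm w v] at h5
        have h6 : (E.d o w : ℝ) ≤ E.d o v + 1 := by exact_mod_cast (by omega : E.d o w ≤ E.d o v + 1)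
        have h7 : (E.d o v : ℝ) ≤ E.d o w + 1 := by exact_mod_cast (by omega : E.d o v ≤ E.d o w + 1)
        rw [abs_le]
        constructor <;> linarith only [h6, h7]
      refine mul_le_mul_of_nonneg_left ((trig_le _ _).trans ?_) (norm_nonneg _)
      rw [← sq_abs]
      exact pow_le_pow_left₀ (abs_nonneg _) (ang_lip hR h3) 2
    calc 1 / 2 * ∑ w ∈ (win P E S x).erase o, ‖E.y b v w‖ *
          ((Real.cos (χ v) - Real.cos (χ w)) ^ 2 + (Real.sin (χ v) - Real.sin (χ w)) ^ 2)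
        ≤ 1 / 2 * ∑ w ∈ (win P E S x).erase o, ‖E.y b v w‖ * (Real.pi / 2 / P.R) ^ 2 := by
          gcongr 1 / 2 * ?_
          exact Finset.sum_le_sum h1
      _ = 1 / 2 * ((∑ w ∈ (win P E S x).erase o, ‖E.y b v w‖) * (Real.pi / 2 / P.R) ^ 2) := by
          rw [Finset.sum_mul]
      _ ≤ 1 / 2 * (E.D * (Real.pi / 2 / P.R) ^ 2) := by
          gcongr
          exact E.row b v _
      _ ≤ 1 / 10 * P.κ := he0
  · intro v hv
    show Real.cos (χ v) ^ 2 * (lv P E z S o v + -b₁) + Real.sin (χ v) ^ 2 *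
      (lv P E z S x v - b₂) + 1 / 10 * P.κ + 1 / 10 * P.κ ≤ lv P E z S x v - g v
    have hcs := Real.cos_sq_add_sin_sq (χ v)
    by_cases hv2 : E.d o v < 2 * P.R
    · have hf := fx_small hP hv2
      have hfo : 0 ≤ fx P E o v := fx_nonneg
      have hfx : 0 ≤ fx P E x v := fx_nonneg
      have hlv : lv P E z S o v + fx P E x v ≤ lv P E z S x v + 1 / 10 * P.κ := by
        unfold lv
        split_ifs <;> linarith only [hf, hfx, hκ]
      by_cases hv1 : E.d o v ≤ P.R
      · have h1 : χ v = 0 := ang_zero hR (by exact_mod_cast hv1)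
        rw [h1, Real.cos_zero, Real.sin_zero]
        have h2 := hg1 v hv1
        linarith only [hlv, h2]
      · obtain ⟨h2, h3⟩ := hg2 v (not_le.1 hv1)
        have hc0 : 0 ≤ Real.cos (χ v) ^ 2 := sq_nonneg _
        have hs0 : 0 ≤ Real.sin (χ v) ^ 2 := sq_nonneg _
        have h4 : Real.cos (χ v) ^ 2 * (lv P E z S o v + -b₁) ≤
            Real.cos (χ v) ^ 2 * (lv P E z S x v - g v - 2 / 10 * P.κ) :=
          mul_le_mul_of_nonneg_left (by linarith only [hfx, hlv, h2]) hc0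
        have h5 : Real.sin (χ v) ^ 2 * (lv P E z S x v - b₂) ≤
            Real.sin (χ v) ^ 2 * (lv P E z S x v - g v - 2 / 10 * P.κ) :=
          mul_le_mul_of_nonneg_left (by linarith only [hκ, h3]) hs0
        have h6 : Real.cos (χ v) ^ 2 * (lv P E z S x v - g v - 2 / 10 * P.κ) +
            Real.sin (χ v) ^ 2 * (lv P E z S x v - g v - 2 / 10 * P.κ) =
            lv P E z S x v - g v - 2 / 10 * P.κ := by
          rw [← add_mul, hcs, one_mul]
        linarith only [h4, h5, h6]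
    · have h1 : χ v = Real.pi / 2 := ang_top hR (by exact_mod_cast not_lt.1 hv2)
      have hR1 := hP.R_pos
      obtain ⟨-, h3⟩ := hg2 v (by (clear * - hv2 hR1; omega))
      rw [h1, Real.cos_pi_div_two, Real.sin_pi_div_two]
      linarith only [hκ, h3]

/-- basic transfer of upper bounds -/
theorem trans_up (hr : 0 < r) (hP : P.Good E) (hox : o ∈ E.ball P.N x) (hSo : S o = none)
    (hx : Alive P E z S (4 * P.κ) x) (ho : Alive P E z S (4 * P.κ) o) (a : Fin r) :
    sw P E z S x o (-(5 / 2 * P.κ)) a ≤ sw P E z S o o (-(3 * P.κ)) a := by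
  have hκ := hP.κ_pos
  have h := (up_aux hr hP hx ho a (b₁ := 3 * P.κ) (b₂ := 4 * P.κ) (by linarith only [hκ]) le_rfl
    (g := fun _ => 5 / 2 * P.κ) (fun v _ => by have := fx_nonneg (P := P) (E := E) (x := x) (o := v)
                                               linarith only [this, hκ])
    (fun v _ => ⟨by linarith only [hκ], by linarith only [hκ]⟩)).2
  simpa only [sw, sub_eq_add_neg] using h

/-- upper bound with the additional margin given by the level profile -/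
theorem trans_up' (hr : 0 < r) (hP : P.Good E) (hox : o ∈ E.ball P.N x) (hSo : S o = none)
    (hx : Alive P E z S (4 * P.κ) x) (ho : Alive P E z S (4 * P.κ) o) (a : Fin r) :
    Safe E.y (cs S) (fun v => lv P E z S x v - P.κ -
        (P.κ + if E.d o v ≤ P.R then fx P E x v / 2 else 0)) ((win P E S x).erase o) ∧
    sg E.y (Function.update (cs S) o (some a)) o (fun v => lv P E z S x v - P.κ -
        (P.κ + if E.d o v ≤ P.R then fx P E x v / 2 else 0)) ((win P E S x).erase o) ≤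
      sw P E z S o o (-(5 / 2 * P.κ)) a := by
  have hκ := hP.κ_pos
  have h := up_aux hr hP hx ho a (b₁ := 5 / 2 * P.κ) (b₂ := 3 * P.κ) (by linarith only [hκ])
    (by linarith only [hκ]) (g := fun v => P.κ + (P.κ + if E.d o v ≤ P.R then fx P E x v / 2 else 0))
    (fun v hv => by
      have := fx_nonneg (P := P) (E := E) (x := x) (o := v)
      rw [if_pos hv]
      linarith [this, hκ])
    (fun v hv => by
      rw [if_neg (not_le.2 hv)]
      exact ⟨by linarith only [hκ], by linarith only [hκ]⟩)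
  simp only [← sub_sub] at h
  simp only [← sub_sub]
  refine ⟨Safe.congr h.1 ?_ (fun _ _ => rfl), h.2⟩
  intro i hi
  rw [Function.update_of_ne (Finset.ne_of_mem_erase hi)]

end Vale.Agent.P078.TX
end

section
/-! T3-E1: allowed colours and one decision. -/

namespace Vale.Agent.P078.TX

open Finset Polynomial
open Vale.Agent.P078.C (qf yc)

variable {α : Type*} [DecidableEq α] {r ν : ℕ}
variable {P : Par} {E : Env ν α} {S : α → St r} {z u : ℝ} {x o : α}

private theorem mem_win_self (hP : P.Good E) (hSo : S o = none) : o ∈ win P E S o := by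
  unfold win
  rw [mem_filter]
  refine ⟨(E.mem_ball P.N (by have := hP.rad; (clear * - this; omega)) o o).2 (by rw [E.d_self]; omega), ?_⟩
  rw [hSo]
  simp

private theorem cs_none (hSo : S o = none) : cs S o = none := by
  unfold cs
  rw [hSo]
  rfl

private theorem fx_self_le (hP : P.Good E) : fx P E o o ≤ P.ζ / 1000 := by
  have h1 := hP.hR
  have h2 := hP.κ_le
  have h3 := hP.c_pos
  have h4 := hP.R_pos
  have h5 := hP.κ_pos
  have hR : (10 : ℝ) ≤ P.R := by exact_mod_cast h4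
  have hR2 : (0 : ℝ) < (P.R : ℝ) ^ 2 := by positivity
  unfold fx
  rw [E.d_self, div_pow]
  have hN : ((P.N : ℕ) : ℝ) = 4 * P.R := by unfold Par.N; push_cast; ring
  rw [hN, Nat.cast_zero, sub_zero]
  have h6 : (P.R : ℝ) ^ 2 ≤ (4 * (P.R : ℝ) + 1) ^ 2 := by nlinarith only [hR]
  have h7 : (0 : ℝ) < (4 * (P.R : ℝ) + 1) ^ 2 := by positivity
  rw [div_le_iff₀ h7]
  have h8 : P.κ * (P.R : ℝ) ^ 2 ≤ P.ζ / 100 * (P.R : ℝ) ^ 2 :=
    mul_le_mul_of_nonneg_right (by linarith only [h2]) hR2.le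
  have h9 : P.ζ / 1000 * (P.R : ℝ) ^ 2 ≤ P.ζ / 1000 * (4 * (P.R : ℝ) + 1) ^ 2 :=
    mul_le_mul_of_nonneg_left h6 (by have := hP.ζ_pos; linarith only [h2, h5])
  nlinarith only [h1, h8, h9]

private theorem safe_erase {b : ℝ} (hr : 0 < r) (hx : Alive P E z S (4 * P.κ) x)
    (hb : -(4 * P.κ) ≤ b) (a : Fin r) :
    Safe E.y (Function.update (cs S) o (some a)) (fun v => lv P E z S x v + b)
      ((win P E S x).erase o) := by
  have h1 : Safe E.y (cs S) (fun v => lv P E z S x v - 4 * P.κ) ((win P E S x).erase o) :=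
    Safe.subset hx (erase_subset _ _)
  have h2 : Safe E.y (cs S) (fun v => lv P E z S x v + b) ((win P E S x).erase o) :=
    Safe.mono hr E.herm h1 (fun i _ => by (clear * - hb; linarith))
  refine Safe.congr h2 (fun i hi => ?_) (fun i _ => rfl)
  rw [Function.update_of_ne (ne_of_mem_erase hi)]

private theorem sw_nonneg (hr : 0 < r) (hP : P.Good E) (hx : Alive P E z S (4 * P.κ) x)
    (a : Fin r) : 0 ≤ sw P E z S x o 0 a := by
  have := hP.κ_pos
  exact sg_nonneg hr E.herm E.zd (notMem_erase _ _) (safe_erase hr hx (by (clear * - this; linarith)) a)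

private theorem sum_sw_le (hr : 0 < r) (hP : P.Good E) (hz : P.ζ ≤ z) (hSo : S o = none)
    (ho : Alive P E z S (4 * P.κ) o) : ∑ a, sw P E z S o o 0 a ≤ 1001 / 1000 * z * r := by
  have hκ := hP.κ_pos
  have hr' : (0 : ℝ) < r := by exact_mod_cast hr
  have h1 : Safe E.y (cs S) (fun v => lv P E z S o v + 0) (insert o ((win P E S o).erase o)) := by
    rw [insert_erase (mem_win_self hP hSo)]
    exact Safe.mono hr E.herm ho (fun i _ => by linarith only [hκ])
  have h2 := ((safe_insert_iff hr E.herm (notMem_erase _ _)).1 h1).2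
  rw [sg_avg hr E.herm (notMem_erase _ _) (cs_none hSo)] at h2
  have h3 : lv P E z S o o + 0 ≤ 1001 / 1000 * z := by
    unfold lv
    rw [if_pos hSo]
    have := fx_self_le (o := o) hP
    linarith only [this, hz]
  have h4 := (div_lt_iff₀ hr').1 (lt_of_lt_of_le h2 h3)
  exact h4.le

private theorem card_bad (hr : 0 < r) (hP : P.Good E) (hz : P.ζ ≤ z) (hSo : S o = none)
    (ho : Alive P E z S (4 * P.κ) o) :
    5 * ((univ.filter fun a : Fin r => ¬ sw P E z S o o 0 a ≤ 5 * z).card : ℝ) ≤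
      1001 / 1000 * r := by
  have hζ := hP.ζ_pos
  have hz0 : 0 < z := by linarith only [hz, hζ]
  have h1 := sum_sw_le hr hP hz hSo ho
  have h2 : ∑ a ∈ univ.filter (fun a : Fin r => ¬ sw P E z S o o 0 a ≤ 5 * z), 5 * z ≤
      ∑ a, sw P E z S o o 0 a := by
    refine (sum_le_sum fun a ha => ?_).trans
      (sum_le_sum_of_subset_of_nonneg (filter_subset _ _) fun a _ _ => sw_nonneg hr hP ho a)
    rw [mem_filter] at ha
    exact (not_le.1 ha.2).le
  rw [sum_const, nsmul_eq_mul] at h2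
  have h3 : 5 * ((univ.filter fun a : Fin r => ¬ sw P E z S o o 0 a ≤ 5 * z).card : ℝ) * z ≤
      1001 / 1000 * r * z := by linarith only [h2, h1]
  exact le_of_mul_le_mul_right h3 hz0

/-- at least half of the colours have small self energies, for both signs -/
theorem card_allow (hr : 0 < r) (hP : P.Good E) (hPn : P.Good E.neg)
    (hz : P.ζ ≤ z) (hSo : S o = none) (ho : Alive P E z S (4 * P.κ) o)
    (ho' : Alive P E.neg z S (4 * P.κ) o) (O : Finset (Fin r))
    (hO : ∀ a, sw P E z S o o 0 a ≤ 5 * z → sw P E.neg z S o o 0 a ≤ 5 * z → a ∈ O) :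
    r ≤ 2 * O.card := by
  have h1 := card_bad hr hP hz hSo ho
  have h2 := card_bad hr hPn hz hSo ho'
  have h3 : (univ : Finset (Fin r)) ⊆ O ∪
      ((univ.filter fun a : Fin r => ¬ sw P E z S o o 0 a ≤ 5 * z) ∪
        (univ.filter fun a : Fin r => ¬ sw P E.neg z S o o 0 a ≤ 5 * z)) := by
    intro a _
    rw [mem_union, mem_union, mem_filter, mem_filter]
    by_cases h4 : sw P E z S o o 0 a ≤ 5 * z
    · by_cases h5 : sw P E.neg z S o o 0 a ≤ 5 * z
      · exact Or.inl (hO a h4 h5)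
      · exact Or.inr (Or.inr ⟨mem_univ _, h5⟩)
    · exact Or.inr (Or.inl ⟨mem_univ _, h4⟩)
  have h4 := (card_le_card h3).trans
    ((card_union_le _ _).trans (Nat.add_le_add_left (card_union_le _ _) _))
  rw [card_univ, Fintype.card_fin] at h4
  have h5 : (r : ℝ) ≤ O.card +
      (((univ.filter fun a : Fin r => ¬ sw P E z S o o 0 a ≤ 5 * z).card : ℝ) +
        ((univ.filter fun a : Fin r => ¬ sw P E.neg z S o o 0 a ≤ 5 * z).card : ℝ)) := by
    exact_mod_cast h4
  have h6 : (r : ℝ) ≤ 2 * O.card := by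
    have hr' : (0 : ℝ) ≤ r := Nat.cast_nonneg r
    linarith only [h5, h2, h1]
  exact_mod_cast h6

/-- the self energies of `o` in all windows, for an allowed colour -/
theorem sw_le (hr : 0 < r) (hP : P.Good E) (hz : P.ζ ≤ z) (hz2 : z ≤ 2 * P.ζ) (hSo : S o = none)
    (hox : o ∈ E.ball P.N x) (hx : Alive P E z S (4 * P.κ) x) (ho : Alive P E z S (4 * P.κ) o)
    {a : Fin r} (ha : sw P E z S o o 0 a ≤ 6 * z) :
    sw P E z S x o (-(5 / 2 * P.κ)) a ≤ 24 * z ∧ sw P E z S o o (-(5 / 2 * P.κ)) a ≤ 48 * P.ζ := by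
  have hκ := hP.κ_pos
  have h1 : sw P E z S o o (-(3 * P.κ)) a ≤ 24 * z := by
    have h2 := sg_scal hr E.herm E.zd (notMem_erase o (win P E S o))
      (l := fun v => lv P E z S o v + 0) (g := fun _ => 4 * P.κ) (t := 3 / 4)
      (safe_erase (b := 0) hr ho (by linarith only [hκ]) a)
      (Safe.congr (safe_erase (b := -(4 * P.κ)) hr ho le_rfl a) (fun _ _ => rfl)
        (fun i _ => by ring)) (by norm_num) (by norm_num)
    have h3 : sw P E z S o o (-(3 * P.κ)) a =
        sg E.y (Function.update (cs S) o (some a)) o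
          (fun i => (lv P E z S o i + 0) - 3 / 4 * (4 * P.κ)) ((win P E S o).erase o) := by
      unfold sw
      congr 1
      funext v
      ring
    rw [h3]
    refine h2.trans ?_
    have h4 : sg E.y (Function.update (cs S) o (some a)) o (fun v => lv P E z S o v + 0)
        ((win P E S o).erase o) ≤ 6 * z := ha
    rw [div_le_iff₀ (by norm_num)]
    linarith only [h4]
  refine ⟨(trans_up hr hP hox hSo hx ho a).trans h1, ?_⟩
  have h5 : sw P E z S o o (-(5 / 2 * P.κ)) a ≤ sw P E z S o o (-(3 * P.κ)) a :=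
    sg_anti hr E.herm (notMem_erase _ _) (safe_erase hr ho (by linarith only [hκ]) a)
      (fun i _ => by linarith only [hκ])
  linarith only [hz2, h1, h5]

/-- after a decision the window has the margin `5 / 2 κ` -/
theorem alive_update (hr : 0 < r) (hP : P.Good E) (hz : P.ζ ≤ z) (hz2 : z ≤ 2 * P.ζ)
    (hSo : S o = none) (hox : o ∈ E.ball P.N x) (hx : Alive P E z S (4 * P.κ) x)
    (ho : Alive P E z S (4 * P.κ) o) {a : Fin r} (ha : sw P E z S o o 0 a ≤ 6 * z) :
    Alive P E z (Function.update S o (some (some a))) (5 / 2 * P.κ) x := by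
  have hκ := hP.κ_pos
  have hζ := hP.ζ_pos
  have hκζ := hP.κ_le
  have h1 := (sw_le hr hP hz hz2 hSo hox hx ho ha).1
  have hwin : win P E (Function.update S o (some (some a))) x = win P E S x := by
    unfold win
    refine filter_congr fun v _ => ?_
    by_cases hv : v = o
    · subst hv
      rw [Function.update_self, hSo]
      simp
    · rw [Function.update_of_ne hv]
  have hcs : cs (Function.update S o (some (some a))) = Function.update (cs S) o (some a) := by
    funext v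
    by_cases hv : v = o
    · subst hv
      simp [cs]
    · rw [Function.update_of_ne hv]
      unfold cs
      rw [Function.update_of_ne hv]
  have hlv : ∀ v, v ≠ o → lv P E z (Function.update S o (some (some a))) x v =
      lv P E z S x v := by
    intro v hv
    unfold lv
    rw [Function.update_of_ne hv]
  have hmem : o ∈ win P E S x := by
    unfold win
    rw [mem_filter]
    exact ⟨hox, by rw [hSo]; simp⟩
  unfold Alive
  rw [hwin, hcs, ← insert_erase hmem, safe_insert_iff hr E.herm (notMem_erase _ _)]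
  constructor
  · refine Safe.congr (safe_erase (b := -(5 / 2 * P.κ)) hr hx (by linarith only [hκ]) a)
      (fun _ _ => rfl) (fun i hi => ?_)
    rw [hlv i (ne_of_mem_erase hi)]
    ring
  · have h2 : sg E.y (Function.update (cs S) o (some a)) o
        (fun v => lv P E z (Function.update S o (some (some a))) x v - 5 / 2 * P.κ)
        ((win P E S x).erase o) = sw P E z S x o (-(5 / 2 * P.κ)) a := by
      unfold sw
      refine sg_congr (fun _ _ => rfl) (fun i hi => ?_) (notMem_erase _ _)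
      rw [hlv i (ne_of_mem_erase hi)]
      ring
    rw [h2]
    have h3 : lv P E z (Function.update S o (some (some a))) x o =
        z + fx P E x o + (60 * P.ζ + 6 * fx P E x o) := by
      unfold lv
      rw [Function.update_self, if_neg (by simp)]
    rw [h3]
    have h4 : 0 ≤ fx P E x o := fx_nonneg
    linarith only [h4, h1, hκζ, hκ, hz2]

end Vale.Agent.P078.TX
end

section
/-! T3-B4: bound of the derivative. -/

namespace Vale.Agent.P078.TX

open Finset Polynomial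
open Vale.Agent.P078.C (qf yc)

variable {α : Type*} [DecidableEq α] {r ν : ℕ}
variable {P : Par} {E : Env ν α} {S : α → St r} {z : ℝ} {x o : α}

private theorem Deriv_two_rpow_le {a : ℝ} (h0 : 0 ≤ a) (h1 : a ≤ 1) : (2 : ℝ) ^ a ≤ 1 + a := by
  have h := rpow_one_add_le_one_add_mul_self (s := 1) (by norm_num) h0 h1
  rw [mul_one, one_add_one_eq_two] at h
  exact h

private theorem Deriv_rpow_le_pow {a t : ℝ} {n : ℕ} (h0 : 0 ≤ a) (h1 : a ≤ 1) (ht : t ≤ a * n) :
    (2 : ℝ) ^ t ≤ (1 + a) ^ n := by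
  calc (2 : ℝ) ^ t ≤ 2 ^ (a * n) := Real.rpow_le_rpow_of_exponent_le (by norm_num) ht
    _ = (2 ^ a) ^ n := by rw [Real.rpow_mul (by norm_num), Real.rpow_natCast]
    _ ≤ (1 + a) ^ n := pow_le_pow_left₀ (by positivity) (Deriv_two_rpow_le h0 h1) n

/-- the growth rate -/
private theorem Deriv_rate {D L m₁ : ℝ} {r₁ : ℕ} (hD : 1 ≤ D) (hL : 8 ≤ L) (hm0 : 0 < m₁)
    (hm1 : m₁ ≤ 1) (h : L ^ 2 * D ≤ 6 / 5 * m₁ * (r₁ : ℝ) ^ 2) :
    ∃ a : ℝ, 0 < a ∧ a ≤ 1 ∧ D * a ^ 2 ≤ 3 / 10 * m₁ ∧ 16 ≤ (1 + a) ^ r₁ ∧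
      (2 : ℝ) ^ L ≤ ((1 + a) ^ r₁) ^ 2 := by
  have hD0 : 0 < D := by linarith only [hD]
  have hpos : 0 < 3 / 10 * m₁ / D := by positivity
  have hsq : Real.sqrt (3 / 10 * m₁ / D) ^ 2 = 3 / 10 * m₁ / D := Real.sq_sqrt hpos.le
  have ha0 : 0 < Real.sqrt (3 / 10 * m₁ / D) := Real.sqrt_pos.mpr hpos
  obtain ⟨a, ha⟩ : ∃ a, a = Real.sqrt (3 / 10 * m₁ / D) := ⟨_, rfl⟩
  rw [← ha] at hsq ha0
  have ha1 : a ≤ 1 := by
    have h1 : a ^ 2 ≤ 1 ^ 2 := by
      rw [hsq, div_le_iff₀ hD0]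
      linarith only [hm1, hD]
    exact le_of_sq_le_sq h1 zero_le_one
  have hr0 : (0 : ℝ) ≤ r₁ := Nat.cast_nonneg _
  have hLa : L ≤ 2 * (a * r₁) := by
    refine le_of_sq_le_sq ?_ (by positivity)
    have h2 : (2 * (a * (r₁ : ℝ))) ^ 2 = 6 / 5 * m₁ * (r₁ : ℝ) ^ 2 / D := by
      have h3 : (2 * (a * (r₁ : ℝ))) ^ 2 = 4 * a ^ 2 * (r₁ : ℝ) ^ 2 := by ring
      rw [h3, hsq]
      ring
    rw [h2, le_div_iff₀ hD0]
    exact h
  refine ⟨a, ha0, ha1, ?_, ?_, ?_⟩
  · rw [hsq]
    exact le_of_eq (mul_div_cancel₀ _ hD0.ne')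
  · have h1 := Deriv_rpow_le_pow (t := 4) (n := r₁) ha0.le ha1 (by linarith only [hL, hLa])
    have h2 : (2 : ℝ) ^ (4 : ℝ) = 16 := by
      have h3 : (2 : ℝ) ^ (4 : ℝ) = 2 ^ (4 : ℕ) := Real.rpow_natCast 2 4
      rw [h3]
      norm_num
    rwa [h2] at h1
  · have h1 := Deriv_rpow_le_pow (t := L) (n := r₁ * 2) ha0.le ha1 (by
      push_cast
      linarith only [hLa])
    rwa [pow_mul] at h1

/-- the cutoff radius and the lower bound of the margin -/
private theorem Deriv_cut (hP : P.Good E) (hox : E.d x o ≤ P.N) :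
    ∃ (r₁ : ℕ) (m₁ : ℝ), 8 ≤ r₁ ∧ P.κ ≤ m₁ ∧ m₁ ≤ 1 ∧
      P.L ^ 2 * E.D ≤ 6 / 5 * m₁ * (r₁ : ℝ) ^ 2 ∧
      (∀ v, E.d x v ≤ P.N → E.d o v ≤ r₁ →
        m₁ ≤ P.κ + if E.d o v ≤ P.R then fx P E x v / 2 else 0) ∧
      (fx P E x o < P.fs → max (fx P E x o) P.κ ≤ 800 * m₁) ∧
      (P.fs ≤ fx P E x o → P.fs ≤ 800 * m₁) := by
  have hκ := hP.κ_pos
  have hκ' := hP.κ_le'
  have hc := hP.c_pos
  have hD := hP.D_ge
  have hR0 : (1 : ℝ) ≤ P.R0 := by exact_mod_cast hP.R0_pos
  have hR0c := hP.R0_c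
  have hfs1 := hP.fs_le
  have hfs0 := hP.fs_pos
  have hL := hP.L_ge
  have hD0 : 0 ≤ E.D := by linarith only [hD]
  have hsD : Real.sqrt E.D ^ 2 = E.D := Real.sq_sqrt hD0
  have hsD0 : 0 ≤ Real.sqrt E.D := Real.sqrt_nonneg _
  have hLR : P.L ^ 2 * E.D ≤ (P.R0 : ℝ) ^ 2 := by
    have h := pow_le_pow_left₀ (by (clear * - hL hD; positivity)) hP.hLR 2
    rwa [mul_pow, hsD] at h
  have hLc : 4 * (P.L ^ 2 * E.D) ≤ P.c ^ 2 := by
    have h := pow_le_pow_left₀ (by positivity) hP.hLc 2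
    rw [mul_pow, mul_pow, hsD] at h
    linarith only [h]
  obtain ⟨n, hn⟩ : ∃ n : ℕ, n = P.N + 1 - E.d x o := ⟨_, rfl⟩
  have hn1 : 1 ≤ n := by omega
  have hnR : (n : ℝ) = (P.N : ℝ) + 1 - (E.d x o : ℝ) := by
    have h : n + E.d x o = P.N + 1 := by omega
    have h' : (n : ℝ) + (E.d x o : ℝ) = (P.N : ℝ) + 1 := by exact_mod_cast h
    linarith only [h']
  have hn1R : (1 : ℝ) ≤ n := by exact_mod_cast hn1
  have hfo : fx P E x o = (P.c / n) ^ 2 := by
    unfold fx
    rw [hnR]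
  have hfo0 : 0 ≤ fx P E x o := sq_nonneg _
  by_cases hcase : 9 * n + P.R0 ≤ P.R
  · -- case 1
    obtain ⟨t, ht⟩ : ∃ t : ℝ, t = n + ((9 * n + P.R0 : ℕ) : ℝ) := ⟨_, rfl⟩
    have ht' : t = 10 * n + P.R0 := by
      rw [ht]
      push_cast
      ring
    have ht0 : 0 < t := by rw [ht']; (clear * - hn1 hR0; positivity)
    refine ⟨9 * n + P.R0, max P.κ (min (1 / 2 * (P.c / t) ^ 2) 1), by omega, le_max_left _ _,
      max_le (by linarith only [hκ']) (min_le_right _ _), ?_, ?_, ?_, ?_⟩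
    · -- growth
      have hr1 : ((9 * n + P.R0 : ℕ) : ℝ) = 9 * n + P.R0 := by push_cast; ring
      rw [hr1]
      have hsq0 : (0 : ℝ) ≤ (9 * n + P.R0) ^ 2 := by (clear * - hn1 hR0; positivity)
      rcases min_choice (1 / 2 * (P.c / t) ^ 2) 1 with h | h
      · have h1 : 1 / 2 * (P.c / t) ^ 2 ≤ max P.κ (min (1 / 2 * (P.c / t) ^ 2) 1) := by
          rw [h]
          exact le_max_right _ _
        have h2 : 9 / 10 ≤ (9 * n + P.R0) / t := by
          rw [le_div_iff₀ ht0, ht']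
          linarith only []
        have h3 : (9 / 10 : ℝ) ^ 2 ≤ ((9 * n + P.R0) / t) ^ 2 :=
          pow_le_pow_left₀ (by norm_num) h2 2
        have hc2 : 0 ≤ P.c ^ 2 := by positivity
        calc P.L ^ 2 * E.D ≤ 6 / 5 * (1 / 2) * P.c ^ 2 * (9 / 10) ^ 2 := by
              have : 0 ≤ P.L ^ 2 * E.D := by positivity
              linarith only [hLc, hc2]
          _ ≤ 6 / 5 * (1 / 2) * P.c ^ 2 * ((9 * n + P.R0) / t) ^ 2 :=
              mul_le_mul_of_nonneg_left h3 (by positivity)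
          _ = 6 / 5 * (1 / 2 * (P.c / t) ^ 2) * (9 * n + P.R0) ^ 2 := by ring
          _ ≤ 6 / 5 * max P.κ (min (1 / 2 * (P.c / t) ^ 2) 1) * (9 * n + P.R0) ^ 2 := by
              refine mul_le_mul_of_nonneg_right ?_ hsq0
              exact mul_le_mul_of_nonneg_left h1 (by norm_num)
      · have h1 : 1 ≤ max P.κ (min (1 / 2 * (P.c / t) ^ 2) 1) := by
          rw [h]
          exact le_max_right _ _
        have h2 : (P.R0 : ℝ) ^ 2 ≤ (9 * n + P.R0) ^ 2 :=
          pow_le_pow_left₀ (by (clear * - hR0; positivity)) (by linarith only []) 2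
        calc P.L ^ 2 * E.D ≤ (P.R0 : ℝ) ^ 2 := hLR
          _ ≤ 6 / 5 * 1 * (9 * n + P.R0) ^ 2 := by linarith only [hsq0, h2]
          _ ≤ 6 / 5 * max P.κ (min (1 / 2 * (P.c / t) ^ 2) 1) * (9 * n + P.R0) ^ 2 := by
              refine mul_le_mul_of_nonneg_right ?_ hsq0
              exact mul_le_mul_of_nonneg_left h1 (by norm_num)
    · -- lower bound of the margin
      intro v hxv hov
      rw [if_pos (hov.trans hcase)]
      have htri := E.d_tri x v o
      rw [E.d_symm v o] at htri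
      have h1 : (1 : ℝ) ≤ (P.N : ℝ) + 1 - (E.d x v : ℝ) := by
        have : (E.d x v : ℝ) ≤ P.N := by exact_mod_cast hxv
        linarith only [this]
      have h2 : (P.N : ℝ) + 1 - (E.d x v : ℝ) ≤ t := by
        have h3 : (E.d x o : ℝ) ≤ (E.d x v : ℝ) + (E.d o v : ℝ) := by exact_mod_cast htri
        have h4 : (E.d o v : ℝ) ≤ ((9 * n + P.R0 : ℕ) : ℝ) := by exact_mod_cast hov
        rw [ht, hnR]
        linarith only [h3, h4]
      have h3 : (P.c / t) ^ 2 ≤ fx P E x v := by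
        unfold fx
        refine pow_le_pow_left₀ (by (clear * - hc ht0; positivity)) ?_ 2
        exact div_le_div_of_nonneg_left (by linarith only [hR0c]) (by linarith only [h1]) h2
      have h4 : 0 ≤ fx P E x v := sq_nonneg _
      refine max_le (by linarith only [h4]) ((min_le_left _ _).trans ?_)
      linarith only [hκ, h3]
    · -- `f < fs`
      intro hf
      have h10 : (P.R0 : ℝ) ≤ 10 * n := by
        by_contra hcon
        rw [not_le] at hcon
        have h1 : 20 * (n : ℝ) ≤ P.c := by linarith only [hR0c, hcon]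
        have h2 : 20 ≤ P.c / n := by
          rw [le_div_iff₀ (by linarith only [hn1R])]
          exact h1
        have h3 : (20 : ℝ) ^ 2 ≤ (P.c / n) ^ 2 := pow_le_pow_left₀ (by norm_num) h2 2
        rw [hfo] at hf
        linarith only [hfs1, hf, h3]
      have h1 : P.c / (20 * n) ≤ P.c / t :=
        div_le_div_of_nonneg_left (by linarith only [hR0c]) ht0 (by rw [ht']; linarith only [h10])
      have h2 : (P.c / (20 * n)) ^ 2 ≤ (P.c / t) ^ 2 := pow_le_pow_left₀ (by positivity) h1 2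
      have h3 : (P.c / (20 * n)) ^ 2 = fx P E x o / 400 := by
        rw [hfo, div_pow, div_pow]
        field_simp
        ring
      have h4 : fx P E x o / 800 ≤ min (1 / 2 * (P.c / t) ^ 2) 1 := by
        refine le_min ?_ (by linarith only [hfs1, hf])
        rw [h3] at h2
        linarith only [h2]
      have h5 : fx P E x o / 800 ≤ max P.κ (min (1 / 2 * (P.c / t) ^ 2) 1) :=
        h4.trans (le_max_right _ _)
      have h6 : P.κ ≤ max P.κ (min (1 / 2 * (P.c / t) ^ 2) 1) := le_max_left _ _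
      exact max_le (by linarith only [h5]) (by linarith only [hκ, h6])
    · -- `fs ≤ f`
      intro hf
      have h4 : P.fs / 800 ≤ min (1 / 2 * (P.c / t) ^ 2) 1 := by
        refine le_min ?_ (by linarith only [hfs1])
        rcases le_or_gt (P.R0 : ℝ) (10 * n) with h10 | h10
        · have h1 : P.c / (20 * n) ≤ P.c / t :=
            div_le_div_of_nonneg_left (by linarith only [hR0c]) ht0 (by rw [ht']; linarith only [h10])
          have h2 : (P.c / (20 * n)) ^ 2 ≤ (P.c / t) ^ 2 := pow_le_pow_left₀ (by positivity) h1 2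
          have h3 : (P.c / (20 * n)) ^ 2 = fx P E x o / 400 := by
            rw [hfo, div_pow, div_pow]
            field_simp
            ring
          rw [h3] at h2
          linarith only [hf, h2]
        · have h1 : 1 ≤ P.c / t := by
            rw [le_div_iff₀ ht0, ht']
            linarith only [hR0c, h10]
          have h2 : (1 : ℝ) ^ 2 ≤ (P.c / t) ^ 2 := pow_le_pow_left₀ (by norm_num) h1 2
          linarith only [hfs1, h2]
      have h5 : P.fs / 800 ≤ max P.κ (min (1 / 2 * (P.c / t) ^ 2) 1) :=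
        h4.trans (le_max_right _ _)
      linarith only [h5]
  · -- case 2
    have hRp : (10 : ℝ) ≤ P.R := by exact_mod_cast hP.R_pos
    have hR := hP.hR
    have hf5 : fx P E x o < 5 * P.κ := by
      have h1 : P.R < 10 * n := by
        have := hP.R0_le
        (clear * - hn hcase this; omega)
      have h2 : (P.R : ℝ) < 10 * n := by exact_mod_cast h1
      have h3 : (P.R : ℝ) ^ 2 < (10 * n) ^ 2 := pow_lt_pow_left₀ h2 (by linarith only []) (by norm_num)
      rw [hfo, div_pow, div_lt_iff₀ (by positivity)]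
      have h4 : P.κ * (P.R : ℝ) ^ 2 < P.κ * (10 * n) ^ 2 := mul_lt_mul_of_pos_left h3 hκ
      have h5 : P.κ * (10 * (n : ℝ)) ^ 2 = 100 * (P.κ * n ^ 2) := by ring
      have h6 : 5 * P.κ * (n : ℝ) ^ 2 = 5 * (P.κ * n ^ 2) := by ring
      rw [h6]
      linarith only [hR, h4]
    refine ⟨P.R, P.κ, by have := hP.R_pos; omega, le_rfl, by linarith only [hκ'], ?_, ?_, ?_, ?_⟩
    · have h1 : 6 / 5 * P.κ * (P.R : ℝ) ^ 2 = 6 / 5 * (P.κ * (P.R : ℝ) ^ 2) := by ring
      rw [h1]
      have h2 : 0 ≤ P.L ^ 2 * E.D := by positivity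
      linarith only [hLc, hR, h2]
    · intro v _ hov
      rw [if_pos hov]
      have h4 : 0 ≤ fx P E x v := sq_nonneg _
      linarith only [h4]
    · intro _
      exact max_le (by linarith only [hκ, hf5]) (by linarith only [hκ])
    · intro hf
      have := hP.κ_fs
      linarith only [hf5, hf, this]

/-- bound of the derivative of the self energy in the uniform direction -/
theorem deriv_bound (hr : 0 < r) (hP : P.Good E) (hox : o ∈ E.ball P.N x) (hSo : S o = none)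
    (hK : Keep P E (4 * P.κ) P.Λ z S o) (a : Fin r)
    (hZ : sw P E z S o o (-(5 / 2 * P.κ)) a ≤ 48 * P.ζ) :
    Safe E.y (cs S) (fun v => lv P E z S x v - P.κ - P.κ / 4) ((win P E S x).erase o) ∧
    sw P E z S x o (-P.κ - P.κ / 4) a - sw P E z S x o (-P.κ) a ≤ P.M * (P.κ / 4) := by
  obtain ⟨hAl, hTh⟩ := hK
  have hκ := hP.κ_pos
  have hζ := hP.ζ_pos
  have hκζ := hP.κ_le
  have hD := hP.D_ge
  have hN : P.N ≤ E.rad := by
    have := hP.rad
    omega
  have hdxo : E.d x o ≤ P.N := (E.mem_ball _ hN x o).1 hox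
  have hxo : x ∈ E.ball P.N o := (E.mem_ball _ hN o x).2 (by rw [E.d_symm]; exact hdxo)
  have hoo : o ∈ E.ball P.N o := (E.mem_ball _ hN o o).2 (by rw [E.d_self]; exact Nat.zero_le _)
  have hx := hAl x hxo
  have ho := hAl o hoo
  obtain ⟨tu1, tu2⟩ := trans_up' hr hP hox hSo hx ho a
  have htd : fx P E x o < P.fs → ∀ θ, 29 * max (fx P E x o) P.κ ≤ θ →
      sw P E z S o o θ a ≤ sw P E z S x o (-P.κ) a :=
    fun hf θ hθ => trans_down hr hP hox hSo hx ho a hf hθ
  have hW4 : Safe E.y (cs S) (fun v => lv P E z S x v - 4 * P.κ) ((win P E S x).erase o) :=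
    Safe.subset hx (Finset.erase_subset _ _)
  have hdW : ∀ v ∈ (win P E S x).erase o, E.d x v ≤ P.N := by
    intro v hv
    exact (E.mem_ball _ hN x v).1 (Finset.mem_filter.1 (Finset.mem_of_mem_erase hv)).1
  have hoW : o ∉ (win P E S x).erase o := Finset.notMem_erase _ _
  have hsW : ∀ i ∈ (win P E S x).erase o, cs S i = Function.update (cs S) o (some a) i :=
    fun i hi => (Function.update_of_ne (Finset.ne_of_mem_erase hi) _ _).symm
  have hsafe : ∀ l : α → ℝ, (∀ i ∈ (win P E S x).erase o, lv P E z S x i - 4 * P.κ ≤ l i) →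
      Safe E.y (cs S) l ((win P E S x).erase o) := fun l hl => hW4.mono hr E.herm hl
  obtain ⟨r₁, m₁, hr8, hm1κ, hm11, hgrow, hmar, hlow, hhigh⟩ := Deriv_cut hP hdxo
  have hm10 : 0 < m₁ := lt_of_lt_of_le hκ hm1κ
  obtain ⟨b, hb0, hb1, hb2, hb16, hbL⟩ := Deriv_rate hD hP.L_ge hm10 hm11 hgrow
  have hThθ := hTh a
  obtain ⟨W, hW⟩ : ∃ W, W = (win P E S x).erase o := ⟨_, rfl⟩
  obtain ⟨s, hs⟩ : ∃ s, s = Function.update (cs S) o (some a) := ⟨_, rfl⟩
  have hswx : ∀ c, sw P E z S x o c a = sg E.y s o (fun v => lv P E z S x v + c) W := by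
    intro c
    rw [hs, hW]
    rfl
  rw [← hW] at hdW hoW hsW hsafe tu1 tu2
  rw [← hs] at hsW tu2
  have hsafe' : ∀ l : α → ℝ, (∀ i ∈ W, lv P E z S x i - 4 * P.κ ≤ l i) →
      Safe E.y s l W := fun l hl => (hsafe l hl).congr hsW (fun _ _ => rfl)
  have tu1' := tu1.congr hsW (fun _ _ => rfl)
  -- base levels
  obtain ⟨ls, hls⟩ : ∃ ls : α → ℝ, ls = fun v => lv P E z S x v - P.κ := ⟨_, rfl⟩
  have hlsv : ∀ v, ls v = lv P E z S x v - P.κ := fun v => by rw [hls]
  obtain ⟨m, hm⟩ : ∃ m : α → ℝ, m = fun v => P.κ + if E.d o v ≤ P.R then fx P E x v / 2 else 0 :=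
    ⟨_, rfl⟩
  have hmv : ∀ v, m v = P.κ + if E.d o v ≤ P.R then fx P E x v / 2 else 0 := fun v => by rw [hm]
  have hmκ : ∀ v, P.κ ≤ m v := by
    intro v
    rw [hmv]
    have h4 : 0 ≤ fx P E x v := sq_nonneg _
    split_ifs
    · linarith only [h4]
    · linarith only []
  have efm : (fun v => lv P E z S x v - P.κ -
      (P.κ + if E.d o v ≤ P.R then fx P E x v / 2 else 0)) = fun v => ls v - m v := by
    funext v
    rw [hlsv, hmv]
  rw [efm] at tu1' tu2
  have e0 : sw P E z S x o (-P.κ) a = sg E.y s o ls W := by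
    rw [hswx, hls]
    simp only [sub_eq_add_neg]
  have e1 : sw P E z S x o (-P.κ - P.κ / 4) a = sg E.y s o (fun v => ls v - P.κ / 4) W := by
    rw [hswx]
    congr 1
    funext v
    rw [hlsv]
    ring
  have hSls : Safe E.y s ls W := hsafe' _ fun v _ => by rw [hlsv]; linarith only [hκ]
  have hSlsκ : Safe E.y s (fun v => ls v - P.κ) W := hsafe' _ fun v _ => by
    simp only [hlsv]
    linarith only [hκ]
  have hnn : 0 ≤ sg E.y s o ls W := sg_nonneg hr E.herm E.zd hoW hSls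
  have hup : sg E.y s o (fun v => ls v - m v) W ≤ 48 * P.ζ := tu2.trans hZ
  have hκup : sg E.y s o (fun v => ls v - P.κ) W ≤ 48 * P.ζ := by
    refine (sg_anti hr E.herm hoW tu1' ?_).trans hup
    intro v _
    have := hmκ v
    linarith only [this]
  have hDif : sg E.y s o (fun v => ls v - m v) W - sg E.y s o ls W ≤
      (46400 * P.Λ + 38400 * P.ζ / P.fs) * m₁ := by
    have hΛ := hP.Λ_ge
    have hfs0 := hP.fs_pos
    have hfnn : 0 ≤ fx P E x o := sq_nonneg _
    rcases lt_or_ge (fx P E x o) P.fs with hf | hf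
    · obtain ⟨θ, hθ, hθ1, hθ2⟩ := hP.Θ_mem _ hfnn hf
      have h1 := htd hf θ hθ1
      have h2 := hThθ θ hθ
      rw [e0] at h1
      have h3 := hlow hf
      have h4 : P.Λ * θ ≤ P.Λ * (46400 * m₁) :=
        mul_le_mul_of_nonneg_left (by linarith only [hθ2, h3]) (by linarith only [hΛ])
      have h5 : 0 ≤ 38400 * P.ζ / P.fs * m₁ := by (clear * - hζ hfs0 hm10; positivity)
      have h6 : (46400 * P.Λ + 38400 * P.ζ / P.fs) * m₁ =
          P.Λ * (46400 * m₁) + 38400 * P.ζ / P.fs * m₁ := by ring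
      rw [h6]
      linarith only [tu2, h1, h2, h4, h5]
    · have h3 := hhigh hf
      have h4 : 48 * P.ζ ≤ 38400 * P.ζ / P.fs * m₁ := by
        rw [div_mul_eq_mul_div, le_div_iff₀ hfs0]
        have h5 := mul_le_mul_of_nonneg_left h3 (show 0 ≤ 48 * P.ζ by positivity)
        linarith only [h5]
      have h5 : 0 ≤ 46400 * P.Λ * m₁ := by (clear * - hΛ hm10; positivity)
      have h6 : (46400 * P.Λ + 38400 * P.ζ / P.fs) * m₁ =
          46400 * P.Λ * m₁ + 38400 * P.ζ / P.fs * m₁ := by ring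
      rw [h6]
      linarith only [h5, h4, hnn, tu2, hZ]
  -- far part
  obtain ⟨t, ht⟩ : ∃ t, t = P.κ / (96 * P.ζ) := ⟨_, rfl⟩
  have ht0 : 0 < t := by rw [ht]; positivity
  have ht1 : t ≤ 1 := by
    rw [ht, div_le_one (by positivity)]
    linarith only [hκ, hκζ]
  have htκ : t * P.κ ≤ P.κ := by
    have := mul_le_mul_of_nonneg_right ht1 hκ.le
    linarith only [this]
  have hε : sg E.y s o (fun v => ls v - t * P.κ) W ≤ sg E.y s o ls W + P.κ / 2 := by
    have h1 := sg_conv hr E.herm hoW hSls hSlsκ ht0.le ht1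
    have h2 : (fun i => (1 - t) * ls i + t * (ls i - P.κ)) = fun v => ls v - t * P.κ := by
      funext v
      ring
    rw [h2] at h1
    have h3 : t * sg E.y s o (fun v => ls v - P.κ) W ≤ t * (48 * P.ζ) :=
      mul_le_mul_of_nonneg_left hκup ht0.le
    have h4 : t * (48 * P.ζ) = P.κ / 2 := by
      rw [ht]
      field_simp
      norm_num
    have h5 : 0 ≤ t * sg E.y s o ls W := mul_nonneg ht0.le hnn
    linarith only [h5, h4, h3, h1]
  have hdec := decay hr E.herm E.zd hoW (ρ := fun v => E.d o v) (E.d_self o)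
    (fun k v _ h => E.edge k o v h)
    (fun k v _ w _ h => by
      have h1 := E.edge k v w h
      have h2 := E.d_tri o v w
      have h3 := E.d_tri o w v
      rw [E.d_symm w v] at h3
      (clear * - h1 h2 h3; omega))
    hD (fun k v _ => E.row k v W) (fun v _ => lt_of_lt_of_le hκ (hmκ v)) tu1' hm10 hm11 hr8
    (fun v hv hv' => by
      rw [hmv]
      exact hmar v (hdW v hv) hv')
    hb0 hb1 hb2 hb16 (ε := t * P.κ)
    (by
      have h1 : 0 < ((1 + b) ^ r₁) ^ 2 := by (clear * - hb0; positivity)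
      rw [div_le_iff₀ h1]
      have h2 := hP.hL
      have h3 : 250 * (E.D + 1) ≤ t * P.κ * 2 ^ P.L := by
        have h4 : t * P.κ * 2 ^ P.L = P.κ ^ 2 * 2 ^ P.L / (96 * P.ζ) := by
          rw [ht]
          ring
        rw [h4, le_div_iff₀ (by positivity)]
        exact h2
      exact h3.trans (mul_le_mul_of_nonneg_left hbL (by (clear * - ht0 hκ; positivity))))
    (hsafe' _ fun v _ => by
      rw [hlsv]
      linarith only [hκ, htκ])
  have hSfar : Safe E.y s (fun v => ls v - if r₁ ≤ E.d o v then P.κ / 2 else 0) W :=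
    hsafe' _ fun v _ => by
      simp only [hlsv]
      split_ifs <;> linarith only [hκ]
  have hSnear : Safe E.y s (fun v => ls v - if r₁ ≤ E.d o v then 0 else P.κ / 2) W :=
    hsafe' _ fun v _ => by
      simp only [hlsv]
      split_ifs <;> linarith only [hκ]
  have hfar : sg E.y s o (fun v => ls v - if r₁ ≤ E.d o v then P.κ / 2 else 0) W ≤
      sg E.y s o ls W + P.κ / 2 := by
    refine (sg_anti hr E.herm hoW hdec.1 ?_).trans (hdec.2.trans hε)
    intro v _
    have h1 := hmκ v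
    split_ifs <;> linarith only [h1]
  -- near part
  have hnear : sg E.y s o (fun v => ls v - if r₁ ≤ E.d o v then 0 else P.κ / 2) W ≤
      sg E.y s o ls W + P.κ / 2 * (46400 * P.Λ + 38400 * P.ζ / P.fs) := by
    obtain ⟨u, hu⟩ : ∃ u, u = P.κ / (2 * m₁) := ⟨_, rfl⟩
    have hu0 : 0 < u := by rw [hu]; (clear * - hκ hm10; positivity)
    have hum : u * m₁ = P.κ / 2 := by
      rw [hu]
      (clear * - hm10 hκ; field_simp)
    have hu1 : u ≤ 1 := by
      rw [hu, div_le_one (by positivity)]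
      linarith only [hκ, hm1κ]
    have h1 := sg_conv hr E.herm hoW hSls tu1' hu0.le hu1
    have h2 : sg E.y s o (fun v => ls v - if r₁ ≤ E.d o v then 0 else P.κ / 2) W ≤
        sg E.y s o (fun i => (1 - u) * ls i + u * (ls i - m i)) W := by
      refine sg_anti hr E.herm hoW ?_ ?_
      · refine tu1'.mono hr E.herm fun v _ => ?_
        have h3 : u * m v ≤ 1 * m v :=
          mul_le_mul_of_nonneg_right hu1 (hκ.le.trans (hmκ v))
        linarith only [h3]
      · intro v hv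
        have h3 : u * P.κ ≤ u * m v := mul_le_mul_of_nonneg_left (hmκ v) hu0.le
        have h4 : 0 ≤ u * P.κ := by (clear * - hu0 hκ; positivity)
        split_ifs with h5
        · linarith only [h3, h4]
        · have h6 : m₁ ≤ m v := by
            rw [hmv]
            exact hmar v (hdW v hv) (by (clear * - h5; omega))
          have h7 : u * m₁ ≤ u * m v := mul_le_mul_of_nonneg_left h6 hu0.le
          linarith only [h7, hum]
    have h3 : u * (sg E.y s o (fun v => ls v - m v) W - sg E.y s o ls W) ≤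
        u * ((46400 * P.Λ + 38400 * P.ζ / P.fs) * m₁) := mul_le_mul_of_nonneg_left hDif hu0.le
    have h4 : u * ((46400 * P.Λ + 38400 * P.ζ / P.fs) * m₁) =
        P.κ / 2 * (46400 * P.Λ + 38400 * P.ζ / P.fs) := by
      rw [← hum]
      ring
    linarith only [h4, h3, h2, h1]
  rw [← hW]
  refine ⟨hsafe (fun v => lv P E z S x v - P.κ - P.κ / 4) fun v _ => by linarith only [hκ], ?_⟩
  rw [e0, e1]
  have hc := sg_conv hr E.herm hoW hSnear hSfar (t := 1 / 2) (by norm_num) (by norm_num)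
  have hce : (fun i => (1 - 1 / 2 : ℝ) * (ls i - if r₁ ≤ E.d o i then 0 else P.κ / 2) +
      1 / 2 * (ls i - if r₁ ≤ E.d o i then P.κ / 2 else 0)) = fun v => ls v - P.κ / 4 := by
    funext v
    split_ifs <;> ring
  rw [hce] at hc
  have hM := mul_le_mul_of_nonneg_right hP.hM (show 0 ≤ P.κ / 4 by positivity)
  linarith only [hfar, hnear, hc, hM]

end Vale.Agent.P078.TX
end

section
/-! T3-E: the process. -/

namespace Vale.Agent.P078.TX

open Finset Polynomial
open Vale.Agent.P078.C (qf yc)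

variable {α : Type*} [DecidableEq α] {r m ν : ℕ}

/-- a selection rule -/
structure Rule (α : Type*) (r : ℕ) where
  /-- is `o` kept (otherwise it is deleted) at time `t` in the state `S`? -/
  keep : ℕ → (α → St r) → α → Prop
  /-- allowed colours -/
  allow : ℕ → (α → St r) → α → Finset (Fin r)
  /-- choice of a colour, using a random permutation -/
  pick : α → Equiv.Perm (Fin r) → Finset (Fin r) → Fin r

structure Rule.Valid (𝓡 : Rule α r) (P : Par) (E : Env ν α) : Prop where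
  weak : ∀ t < P.T, ∀ S o, S o = none → 𝓡.keep t S o →
    Keep P E (4 * P.κ) P.Λ (P.zt t) S o ∧ Keep P E.neg (4 * P.κ) P.Λ (P.zt t) S o
  strong : ∀ t < P.T, ∀ S o, S o = none → Keep P E (5 * P.κ) (P.Λ / 2) (P.zt t) S o →
    Keep P E.neg (5 * P.κ) (P.Λ / 2) (P.zt t) S o → 𝓡.keep t S o
  allow_weak : ∀ t < P.T, ∀ S o, S o = none → 𝓡.keep t S o → ∀ a ∈ 𝓡.allow t S o,
    sw P E (P.zt t) S o o 0 a ≤ 6 * P.zt t ∧ sw P E.neg (P.zt t) S o o 0 a ≤ 6 * P.zt t
  allow_strong : ∀ t < P.T, ∀ S o, S o = none → 𝓡.keep t S o → ∀ a,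
    sw P E (P.zt t) S o o 0 a ≤ 5 * P.zt t → sw P E.neg (P.zt t) S o o 0 a ≤ 5 * P.zt t →
    a ∈ 𝓡.allow t S o
  pick_mem : ∀ o π (O : Finset (Fin r)), O.Nonempty → 𝓡.pick o π O ∈ O
  pick_unif : ∀ o (O : Finset (Fin r)), ∀ a ∈ O, ∀ b ∈ O,
    (Finset.univ.filter fun π => 𝓡.pick o π O = a).card =
      (Finset.univ.filter fun π => 𝓡.pick o π O = b).card

open Classical in
/-- one step: the classes with time `t` are processed -/
noncomputable def step (P : Par) (E : Env ν α) (𝓡 : Rule α r) (cls : α → Fin m) (τ : Fin m → ℕ)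
    (ρ : Fin m → Equiv.Perm (Fin r)) (t : ℕ) (S : α → St r) : α → St r := fun v =>
  if S v = none ∧ τ (cls v) = t then
    if (∃ w ∈ E.ball (2 * P.N) v, w ≠ v ∧ τ (cls w) = t) ∨ ¬ 𝓡.keep t S v then some none
    else some (some (𝓡.pick v (ρ (cls v)) (𝓡.allow t S v)))
  else S v

/-- the state before the step `t` -/
noncomputable def run (P : Par) (E : Env ν α) (𝓡 : Rule α r) (cls : α → Fin m) (τ : Fin m → ℕ)
    (ρ : Fin m → Equiv.Perm (Fin r)) : ℕ → α → St r
  | 0 => fun _ => none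
  | t + 1 => step P E 𝓡 cls τ ρ t (run P E 𝓡 cls τ ρ t)

/-- classes are sparse -/
def SparseCls (P : Par) (E : Env ν α) (cls : α → Fin m) : Prop :=
  ∀ v w, v ≠ w → cls v = cls w → 2 * P.N < E.d v w

/-- the undecided system is safe -/
def Ini (P : Par) (E : Env ν α) (r : ℕ) : Prop :=
  ∀ W : Finset α, Safe E.y (fun _ => (none : Option (Fin r))) (fun _ => 2 / 3 * P.ζ) W

variable {P : Par} {E : Env ν α} {𝓡 : Rule α r} {cls : α → Fin m} {τ τ' : Fin m → ℕ}
variable {ρ ρ' : Fin m → Equiv.Perm (Fin r)} {t : ℕ} {x v : α}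

theorem run_none_iff : run P E 𝓡 cls τ ρ t v = none ↔ t ≤ τ (cls v) := by
  induction t with
  | zero => simp only [run, zero_le]
  | succ t ih =>
    simp only [run, step]
    by_cases h : run P E 𝓡 cls τ ρ t v = none ∧ τ (cls v) = t
    · rw [if_pos h]
      have h1 : ¬ t + 1 ≤ τ (cls v) := by have := h.2; omega
      split_ifs <;> simp [h1]
    · rw [if_neg h, ih]
      constructor
      · intro h1
        have h2 : τ (cls v) ≠ t := fun h2 => h ⟨ih.2 h1, h2⟩
        omega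
      · intro h1
        omega

/-- the state at time `t` depends only on the classes already processed -/
theorem run_congr (h : ∀ j, (τ j = τ' j ∧ ρ j = ρ' j) ∨ (t ≤ τ j ∧ t ≤ τ' j)) :
    run P E 𝓡 cls τ ρ t = run P E 𝓡 cls τ' ρ' t := by
  induction t with
  | zero => rfl
  | succ t ih =>
    have h' : ∀ j, (τ j = τ' j ∧ ρ j = ρ' j) ∨ (t ≤ τ j ∧ t ≤ τ' j) := by
      intro j
      rcases h j with h1 | h1
      · exact Or.inl h1
      · exact Or.inr ⟨by omega, by omega⟩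
    have e := ih h'
    have hτ : ∀ j, τ j = t ↔ τ' j = t := by
      intro j
      rcases h j with h1 | h1
      · rw [h1.1]
      · constructor <;> intro h2 <;> omega
    funext v
    simp only [run, step, e, hτ]
    by_cases hc : run P E 𝓡 cls τ' ρ' t v = none ∧ τ' (cls v) = t
    · rw [if_pos hc, if_pos hc]
      rcases h (cls v) with h1 | h1
      · rw [h1.2]
        have hiff : ((∃ w ∈ E.ball (2 * P.N) v, w ≠ v ∧ τ (cls w) = t) ∨
            ¬ 𝓡.keep t (run P E 𝓡 cls τ ρ t) v) ↔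
            ((∃ w ∈ E.ball (2 * P.N) v, w ≠ v ∧ τ' (cls w) = t) ∨
            ¬ 𝓡.keep t (run P E 𝓡 cls τ' ρ' t) v) := by
          rw [e]
          simp only [hτ]
        by_cases hq : (∃ w ∈ E.ball (2 * P.N) v, w ≠ v ∧ τ' (cls w) = t) ∨
            ¬ 𝓡.keep t (run P E 𝓡 cls τ' ρ' t) v
        · rw [if_pos hq, if_pos (hiff.2 hq)]
        · rw [if_neg hq, if_neg fun hq' => hq (hiff.1 hq')]
      · have := hc.2
        omega
    · rw [if_neg hc, if_neg hc]

/-- in every window a step is either a deletion or the decision of one point -/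
theorem step_cases (hsp : SparseCls P E cls) (hrad : 2 * P.N ≤ E.rad) (x : α) (t : ℕ) :
    (∀ v ∈ win P E (run P E 𝓡 cls τ ρ t) x,
      run P E 𝓡 cls τ ρ (t + 1) v = run P E 𝓡 cls τ ρ t v ∨
      run P E 𝓡 cls τ ρ (t + 1) v = some none) ∨
    ∃ o ∈ win P E (run P E 𝓡 cls τ ρ t) x, run P E 𝓡 cls τ ρ t o = none ∧ τ (cls o) = t ∧
      𝓡.keep t (run P E 𝓡 cls τ ρ t) o ∧
      ∀ ρ' : Fin m → Equiv.Perm (Fin r), (∀ j, j ≠ cls o → ρ' j = ρ j) →
        run P E 𝓡 cls τ ρ' t = run P E 𝓡 cls τ ρ t ∧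
        run P E 𝓡 cls τ ρ' (t + 1) o =
          some (some (𝓡.pick o (ρ' (cls o)) (𝓡.allow t (run P E 𝓡 cls τ ρ t) o))) ∧
        ∀ v ∈ win P E (run P E 𝓡 cls τ ρ t) x, v ≠ o →
          run P E 𝓡 cls τ ρ' (t + 1) v = run P E 𝓡 cls τ ρ t v := by
  classical
  by_cases hA : ∀ v ∈ win P E (run P E 𝓡 cls τ ρ t) x,
      run P E 𝓡 cls τ ρ t v = none ∧ τ (cls v) = t →
      (∃ w ∈ E.ball (2 * P.N) v, w ≠ v ∧ τ (cls w) = t) ∨ ¬ 𝓡.keep t (run P E 𝓡 cls τ ρ t) v
  · left
    intro v hv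
    by_cases hc : run P E 𝓡 cls τ ρ t v = none ∧ τ (cls v) = t
    · right
      change step P E 𝓡 cls τ ρ t (run P E 𝓡 cls τ ρ t) v = some none
      rw [step, if_pos hc, if_pos (hA v hv hc)]
    · left
      change step P E 𝓡 cls τ ρ t (run P E 𝓡 cls τ ρ t) v = _
      rw [step, if_neg hc]
  · right
    push Not at hA
    obtain ⟨o, ho, ⟨ho1, ho2⟩, ho3, ho4⟩ := hA
    refine ⟨o, ho, ho1, ho2, ho4, fun ρ' hρ => ?_⟩
    have e : run P E 𝓡 cls τ ρ' t = run P E 𝓡 cls τ ρ t := by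
      refine run_congr fun j => ?_
      by_cases hj : j = cls o
      · right
        rw [hj, ho2]
        exact ⟨le_rfl, le_rfl⟩
      · exact Or.inl ⟨rfl, hρ j hj⟩
    refine ⟨e, ?_, fun v hv hvo => ?_⟩
    · change step P E 𝓡 cls τ ρ' t (run P E 𝓡 cls τ ρ' t) o = _
      rw [e, step, if_pos ⟨ho1, ho2⟩, if_neg]
      rintro (⟨w, hw, hwo, hwt⟩ | h2)
      · exact ho3 w hw hwo hwt
      · exact h2 ho4
    · change step P E 𝓡 cls τ ρ' t (run P E 𝓡 cls τ ρ' t) v = _
      rw [e, step, if_neg]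
      rintro ⟨-, hvt⟩
      refine ho3 v ?_ hvo hvt
      have hN : P.N ≤ E.rad := by omega
      have h1 : E.d x o ≤ P.N := (E.mem_ball _ hN x o).1 (Finset.mem_filter.1 ho).1
      have h2 : E.d x v ≤ P.N := (E.mem_ball _ hN x v).1 (Finset.mem_filter.1 hv).1
      rw [E.mem_ball _ hrad]
      have h3 := E.d_tri o x v
      have h4 := E.d_symm o x
      (clear * - h1 h2 h3 h4; omega)

end Vale.Agent.P078.TX
end

section
/-! T3-E5: all windows stay safe. -/

namespace Vale.Agent.P078.TX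

open Finset Polynomial
open Vale.Agent.P078.C (qf yc)

variable {α : Type*} [DecidableEq α] {r m ν : ℕ}
variable {P : Par} {E : Env ν α} {𝓡 : Rule α r} {cls : α → Fin m} {τ : Fin m → ℕ}
variable {ρ : Fin m → Equiv.Perm (Fin r)} {t : ℕ} {x v : α}

/-- monotonicity of `Alive` in the base level, the margin and under deletions -/
private theorem alive_mono_inv (hr : 0 < r) {S S' : α → St r} {z z' b b' : ℝ}
    (h : Alive P E z S b x) (hz : z ≤ z') (hb : b' ≤ b)
    (hS : ∀ v ∈ E.ball P.N x, S' v = S v ∨ S' v = some none) : Alive P E z' S' b' x := by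
  have hsub : win P E S' x ⊆ win P E S x := by
    intro v hv
    rw [win, mem_filter] at hv ⊢
    rcases hS v hv.1 with h1 | h1
    · exact ⟨hv.1, h1 ▸ hv.2⟩
    · exact absurd h1 hv.2
  have heq : ∀ v ∈ win P E S' x, S' v = S v := by
    intro v hv
    rw [win, mem_filter] at hv
    exact (hS v hv.1).resolve_right hv.2
  unfold Alive at h ⊢
  refine Safe.mono hr E.herm ((h.subset hsub).congr (s' := cs S')
    (l' := fun v => lv P E z S x v - b) (fun i hi => ?_) (fun i _ => rfl)) (fun i hi => ?_)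
  · rw [cs, cs, heq i hi]
  · simp only [lv, heq i hi]
    linarith only [hz, hb]

/-- all windows stay safe with margin `κ` -/
theorem inv (hr : 0 < r) (hP : P.Good E) (hPn : P.Good E.neg) (h𝓡 : 𝓡.Valid P E)
    (hsp : SparseCls P E cls) (hi : Ini P E r) (t : ℕ) (ht : t ≤ P.T) (x : α) :
    Alive P E (P.zt t) (run P E 𝓡 cls τ ρ t) P.κ x := by
  have hT : (0 : ℝ) < P.T := by exact_mod_cast hP.T_pos
  have hzt : ∀ s : ℕ, s ≤ P.T → P.ζ ≤ P.zt s ∧ P.zt s ≤ 2 * P.ζ := by
    intro s hs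
    have h1 : (s : ℝ) / P.T ≤ 1 := by
      rw [div_le_one hT]
      exact_mod_cast hs
    have h0 : 0 ≤ (s : ℝ) / P.T := by (clear * - hT; positivity)
    have hζ := hP.ζ_pos
    unfold Par.zt
    constructor
    · nlinarith only [h0, hζ]
    · linarith [mul_nonneg (sub_nonneg.2 h1) (le_of_lt (sub_pos.2 hζ))]
  induction t generalizing x with
  | zero =>
    unfold Alive
    refine Safe.mono hr E.herm ((hi (win P E (run P E 𝓡 cls τ ρ 0) x)).congr
      (s' := cs (run P E 𝓡 cls τ ρ 0)) (l' := fun _ => 2 / 3 * P.ζ) (fun i _ => rfl)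
      (fun i _ => rfl)) (fun i _ => ?_)
    have h0 : run P E 𝓡 cls τ ρ 0 i = none := rfl
    have h1 := hP.κ_le
    have h2 : 0 ≤ fx P E x i := sq_nonneg _
    have h3 := (hzt 0 (Nat.zero_le _)).1
    have h4 := hP.ζ_pos
    simp only [lv, h0, if_true]
    linarith only [h1, h2, h3, h4]
  | succ t ih =>
    have htT : t < P.T := ht
    have hzz : P.zt t ≤ P.zt (t + 1) := by
      unfold Par.zt
      have hζ := hP.ζ_pos
      have h1 : (t : ℝ) / P.T ≤ ((t + 1 : ℕ) : ℝ) / P.T := by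
        apply div_le_div_of_nonneg_right _ hT.le
        push_cast
        linarith only []
      linarith only [mul_nonneg (le_of_lt (sub_pos.2 hζ)) (sub_nonneg.2 h1)]
    have hdel : ∀ v, run P E 𝓡 cls τ ρ t v = some none →
        run P E 𝓡 cls τ ρ (t + 1) v = some none := by
      intro v hv
      change step P E 𝓡 cls τ ρ t (run P E 𝓡 cls τ ρ t) v = some none
      rw [step, if_neg (by rintro ⟨h1, _⟩; rw [hv] at h1; cases h1), hv]
    rcases step_cases (τ := τ) (ρ := ρ) (𝓡 := 𝓡) hsp hP.rad x t with h | h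
    · refine alive_mono_inv hr (ih htT.le x) hzz le_rfl (fun v hv => ?_)
      by_cases hv1 : run P E 𝓡 cls τ ρ t v = some none
      · exact Or.inr (hdel v hv1)
      · exact h v (by rw [win, mem_filter]; exact ⟨hv, hv1⟩)
    · obtain ⟨o, ho, hSo, -, hk, h1⟩ := h
      obtain ⟨-, h2, h3⟩ := h1 ρ (fun _ _ => rfl)
      have hN : P.N ≤ E.rad := by have := hP.rad; omega
      have hox : o ∈ E.ball P.N x := by rw [win, mem_filter] at ho; exact ho.1
      have hxo : x ∈ E.ball P.N o := by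
        rw [E.mem_ball _ hN] at hox ⊢
        rwa [E.d_symm]
      have hoo : o ∈ E.ball P.N o := by
        rw [E.mem_ball _ hN, E.d_self]
        exact Nat.zero_le _
      obtain ⟨hw1, hw2⟩ := h𝓡.weak t htT _ o hSo hk
      obtain ⟨hz1, hz2⟩ := hzt t htT.le
      have hcard := card_allow hr hP hPn hz1 hSo (hw1.1 o hoo) (hw2.1 o hoo)
        (𝓡.allow t (run P E 𝓡 cls τ ρ t) o) (fun a ha ha' => h𝓡.allow_strong t htT _ o hSo hk a ha ha')
      have hne : (𝓡.allow t (run P E 𝓡 cls τ ρ t) o).Nonempty := by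
        rw [← card_pos]
        omega
      have hmem := h𝓡.pick_mem o (ρ (cls o)) _ hne
      have ha := (h𝓡.allow_weak t htT _ o hSo hk _ hmem).1
      have hal := alive_update hr hP hz1 hz2 hSo hox (hw1.1 x hxo) (hw1.1 o hoo) ha
      have hκ := hP.κ_pos
      refine alive_mono_inv hr hal hzz (by linarith only [hκ]) (fun v hv => ?_)
      by_cases hvo : v = o
      · subst hvo
        left
        rw [h2, Function.update_self]
      · rw [Function.update_of_ne hvo]
        by_cases hv1 : run P E 𝓡 cls τ ρ t v = some none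
        · exact Or.inr (hdel v hv1)
        · exact Or.inl (h3 v (by rw [win, mem_filter]; exact ⟨hv, hv1⟩) hvo)

end Vale.Agent.P078.TX
end
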