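import Vale.Agent.P078.H291.X1
import Vale.Agent.P078.Bdl.B5

set_option linter.all false

section
/-! T3-C1: roots, first properties of the potential `Phi`. -/

namespace Vale.Agent.P078.TX

open Finset Polynomial
open Vale.Agent.P078.C (qf yc)

variable {α : Type*} [DecidableEq α] {r ν : ℕ}
variable {y : Ker ν α} {s : α → Option (Fin r)} {l l' : α → ℝ} {W W' : Finset α} {o : α}

theorem eval_pl (hr : 0 < r) (hy : Herm y) (t : ℝ) :
    (pl y s l W).eval t = q y s (fun i => l i + t) W := by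
  rw [q_add hr hy (fun _ => t), pl, eval_finsetSum]
  refine Finset.sum_congr rfl fun U hU => ?_
  rw [eval_mul, eval_C, eval_pow, eval_X, prod_const, card_sdiff_of_subset (mem_powerset.1 hU),
    mul_comm]

private theorem pl_eq (y : Ker ν α) (s : α → Option (Fin r)) (l : α → ℝ) (W : Finset α) :
    ∃ f : ℝ[X], pl y s l W = X ^ W.card + f ∧ f.degree < W.card := by
  refine ⟨∑ S ∈ W.powerset.erase ∅, Polynomial.C (q y s l S) * X ^ (W.card - S.card), ?_, ?_⟩
  · rw [pl, ← Finset.add_sum_erase _ _ (empty_mem_powerset W)]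
    simp only [q_empty, map_one, card_empty, tsub_zero, one_mul, mem_powerset, empty_subset, sum_erase_eq_sub, add_sub_cancel]
  · refine lt_of_le_of_lt (degree_sum_le _ _) ?_
    rw [Finset.sup_lt_iff (by simpa using WithBot.bot_lt_coe _)]
    intro S hS
    rw [mem_erase, mem_powerset] at hS
    refine lt_of_le_of_lt (degree_C_mul_X_pow_le _ _) ?_
    have h1 : 0 < S.card := Finset.card_pos.2 (Finset.nonempty_iff_ne_empty.2 hS.1)
    have h2 := Finset.card_le_card hS.2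
    exact_mod_cast (by (clear * - h1 h2; omega) : W.card - S.card < W.card)

private theorem monic_pl : (pl y s l W).Monic := by
  obtain ⟨f, h1, h2⟩ := pl_eq y s l W
  rw [h1]
  exact monic_X_pow_add h2

private theorem natDegree_pl : (pl y s l W).natDegree = W.card := by
  obtain ⟨f, h1, h2⟩ := pl_eq y s l W
  rw [h1, add_comm]
  exact natDegree_eq_of_degree_eq_some (by
    rw [degree_add_eq_right_of_degree_lt (by simpa only [degree_pow, degree_X, nsmul_eq_mul, mul_one] using h2), degree_X_pow])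

/-- complex values of `pl` -/
private theorem eval_pl_C (hr : 0 < r) (hy : Herm y) (t : ℂ) :
    ((pl y s l W).map (algebraMap ℝ ℂ)).eval t = Q y s (fun i => (l i : ℂ) + t) W := by
  set P2 : ℂ[X] := ∑ S ∈ W.powerset, (∏ i ∈ W \ S, (Polynomial.C (l i : ℂ) + X)) *
    Polynomial.C (Q y s 0 S) with hP2
  have h2 : ∀ t : ℂ, P2.eval t = Q y s (fun i => (l i : ℂ) + t) W := by
    intro t
    rw [Q_expand hr, hP2, eval_finsetSum]
    refine Finset.sum_congr rfl fun S _ => ?_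
    rw [eval_mul, eval_C, eval_prod]
    congr 1
    refine Finset.prod_congr rfl fun i _ => ?_
    rw [eval_add, eval_C, eval_X]
  have h3 : (pl y s l W).map (algebraMap ℝ ℂ) = P2 := by
    refine Polynomial.eq_of_infinite_eval_eq _ _ ?_
    refine Set.Infinite.mono (s := Set.range (fun t : ℝ => (t : ℂ))) ?_
      (Set.infinite_range_of_injective Complex.ofReal_injective)
    rintro _ ⟨t, rfl⟩
    simp only [Set.mem_setOf_eq]
    rw [h2]
    have h4 : ((pl y s l W).map (algebraMap ℝ ℂ)).eval (t : ℂ) =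
        (((pl y s l W).eval t : ℝ) : ℂ) := by
      have := Polynomial.eval₂_at_apply (p := pl y s l W) (algebraMap ℝ ℂ) t
      rw [eval_map]
      exact this
    rw [h4, eval_pl hr hy, ← q_coe hy]
    congr 1
    funext i
    push_cast
    rfl
  rw [h3, h2]

private theorem root_real (hr : 0 < r) (hy : Herm y) {ζ : ℂ}
    (h : Q y s (fun i => (l i : ℂ) + ζ) W = 0) : ζ.im = 0 := by
  have him : ∀ (ζ : ℂ) (i : α), ((l i : ℂ) + ζ).im = ζ.im := fun ζ i => by simp
  have h1 : ¬ 0 < ζ.im := fun h' => Q_ne_zero hr hy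
    (fun i _ => by rw [him]; exact h') h
  have h2 : ¬ 0 < (star ζ).im := by
    intro h'
    refine Q_ne_zero (s := s) (W := W) hr hy
      (z := fun i => (l i : ℂ) + star ζ) (fun i _ => by rw [him]; exact h') ?_
    have h3 := Q_star (s := s) (W := W) (z := fun i => (l i : ℂ) + ζ) hy
    rw [h, star_zero] at h3
    rw [← h3]
    congr 1
    funext i
    rw [star_add]
    congr 1
    exact (Complex.conj_ofReal _).symm
  rw [Complex.star_def, Complex.conj_im] at h2
  (clear * - h2 h1; linarith [not_lt.1 h1, not_lt.1 h2])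

private theorem pl_prod (hr : 0 < r) (hy : Herm y) :
    pl y s l W = ((pl y s l W).roots.map fun a => X - Polynomial.C a).prod ∧
      Multiset.card (pl y s l W).roots = W.card := by
  set P := (pl y s l W).map (algebraMap ℝ ℂ) with hP
  have hm : P.Monic := monic_pl.map _
  have h1 : P = (P.roots.map fun ζ => X - Polynomial.C ζ).prod := by
    have := (IsAlgClosed.splits P).eq_prod_roots
    rw [hm.leadingCoeff, map_one, one_mul] at this
    exact this
  have hre : ∀ ζ ∈ P.roots, ((ζ.re : ℝ) : ℂ) = ζ := by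
    intro ζ hζ
    have h2 := (mem_roots hm.ne_zero).1 hζ
    rw [IsRoot.def, hP, eval_pl_C hr hy] at h2
    exact Complex.ext (by simp) (by rw [root_real hr hy h2]; simp)
  have h3 : pl y s l W = ((P.roots.map Complex.re).map fun a => X - Polynomial.C a).prod := by
    apply Polynomial.map_injective (algebraMap ℝ ℂ) (algebraMap ℝ ℂ).injective
    rw [← hP, Polynomial.map_multiset_prod, Multiset.map_map, Multiset.map_map]
    conv_lhs => rw [h1]
    congr 1
    refine Multiset.map_congr rfl fun ζ hζ => ?_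
    simp only [Function.comp, Polynomial.map_sub, Polynomial.map_X, Polynomial.map_C]
    congr 2
    exact (hre ζ hζ).symm
  have h4 : (pl y s l W).roots = P.roots.map Complex.re := by
    conv_lhs => rw [h3]
    exact roots_multiset_prod_X_sub_C _
  refine ⟨?_, ?_⟩
  · rw [h4]
    exact h3
  · rw [h4, Multiset.card_map]
    have := splits_iff_card_roots.1 (IsAlgClosed.splits P)
    rw [this, hP, (monic_pl (y := y) (s := s) (l := l) (W := W)).natDegree_map]
    exact natDegree_pl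

theorem card_dst (hr : 0 < r) (hy : Herm y) : Multiset.card (dst y s l W) = W.card := by
  rw [dst, Multiset.card_map, (pl_prod hr hy).2]

private theorem pr_eq (hr : 0 < r) (hy : Herm y) (t : ℂ) :
    Vale.Agent.P078.C.pr (pl y s l W).roots t = Q y s (fun i => (l i : ℂ) + t) W := by
  rw [← eval_pl_C hr hy]
  conv_rhs => rw [(pl_prod hr hy).1]
  rw [Polynomial.map_multiset_prod, eval_multiset_prod, Multiset.map_map, Multiset.map_map,
    Vale.Agent.P078.C.pr]
  congr 1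
  refine Multiset.map_congr rfl fun a _ => ?_
  simp only [Function.comp_apply, Polynomial.map_sub, map_X, map_C, Complex.coe_algebraMap, eval_sub, eval_X, eval_C]

private theorem lt_of_interlace {L K : Multiset ℝ} (hc : Multiset.card L = Multiset.card K + 1)
    (hp : ∀ z : ℂ, 0 < z.im → 0 < (Vale.Agent.P078.C.pr L z / Vale.Agent.P078.C.pr K z).im)
    {u : ℝ} (h : ∀ l ∈ L, l < u) : ∀ l ∈ K, l < u := by
  intro l hl
  by_contra hlu
  push Not at hlu
  have hfin : ((K.toFinset ∪ L.toFinset : Finset ℝ) : Set ℝ).Finite := Finset.finite_toSet _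
  obtain ⟨m, hm1, hm2⟩ : ∃ m, m < l ∧ ∀ k ∈ L, k ≤ m := by
    rcases L.toFinset.eq_empty_or_nonempty with h0 | h0
    · refine ⟨l - 1, by linarith only [], fun k hk => ?_⟩
      have : k ∈ L.toFinset := Multiset.mem_toFinset.2 hk
      rw [h0] at this
      exact absurd this (Finset.notMem_empty _)
    · refine ⟨L.toFinset.max' h0, ?_, fun k hk => Finset.le_max' _ _ (Multiset.mem_toFinset.2 hk)⟩
      exact (h _ (Multiset.mem_toFinset.1 (Finset.max'_mem _ h0))).trans_le hlu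
  obtain ⟨t, ht, htn⟩ : ∃ t ∈ Set.Ioo m l, t ∉ ((K.toFinset ∪ L.toFinset : Finset ℝ) : Set ℝ) := by
    by_contra hcon
    push Not at hcon
    exact (Set.Ioo_infinite hm1) (hfin.subset fun t ht => hcon t ht)
  have htK : t ∉ K := fun h => htn (by simp [h])
  have htL : t ∉ L := fun h => htn (by simp [h])
  have k1 := (Vale.Agent.P078.C.cnt_sub hc hp htL htK).1
  have hL0 : Vale.Agent.P078.C.cnt L t = 0 := by
    unfold Vale.Agent.P078.C.cnt
    rw [Multiset.card_eq_zero, Multiset.filter_eq_nil]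
    intro k hk
    exact not_lt.2 ((hm2 k hk).trans ht.1.le)
  have hK0 : 0 < Vale.Agent.P078.C.cnt K t := by
    unfold Vale.Agent.P078.C.cnt
    rw [Multiset.card_pos_iff_exists_mem]
    exact ⟨l, Multiset.mem_filter.2 ⟨hl, ht.2⟩⟩
  omega

private theorem roots_erase_lt (hr : 0 < r) (hy : Herm y) {u : ℝ} {w : α} (hw : w ∈ W)
    (h : ∀ t ∈ (pl y s l W).roots, t < u) : ∀ t ∈ (pl y s l (W.erase w)).roots, t < u := by
  refine lt_of_interlace ?_ ?_ h
  · rw [(pl_prod hr hy).2, (pl_prod hr hy).2, Finset.card_erase_add_one hw]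
  · intro z hz
    rw [pr_eq hr hy, pr_eq hr hy]
    have h1 := Q_ratio_im (s := s) (z := fun i => (l i : ℂ) + z) hr hy
      (W := W) (w := w) (fun i _ => by simpa only [Complex.add_im, Complex.ofReal_im, zero_add] using hz) hw
    refine lt_of_lt_of_le ?_ h1
    simpa only [Complex.add_im, Complex.ofReal_im, zero_add] using hz

private theorem roots_subset_lt (hr : 0 < r) (hy : Herm y) {u : ℝ} (hW : W' ⊆ W)
    (h : ∀ t ∈ (pl y s l W).roots, t < u) : ∀ t ∈ (pl y s l W').roots, t < u := by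
  obtain ⟨n, hn⟩ : ∃ n, (W \ W').card = n := ⟨_, rfl⟩
  induction n generalizing W with
  | zero =>
    have h1 : W \ W' = ∅ := Finset.card_eq_zero.1 hn
    have h2 : W = W' := Finset.Subset.antisymm (Finset.sdiff_eq_empty_iff_subset.1 h1) hW
    rw [← h2]
    exact h
  | succ n ih =>
    obtain ⟨w, hw⟩ : (W \ W').Nonempty := by
      rw [← Finset.card_pos]
      omega
    obtain ⟨hw1, hw2⟩ := Finset.mem_sdiff.1 hw
    refine ih (W := W.erase w) ?_ (roots_erase_lt hr hy hw1 h) ?_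
    · exact fun i hi => mem_erase.2 ⟨fun h => hw2 (h ▸ hi), hW hi⟩
    · rw [Finset.erase_sdiff_comm, Finset.card_erase_of_mem hw, hn]
      rfl

private theorem q_pos_of_roots (hr : 0 < r) (hy : Herm y) {u : ℝ}
    (h : ∀ t ∈ (pl y s l W).roots, t < u) : 0 < q y s (fun i => l i + u) W := by
  rw [← eval_pl hr hy, (pl_prod hr hy).1, eval_multiset_prod, Multiset.map_map]
  refine Multiset.prod_pos ?_
  intro b hb
  obtain ⟨t, ht, rfl⟩ := Multiset.mem_map.1 hb
  simpa only [Function.comp_apply, eval_sub, eval_X, eval_C, sub_pos] using h t ht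

theorem dst_gt_iff (hr : 0 < r) (hy : Herm y) {a : ℝ} :
    (∀ x ∈ dst y s l W, a < x) ↔ Safe y s (fun i => l i - a) W := by
  constructor
  · intro h U hU
    have h1 : ∀ t ∈ (pl y s l W).roots, t < -a := by
      intro t ht
      have := h (-t) (Multiset.mem_map.2 ⟨t, ht, rfl⟩)
      linarith only [this]
    have h2 := q_pos_of_roots hr hy (roots_subset_lt hr hy hU h1)
    simpa only [sub_eq_add_neg, gt_iff_lt] using h2
  · intro h x hx
    obtain ⟨t, ht, rfl⟩ := Multiset.mem_map.1 hx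
    by_contra hcon
    push Not at hcon
    have h1 : (pl y s l W).eval t = 0 := (mem_roots (monic_pl.ne_zero)).1 ht
    rw [eval_pl hr hy] at h1
    have h2 := Safe.mono hr hy h (l' := fun i => l i + t) (fun i _ => by linarith only [hcon])
    have h3 := h2 W subset_rfl
    linarith only [h1, h3]

theorem Phi_le (hr : 0 < r) (hy : Herm y) {κ a : ℝ} (hκ : 0 < κ) (ha : κ < a) (n : ℕ)
    (h : Safe y s (fun i => l i - a) W) : Phi κ n y s l W ≤ W.card * (a / (a - κ)) ^ n := by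
  have h1 := (dst_gt_iff hr hy).2 h
  rw [Phi, ← card_dst (y := y) (s := s) (l := l) (W := W) hr hy, ← nsmul_eq_mul]
  have h2 := Multiset.sum_le_card_nsmul ((dst y s l W).map fun a => (a / (a - κ)) ^ n)
    ((a / (a - κ)) ^ n) ?_
  · rwa [Multiset.card_map] at h2
  · intro b hb
    obtain ⟨x, hx, rfl⟩ := Multiset.mem_map.1 hb
    have hxa := h1 x hx
    have h3 : 0 < x - κ := by linarith only [ha, hxa]
    have h4 : 0 < a - κ := by linarith only [ha]
    refine pow_le_pow_left₀ (div_nonneg (by linarith only [hκ, ha, hxa]) h3.le) ?_ n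
    rw [div_le_div_iff₀ h3 h4]
    nlinarith only [hκ, hxa]

theorem Phi_nonneg (hr : 0 < r) (hy : Herm y) {κ : ℝ} (hκ : 0 < κ) (n : ℕ)
    (h : Safe y s (fun i => l i - κ) W) : 0 ≤ Phi κ n y s l W := by
  have h1 := (dst_gt_iff hr hy).2 h
  refine Multiset.sum_nonneg ?_
  intro b hb
  obtain ⟨x, hx, rfl⟩ := Multiset.mem_map.1 hb
  have hxa := h1 x hx
  exact pow_nonneg (div_nonneg (by linarith only [hκ, hxa]) (by linarith only [hxa])) n

theorem Phi_ge (hr : 0 < r) (hy : Herm y) {κ a : ℝ} (hκ : 0 < κ) (ha : κ < a) (n : ℕ)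
    (h : Safe y s (fun i => l i - κ) W) (h' : ¬ Safe y s (fun i => l i - a) W) :
    (a / (a - κ)) ^ n ≤ Phi κ n y s l W := by
  have h1 := (dst_gt_iff hr hy).2 h
  rw [← dst_gt_iff hr hy] at h'
  push Not at h'
  obtain ⟨x, hx, hxa⟩ := h'
  have hxκ := h1 x hx
  have h3 : 0 < x - κ := by linarith only [hxκ]
  have h4 : 0 < a - κ := by linarith only [ha]
  refine le_trans ?_ (Multiset.single_le_sum ?_ ((x / (x - κ)) ^ n)
    (Multiset.mem_map.2 ⟨x, hx, rfl⟩))
  · refine pow_le_pow_left₀ (div_nonneg (by linarith only [hκ, ha]) h4.le) ?_ n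
    rw [div_le_div_iff₀ h4 h3]
    nlinarith only [hκ, hxa]
  · intro b hb
    obtain ⟨z, hz, rfl⟩ := Multiset.mem_map.1 hb
    have hza := h1 z hz
    exact pow_nonneg (div_nonneg (by linarith) (by linarith only [hza])) n

end Vale.Agent.P078.TX
end

section
/-! T3-C2: partial fractions of the self energies. -/

namespace Vale.Agent.P078.TX

open Finset Polynomial
open Vale.Agent.P078.C (qf yc)

variable {α : Type*} [DecidableEq α] {r ν : ℕ}
variable {y : Ker ν α} {s : α → Option (Fin r)} {l : α → ℝ} {W : Finset α} {o : α}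

/-- complex values of `pl` -/
private theorem aeval_pl (hr : 0 < r) (hy : Herm y) (x : ℂ) :
    aeval x (pl y s l W) = Q y s (fun i => (l i : ℂ) + x) W := by
  set F : ℂ[X] := ∑ S ∈ W.powerset, (∏ i ∈ W \ S, (Polynomial.C (l i : ℂ) + Polynomial.X)) *
    Polynomial.C (Q y s 0 S) with hF
  have hFe : ∀ x : ℂ, F.eval x = Q y s (fun i => (l i : ℂ) + x) W := by
    intro x
    rw [Q_expand hr, hF, eval_finsetSum]
    refine Finset.sum_congr rfl fun S _ => ?_
    rw [eval_mul, eval_prod, eval_C]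
    congr 1
    refine Finset.prod_congr rfl fun i _ => ?_
    simp
  have h1 : (pl y s l W).map (algebraMap ℝ ℂ) = F := by
    refine Polynomial.eq_of_infinite_eval_eq _ _ ?_
    refine Set.Infinite.mono (s := Set.range ((↑) : ℝ → ℂ)) ?_
      (Set.infinite_range_of_injective Complex.ofReal_injective)
    rintro _ ⟨t, rfl⟩
    change eval (t : ℂ) _ = eval (t : ℂ) _
    rw [hFe, eval_map_algebraMap, Vale.Agent.P078.C.lb_aeval_real, eval_pl hr hy, ← q_coe hy]
    congr 1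
    funext i
    push_cast
    rfl
  rw [← hFe, ← h1, eval_map_algebraMap]

private theorem exists_enum_list (L : List ℝ) {n : ℕ} (h : L.length = n) :
    ∃ μ : Fin n → ℝ, Finset.univ.val.map μ = (L : Multiset ℝ) := by
  subst h
  exact ⟨L.get, by rw [Fin.univ_val_map, List.ofFn_get]⟩

private theorem exists_enum {n : ℕ} (M : Multiset ℝ) (h : Multiset.card M = n) :
    ∃ μ : Fin n → ℝ, Finset.univ.val.map μ = M := by
  obtain ⟨μ, hμ⟩ := exists_enum_list M.toList (n := n) (by rw [Multiset.length_toList, h])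
  exact ⟨μ, by rw [hμ, Multiset.coe_toList]⟩

private theorem coeff_pl_card : (pl y s l W).coeff W.card = 1 := by
  unfold pl
  rw [finsetSum_coeff, Finset.sum_eq_single ∅]
  · rw [coeff_C_mul, coeff_X_pow, card_empty, Nat.sub_zero, if_pos rfl, mul_one, q_empty]
  · intro U hU hne
    have h1 : 0 < U.card := card_pos.2 (nonempty_iff_ne_empty.2 hne)
    have h2 : U.card ≤ W.card := card_le_card (mem_powerset.1 hU)
    rw [coeff_C_mul, coeff_X_pow, if_neg (by omega), mul_zero]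
  · intro h
    exact absurd (empty_mem_powerset W) h

private theorem natDegree_pl_le : (pl y s l W).natDegree ≤ W.card := by
  unfold pl
  refine natDegree_sum_le_of_forall_le _ _ fun U _ => ?_
  exact (natDegree_C_mul_X_pow_le _ _).trans (Nat.sub_le _ _)

private theorem monic_pl_TFrac : (pl y s l W).Monic :=
  monic_of_natDegree_le_of_coeff_eq_one _ natDegree_pl_le coeff_pl_card

private theorem natDegree_pl_TFrac : (pl y s l W).natDegree = W.card :=
  natDegree_eq_of_le_of_coeff_ne_zero natDegree_pl_le (by rw [coeff_pl_card]; exact one_ne_zero)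

private theorem pl_insert (hr : 0 < r) (hy : Herm y) (ho : o ∉ W) (c : Fin r) :
    (X + Polynomial.C (l o)) * pl y s l W - pl y (Function.update s o (some c)) l (insert o W) =
      -∑ U ∈ W.powerset, Polynomial.C (q y (Function.update s o (some c))
        (Function.update l o 0) (insert o U)) * X ^ (W.card - U.card) := by
  unfold pl
  rw [sum_powerset_insert ho, Finset.mul_sum, ← Finset.sum_add_distrib, ← Finset.sum_sub_distrib,
    ← Finset.sum_neg_distrib]
  refine Finset.sum_congr rfl fun U hU => ?_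
  have hUW := mem_powerset.1 hU
  have hoU : o ∉ U := fun h => ho (hUW h)
  have hc : U.card ≤ W.card := card_le_card hUW
  have h1 : q y (Function.update s o (some c)) l U = q y s l U :=
    q_congr (fun i hi => Function.update_of_ne (ne_of_mem_of_not_mem hi hoU) _ _) fun _ _ => rfl
  rw [q_insert (s := Function.update s o (some c)) (l := l) hr hy hoU, h1, card_insert_of_notMem ho,
    card_insert_of_notMem hoU, Nat.succ_sub_succ, Nat.succ_sub hc, pow_succ, C_add, C_mul]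
  ring

private theorem q_zero_singleton (hr : 0 < r) (hz : ZD y)
    (s' : α → Option (Fin r)) : q y s' (Function.update l o 0) (insert o ∅) = 0 := by
  have h := sg_empty (y := y) (s := s') (o := o) (l := l) hr hz
  rw [sg, q_empty, div_one, neg_eq_zero] at h
  exact h

/-- the self energies of `o` for all colours have common poles and nonnegative residues -/
theorem exists_frac (hr : 0 < r) (hy : Herm y) (hz : ZD y) (ho : o ∉ W) :
    ∃ (μ : Fin W.card → ℝ) (m : Fin r → Fin W.card → ℝ),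
      Finset.univ.val.map μ = dst y s l W ∧ (∀ c j, 0 ≤ m c j) ∧
      (∀ t : ℝ, q y s (fun i => l i + t) W = ∏ j, (t + μ j)) ∧
      ∀ c, ∀ t : ℝ, q y (Function.update s o (some c)) (fun i => l i + t) (insert o W) =
        (t + l o) * ∏ j, (t + μ j) - ∑ j, m c j * ∏ i ∈ Finset.univ.erase j, (t + μ i) := by
  classical
  obtain ⟨μ, hμ⟩ := exists_enum _ (card_dst (y := y) (s := s) (l := l) (W := W) hr hy)
  have hcard : Multiset.card (pl y s l W).roots = (pl y s l W).natDegree := by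
    have h := card_dst (y := y) (s := s) (l := l) (W := W) hr hy
    rw [dst, Multiset.card_map] at h
    rw [h, natDegree_pl_TFrac]
  have hprod : pl y s l W = ∏ j, (X + Polynomial.C (μ j)) := by
    have h1 := prod_multiset_X_sub_C_of_monic_of_roots_card_eq (monic_pl_TFrac (y := y) (s := s)
      (l := l) (W := W)) hcard
    have h2 : (pl y s l W).roots = (Finset.univ.val.map μ).map fun t => -t := by
      rw [hμ, dst, Multiset.map_map]
      simp
    rw [h2, Multiset.map_map, Multiset.map_map] at h1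
    rw [← h1]
    refine congrArg Multiset.prod (Multiset.map_congr rfl fun j _ => ?_)
    simp only [Function.comp_apply, map_neg, sub_neg_eq_add]
  have hPt : ∀ t : ℝ, q y s (fun i => l i + t) W = ∏ j, (t + μ j) := by
    intro t
    rw [← eval_pl hr hy, hprod, eval_prod]
    simp only [eval_add, eval_X, eval_C]
  have hP0 : pl y s l W ≠ 0 := monic_pl_TFrac.ne_zero
  have hpx : ∀ x : ℂ, 0 < x.im → aeval x (pl y s l W) ≠ 0 := by
    intro x hx
    rw [aeval_pl hr hy]
    exact Q_ne_zero hr hy fun i _ => by simpa only [Complex.add_im, Complex.ofReal_im, zero_add] using hx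
  have key : ∀ c : Fin r, ∃ m : Fin W.card → ℝ, (∀ j, 0 ≤ m j) ∧
      ∀ t : ℝ, q y (Function.update s o (some c)) (fun i => l i + t) (insert o W) =
        (t + l o) * ∏ j, (t + μ j) - ∑ j, m j * ∏ i ∈ Finset.univ.erase j, (t + μ i) := by
    intro c
    set s' := Function.update s o (some c) with hs'
    set R : ℝ[X] := (X + Polynomial.C (l o)) * pl y s l W - pl y s' l (insert o W) with hR
    have hRe : R = -∑ U ∈ W.powerset, Polynomial.C (q y s'
        (Function.update l o 0) (insert o U)) * X ^ (W.card - U.card) := pl_insert hr hy ho c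
    have hRd : R.natDegree ≤ W.card := by
      rw [hRe, natDegree_neg]
      refine natDegree_sum_le_of_forall_le _ _ fun U _ => ?_
      exact (natDegree_C_mul_X_pow_le _ _).trans (Nat.sub_le _ _)
    have hRc : R.coeff W.card = 0 := by
      rw [hRe, coeff_neg, neg_eq_zero, finsetSum_coeff, Finset.sum_eq_single ∅]
      · rw [q_zero_singleton hr hz, C_0, zero_mul, coeff_zero]
      · intro U hU hne
        have h1 : 0 < U.card := card_pos.2 (nonempty_iff_ne_empty.2 hne)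
        have h2 : U.card ≤ W.card := card_le_card (mem_powerset.1 hU)
        rw [coeff_C_mul, coeff_X_pow, if_neg (by omega), mul_zero]
      · intro h
        exact absurd (empty_mem_powerset W) h
    have hH : ∀ x : ℂ, 0 < x.im →
        (aeval x R * (starRingEnd ℂ) (aeval x (pl y s l W))).im ≤ 0 := by
      intro x hx
      have h1 := hpx x hx
      have h2 : aeval x R = (x + (l o : ℂ)) * aeval x (pl y s l W) -
          aeval x (pl y s' l (insert o W)) := by
        rw [hR, map_sub, map_mul, map_add, aeval_X, aeval_C]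
        rfl
      have h3 := Q_ratio_im (s := s') (z := fun i => (l i : ℂ) + x)
        (W := insert o W) hr hy (fun i _ => by simpa using hx) (mem_insert_self o W)
      rw [erase_insert ho] at h3
      have h4 : Q y s' (fun i => (l i : ℂ) + x) W = Q y s (fun i => (l i : ℂ) + x) W :=
        Q_congr (fun _ _ _ _ _ => rfl)
          (fun i hi => Function.update_of_ne (ne_of_mem_of_not_mem hi ho) _ _) fun _ _ => rfl
      rw [h4, ← aeval_pl hr hy, ← aeval_pl hr hy] at h3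
      have h5 : aeval x R * (starRingEnd ℂ) (aeval x (pl y s l W)) =
          ((Complex.normSq (aeval x (pl y s l W)) : ℝ) : ℂ) *
            ((x + (l o : ℂ)) - aeval x (pl y s' l (insert o W)) / aeval x (pl y s l W)) := by
        rw [← Complex.mul_conj, h2]
        field_simp
      rw [h5, Complex.im_ofReal_mul]
      refine mul_nonpos_of_nonneg_of_nonpos (Complex.normSq_nonneg _) ?_
      simp only [Complex.sub_im, Complex.add_im, Complex.ofReal_im, zero_add, add_zero] at h3 ⊢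
      linarith only [h3]
    obtain ⟨D, c₀, m, h, hh, hq⟩ := Vale.Agent.P078.C.lb_decomp _ R hP0
      (by rw [natDegree_pl_TFrac]; exact hRd) hpx hH
    have hhd : ∀ ρ ∈ D, (h ρ).coeff W.card = 0 := by
      intro ρ hρ
      have h1 := (hh ρ hρ).2
      have h2 : h ρ ≠ 0 := by
        intro h0
        rw [h0, mul_zero] at h1
        exact hP0 h1.symm
      have h3 := congrArg natDegree h1
      rw [natDegree_mul (X_sub_C_ne_zero ρ) h2, natDegree_X_sub_C, natDegree_pl_TFrac] at h3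
      exact coeff_eq_zero_of_natDegree_lt (by omega)
    have hc0 : c₀ = 0 := by
      have h1 := congrArg (fun p : ℝ[X] => p.coeff W.card) hq
      simp only [hRc, coeff_add, coeff_C_mul, finsetSum_coeff, coeff_pl_card, mul_one] at h1
      rw [Finset.sum_eq_zero fun ρ hρ => by rw [hhd ρ hρ, mul_zero], add_zero] at h1
      exact h1.symm
    have hidx : ∀ ρ ∈ D, ∃ j : Fin W.card, μ j = -ρ := by
      intro ρ hρ
      have h1 : (pl y s l W).eval ρ = 0 := by
        rw [← (hh ρ hρ).2]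
        simp
      rw [hprod, eval_prod, Finset.prod_eq_zero_iff] at h1
      obtain ⟨j, _, hj⟩ := h1
      refine ⟨j, ?_⟩
      simp only [eval_add, eval_X, eval_C] at hj
      linarith only [hj]
    choose jj hjj using hidx
    have hhv : ∀ ρ (hρ : ρ ∈ D),
        h ρ = ∏ i ∈ Finset.univ.erase (jj ρ hρ), (X + Polynomial.C (μ i)) := by
      intro ρ hρ
      have h1 := (hh ρ hρ).2
      rw [hprod, ← Finset.mul_prod_erase Finset.univ _ (Finset.mem_univ (jj ρ hρ)), hjj ρ hρ,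
        C_neg, ← sub_eq_add_neg] at h1
      exact mul_left_cancel₀ (X_sub_C_ne_zero ρ) h1
    refine ⟨fun j => ∑ ρ ∈ D.attach, if jj ρ ρ.2 = j then m ρ else 0, fun j => ?_, fun t => ?_⟩
    · refine Finset.sum_nonneg fun ρ _ => ?_
      split_ifs
      · exact (hh ρ ρ.2).1
      · exact le_rfl
    · have h1 : (pl y s' l (insert o W)).eval t = (t + l o) * (pl y s l W).eval t - R.eval t := by
        rw [hR]
        simp only [eval_sub, eval_mul, eval_add, eval_X, eval_C, sub_sub_cancel]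
      rw [← eval_pl hr hy, h1, eval_pl hr hy, hPt]
      congr 1
      rw [hq, hc0, C_0, zero_mul, zero_add, eval_finsetSum, ← Finset.sum_attach]
      simp only [Finset.sum_mul, ite_mul, zero_mul]
      rw [Finset.sum_comm]
      refine Finset.sum_congr rfl fun ρ _ => ?_
      rw [Finset.sum_ite_eq, if_pos (Finset.mem_univ _), eval_mul, eval_C, hhv ρ ρ.2, eval_prod]
      simp only [eval_add, eval_X, eval_C]
  choose m hm0 hm using key
  exact ⟨μ, m, hμ, hm0, hPt, hm⟩

end Vale.Agent.P078.TX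
end

section
/-! T3-C3: power sums of the eigenvalues of an arrow matrix (pure algebra / real analysis).

`P = det (X + arrow matrix)`, with diagonal `a, μ j` and off-diagonal entries `√(m j)`; its roots
are `-λ`. With `x = λ / (λ - κ)`, `1 + κ (arrow - κ)⁻¹ = M₀ + β u uᵀ`, where
`M₀ = diag (1, μ j / (μ j - κ))`, `β = κ / A`, `A = a - κ - ∑ m j / (μ j - κ)`,
`u = (1, -√(m j) / (μ j - κ))`. -/

namespace Vale.Agent.P078.TX

open Finset Polynomial
open scoped Matrix

variable {ι : Type*} [Fintype ι] [DecidableEq ι]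

/-- characteristic polynomial of the arrow matrix (with `X` replaced by `-X`) -/
noncomputable def arr (μ m : ι → ℝ) (a : ℝ) : ℝ[X] :=
  (X + C a) * ∏ j, (X + C (μ j)) - ∑ j, C (m j) * ∏ i ∈ univ.erase j, (X + C (μ i))

/-- sum of `(λ / (λ - κ)) ^ n` -/
noncomputable def arrS (κ : ℝ) (n : ℕ) (μ m : ι → ℝ) (a : ℝ) : ℝ :=
  ((arr μ m a).roots.map fun t => (-t / (-t - κ)) ^ n).sum

variable {μ m : ι → ℝ} {a a' κ : ℝ}

/-! ### similarity to a diagonal matrix -/

private theorem spec {n : Type*} [Fintype n] [DecidableEq n] {M : Matrix n n ℝ}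
    (h : M.IsHermitian) : ∃ (U V : Matrix n n ℝ) (lam : n → ℝ), U * V = 1 ∧ V * U = 1 ∧
      M = U * Matrix.diagonal lam * V := by
  refine ⟨h.eigenvectorUnitary, star (h.eigenvectorUnitary : Matrix n n ℝ), h.eigenvalues,
    ?_, ?_, ?_⟩
  · exact Unitary.coe_mul_star_self _
  · exact Unitary.coe_star_mul_self _
  · have := h.spectral_theorem
    rw [Unitary.conjStarAlgAut_apply] at this
    simpa only [RCLike.ofReal_real_eq_id, CompTriple.comp_eq] using this

private theorem det_add {n : Type*} [Fintype n] [DecidableEq n] {M U V : Matrix n n ℝ}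
    {lam : n → ℝ} (h1 : U * V = 1) (hM : M = U * Matrix.diagonal lam * V) (t : ℝ) :
    (t • (1 : Matrix n n ℝ) + M).det = ∏ i, (t + lam i) := by
  have e : t • (1 : Matrix n n ℝ) + M = U * Matrix.diagonal (fun i => t + lam i) * V := by
    have : Matrix.diagonal (fun i => t + lam i) = t • (1 : Matrix n n ℝ) + Matrix.diagonal lam := by
      ext i j
      by_cases hij : i = j
      · subst hij; simp
      · simp only [Matrix.diagonal_apply_ne _ hij, Matrix.add_apply, Matrix.smul_apply, Matrix.one_apply_ne hij, smul_eq_mul, mul_zero, add_zero]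
    rw [this, Matrix.mul_add, Matrix.add_mul, hM]
    simp only [Algebra.mul_smul_comm, mul_one, Algebra.smul_mul_assoc, h1]
  rw [e, Matrix.det_mul, Matrix.det_mul, Matrix.det_diagonal, mul_assoc, mul_comm _ V.det,
    ← mul_assoc, ← Matrix.det_mul, h1, Matrix.det_one, one_mul]

private theorem diag_mul_pow {n : Type*} [Fintype n] [DecidableEq n] {X M U V : Matrix n n ℝ}
    {lam : n → ℝ} (h1 : U * V = 1) (h2 : V * U = 1) (hM : M = U * Matrix.diagonal lam * V)
    {κ : ℝ} (hκ : 0 < κ) (hX : X * (M - κ • (1 : Matrix n n ℝ)) = M) (k : ℕ) :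
    (X ^ k).trace = ∑ i, (lam i / (lam i - κ)) ^ k := by
  have e1 : M - κ • (1 : Matrix n n ℝ) = U * Matrix.diagonal (fun i => lam i - κ) * V := by
    have : Matrix.diagonal (fun i => lam i - κ) = Matrix.diagonal lam - κ • (1 : Matrix n n ℝ) := by
      ext i j
      by_cases hij : i = j
      · subst hij; simp
      · simp [Matrix.diagonal_apply_ne _ hij, Matrix.one_apply_ne hij]
    rw [this, Matrix.mul_sub, Matrix.sub_mul, hM]
    simp only [Algebra.mul_smul_comm, mul_one, Algebra.smul_mul_assoc, h1]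
  have e2 : (V * X * U) * Matrix.diagonal (fun i => lam i - κ) = Matrix.diagonal lam := by
    have : V * (X * (M - κ • (1 : Matrix n n ℝ))) * U = V * M * U := by rw [hX]
    rw [e1, hM] at this
    calc (V * X * U) * Matrix.diagonal (fun i => lam i - κ)
        = V * (X * (U * Matrix.diagonal (fun i => lam i - κ) * V)) * U := by
          simp only [Matrix.mul_assoc, h2, Matrix.mul_one]
      _ = V * (U * Matrix.diagonal lam * V) * U := this
      _ = (V * U) * Matrix.diagonal lam * (V * U) := by simp only [Matrix.mul_assoc]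
      _ = _ := by rw [h2, Matrix.one_mul, Matrix.mul_one]
  have e3 : ∀ i, lam i - κ ≠ 0 := by
    intro i hi
    have := congrFun (congrFun e2 i) i
    rw [Matrix.mul_diagonal, hi, mul_zero, Matrix.diagonal_apply_eq] at this
    linarith only [hκ, hi, this]
  have e4 : V * X * U = Matrix.diagonal (fun i => lam i / (lam i - κ)) := by
    ext i j
    have := congrFun (congrFun e2 i) j
    rw [Matrix.mul_diagonal] at this
    by_cases hij : i = j
    · subst hij
      rw [Matrix.diagonal_apply_eq] at this ⊢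
      rw [eq_div_iff (e3 i), this]
    · rw [Matrix.diagonal_apply_ne _ hij] at this ⊢
      exact (mul_eq_zero.1 this).resolve_right (e3 j)
  have e5 : V * X ^ k * U = (V * X * U) ^ k := by
    induction k with
    | zero => simp [h2]
    | succ k ih =>
      rw [pow_succ, pow_succ, ← ih]
      calc V * (X ^ k * X) * U = V * X ^ k * (1 * X) * U := by simp only [Matrix.mul_assoc, Matrix.one_mul]
        _ = V * X ^ k * ((U * V) * X) * U := by rw [h1]
        _ = _ := by simp only [Matrix.mul_assoc]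
  have e6 : (X ^ k).trace = (V * X ^ k * U).trace := by
    rw [Matrix.trace_mul_comm, ← Matrix.mul_assoc, h1, Matrix.one_mul]
  rw [e6, e5, e4, Matrix.diagonal_pow, Matrix.trace_diagonal]
  rfl

/-! ### the arrow matrix -/

private noncomputable def MM (μ s : ι → ℝ) (a : ℝ) : Matrix (Unit ⊕ ι) (Unit ⊕ ι) ℝ :=
  Matrix.fromBlocks (Matrix.of fun _ _ => a) (Matrix.of fun _ j => -s j)
    (Matrix.of fun j _ => -s j) (Matrix.diagonal μ)

private theorem MM_herm (μ s : ι → ℝ) (a : ℝ) : (MM μ s a).IsHermitian := by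
  unfold MM
  refine Matrix.IsHermitian.fromBlocks ?_ ?_ ?_
  · ext i j; simp
  · ext i j; simp
  · exact Matrix.isHermitian_diagonal _

private theorem MM_det (s : ι → ℝ) (t : ℝ) (ht : ∀ j, t + μ j ≠ 0) :
    (t • (1 : Matrix (Unit ⊕ ι) (Unit ⊕ ι) ℝ) + MM μ s a).det =
      (∏ j, (t + μ j)) * (t + a - ∑ j, s j ^ 2 / (t + μ j)) := by
  have e : t • (1 : Matrix (Unit ⊕ ι) (Unit ⊕ ι) ℝ) + MM μ s a =
      Matrix.fromBlocks (Matrix.of fun _ _ => t + a) (Matrix.of fun _ j => -s j)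
        (Matrix.of fun j _ => -s j) (Matrix.diagonal fun j => t + μ j) := by
    unfold MM
    ext i j
    rcases i with i | i <;> rcases j with j | j
    · simp only [Matrix.add_apply, Matrix.smul_apply, Matrix.one_apply_eq, smul_eq_mul, mul_one, Matrix.fromBlocks_apply₁₁, Matrix.of_apply]
    · simp only [Matrix.add_apply, Matrix.smul_apply, ne_eq, reduceCtorEq, not_false_eq_true, Matrix.one_apply_ne, smul_eq_mul, mul_zero, Matrix.fromBlocks_apply₁₂, Matrix.of_apply, zero_add]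
    · simp only [Matrix.add_apply, Matrix.smul_apply, ne_eq, reduceCtorEq, not_false_eq_true, Matrix.one_apply_ne, smul_eq_mul, mul_zero, Matrix.fromBlocks_apply₂₁, Matrix.of_apply, zero_add]
    · by_cases hij : i = j
      · subst hij; simp only [Matrix.add_apply, Matrix.smul_apply, Matrix.one_apply_eq, smul_eq_mul, mul_one, Matrix.fromBlocks_apply₂₂, Matrix.diagonal_apply_eq]
      · simp only [Matrix.add_apply, Matrix.smul_apply, ne_eq, Sum.inr.injEq, hij, not_false_eq_true, Matrix.one_apply_ne, smul_eq_mul, mul_zero, Matrix.fromBlocks_apply₂₂, Matrix.diagonal_apply_ne, add_zero]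
  let _ : Invertible (Matrix.diagonal fun j => t + μ j) :=
    ⟨Matrix.diagonal fun j => (t + μ j)⁻¹, by
      rw [Matrix.diagonal_mul_diagonal]
      simp only [inv_mul_cancel₀ (ht _), Matrix.diagonal_one], by
      rw [Matrix.diagonal_mul_diagonal]
      simp [mul_inv_cancel₀ (ht _)]⟩
  rw [e, Matrix.det_fromBlocks₂₂, Matrix.det_diagonal]
  congr 1
  rw [Matrix.det_unique]
  have : ⅟(Matrix.diagonal fun j => t + μ j) = Matrix.diagonal fun j => (t + μ j)⁻¹ := rfl
  rw [this, Matrix.sub_apply, Matrix.mul_apply]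
  simp only [Matrix.of_apply, Matrix.mul_diagonal]
  congr 1
  exact Finset.sum_congr rfl fun j _ => by field_simp

private theorem arr_eval (t : ℝ) (ht : ∀ j, t + μ j ≠ 0) :
    (arr μ m a).eval t = (∏ j, (t + μ j)) * (t + a - ∑ j, m j / (t + μ j)) := by
  unfold arr
  simp only [eval_sub, eval_mul, eval_add, eval_X, eval_C, eval_prod, eval_finsetSum]
  rw [mul_sub, mul_comm (t + a), Finset.mul_sum]
  congr 1
  refine Finset.sum_congr rfl fun j _ => ?_
  rw [← Finset.mul_prod_erase univ (fun j => t + μ j) (Finset.mem_univ j)]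
  field_simp [ht j]

/-! ### the rank one perturbation -/

private noncomputable def bb (κ : ℝ) (μ m : ι → ℝ) (l : ℕ) : ℝ :=
  1 + ∑ j, m j / (μ j - κ) ^ 2 * (μ j / (μ j - κ)) ^ l

private noncomputable def aa (β : ℝ) (b : ℕ → ℝ) : ℕ → ℕ → ℝ
  | 0, l => b l
  | k + 1, l => aa β b k (l + 1) + β * (b l * aa β b k 0)

private noncomputable def uu (κ : ℝ) (μ s : ι → ℝ) : Unit ⊕ ι → ℝ :=
  Sum.elim (fun _ => 1) fun j => s j / (μ j - κ)

private noncomputable def xx (κ : ℝ) (μ : ι → ℝ) : Unit ⊕ ι → ℝ :=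
  Sum.elim (fun _ => 1) fun j => μ j / (μ j - κ)

private noncomputable def XX (κ β : ℝ) (μ s : ι → ℝ) : Matrix (Unit ⊕ ι) (Unit ⊕ ι) ℝ :=
  Matrix.diagonal (xx κ μ) + β • Matrix.vecMulVec (uu κ μ s) (uu κ μ s)

private theorem XX_mul (hμ : ∀ j, κ < μ j) (s : ι → ℝ) {β : ℝ}
    (hβ : β * (a - κ - ∑ j, s j ^ 2 / (μ j - κ)) = κ) :
    XX κ β μ s * (MM μ s a - κ • (1 : Matrix (Unit ⊕ ι) (Unit ⊕ ι) ℝ)) = MM μ s a := by
  have hD : ∀ j, μ j - κ ≠ 0 := fun j => (sub_pos.2 (hμ j)).ne'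
  have hs : ∑ j, s j / (μ j - κ) * s j = ∑ j, s j ^ 2 / (μ j - κ) :=
    Finset.sum_congr rfl fun j _ => by field_simp
  ext i j
  rw [Matrix.mul_apply, Fintype.sum_sum_type]
  rcases i with i | i <;> rcases j with j | j
  · simp only [univ_unique, XX, xx, uu, Matrix.add_apply, Matrix.smul_apply, Matrix.vecMulVec_apply, Sum.elim_inl, smul_eq_mul, MM, Matrix.sub_apply, Matrix.fromBlocks_apply₁₁, Matrix.of_apply, sum_singleton, Sum.elim_inr, Matrix.fromBlocks_apply₂₁]
    simp only [PUnit.default_eq_unit, Matrix.diagonal_apply_eq, Sum.elim_inl, mul_one, Matrix.one_apply_eq, ne_eq, reduceCtorEq, not_false_eq_true, Matrix.diagonal_apply_ne, one_mul, zero_add, Matrix.one_apply_ne, mul_zero, sub_zero, mul_neg, sum_neg_distrib]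
    have h : ∑ x, β * (s x / (μ x - κ)) * s x = β * ∑ j, s j ^ 2 / (μ j - κ) := by
      rw [← hs, Finset.mul_sum]
      exact Finset.sum_congr rfl fun _ _ => by ring
    rw [h]
    linear_combination hβ
  · simp only [XX, MM, xx, uu, Matrix.add_apply, Matrix.sub_apply, Matrix.smul_apply,
      Matrix.vecMulVec_apply, Matrix.fromBlocks_apply₁₂, Matrix.fromBlocks_apply₂₂, Sum.elim_inl,
      Sum.elim_inr, Matrix.of_apply, smul_eq_mul, Finset.univ_unique, Finset.sum_singleton]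
    simp only [PUnit.default_eq_unit, Matrix.diagonal_apply_eq, Sum.elim_inl, mul_one, ne_eq, reduceCtorEq, not_false_eq_true, Matrix.one_apply_ne, mul_zero, sub_zero, mul_neg, Matrix.diagonal_apply_ne, one_mul, zero_add, Matrix.diagonal_apply, Matrix.one_apply, Sum.inr.injEq, mul_ite]
    rw [Finset.sum_eq_single j (fun x _ hx => by simp [hx])
      (fun h => absurd (Finset.mem_univ j) h)]
    have hj := hD j
    simp only [if_true]
    field_simp
    ring
  · simp only [XX, MM, xx, uu, Matrix.add_apply, Matrix.sub_apply, Matrix.smul_apply,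
      Matrix.vecMulVec_apply, Matrix.fromBlocks_apply₁₁, Matrix.fromBlocks_apply₂₁, Sum.elim_inl,
      Sum.elim_inr, Matrix.of_apply, smul_eq_mul, Finset.univ_unique, Finset.sum_singleton]
    simp only [PUnit.default_eq_unit, ne_eq, reduceCtorEq, not_false_eq_true, Matrix.diagonal_apply_ne, mul_one, zero_add, Matrix.one_apply_eq, Matrix.diagonal_apply, Sum.inr.injEq, Sum.elim_inr, Matrix.one_apply_ne, mul_zero, sub_zero, mul_neg, add_mul, ite_mul, zero_mul, neg_add_rev, sum_add_distrib, sum_neg_distrib, sum_ite_eq, mem_univ, ↓reduceIte]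
    have h : ∑ x, β * (s i / (μ i - κ) * (s x / (μ x - κ))) * s x =
        β * (s i / (μ i - κ)) * ∑ j, s j ^ 2 / (μ j - κ) := by
      rw [← hs, Finset.mul_sum]
      exact Finset.sum_congr rfl fun _ _ => by ring
    rw [h]
    have hi := hD i
    have h2 : s i / (μ i - κ) * κ - μ i / (μ i - κ) * s i = -s i := by
      field_simp
      ring
    linear_combination (s i / (μ i - κ)) * hβ + h2
  · simp only [XX, MM, xx, uu, Matrix.add_apply, Matrix.sub_apply, Matrix.smul_apply,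
      Matrix.vecMulVec_apply, Matrix.fromBlocks_apply₁₂, Matrix.fromBlocks_apply₂₂, Sum.elim_inl,
      Sum.elim_inr, Matrix.of_apply, smul_eq_mul, Finset.univ_unique, Finset.sum_singleton]
    simp only [PUnit.default_eq_unit, ne_eq, reduceCtorEq, not_false_eq_true, Matrix.diagonal_apply_ne, mul_one, zero_add, Matrix.one_apply_ne, mul_zero, sub_zero, mul_neg, Matrix.diagonal_apply, Sum.inr.injEq, Sum.elim_inr, Matrix.one_apply, mul_ite, mul_sub, add_mul, ite_mul, zero_mul, sum_sub_distrib, sum_ite_eq', mem_univ, ↓reduceIte]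
    have hi := hD i
    have hj := hD j
    by_cases hij : i = j
    · subst hij
      simp only [if_true]
      field_simp
      ring
    · simp only [if_neg hij]
      field_simp
      ring

private theorem pow_sub_pow' {R : Type*} [Ring R] (X D B : R) (h : X = D + B) (n : ℕ) :
    X ^ n - D ^ n = ∑ k ∈ range n, X ^ k * B * D ^ (n - 1 - k) := by
  induction n with
  | zero => simp
  | succ n ih =>
    rw [Finset.sum_range_succ]
    have e : ∑ k ∈ range n, X ^ k * B * D ^ (n + 1 - 1 - k) =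
        (∑ k ∈ range n, X ^ k * B * D ^ (n - 1 - k)) * D := by
      rw [Finset.sum_mul]
      refine Finset.sum_congr rfl fun k hk => ?_
      have hk' := Finset.mem_range.1 hk
      have ek : n + 1 - 1 - k = n - 1 - k + 1 := by omega
      rw [ek, pow_succ, ← mul_assoc]
    rw [e, ← ih]
    have : n + 1 - 1 - n = 0 := by omega
    rw [this, pow_zero, mul_one, pow_succ, pow_succ, h]
    noncomm_ring

private theorem trace_pow {n' : Type*} [Fintype n'] [DecidableEq n'] (D : Matrix n' n' ℝ)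
    (u : n' → ℝ) (β : ℝ) (n : ℕ) :
    ((D + β • Matrix.vecMulVec u u) ^ n).trace = (D ^ n).trace +
      β * ∑ k ∈ range n, aa β (fun l => u ⬝ᵥ (D ^ l *ᵥ u)) k (n - 1 - k) := by
  set X := D + β • Matrix.vecMulVec u u with hX
  have hXv : ∀ w : n' → ℝ, X *ᵥ w = D *ᵥ w + (β * (u ⬝ᵥ w)) • u := by
    intro w
    rw [hX, Matrix.add_mulVec, Matrix.smul_mulVec, Matrix.vecMulVec_mulVec]
    ext i
    simp only [op_smul_eq_smul, Pi.add_apply, Pi.smul_apply, smul_eq_mul, add_right_inj]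
    ring
  have hrec : ∀ k l, u ⬝ᵥ ((D ^ l * X ^ k) *ᵥ u) = aa β (fun l => u ⬝ᵥ (D ^ l *ᵥ u)) k l := by
    intro k
    induction k with
    | zero => intro l; simp only [pow_zero, mul_one, aa]
    | succ k ih =>
      intro l
      rw [aa, ← ih, ← ih]
      have : (D ^ l * X ^ (k + 1)) *ᵥ u = (D ^ (l + 1) * X ^ k) *ᵥ u +
          (β * (u ⬝ᵥ (X ^ k *ᵥ u))) • (D ^ l *ᵥ u) := by
        rw [pow_succ' X, ← Matrix.mulVec_mulVec, ← Matrix.mulVec_mulVec, hXv, Matrix.mulVec_add,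
          Matrix.mulVec_smul, Matrix.mulVec_mulVec, Matrix.mulVec_mulVec, ← pow_succ]
      rw [this, dotProduct_add, dotProduct_smul]
      simp only [smul_eq_mul, pow_zero, one_mul, add_right_inj]
      ring
  have h1 := congrArg Matrix.trace (pow_sub_pow' X D (β • Matrix.vecMulVec u u) hX n)
  rw [Matrix.trace_sub, Matrix.trace_sum] at h1
  have h2 : ∀ k ∈ range n, (X ^ k * β • Matrix.vecMulVec u u * D ^ (n - 1 - k)).trace =
      β * aa β (fun l => u ⬝ᵥ (D ^ l *ᵥ u)) k (n - 1 - k) := by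
    intro k _
    rw [← hrec, Matrix.trace_mul_comm, ← Matrix.mul_assoc, Matrix.mul_smul, Matrix.trace_smul,
      Matrix.mul_vecMulVec, Matrix.trace_vecMulVec, smul_eq_mul, dotProduct_comm]
  rw [Finset.sum_congr rfl h2, ← Finset.mul_sum] at h1
  linarith only [h1]

private theorem arrS_eq (hκ : 0 < κ) (hμ : ∀ j, κ < μ j) (hm : ∀ j, 0 ≤ m j)
    (hA : 0 < a - κ - ∑ j, m j / (μ j - κ)) (n : ℕ) :
    arrS κ n μ m a = 1 + ∑ j, (μ j / (μ j - κ)) ^ n +
      (κ / (a - κ - ∑ j, m j / (μ j - κ))) * ∑ k ∈ range n,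
        aa (κ / (a - κ - ∑ j, m j / (μ j - κ))) (bb κ μ m) k (n - 1 - k) := by
  set s : ι → ℝ := fun j => √(m j) with hs
  have hs2 : ∀ j, s j ^ 2 = m j := fun j => Real.sq_sqrt (hm j)
  set β := κ / (a - κ - ∑ j, m j / (μ j - κ)) with hβ
  have hβ' : β * (a - κ - ∑ j, s j ^ 2 / (μ j - κ)) = κ := by
    simp only [hs2]
    rw [hβ, div_mul_cancel₀ _ hA.ne']
  obtain ⟨U, V, lam, h1, h2, hM⟩ := spec (MM_herm μ s a)
  have hroots : arr μ m a = ∏ i, (X - C (-lam i)) := by
    refine Polynomial.eq_of_infinite_eval_eq _ _ ?_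
    refine (Set.Ici_infinite (0 : ℝ)).mono fun t ht => ?_
    have ht' : ∀ j, t + μ j ≠ 0 := fun j => by
      have := hμ j
      have : (0 : ℝ) ≤ t := ht
      have : 0 < t + μ j := by linarith only [hμ j, this, hκ]
      exact this.ne'
    have e1 := MM_det (a := a) s t ht'
    rw [det_add h1 hM] at e1
    simp only [hs2] at e1
    simp only [Set.mem_ofPred_eq]
    rw [arr_eval t ht', ← e1, eval_prod]
    exact Finset.prod_congr rfl fun i _ => by simp only [map_neg, sub_neg_eq_add, eval_add, eval_X, eval_C]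
  have hS : arrS κ n μ m a = ∑ i, (lam i / (lam i - κ)) ^ n := by
    unfold arrS
    have : (∏ i, (X - C (-lam i)) : ℝ[X]) =
        ((univ.val.map fun i => -lam i).map fun a => X - C a).prod := by
      rw [Multiset.map_map]
      rfl
    rw [hroots, this, roots_multiset_prod_X_sub_C, Multiset.map_map]
    show (univ.val.map _).sum = _
    rw [Finset.sum]
    congr 1
    exact Multiset.map_congr rfl fun i _ => by simp
  rw [hS, ← diag_mul_pow h1 h2 hM hκ (XX_mul hμ s hβ') n]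
  unfold XX
  rw [trace_pow]
  congr 1
  · rw [Matrix.diagonal_pow, Matrix.trace_diagonal, Fintype.sum_sum_type]
    simp only [univ_unique, PUnit.default_eq_unit, xx, Pi.pow_apply, Sum.elim_inl, one_pow, sum_const, card_singleton, one_smul, Sum.elim_inr]
  · have : (fun l => uu κ μ s ⬝ᵥ (Matrix.diagonal (xx κ μ) ^ l *ᵥ uu κ μ s)) = bb κ μ m := by
      funext l
      rw [Matrix.diagonal_pow]
      simp only [dotProduct, Fintype.sum_sum_type, Matrix.mulVec_diagonal]
      simp only [univ_unique, PUnit.default_eq_unit, uu, Sum.elim_inl, xx, Pi.pow_apply, one_pow, mul_one, sum_const, card_singleton, one_smul, Sum.elim_inr, bb, add_right_inj]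
      refine Finset.sum_congr rfl fun j _ => ?_
      rw [← hs2 j]
      (clear * -; field_simp)
    rw [this]

/-! ### elementary estimates -/

private theorem bb_nonneg (hκ : 0 < κ) (hμ : ∀ j, κ < μ j) (hm : ∀ j, 0 ≤ m j) (l : ℕ) :
    0 ≤ bb κ μ m l := by
  unfold bb
  have : ∀ j, 0 ≤ m j / (μ j - κ) ^ 2 * (μ j / (μ j - κ)) ^ l := fun j => by
    have h1 := hμ j
    have h2 := hm j
    have h3 : 0 ≤ μ j / (μ j - κ) := div_nonneg (by linarith) (by linarith only [h1])
    positivity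
  linarith only [Finset.sum_nonneg fun j (_ : j ∈ univ) => this j]

private theorem aa_nonneg {β : ℝ} {b : ℕ → ℝ} (hβ : 0 ≤ β) (hb : ∀ l, 0 ≤ b l) :
    ∀ k l, 0 ≤ aa β b k l
  | 0, l => hb l
  | k + 1, l => add_nonneg (aa_nonneg hβ hb k (l + 1))
      (mul_nonneg hβ (mul_nonneg (hb l) (aa_nonneg hβ hb k 0)))

private theorem aa_ge {β : ℝ} {b : ℕ → ℝ} (hβ : 0 ≤ β) (hb : ∀ l, 0 ≤ b l) :
    ∀ k l, b (k + l) ≤ aa β b k l
  | 0, l => by simp [aa]
  | k + 1, l => by
    have h1 := aa_ge hβ hb k (l + 1)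
    have h2 : 0 ≤ β * (b l * aa β b k 0) :=
      mul_nonneg hβ (mul_nonneg (hb l) (aa_nonneg hβ hb k 0))
    have h3 : k + 1 + l = k + (l + 1) := by omega
    rw [h3]
    simp only [aa]
    linarith only [h1, h2]

private theorem aa_mono {β β' : ℝ} {b : ℕ → ℝ} (hβ : 0 ≤ β) (hββ : β ≤ β') (hb : ∀ l, 0 ≤ b l) :
    ∀ k l, aa β b k l ≤ aa β' b k l
  | 0, l => le_rfl
  | k + 1, l => by
    simp only [aa]
    have h1 := aa_mono hβ hββ hb k (l + 1)
    have h2 := aa_mono hβ hββ hb k 0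
    have h3 := aa_nonneg hβ hb k 0
    have h4 : β * (b l * aa β b k 0) ≤ β' * (b l * aa β' b k 0) :=
      mul_le_mul hββ (mul_le_mul_of_nonneg_left h2 (hb l)) (mul_nonneg (hb l) h3)
        (hβ.trans hββ)
    linarith only [h1, h4]

private theorem aa_le {β : ℝ} {b : ℕ → ℝ} (hβ : 0 ≤ β) (hb : ∀ l, 0 ≤ b l)
    (hmono : ∀ l, b l ≤ b (l + 1)) (hch : ∀ k l, b l * b k ≤ b 0 * b (k + l)) :
    ∀ k l, aa β b k l ≤ (1 + β * b 0) ^ k * b (k + l)
  | 0, l => by simp [aa]
  | k + 1, l => by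
    simp only [aa]
    have h1 := aa_le hβ hb hmono hch k (l + 1)
    have h2 := aa_le hβ hb hmono hch k 0
    have h0 : 0 ≤ (1 + β * b 0) ^ k := pow_nonneg (by have := mul_nonneg hβ (hb 0); linarith only [this]) k
    have h3 : β * (b l * aa β b k 0) ≤ β * (b l * ((1 + β * b 0) ^ k * b k)) :=
      mul_le_mul_of_nonneg_left (mul_le_mul_of_nonneg_left (by simpa only [add_zero] using h2) (hb l)) hβ
    have h4 : β * (b l * ((1 + β * b 0) ^ k * b k)) ≤
        (1 + β * b 0) ^ k * (β * (b 0 * b (k + 1 + l))) := by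
      have h5 : b l * b k ≤ b 0 * b (k + 1 + l) := by
        refine (hch k l).trans (mul_le_mul_of_nonneg_left ?_ (hb 0))
        have := hmono (k + l)
        have e : k + 1 + l = k + l + 1 := by omega
        rwa [e]
      calc β * (b l * ((1 + β * b 0) ^ k * b k)) = (1 + β * b 0) ^ k * (β * (b l * b k)) := by ring
        _ ≤ _ := mul_le_mul_of_nonneg_left (mul_le_mul_of_nonneg_left h5 hβ) h0
    have e : k + (l + 1) = k + 1 + l := by omega
    rw [e] at h1
    calc _ ≤ (1 + β * b 0) ^ k * b (k + 1 + l) + (1 + β * b 0) ^ k * (β * (b 0 * b (k + 1 + l))) := by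
          linarith only [h1, h3, h4]
      _ = _ := by ring

private theorem bb_mono (hκ : 0 < κ) (hμ : ∀ j, κ < μ j) (hm : ∀ j, 0 ≤ m j) (l : ℕ) :
    bb κ μ m l ≤ bb κ μ m (l + 1) := by
  unfold bb
  refine add_le_add le_rfl (Finset.sum_le_sum fun j _ => ?_)
  have h1 := hμ j
  have h3 : 1 ≤ μ j / (μ j - κ) := by
    rw [le_div_iff₀ (by linarith)]
    linarith
  exact mul_le_mul_of_nonneg_left (pow_le_pow_right₀ h3 (Nat.le_succ l))
    (div_nonneg (hm j) (sq_nonneg _))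

private theorem bb_cheb (hκ : 0 < κ) (hμ : ∀ j, κ < μ j) (hm : ∀ j, 0 ≤ m j) (k l : ℕ) :
    bb κ μ m l * bb κ μ m k ≤ bb κ μ m 0 * bb κ μ m (k + l) := by
  -- write all as sums over `Option ι`
  set w : Option ι → ℝ := fun o => o.elim 1 fun j => m j / (μ j - κ) ^ 2 with hw
  set x : Option ι → ℝ := fun o => o.elim 1 fun j => μ j / (μ j - κ) with hx
  have hwn : ∀ o, 0 ≤ w o := by
    intro o
    cases o with
    | none => simp [hw]
    | some j => exact div_nonneg (hm j) (sq_nonneg _)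
  have hxn : ∀ o, 0 ≤ x o := by
    intro o
    cases o with
    | none => simp only [hx, Option.elim_none, zero_le_one]
    | some j => exact div_nonneg (by have := hμ j; simp only [ge_iff_le]; linarith only [hκ, this]) (by have := hμ j; linarith only [this])
  have hb : ∀ l, bb κ μ m l = ∑ o, w o * x o ^ l := by
    intro l
    rw [Fintype.sum_option]
    simp only [bb, hw, Option.elim_none, hx, one_pow, mul_one, Option.elim_some]
  rw [hb, hb, hb, hb]
  have key : 0 ≤ ∑ o, ∑ p, w o * w p * ((x o ^ k - x p ^ k) * (x o ^ l - x p ^ l)) := by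
    refine Finset.sum_nonneg fun o _ => Finset.sum_nonneg fun p _ => ?_
    refine mul_nonneg (mul_nonneg (hwn o) (hwn p)) ?_
    rcases le_total (x o) (x p) with h | h
    · exact mul_nonneg_of_nonpos_of_nonpos (sub_nonpos.2 (pow_le_pow_left₀ (hxn o) h k))
        (sub_nonpos.2 (pow_le_pow_left₀ (hxn o) h l))
    · exact mul_nonneg (sub_nonneg.2 (pow_le_pow_left₀ (hxn p) h k))
        (sub_nonneg.2 (pow_le_pow_left₀ (hxn p) h l))
  have e : ∑ o, ∑ p, w o * w p * ((x o ^ k - x p ^ k) * (x o ^ l - x p ^ l)) =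
      2 * ((∑ o, w o * x o ^ 0) * ∑ o, w o * x o ^ (k + l)) -
        2 * ((∑ o, w o * x o ^ l) * ∑ o, w o * x o ^ k) := by
    have e1 : ∀ o p, w o * w p * ((x o ^ k - x p ^ k) * (x o ^ l - x p ^ l)) =
        (w o * x o ^ (k + l)) * (w p * x p ^ 0) + (w o * x o ^ 0) * (w p * x p ^ (k + l)) -
        (w o * x o ^ k) * (w p * x p ^ l) - (w o * x o ^ l) * (w p * x p ^ k) := by
      intro o p
      ring
    simp only [e1, Finset.sum_sub_distrib, Finset.sum_add_distrib, ← Finset.mul_sum,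
      ← Finset.sum_mul]
    ring
  rw [e] at key
  linarith only [key]

/-- lower bound: first order term -/
theorem arrS_ge (hκ : 0 < κ) (hμ : ∀ j, κ < μ j) (hm : ∀ j, 0 ≤ m j)
    (hA : 0 < a - κ - ∑ j, m j / (μ j - κ)) (n : ℕ) :
    1 + ∑ j, (μ j / (μ j - κ)) ^ n + n * (κ / (a - κ - ∑ j, m j / (μ j - κ))) *
      (1 + ∑ j, m j / (μ j - κ) ^ 2 * (μ j / (μ j - κ)) ^ (n - 1)) ≤ arrS κ n μ m a := by
  rw [arrS_eq hκ hμ hm hA]
  have hβ : 0 ≤ κ / (a - κ - ∑ j, m j / (μ j - κ)) := (div_pos hκ hA).le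
  set β := κ / (a - κ - ∑ j, m j / (μ j - κ))
  have h : (n : ℝ) * bb κ μ m (n - 1) ≤ ∑ k ∈ range n, aa β (bb κ μ m) k (n - 1 - k) := by
    calc (n : ℝ) * bb κ μ m (n - 1) = ∑ k ∈ range n, bb κ μ m (n - 1) := by simp only [sum_const, card_range, nsmul_eq_mul]
      _ ≤ _ := Finset.sum_le_sum fun k hk => by
        have hk' := Finset.mem_range.1 hk
        have := aa_ge hβ (bb_nonneg hκ hμ hm) k (n - 1 - k)
        have e : k + (n - 1 - k) = n - 1 := by omega
        rwa [e] at this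
  have h2 := mul_le_mul_of_nonneg_left h hβ
  have e : (n : ℝ) * β * (1 + ∑ j, m j / (μ j - κ) ^ 2 * (μ j / (μ j - κ)) ^ (n - 1)) =
      β * (n * bb κ μ m (n - 1)) := by
    unfold bb
    ring
  rw [e]
  linarith only [h2]

/-- upper bound -/
theorem arrS_le (hκ : 0 < κ) (hμ : ∀ j, κ < μ j) (hm : ∀ j, 0 ≤ m j)
    (hA : 0 < a - κ - ∑ j, m j / (μ j - κ)) (n : ℕ) :
    arrS κ n μ m a ≤ 1 + ∑ j, (μ j / (μ j - κ)) ^ n +
      n * (κ / (a - κ - ∑ j, m j / (μ j - κ))) *
      (1 + (κ / (a - κ - ∑ j, m j / (μ j - κ))) * (1 + ∑ j, m j / (μ j - κ) ^ 2)) ^ (n - 1) *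
      (1 + ∑ j, m j / (μ j - κ) ^ 2 * (μ j / (μ j - κ)) ^ (n - 1)) := by
  rw [arrS_eq hκ hμ hm hA]
  have hβ : 0 ≤ κ / (a - κ - ∑ j, m j / (μ j - κ)) := (div_pos hκ hA).le
  set β := κ / (a - κ - ∑ j, m j / (μ j - κ))
  have hb0 : (1 + ∑ j, m j / (μ j - κ) ^ 2) = bb κ μ m 0 := by simp only [bb, pow_zero, mul_one]
  rw [hb0]
  have h1 : 1 ≤ 1 + β * bb κ μ m 0 := by
    have := mul_nonneg hβ (bb_nonneg hκ hμ hm 0)
    linarith only [this]
  have h : ∑ k ∈ range n, aa β (bb κ μ m) k (n - 1 - k) ≤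
      n * ((1 + β * bb κ μ m 0) ^ (n - 1) * bb κ μ m (n - 1)) := by
    calc _ ≤ ∑ k ∈ range n, (1 + β * bb κ μ m 0) ^ (n - 1) * bb κ μ m (n - 1) :=
          Finset.sum_le_sum fun k hk => by
            have hk' := Finset.mem_range.1 hk
            have := aa_le hβ (bb_nonneg hκ hμ hm) (bb_mono hκ hμ hm) (bb_cheb hκ hμ hm) k
              (n - 1 - k)
            have e : k + (n - 1 - k) = n - 1 := by (clear * - hk'; omega)
            rw [e] at this
            exact this.trans (mul_le_mul_of_nonneg_right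
              (pow_le_pow_right₀ h1 (by omega)) (bb_nonneg hκ hμ hm _))
      _ = _ := by simp only [sum_const, card_range, nsmul_eq_mul]
  have h2 := mul_le_mul_of_nonneg_left h hβ
  have e : (n : ℝ) * β * (1 + β * bb κ μ m 0) ^ (n - 1) *
      (1 + ∑ j, m j / (μ j - κ) ^ 2 * (μ j / (μ j - κ)) ^ (n - 1)) =
      β * (n * ((1 + β * bb κ μ m 0) ^ (n - 1) * bb κ μ m (n - 1))) := by
    rw [bb.eq_def κ μ m (n - 1)]
    ring
  rw [e]
  (clear * - h2; linarith)

/-- raising the level of the centre -/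
theorem arrS_anti (hκ : 0 < κ) (hμ : ∀ j, κ < μ j) (hm : ∀ j, 0 ≤ m j)
    (hA : 0 < a - κ - ∑ j, m j / (μ j - κ)) (haa : a ≤ a') (n : ℕ) :
    arrS κ n μ m a' ≤ arrS κ n μ m a := by
  have hA' : 0 < a' - κ - ∑ j, m j / (μ j - κ) := by (clear * - hA haa; linarith only [haa, hA])
  rw [arrS_eq hκ hμ hm hA, arrS_eq hκ hμ hm hA']
  have hβ' : 0 ≤ κ / (a' - κ - ∑ j, m j / (μ j - κ)) := (div_pos hκ hA').le
  have hββ : κ / (a' - κ - ∑ j, m j / (μ j - κ)) ≤ κ / (a - κ - ∑ j, m j / (μ j - κ)) :=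
    div_le_div_of_nonneg_left hκ.le hA (by linarith only [haa])
  refine add_le_add le_rfl (mul_le_mul hββ (Finset.sum_le_sum fun k _ =>
    aa_mono hβ' hββ (bb_nonneg hκ hμ hm) _ _) (Finset.sum_nonneg fun k _ =>
    aa_nonneg hβ' (bb_nonneg hκ hμ hm) _ _) (hβ'.trans hββ))

end Vale.Agent.P078.TX
end

section
/-! T3-C4: the potential `Phi`: monotonicity and the selection step. -/

namespace Vale.Agent.P078.TX

open Finset Polynomial
open Vale.Agent.P078.C (qf yc)

variable {α : Type*} [DecidableEq α] {r ν : ℕ}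
variable {y : Ker ν α} {s : α → Option (Fin r)} {l l' : α → ℝ} {W W' : Finset α} {o : α}

private theorem pot_q_insert_level (hr : 0 < r) (hy : Herm y) (ho : o ∉ W)
    {s' : α → Option (Fin r)} (hs' : ∀ i ∈ W, s' i = s i) (hl : ∀ i ∈ W, l' i = l i) (t : ℝ) :
    q y s' (fun i => l' i + t) (insert o W) =
      q y s' (fun i => l i + t) (insert o W) + (l' o - l o) * q y s (fun i => l i + t) W := by
  rw [q_insert hr hy ho, q_insert hr hy ho (l := fun i => l i + t)]
  have h1 : q y s' (fun i => l' i + t) W = q y s (fun i => l i + t) W :=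
    q_congr hs' fun i hi => by rw [hl i hi]
  have h2 : q y s' (fun i => l i + t) W = q y s (fun i => l i + t) W :=
    q_congr hs' fun i _ => rfl
  have h3 : q y s' (Function.update (fun i => l' i + t) o 0) (insert o W) =
      q y s' (Function.update (fun i => l i + t) o 0) (insert o W) := by
    refine q_congr (fun _ _ => rfl) fun i hi => ?_
    by_cases h : i = o
    · subst h
      simp
    · have hiW : i ∈ W := (mem_insert.1 hi).resolve_left h
      simp [h, hl i hiW]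
  rw [h1, h2, h3]
  ring

/-- the data of `exists_frac` for one state -/
private def PotData (y : Ker ν α) (s s' : α → Option (Fin r)) (l : α → ℝ) (W : Finset α)
    (o : α) (μ m : Fin W.card → ℝ) : Prop :=
  Finset.univ.val.map μ = dst y s l W ∧ (∀ j, 0 ≤ m j) ∧
    (∀ t : ℝ, q y s (fun i => l i + t) W = ∏ j, (t + μ j)) ∧
    ∀ t : ℝ, q y s' (fun i => l i + t) (insert o W) =
      (t + l o) * ∏ j, (t + μ j) - ∑ j, m j * ∏ i ∈ Finset.univ.erase j, (t + μ i)

private theorem PotData.phi {s' : α → Option (Fin r)} {μ m : Fin W.card → ℝ}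
    (h : PotData y s s' l W o μ m) (hr : 0 < r) (hy : Herm y) (ho : o ∉ W)
    (hs' : ∀ i ∈ W, s' i = s i) (hl : ∀ i ∈ W, l' i = l i) (κ : ℝ) (n : ℕ) :
    Phi κ n y s' l' (insert o W) = arrS κ n μ m (l' o) := by
  have hpl : pl y s' l' (insert o W) = arr μ m (l' o) := by
    refine Polynomial.funext fun t => ?_
    rw [eval_pl hr hy, pot_q_insert_level hr hy ho hs' hl, h.2.2.2, h.2.2.1]
    simp only [arr, eval_sub, eval_mul, eval_add, eval_X, eval_C, eval_prod, eval_finsetSum]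
    ring
  unfold Phi dst arrS
  rw [hpl, Multiset.map_map]
  rfl

private theorem PotData.phi0 {s' : α → Option (Fin r)} {μ m : Fin W.card → ℝ}
    (h : PotData y s s' l W o μ m) (κ : ℝ) (n : ℕ) :
    Phi κ n y s l W = ∑ j, (μ j / (μ j - κ)) ^ n := by
  unfold Phi
  rw [← h.1, Multiset.map_map]
  rfl

private theorem PotData.gt {s' : α → Option (Fin r)} {μ m : Fin W.card → ℝ}
    (h : PotData y s s' l W o μ m) (hr : 0 < r) (hy : Herm y) {κ : ℝ}
    (hS : Safe y s (fun i => l i - κ) W) (j : Fin W.card) : κ < μ j := by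
  refine (dst_gt_iff hr hy).2 hS _ ?_
  rw [← h.1]
  exact Multiset.mem_map_of_mem _ (Finset.mem_univ j)

private theorem PotData.sgE {s' : α → Option (Fin r)} {μ m : Fin W.card → ℝ}
    (h : PotData y s s' l W o μ m) (hr : 0 < r) (hy : Herm y) (ho : o ∉ W)
    (hs' : ∀ i ∈ W, s' i = s i) {κ : ℝ} (hμ : ∀ j, κ < μ j) :
    sg y s' o (fun i => l i - κ) W = ∑ j, m j / (μ j - κ) := by
  have e0 : (fun i => l i - κ) = fun i => l i + -κ := by
    funext i
    ring
  have h1 : q y s' (fun i => l i + -κ) W = ∏ j, (-κ + μ j) := by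
    rw [← h.2.2.1]
    exact q_congr hs' fun i _ => rfl
  have h2 := q_insert hr hy ho (s := s') (l := fun i => l i + -κ)
  rw [h.2.2.2, h1] at h2
  have h3 : q y s' (Function.update (fun i => l i + -κ) o 0) (insert o W) =
      -∑ j, m j * ∏ i ∈ Finset.univ.erase j, (-κ + μ i) := by
    linarith only [h2]
  unfold sg
  rw [e0, h3, h1, neg_neg, Finset.sum_div]
  refine Finset.sum_congr rfl fun j _ => ?_
  rw [← Finset.mul_prod_erase Finset.univ (fun j => -κ + μ j) (Finset.mem_univ j)]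
  have hp : ∏ i ∈ Finset.univ.erase j, (-κ + μ i) ≠ 0 :=
    Finset.prod_ne_zero_iff.2 fun i _ => by have := hμ i; linarith only [this]
  have hj : -κ + μ j ≠ 0 := by have := hμ j; linarith only [this]
  have hj' : μ j - κ ≠ 0 := by have := hμ j; linarith
  rw [div_eq_div_iff (mul_ne_zero hj hp) hj']
  ring

private theorem exists_potData (hr : 0 < r) (hy : Herm y) (hz : ZD y) (ho : o ∉ W) :
    ∃ (μ : Fin W.card → ℝ) (m : Fin W.card → ℝ), PotData y s s l W o μ m := by
  obtain ⟨μ, m, h1, h2, h3, h4⟩ := exists_frac (s := s) (l := l) hr hy hz ho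
  rcases hso : s o with _ | c
  · refine ⟨μ, fun j => (∑ c, m c j) / r, h1, fun j => ?_, h3, fun t => ?_⟩
    · exact div_nonneg (Finset.sum_nonneg fun c _ => h2 c j) (Nat.cast_nonneg r)
    · rw [q_avg hr (mem_insert_self o W) hso]
      simp only [h4]
      have hr' : (r : ℝ) ≠ 0 := by exact_mod_cast hr.ne'
      rw [Finset.sum_sub_distrib, Finset.sum_const, Finset.card_univ, Fintype.card_fin,
        nsmul_eq_mul, Finset.sum_comm, sub_div, mul_div_cancel_left₀ _ hr', Finset.sum_div]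
      congr 1
      refine Finset.sum_congr rfl fun j _ => ?_
      rw [← Finset.sum_mul]
      ring
  · refine ⟨μ, m c, h1, h2 c, h3, fun t => ?_⟩
    have e := h4 c t
    rwa [← hso, Function.update_eq_self] at e

private theorem Phi_congr (hs : ∀ i ∈ W, l i = l' i) (κ : ℝ) (n : ℕ) :
    Phi κ n y s l W = Phi κ n y s l' W := by
  have : pl y s l W = pl y s l' W := by
    unfold pl
    refine Finset.sum_congr rfl fun U hU => ?_
    rw [q_congr (fun _ _ => rfl) fun i hi => hs i (mem_powerset.1 hU hi)]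
  unfold Phi dst
  rw [this]

private theorem pot_A (hr : 0 < r) (hy : Herm y) (ho : o ∉ W) {κ : ℝ}
    {s' : α → Option (Fin r)} {μ m : Fin W.card → ℝ} (h : PotData y s s' l W o μ m)
    (hs' : ∀ i ∈ W, s' i = s i) (hS : Safe y s' (fun i => l i - κ) (insert o W)) :
    0 < l o - κ - ∑ j, m j / (μ j - κ) := by
  obtain ⟨hW, hlt⟩ := (safe_insert_iff hr hy ho).1 hS
  have hW' : Safe y s (fun i => l i - κ) W := hW.congr hs' fun _ _ => rfl
  rw [h.sgE hr hy ho hs' (h.gt hr hy hW')] at hlt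
  linarith only [hlt]

private theorem Phi_mono_one (hr : 0 < r) (hy : Herm y) (hz : ZD y) {κ : ℝ} (hκ : 0 < κ) (n : ℕ)
    (ho : o ∉ W) (h : Safe y s (fun i => l i - κ) (insert o W)) (hl : ∀ i ∈ W, l' i = l i)
    (hlo : l o ≤ l' o) : Phi κ n y s l' (insert o W) ≤ Phi κ n y s l (insert o W) := by
  obtain ⟨μ, m, hd⟩ := exists_potData (s := s) (l := l) hr hy hz ho
  have hμ := hd.gt hr hy (h.subset (subset_insert o W))
  rw [hd.phi hr hy ho (fun _ _ => rfl) hl, hd.phi hr hy ho (fun _ _ => rfl) (fun _ _ => rfl)]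
  exact arrS_anti hκ hμ hd.2.1 (pot_A hr hy ho hd (fun _ _ => rfl) h) hlo n

theorem Phi_mono_level (hr : 0 < r) (hy : Herm y) (hz : ZD y) {κ : ℝ} (hκ : 0 < κ) (n : ℕ)
    (h : Safe y s (fun i => l i - κ) W) (hl : ∀ i ∈ W, l i ≤ l' i) :
    Phi κ n y s l' W ≤ Phi κ n y s l W := by
  have key : ∀ D : Finset α, D ⊆ W →
      Phi κ n y s (fun i => if i ∈ D then l' i else l i) W ≤ Phi κ n y s l W := by
    intro D
    induction D using Finset.induction_on with
    | empty => intro _; simp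
    | insert o D hoD ih =>
      intro hD
      refine le_trans ?_ (ih ((subset_insert o D).trans hD))
      have hoW : o ∈ W := hD (mem_insert_self o D)
      have e : insert o (W.erase o) = W := insert_erase hoW
      have hS : Safe y s (fun i => (if i ∈ D then l' i else l i) - κ) (insert o (W.erase o)) := by
        rw [e]
        refine h.mono hr hy fun i hi => ?_
        by_cases hiD : i ∈ D
        · simp only [hiD, if_true]
          linarith only [hl i hi]
        · simp [hiD]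
      have := Phi_mono_one (l := fun i => if i ∈ D then l' i else l i)
        (l' := fun i => if i ∈ insert o D then l' i else l i) hr hy hz hκ n
        (notMem_erase o W) hS (fun i hi => ?_) ?_
      · rwa [e] at this
      · have : i ≠ o := (mem_erase.1 hi).1
        simp [mem_insert, this]
      · simp only [hoD, if_false, mem_insert_self, if_true]
        exact hl o hoW
  refine le_trans (le_of_eq ?_) (key W subset_rfl)
  exact Phi_congr (fun i hi => by simp [hi]) κ n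

private theorem Phi_mono_erase (hr : 0 < r) (hy : Herm y) (hz : ZD y) {κ : ℝ} (hκ : 0 < κ)
    (n : ℕ) (ho : o ∉ W) (h : Safe y s (fun i => l i - κ) (insert o W)) :
    Phi κ n y s l W ≤ Phi κ n y s l (insert o W) := by
  obtain ⟨μ, m, hd⟩ := exists_potData (s := s) (l := l) hr hy hz ho
  have hμ := hd.gt hr hy (h.subset (subset_insert o W))
  have hA := pot_A hr hy ho hd (fun _ _ => rfl) h
  rw [hd.phi hr hy ho (fun _ _ => rfl) (fun _ _ => rfl), hd.phi0]
  refine le_trans ?_ (arrS_ge hκ hμ hd.2.1 hA n)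
  have h1 : 0 ≤ ∑ j, m j / (μ j - κ) ^ 2 * (μ j / (μ j - κ)) ^ (n - 1) := by
    refine Finset.sum_nonneg fun j _ => ?_
    have h2 := hμ j
    have h3 : 0 ≤ μ j / (μ j - κ) := div_nonneg (by linarith only [hκ, h2]) (by linarith only [h2])
    exact mul_nonneg (div_nonneg (hd.2.1 j) (sq_nonneg _)) (pow_nonneg h3 _)
  have h4 : 0 ≤ (n : ℝ) * (κ / (l o - κ - ∑ j, m j / (μ j - κ))) :=
    mul_nonneg (Nat.cast_nonneg n) (div_nonneg hκ.le hA.le)
  have h5 := mul_nonneg h4 (add_nonneg zero_le_one h1)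
  linarith only [h5]

theorem Phi_mono_set (hr : 0 < r) (hy : Herm y) (hz : ZD y) {κ : ℝ} (hκ : 0 < κ) (n : ℕ)
    (h : Safe y s (fun i => l i - κ) W) (hW : W' ⊆ W) :
    Phi κ n y s l W' ≤ Phi κ n y s l W := by
  have key : ∀ D : Finset α, D ⊆ W → Phi κ n y s l W' ≤ Phi κ n y s l (D ∪ W') := by
    intro D
    induction D using Finset.induction_on with
    | empty => intro _; simp
    | insert o D hoD ih =>
      intro hD
      refine le_trans (ih ((subset_insert o D).trans hD)) ?_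
      rw [insert_union]
      by_cases ho : o ∈ D ∪ W'
      · rw [insert_eq_self.2 ho]
      · refine Phi_mono_erase hr hy hz hκ n ho (h.subset ?_)
        rw [← insert_union]
        exact union_subset hD hW
  have := key W subset_rfl
  rwa [union_eq_left.2 hW] at this

/-- the selection step: the colour of `o` is uniform on `O` -/
theorem Phi_step (hr : 0 < r) (hy : Herm y) (hz : ZD y) (ho : o ∉ W) (hs : s o = none)
    {κ : ℝ} (hκ : 0 < κ) (n : ℕ) {δ M η : ℝ} (hδ : 0 ≤ δ) (hM : 0 ≤ M)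
    (hS : Safe y s (fun i => l i - κ) (insert o W)) (O : Finset (Fin r)) (hO : r ≤ 2 * O.card)
    (hA : ∀ c ∈ O, 2 * Real.exp 1 * (l o - κ - sg y s o (fun i => l i - κ) W) ≤
      l o + δ - κ - sg y (Function.update s o (some c)) o (fun i => l i - κ) W)
    (hn : ∀ c ∈ O, n * κ * (1 + M) ≤
      l o + δ - κ - sg y (Function.update s o (some c)) o (fun i => l i - κ) W)
    (hη : 0 < η) (hηS : Safe y s (fun i => l i - κ - η) W)
    (hder : ∀ c ∈ O, sg y (Function.update s o (some c)) o (fun i => l i - κ - η) W -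
      sg y (Function.update s o (some c)) o (fun i => l i - κ) W ≤ M * η) :
    ∑ c ∈ O, Phi κ n y (Function.update s o (some c)) (Function.update l o (l o + δ))
      (insert o W) ≤ O.card * Phi κ n y s l (insert o W) := by
  obtain ⟨μ, m, h1, h2, h3, h4⟩ := exists_frac (s := s) (l := l) hr hy hz ho
  have hr' : (r : ℝ) ≠ 0 := by exact_mod_cast hr.ne'
  have hs' : ∀ c : Fin r, ∀ i ∈ W, Function.update s o (some c) i = s i := by
    intro c i hi
    have : i ≠ o := fun h => ho (h ▸ hi)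
    simp [this]
  have hdc : ∀ c, PotData y s (Function.update s o (some c)) l W o μ (m c) :=
    fun c => ⟨h1, h2 c, h3, h4 c⟩
  have hd : PotData y s s l W o μ (fun j => (∑ c, m c j) / r) := by
    refine ⟨h1, fun j => ?_, h3, fun t => ?_⟩
    · exact div_nonneg (Finset.sum_nonneg fun c _ => h2 c j) (Nat.cast_nonneg r)
    · rw [q_avg hr (mem_insert_self o W) hs]
      simp only [h4]
      rw [Finset.sum_sub_distrib, Finset.sum_const, Finset.card_univ, Fintype.card_fin,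
        nsmul_eq_mul, Finset.sum_comm, sub_div, mul_div_cancel_left₀ _ hr', Finset.sum_div]
      congr 1
      refine Finset.sum_congr rfl fun j _ => ?_
      rw [← Finset.sum_mul]
      ring
  have hSW : Safe y s (fun i => l i - κ) W := hS.subset (subset_insert o W)
  have hμ : ∀ j, κ < μ j := hd.gt hr hy hSW
  have hμη : ∀ j, κ + η < μ j := by
    refine hd.gt hr hy (κ := κ + η) ?_
    refine hηS.congr (fun _ _ => rfl) fun i _ => ?_
    ring
  have hA0 := pot_A hr hy ho hd (fun _ _ => rfl) hS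
  set A : ℝ := l o - κ - ∑ j, (fun j => (∑ c, m c j) / r) j / (μ j - κ) with hAdef
  have hsg0 : l o - κ - sg y s o (fun i => l i - κ) W = A := by
    rw [hd.sgE hr hy ho (fun _ _ => rfl) hμ]
  set Ac : Fin r → ℝ := fun c => l o + δ - κ - ∑ j, m c j / (μ j - κ) with hAc
  have hsgc : ∀ c, sg y (Function.update s o (some c)) o (fun i => l i - κ) W =
      ∑ j, m c j / (μ j - κ) := fun c => (hdc c).sgE hr hy ho (hs' c) hμ
  have hA' : ∀ c ∈ O, 2 * Real.exp 1 * A ≤ Ac c := by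
    intro c hc
    have := hA c hc
    rwa [hsg0, hsgc] at this
  have hn' : ∀ c ∈ O, n * κ * (1 + M) ≤ Ac c := by
    intro c hc
    have := hn c hc
    rwa [hsgc] at this
  have hAc0 : ∀ c ∈ O, 0 < Ac c := fun c hc =>
    lt_of_lt_of_le (by (clear * - hA0; positivity)) (hA' c hc)
  -- the weights
  set x : Fin W.card → ℝ := fun j => μ j / (μ j - κ) with hx
  have hx0 : ∀ j, 0 ≤ x j := fun j => by
    have := hμ j
    exact div_nonneg (by linarith only [hκ, this]) (by linarith only [this])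
  set B : Fin r → ℝ := fun c => 1 + ∑ j, m c j / (μ j - κ) ^ 2 * x j ^ (n - 1) with hB
  have hB0 : ∀ c, 0 ≤ B c := fun c => add_nonneg zero_le_one <| Finset.sum_nonneg fun j _ =>
    mul_nonneg (div_nonneg (h2 c j) (sq_nonneg _)) (pow_nonneg (hx0 j) _)
  set T : ℝ := 1 + ∑ j, x j ^ n with hT
  -- derivative bound
  have hU : ∀ c ∈ O, ∑ j, m c j / (μ j - κ) ^ 2 ≤ M := by
    intro c hc
    have e := hder c hc
    have e1 : sg y (Function.update s o (some c)) o (fun i => l i - κ - η) W =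
        ∑ j, m c j / (μ j - (κ + η)) := by
      rw [← (hdc c).sgE hr hy ho (hs' c) hμη]
      congr 1
      funext i
      ring
    rw [e1, hsgc, ← Finset.sum_sub_distrib] at e
    have e2 : η * ∑ j, m c j / (μ j - κ) ^ 2 ≤
        ∑ j, (m c j / (μ j - (κ + η)) - m c j / (μ j - κ)) := by
      rw [Finset.mul_sum]
      refine Finset.sum_le_sum fun j _ => ?_
      have g1 := hμη j
      have g2 := hμ j
      have g3 : 0 < μ j - (κ + η) := by linarith only [g1]
      have g4 : 0 < μ j - κ := by linarith only [hη, g1]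
      have g5 : m c j / (μ j - (κ + η)) - m c j / (μ j - κ) =
          η * (m c j / ((μ j - (κ + η)) * (μ j - κ))) := by
        field_simp
        ring
      rw [g5]
      refine mul_le_mul_of_nonneg_left ?_ hη.le
      refine div_le_div_of_nonneg_left (h2 c j) (mul_pos g3 g4) ?_
      rw [sq]
      exact mul_le_mul_of_nonneg_right (by linarith only [hη]) g4.le
    have e3 : η * ∑ j, m c j / (μ j - κ) ^ 2 ≤ η * M := by linarith only [e2, e]
    exact le_of_mul_le_mul_left e3 hη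
  -- upper bound for each colour
  have hup : ∀ c ∈ O, Phi κ n y (Function.update s o (some c)) (Function.update l o (l o + δ))
      (insert o W) ≤ T + n * (κ / (2 * A)) * B c := by
    intro c hc
    have hl : ∀ i ∈ W, Function.update l o (l o + δ) i = l i := by
      intro i hi
      have : i ≠ o := fun h => ho (h ▸ hi)
      simp [this]
    have ha0 := hAc0 c hc
    rw [(hdc c).phi hr hy ho (hs' c) hl, Function.update_self]
    have hb := arrS_le (a := l o + δ) hκ hμ (h2 c) ha0 n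
    refine hb.trans ?_
    have hac : l o + δ - κ - ∑ j, m c j / (μ j - κ) = Ac c := rfl
    rw [hac]
    have hU0 : 0 ≤ ∑ j, m c j / (μ j - κ) ^ 2 := Finset.sum_nonneg fun j _ =>
      div_nonneg (h2 c j) (sq_nonneg _)
    have hbeta : 0 ≤ κ / Ac c := div_nonneg hκ.le ha0.le
    have hexp : (1 + κ / Ac c * (1 + ∑ j, m c j / (μ j - κ) ^ 2)) ^ (n - 1) ≤ Real.exp 1 := by
      rcases Nat.eq_zero_or_pos n with hn0 | hn0
      · subst hn0
        simp only [zero_tsub, pow_zero, Real.one_le_exp_iff, zero_le_one]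
      have f1 : κ / Ac c * (1 + ∑ j, m c j / (μ j - κ) ^ 2) ≤ 1 / n := by
        have f2 : κ / Ac c * (1 + ∑ j, m c j / (μ j - κ) ^ 2) ≤ κ / Ac c * (1 + M) :=
          mul_le_mul_of_nonneg_left (by linarith only [hU c hc]) hbeta
        refine f2.trans ?_
        have hn1 : (0 : ℝ) < n := by exact_mod_cast hn0
        rw [div_mul_eq_mul_div, div_le_div_iff₀ ha0 hn1]
        have := hn' c hc
        linarith only [this]
      have f3 : 0 ≤ κ / Ac c * (1 + ∑ j, m c j / (μ j - κ) ^ 2) :=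
        mul_nonneg hbeta (by linarith only [hU0])
      have hn1 : (0 : ℝ) < n := by exact_mod_cast hn0
      calc (1 + κ / Ac c * (1 + ∑ j, m c j / (μ j - κ) ^ 2)) ^ (n - 1)
          ≤ (1 + κ / Ac c * (1 + ∑ j, m c j / (μ j - κ) ^ 2)) ^ n :=
            pow_le_pow_right₀ (by linarith only [f3]) (Nat.sub_le n 1)
        _ ≤ (Real.exp (1 / n)) ^ n := by
            refine pow_le_pow_left₀ (by linarith only [f3]) ?_ n
            refine le_trans ?_ (Real.add_one_le_exp _)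
            linarith only [f1]
        _ = Real.exp 1 := by
            rw [← Real.exp_nat_mul]
            congr 1
            (clear * - hn0; field_simp)
    have hk : κ / Ac c * Real.exp 1 ≤ κ / (2 * A) := by
      have g1 := hA' c hc
      rw [div_mul_eq_mul_div, div_le_div_iff₀ ha0 (by linarith only [hA0])]
      have g2 : κ * (2 * Real.exp 1 * A) ≤ κ * Ac c := mul_le_mul_of_nonneg_left g1 hκ.le
      linarith only [g2]
    have hB1 : (1 + ∑ j, m c j / (μ j - κ) ^ 2 * (μ j / (μ j - κ)) ^ (n - 1)) = B c := rfl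
    have hT1 : (1 + ∑ j, (μ j / (μ j - κ)) ^ n) = T := rfl
    rw [hB1, hT1]
    have hfin : (n : ℝ) * (κ / Ac c) *
        (1 + κ / Ac c * (1 + ∑ j, m c j / (μ j - κ) ^ 2)) ^ (n - 1) ≤ n * (κ / (2 * A)) := by
      calc (n : ℝ) * (κ / Ac c) *
          (1 + κ / Ac c * (1 + ∑ j, m c j / (μ j - κ) ^ 2)) ^ (n - 1)
          ≤ (n : ℝ) * (κ / Ac c) * Real.exp 1 :=
            mul_le_mul_of_nonneg_left hexp (mul_nonneg (Nat.cast_nonneg n) hbeta)
        _ = n * (κ / Ac c * Real.exp 1) := by ring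
        _ ≤ n * (κ / (2 * A)) := mul_le_mul_of_nonneg_left hk (Nat.cast_nonneg n)
    have := mul_le_mul_of_nonneg_right hfin (hB0 c)
    linarith only [this]
  -- lower bound for the undecided state
  have hlow : T + n * (κ / A) * ((∑ c, B c) / r) ≤ Phi κ n y s l (insert o W) := by
    rw [hd.phi hr hy ho (fun _ _ => rfl) (fun _ _ => rfl)]
    refine le_trans (le_of_eq ?_) (arrS_ge hκ hμ hd.2.1 hA0 n)
    have hBs : (∑ c, B c) / r = 1 + ∑ j, (∑ c, m c j) / r / (μ j - κ) ^ 2 * x j ^ (n - 1) := by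
      rw [div_eq_iff hr', add_mul, one_mul, Finset.sum_mul]
      simp only [hB, Finset.sum_add_distrib, Finset.sum_const, Finset.card_univ,
        Fintype.card_fin, nsmul_eq_mul, mul_one]
      congr 1
      rw [Finset.sum_comm]
      refine Finset.sum_congr rfl fun j _ => ?_
      rw [← Finset.sum_mul, ← Finset.sum_div]
      (clear * - hr'; field_simp)
    rw [hBs]
  have hAn : 0 ≤ (n : ℝ) * (κ / (2 * A)) :=
    mul_nonneg (Nat.cast_nonneg n) (div_nonneg hκ.le (by linarith only [hA0]))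
  have hOr : (r : ℝ) ≤ 2 * O.card := by exact_mod_cast hO
  have hBO : ∑ c ∈ O, B c ≤ ∑ c, B c :=
    Finset.sum_le_sum_of_subset_of_nonneg (Finset.subset_univ O) fun c _ _ => hB0 c
  have hBn : 0 ≤ (∑ c, B c) / r :=
    div_nonneg (Finset.sum_nonneg fun c _ => hB0 c) (Nat.cast_nonneg r)
  calc (∑ c ∈ O, Phi κ n y (Function.update s o (some c)) (Function.update l o (l o + δ))
      (insert o W)) ≤ ∑ c ∈ O, (T + n * (κ / (2 * A)) * B c) := Finset.sum_le_sum hup
    _ = O.card * T + n * (κ / (2 * A)) * ∑ c ∈ O, B c := by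
        rw [Finset.sum_add_distrib, Finset.sum_const, nsmul_eq_mul, Finset.mul_sum]
    _ ≤ O.card * T + n * (κ / (2 * A)) * (r * ((∑ c, B c) / r)) := by
        rw [mul_div_cancel₀ _ hr']
        (clear * - hBO hκ hA0; gcongr)
    _ ≤ O.card * T + n * (κ / (2 * A)) * (2 * O.card * ((∑ c, B c) / r)) := by
        (clear * - hOr hBn hκ hA0; gcongr)
    _ = O.card * (T + n * (κ / A) * ((∑ c, B c) / r)) := by
        have : κ / (2 * A) * 2 = κ / A := by
          (clear * - hA0 hκ; field_simp)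
        calc (O.card : ℝ) * T + n * (κ / (2 * A)) * (2 * O.card * ((∑ c, B c) / r))
            = O.card * T + n * (κ / (2 * A) * 2) * (O.card * ((∑ c, B c) / r)) := by ring
          _ = _ := by rw [this]; ring
    _ ≤ O.card * Phi κ n y s l (insert o W) :=
        mul_le_mul_of_nonneg_left hlow (Nat.cast_nonneg _)

end Vale.Agent.P078.TX
end

section
/-! T3-D: the Green functions. -/

namespace Vale.Agent.P078.TX

open Finset Polynomial
open Vale.Agent.P078.C (qf yc)

variable {α : Type*} [DecidableEq α] {r ν : ℕ}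
variable {y : Ker ν α} {s : α → Option (Fin r)} {l l' : α → ℝ} {W W' : Finset α} {o v : α}

theorem GG_pos (h : Safe y s l W) : 0 < GG y s l W v :=
  div_pos (h _ (erase_subset v W)) (h W Subset.rfl)

private theorem gst_den (hr : 0 < r) (hy : Herm y) (h : Safe y s l W) (hv : v ∈ W) :
    0 < l v - sg y s v l (W.erase v) := by
  have h1 : Safe y s l (insert v (W.erase v)) := by rwa [insert_erase hv]
  have h2 := ((safe_insert_iff hr hy (notMem_erase v W)).1 h1).2
  linarith only [h2]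

theorem GG_eq (hr : 0 < r) (hy : Herm y) (h : Safe y s l W) (hv : v ∈ W) :
    GG y s l W v = 1 / (l v - sg y s v l (W.erase v)) := by
  have h1 := h _ (erase_subset v W)
  have h2 := q_insert_sg (o := v) hr hy (notMem_erase v W) h1
  rw [insert_erase hv] at h2
  have h3 := gst_den hr hy h hv
  unfold GG
  rw [h2, div_mul_eq_div_div, div_self h1.ne']

theorem GG_mono_level (hr : 0 < r) (hy : Herm y) (h : Safe y s l W) (hv : v ∈ W)
    (hl : ∀ i ∈ W, l i ≤ l' i) : GG y s l' W v ≤ GG y s l W v := by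
  have h' : Safe y s l' W := h.mono hr hy hl
  rw [GG_eq hr hy h hv, GG_eq hr hy h' hv]
  have h1 := sg_anti hr hy (notMem_erase v W) (h.subset (erase_subset v W))
    (fun i hi => hl i (mem_of_mem_erase hi))
  have h2 := hl v hv
  exact one_div_le_one_div_of_le (gst_den hr hy h hv) (by linarith only [h1, h2])

theorem GG_mono_set (hr : 0 < r) (hy : Herm y) (h : Safe y s l W) (hv : v ∈ W') (hW : W' ⊆ W) :
    GG y s l W' v ≤ GG y s l W v := by
  rw [GG_eq hr hy h (hW hv), GG_eq hr hy (h.subset hW) hv]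
  have h1 := sg_mono_set (o := v) hr hy (erase_subset_erase v hW) (notMem_erase v W)
    (h.subset (erase_subset v W))
  exact one_div_le_one_div_of_le (gst_den hr hy h (hW hv)) (by (clear * - h1; linarith))

/-- the Green function after the insertion of a point -/
private theorem gst_insert (hr : 0 < r) (hy : Herm y) (ho : o ∉ W) (hv : v ∈ W)
    (hS : Safe y s l W) (hA : 0 < l o - sg y s o l W) :
    GG y s l (insert o W) v = GG y s l W v *
      (1 + (sg y s o l W - sg y s o l (W.erase v)) / (l o - sg y s o l W)) := by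
  have hne : o ≠ v := fun h => ho (h ▸ hv)
  have h1 := hS W Subset.rfl
  have h2 := hS _ (erase_subset v W)
  have ho' : o ∉ W.erase v := fun h => ho (mem_of_mem_erase h)
  have e1 := q_insert_sg (o := o) hr hy ho h1
  have e2 := q_insert_sg (o := o) hr hy ho' h2
  unfold GG
  rw [erase_insert_of_ne hne, e1, e2]
  field_simp
  ring

/-- the inequality between the averages -/
private theorem gst_avg {O : Finset (Fin r)} (hO : r ≤ 2 * O.card) {K A : Fin r → ℝ} {D : ℝ}
    (hD : 0 < D) (hK : ∀ c, 0 ≤ K c) (hA : ∀ c ∈ O, 2 * D ≤ A c) (hr : 0 < r) :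
    ∑ c ∈ O, (1 + K c / A c) ≤ O.card * (1 + (∑ c, K c) / r / D) := by
  have h1 : ∑ c ∈ O, K c / A c ≤ ∑ c ∈ O, K c / (2 * D) :=
    sum_le_sum fun c hc => div_le_div_of_nonneg_left (hK c) (by linarith only [hD]) (hA c hc)
  have h2 : ∑ c ∈ O, K c / (2 * D) ≤ ∑ c, K c / (2 * D) :=
    sum_le_sum_of_subset_of_nonneg (subset_univ _) fun c _ _ => div_nonneg (hK c) (by linarith only [hD])
  have hS : 0 ≤ ∑ c, K c := sum_nonneg fun c _ => hK c
  have hr' : (0 : ℝ) < r := by exact_mod_cast hr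
  have hO' : (r : ℝ) ≤ 2 * O.card := by exact_mod_cast hO
  have h3 : ∑ c, K c / (2 * D) ≤ O.card * ((∑ c, K c) / r / D) := by
    rw [← sum_div]
    have e : (O.card : ℝ) * ((∑ c, K c) / r / D) = (∑ c, K c) / (2 * D) * (2 * O.card / r) := by
      (clear * - hD hr; field_simp)
    rw [e]
    exact le_mul_of_one_le_right (div_nonneg hS (by linarith only [hD])) ((one_le_div hr').2 hO')
  rw [sum_add_distrib, sum_const, nsmul_eq_mul, mul_add]
  linarith only [h1, h2, h3]

theorem GG_step (hr : 0 < r) (hy : Herm y) (ho : o ∉ W) (hv : v ∈ W) (hs : s o = none)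
    {δ : ℝ} (hδ : 0 ≤ δ) (hS : Safe y s l (insert o W)) (O : Finset (Fin r))
    (hO : r ≤ 2 * O.card)
    (hA : ∀ c ∈ O, 2 * (l o - sg y s o l W) ≤
      l o + δ - sg y (Function.update s o (some c)) o l W) :
    ∑ c ∈ O, GG y (Function.update s o (some c)) (Function.update l o (l o + δ)) (insert o W) v ≤
      O.card * GG y s l (insert o W) v := by
  have hSW : Safe y s l W := hS.subset (subset_insert o W)
  have ho' : o ∉ W.erase v := fun h => ho (mem_of_mem_erase h)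
  have hD : 0 < l o - sg y s o l W := by
    have := ((safe_insert_iff hr hy ho).1 hS).2
    linarith only [this]
  have hne : ∀ i ∈ W, i ≠ o := fun i hi h => ho (h ▸ hi)
  -- the new configuration on `W`
  have hsc : ∀ c : Fin r, ∀ i ∈ W, s i = Function.update s o (some c) i := fun c i hi => by
    rw [Function.update_of_ne (hne i hi)]
  have hlc : ∀ i ∈ W, l i = Function.update l o (l o + δ) i := fun i hi => by
    rw [Function.update_of_ne (hne i hi)]
  have hSc : ∀ c : Fin r, Safe y (Function.update s o (some c))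
      (Function.update l o (l o + δ)) W := fun c => hSW.congr (hsc c) hlc
  have hSc' : ∀ c : Fin r, Safe y (Function.update s o (some c)) l W :=
    fun c => hSW.congr (hsc c) fun _ _ => rfl
  have hsg : ∀ (c : Fin r) (U : Finset α), U ⊆ W →
      sg y (Function.update s o (some c)) o (Function.update l o (l o + δ)) U =
      sg y (Function.update s o (some c)) o l U := fun c U hU =>
    sg_congr (fun _ _ => rfl) (fun i hi => (hlc i (hU hi)).symm) fun h => ho (hU h)
  have hK : ∀ c : Fin r, 0 ≤ sg y (Function.update s o (some c)) o l W -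
      sg y (Function.update s o (some c)) o l (W.erase v) := fun c =>
    sub_nonneg.2 (sg_mono_set hr hy (erase_subset v W) ho (hSc' c))
  have hG0 : 0 < GG y s l W v := GG_pos hSW
  have hnew : ∀ c ∈ O,
      GG y (Function.update s o (some c)) (Function.update l o (l o + δ)) (insert o W) v =
      GG y s l W v * (1 + (sg y (Function.update s o (some c)) o l W -
        sg y (Function.update s o (some c)) o l (W.erase v)) /
        (l o + δ - sg y (Function.update s o (some c)) o l W)) := by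
    intro c hc
    have h1 := hA c hc
    have h2 := gst_insert hr hy ho hv (hSc c) (by
      rw [hsg c W Subset.rfl, Function.update_self]
      linarith only [hD, h1])
    rw [hsg c W Subset.rfl, hsg c _ (erase_subset v W), Function.update_self] at h2
    rw [h2]
    congr 1
    unfold GG
    rw [← q_congr (hsc c) hlc, ← q_congr (fun i hi => hsc c i (mem_of_mem_erase hi))
      fun i hi => hlc i (mem_of_mem_erase hi)]
  rw [sum_congr rfl hnew, ← mul_sum, gst_insert hr hy ho hv hSW hD, mul_left_comm]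
  refine mul_le_mul_of_nonneg_left ?_ hG0.le
  have h3 := gst_avg (O := O) hO (K := fun c => sg y (Function.update s o (some c)) o l W -
      sg y (Function.update s o (some c)) o l (W.erase v))
    (A := fun c => l o + δ - sg y (Function.update s o (some c)) o l W) hD hK hA hr
  refine h3.trans (le_of_eq ?_)
  rw [sum_sub_distrib, sub_div, ← sg_avg hr hy ho hs, ← sg_avg hr hy ho' hs]

end Vale.Agent.P078.TX
end

section
/-! T3-F1: local systems without an invariant mean (copy of C/Sys.lean, parts of C/SysTop.lean,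
C/SysNice.lean). -/

namespace Vale.Agent.P078.TX

open Finset Polynomial
open scoped Pointwise Classical
open Vale.Agent.P078.C (qf yc)

/-- A local system: a group acting on a space, kernels of finite range along
the orbits, continuous up to gauge. -/
structure Sys3 (ν : ℕ) (X G : Type*) [TopologicalSpace X] [Group G] [MulAction G X] where
  cont : ∀ g : G, Continuous fun x : X => g • x
  fixc : ∀ g : G, IsClopen {x : X | g • x = x}
  S : Finset G
  one_mem : (1 : G) ∈ S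
  inv_mem : ∀ g ∈ S, g⁻¹ ∈ S
  y : Ker ν X
  herm : Herm y
  zd : ZD y
  range : ∀ b v w, y b v w ≠ 0 → ∃ g ∈ S, v = g • w
  a : ℝ
  b : ℝ
  bound : FB a b y
  k : Fin (ν + 1) → G → G → X → ℂ
  k_cont : ∀ b g h, Continuous (k b g h)
  gauge : ∀ b x, ∃ u : G → ℂ, (∀ g, ‖u g‖ = 1) ∧
    ∀ g h, y b (g • x) (h • x) = star (u g) * k b g h x * u h

namespace Sys3

variable {X G : Type*} [TopologicalSpace X] [Group G] [MulAction G X] {ν : ℕ}

/-- the set of products of `n` elements of `S` -/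
noncomputable def ballG (𝔖 : Sys3 ν X G) (n : ℕ) : Finset G := 𝔖.S ^ n

/-- the ball of radius `n` around `x` -/
noncomputable def ball (𝔖 : Sys3 ν X G) (n : ℕ) (x : X) : Finset X :=
  (𝔖.ballG n).image fun g => g • x

theorem one_mem_ballG (𝔖 : Sys3 ν X G) (n : ℕ) : (1 : G) ∈ 𝔖.ballG n := by
  unfold ballG
  induction n with
  | zero => simp only [pow_zero, mem_one]
  | succ n ih =>
    rw [pow_succ]
    exact Finset.mem_mul.mpr ⟨1, ih, 1, 𝔖.one_mem, by simp⟩

theorem inv_mem_ballG (𝔖 : Sys3 ν X G) {n : ℕ} {g : G} (hg : g ∈ 𝔖.ballG n) : g⁻¹ ∈ 𝔖.ballG n := by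
  unfold ballG at hg ⊢
  induction n generalizing g with
  | zero =>
    simp only [pow_zero, Finset.mem_one] at hg ⊢
    simp [hg]
  | succ n ih =>
    rw [pow_succ] at hg
    obtain ⟨a, ha, b, hb, rfl⟩ := Finset.mem_mul.mp hg
    rw [pow_succ']
    exact Finset.mem_mul.mpr ⟨b⁻¹, 𝔖.inv_mem b hb, a⁻¹, ih ha, by simp only [mul_inv_rev]⟩

theorem mem_ball {𝔖 : Sys3 ν X G} {n : ℕ} {x v : X} : v ∈ 𝔖.ball n x ↔ ∃ g ∈ 𝔖.ballG n, v = g • x := by
  unfold ball
  rw [Finset.mem_image]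
  constructor
  · rintro ⟨g, hg, h⟩
    exact ⟨g, hg, h.symm⟩
  · rintro ⟨g, hg, h⟩
    exact ⟨g, hg, h.symm⟩

theorem mem_ball_comm {𝔖 : Sys3 ν X G} {n : ℕ} {x v : X} : v ∈ 𝔖.ball n x ↔ x ∈ 𝔖.ball n v := by
  have key : ∀ x v : X, v ∈ 𝔖.ball n x → x ∈ 𝔖.ball n v := by
    intro x v h
    obtain ⟨g, hg, rfl⟩ := mem_ball.mp h
    exact mem_ball.mpr ⟨g⁻¹, 𝔖.inv_mem_ballG hg, by simp⟩
  exact ⟨key x v, key v x⟩

theorem mem_ball_self (𝔖 : Sys3 ν X G) (n : ℕ) (x : X) : x ∈ 𝔖.ball n x :=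
  mem_ball.mpr ⟨1, 𝔖.one_mem_ballG n, by simp⟩

theorem ballG_mono {𝔖 : Sys3 ν X G} {m n : ℕ} (h : m ≤ n) : 𝔖.ballG m ⊆ 𝔖.ballG n := by
  obtain ⟨k, rfl⟩ := Nat.exists_eq_add_of_le h
  intro g hg
  unfold ballG at hg ⊢
  rw [pow_add]
  exact Finset.mem_mul.mpr ⟨g, hg, 1, 𝔖.one_mem_ballG k, by simp⟩

theorem ball_mono {𝔖 : Sys3 ν X G} {m n : ℕ} (h : m ≤ n) (x : X) : 𝔖.ball m x ⊆ 𝔖.ball n x := by
  intro v hv
  obtain ⟨g, hg, rfl⟩ := mem_ball.mp hv
  exact mem_ball.mpr ⟨g, ballG_mono h hg, rfl⟩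

theorem ball_trans {𝔖 : Sys3 ν X G} {m n : ℕ} {x v w : X} (h1 : v ∈ 𝔖.ball m x)
    (h2 : w ∈ 𝔖.ball n v) : w ∈ 𝔖.ball (m + n) x := by
  obtain ⟨g, hg, rfl⟩ := mem_ball.mp h1
  obtain ⟨h, hh, rfl⟩ := mem_ball.mp h2
  refine mem_ball.mpr ⟨h * g, ?_, by rw [mul_smul]⟩
  unfold ballG at hg hh ⊢
  rw [add_comm m n, pow_add]
  exact Finset.mul_mem_mul hh hg

theorem ball_of_edge {𝔖 : Sys3 ν X G} {b : Fin (ν + 1)} {v w : X} (h : 𝔖.y b v w ≠ 0) :
    v ∈ 𝔖.ball 1 w := by
  obtain ⟨g, hg, hv⟩ := 𝔖.range b v w h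
  exact mem_ball.mpr ⟨g, by unfold ballG; simpa only [pow_one] using hg, hv⟩

/-- a set is `n`-sparse if two different points of it are never at distance at most `n` -/
def Sparse (𝔖 : Sys3 ν X G) (n : ℕ) (C : Set X) : Prop := ∀ v ∈ C, ∀ w ∈ C, v ∈ 𝔖.ball n w → v = w

theorem exists_sparse [CompactSpace X] [T2Space X] [TotallyDisconnectedSpace X] (𝔖 : Sys3 ν X G)
    (n : ℕ) : ∃ (m : ℕ) (j : X → Fin m), IsLocallyConstant j ∧
      ∀ i, 𝔖.Sparse n (j ⁻¹' {i}) := by
  have h1 : ∀ x : X, ∀ g : G, ∃ U : Set X, IsClopen U ∧ x ∈ U ∧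
      ∀ z ∈ U, g • z ∈ U → g • z = z := by
    intro x g
    by_cases hg : g • x = x
    · exact ⟨{z | g • z = z}, 𝔖.fixc g, hg, fun z hz _ => hz⟩
    · obtain ⟨V, W, hV, hW, hxV, hgW, hVW⟩ := t2_separation (Ne.symm hg)
      have hopen : IsOpen (V ∩ (fun z : X => g • z) ⁻¹' W) :=
        hV.inter (hW.preimage (𝔖.cont g))
      obtain ⟨U, hU, hxU, hUs⟩ := compact_exists_isClopen_in_isOpen hopen
        (⟨hxV, hgW⟩ : x ∈ V ∩ (fun z : X => g • z) ⁻¹' W)
      refine ⟨U, hU, hxU, fun z hz hgz => ?_⟩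
      exfalso
      exact Set.disjoint_left.mp hVW (hUs hgz).1 (hUs hz).2
  choose U hU hxU hUs using h1
  have hW : ∀ x : X, IsClopen (⋂ g ∈ 𝔖.ballG n, U x g) := fun x =>
    isClopen_biInter_finset fun g _ => hU x g
  obtain ⟨m, j, i, hj, hi⟩ := C.Sys.exists_lc_cover (fun x => ⋂ g ∈ 𝔖.ballG n, U x g) hW
    (fun x => Set.mem_iInter₂.mpr fun g _ => hxU x g)
  refine ⟨m, j, hj, fun k => ?_⟩
  intro v hv w hw hvw
  obtain ⟨g, hg, rfl⟩ := mem_ball.mp hvw
  have hv' := hi (g • w)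
  have hw' := hi w
  have e1 : j (g • w) = k := hv
  have e2 : j w = k := hw
  rw [e1] at hv'
  rw [e2] at hw'
  exact hUs (i k) g w (Set.mem_iInter₂.mp hw' g hg) (Set.mem_iInter₂.mp hv' g hg)

theorem nice_ev_clopen {s : Set X} (hs : IsClopen s) (x0 : X) :
    ∀ᶠ x in nhds x0, (x ∈ s ↔ x0 ∈ s) := by
  by_cases h : x0 ∈ s
  · filter_upwards [hs.isOpen.mem_nhds h] with x hx
    exact iff_of_true hx h
  · filter_upwards [hs.isClosed.isOpen_compl.mem_nhds h] with x hx
    exact iff_of_false hx h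

theorem nice_ev_eq (𝔖 : Sys3 ν X G) (g h : G) (x0 : X) :
    ∀ᶠ x in nhds x0, (g • x = h • x ↔ g • x0 = h • x0) := by
  have key : ∀ x : X, g • x = h • x ↔ (h⁻¹ * g) • x = x := by
    intro x
    rw [mul_smul, inv_smul_eq_iff]
  filter_upwards [nice_ev_clopen (𝔖.fixc (h⁻¹ * g)) x0] with x hx
  rw [key x, key x0]
  exact hx

/-- local representatives for the coincidences `g • x = h • x`, `g, h ∈ J` -/
theorem nice_rep (𝔖 : Sys3 ν X G) (J : Finset G) (x0 : X) :
    ∃ ρ : G → G, (∀ h ∈ J, ρ h ∈ J) ∧ (∀ h ∈ J, ρ (ρ h) = ρ h) ∧ ∀ᶠ x in nhds x0,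
      (∀ h ∈ J, ρ h • x = h • x) ∧ (∀ g ∈ J, ∀ h ∈ J, g • x = h • x → ρ g = ρ h) := by
  let σ : X → G := fun v => if hv : ∃ g ∈ J, g • x0 = v then hv.choose else 1
  have hσ : ∀ h ∈ J, σ (h • x0) ∈ J ∧ σ (h • x0) • x0 = h • x0 := by
    intro h hh
    have hv : ∃ g ∈ J, g • x0 = h • x0 := ⟨h, hh, rfl⟩
    have : σ (h • x0) = hv.choose := dif_pos hv
    rw [this]
    exact hv.choose_spec
  refine ⟨fun h => σ (h • x0), fun h hh => (hσ h hh).1, fun h hh => ?_, ?_⟩
  · show σ (σ (h • x0) • x0) = σ (h • x0)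
    rw [(hσ h hh).2]
  · have h1 : ∀ᶠ x in nhds x0, ∀ g ∈ J, ∀ h ∈ J, (g • x = h • x ↔ g • x0 = h • x0) := by
      refine (Filter.eventually_all_finset J).2 (fun g _ => ?_)
      exact (Filter.eventually_all_finset J).2 (fun h _ => 𝔖.nice_ev_eq g h x0)
    filter_upwards [h1] with x hx
    refine ⟨fun h hh => ?_, fun g hg h hh hgh => ?_⟩
    · exact (hx _ (hσ h hh).1 h hh).2 (hσ h hh).2
    · show σ (g • x0) = σ (h • x0)
      rw [(hx g hg h hh).1 hgh]

theorem nice_k_herm (𝔖 : Sys3 ν X G) (x : X) :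
    Herm fun b (g h : G) => 𝔖.k b g h x := by
  intro b
  obtain ⟨u, hu, hy⟩ := 𝔖.gauge b x
  have hk : ∀ g h, 𝔖.k b g h x = u g * 𝔖.y b (g • x) (h • x) * star (u h) := by
    intro g h
    have h1 : ∀ g, u g * star (u g) = 1 := by
      intro g
      rw [Complex.star_def, Complex.mul_conj, Complex.normSq_eq_norm_sq, hu g]
      simp
    have h2 : ∀ g, star (u g) * u g = 1 := fun g => by rw [mul_comm]; exact h1 g
    rw [hy g h]
    calc 𝔖.k b g h x = (u g * star (u g)) * 𝔖.k b g h x * (u h * star (u h)) := by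
          rw [h1, h1]; ring
      _ = _ := by ring
  intro g h
  show 𝔖.k b h g x = star (𝔖.k b g h x)
  rw [hk g h, hk h g, 𝔖.herm b (g • x) (h • x)]
  simp only [StarMul.star_mul, star_star]
  ring

theorem nice_locConst (𝔖 : Sys3 ν X G) {Y : Type*} {s : X → Y} (hs : IsLocallyConstant s) (g : G) :
    IsLocallyConstant fun x => s (g • x) :=
  hs.comp_continuous (𝔖.cont g)

end Sys3

end Vale.Agent.P078.TX
end

section
/-! T3-F2: the discrete metric space of a local system. -/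

namespace Vale.Agent.P078.TX

open Finset Polynomial
open scoped Pointwise Classical Topology
open Vale.Agent.P078.C (qf yc)

variable {X G : Type*} [TopologicalSpace X] [Group G] [MulAction G X] {ν : ℕ}

namespace Sys3

private theorem te_qf_neg {α : Type*} (y : α → α → ℂ) (W : Finset α) (v : α → ℂ) :
    qf (fun i j => -y i j) W v = -qf y W v := by
  unfold qf
  rw [← Complex.neg_re, ← Finset.sum_neg_distrib]
  congr 1
  refine Finset.sum_congr rfl fun i _ => ?_
  rw [← Finset.sum_neg_distrib]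
  refine Finset.sum_congr rfl fun j _ => ?_
  ring

private theorem te_FB_neg {α : Type*} {a b : ℝ} {y : Ker ν α} (h : FB a b y) :
    FB b a (fun k i j => -y k i j) := by
  intro k W v
  show -a * _ ≤ qf (fun i j => -y k i j) W v ∧ qf (fun i j => -y k i j) W v ≤ _
  rw [te_qf_neg]
  have := h k W v
  constructor <;> linarith

/-- the system with the kernel `-y` -/
def neg (𝔖 : Sys3 ν X G) : Sys3 ν X G where
  cont := 𝔖.cont
  fixc := 𝔖.fixc
  S := 𝔖.S
  one_mem := 𝔖.one_mem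
  inv_mem := 𝔖.inv_mem
  y := fun k i j => -𝔖.y k i j
  herm := fun k i j => by simp [𝔖.herm k i j]
  zd := fun k i => by simp [𝔖.zd k i]
  range := fun k v w h => 𝔖.range k v w (by simpa using h)
  a := 𝔖.b
  b := 𝔖.a
  bound := te_FB_neg 𝔖.bound
  k := fun b g h x => -𝔖.k b g h x
  k_cont := fun b g h => (𝔖.k_cont b g h).neg
  gauge := fun b x => by
    obtain ⟨u, hu, h⟩ := 𝔖.gauge b x
    exact ⟨u, hu, fun g h' => by rw [h g h']; ring⟩

/-- the distance in the orbits, cut off at `cap + 2` -/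
noncomputable def dist (𝔖 : Sys3 ν X G) (cap : ℕ) (x v : X) : ℕ :=
  if h : ∃ n, n ≤ cap + 1 ∧ v ∈ 𝔖.ball n x then Nat.find h else cap + 2

theorem dist_le_iff (𝔖 : Sys3 ν X G) {cap n : ℕ} (hn : n ≤ cap + 1) (x v : X) :
    𝔖.dist cap x v ≤ n ↔ v ∈ 𝔖.ball n x := by
  unfold dist
  split_ifs with h
  · constructor
    · intro hle
      exact 𝔖.ball_mono hle x (Nat.find_spec h).2
    · intro hv
      exact Nat.find_min' h ⟨hn, hv⟩
  · constructor
    · intro hle
      omega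
    · intro hv
      exact absurd ⟨n, hn, hv⟩ h

private theorem te_dist_le_cap (𝔖 : Sys3 ν X G) (cap : ℕ) (x v : X) : 𝔖.dist cap x v ≤ cap + 2 := by
  unfold dist
  split_ifs with h
  · have := (Nat.find_spec h).1
    omega
  · exact le_rfl

private theorem te_symm_le (𝔖 : Sys3 ν X G) (cap : ℕ) (x v : X) :
    𝔖.dist cap x v ≤ 𝔖.dist cap v x := by
  by_cases h : 𝔖.dist cap v x ≤ cap + 1
  · rw [𝔖.dist_le_iff h, mem_ball_comm, ← 𝔖.dist_le_iff h]
  · have := te_dist_le_cap 𝔖 cap x v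
    omega

private theorem te_tri (𝔖 : Sys3 ν X G) (cap : ℕ) (x v w : X) :
    𝔖.dist cap x w ≤ 𝔖.dist cap x v + 𝔖.dist cap v w := by
  by_cases h : 𝔖.dist cap x v + 𝔖.dist cap v w ≤ cap + 1
  · have h1 : v ∈ 𝔖.ball (𝔖.dist cap x v) x := (𝔖.dist_le_iff (by omega) x v).1 le_rfl
    have h2 : w ∈ 𝔖.ball (𝔖.dist cap v w) v := (𝔖.dist_le_iff (by omega) v w).1 le_rfl
    exact (𝔖.dist_le_iff h x w).2 (ball_trans h1 h2)
  · have := te_dist_le_cap 𝔖 cap x w
    omega

private theorem te_norm_le {α : Type*} {y : α → α → ℂ} (hy : C.Herm y) (hz : C.ZD y) (h : C.FB 1 1 y)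
    (v w : α) : ‖y v w‖ ≤ 1 := by
  by_cases hvw : v = w
  · rw [hvw, hz w]; simp only [norm_zero, zero_le_one]
  by_cases h0 : y v w = 0
  · rw [h0]; simp only [norm_zero, zero_le_one]
  have hn : (0 : ℝ) < ‖y v w‖ := norm_pos_iff.2 h0
  let f : α → ℂ := fun i => if i = v then 1 else star (y v w) / (‖y v w‖ : ℂ)
  have fv : f v = 1 := if_pos rfl
  have fw : f w = star (y v w) / (‖y v w‖ : ℂ) := if_neg (fun e => hvw e.symm)
  have hfw : ‖f w‖ = 1 := by
    rw [fw, norm_div, norm_star, Complex.norm_real, norm_norm, div_self hn.ne']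
  have key := (h {v, w} f).2
  rw [Finset.sum_pair hvw, fv, hfw] at key
  have e : qf y {v, w} f = 2 * ‖y v w‖ := by
    unfold qf
    rw [Finset.sum_pair hvw, Finset.sum_pair hvw, Finset.sum_pair hvw, hz v, hz w, hy v w, fv, fw]
    have hne : (‖y v w‖ : ℂ) ≠ 0 := by exact_mod_cast hn.ne'
    have h1 : y v w * star (y v w) = (‖y v w‖ : ℂ) * (‖y v w‖ : ℂ) := by
      rw [Complex.star_def, Complex.mul_conj, Complex.normSq_eq_norm_sq]
      push_cast
      ring
    have h2 : star (star (y v w) / (‖y v w‖ : ℂ)) = y v w / (‖y v w‖ : ℂ) := by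
      rw [star_div₀, star_star, Complex.star_def, Complex.conj_ofReal]
    rw [h2]
    have h3 : star (1 : ℂ) * 0 * 1 + star (1 : ℂ) * y v w * (star (y v w) / (‖y v w‖ : ℂ)) +
        (y v w / (‖y v w‖ : ℂ) * star (y v w) * 1 +
          y v w / (‖y v w‖ : ℂ) * 0 * (star (y v w) / (‖y v w‖ : ℂ))) =
        ((2 * ‖y v w‖ : ℝ) : ℂ) := by
      rw [star_one]
      have : (1 : ℂ) * 0 * 1 + 1 * y v w * (star (y v w) / (‖y v w‖ : ℂ)) +
        (y v w / (‖y v w‖ : ℂ) * star (y v w) * 1 +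
          y v w / (‖y v w‖ : ℂ) * 0 * (star (y v w) / (‖y v w‖ : ℂ))) =
          2 * (y v w * star (y v w)) / (‖y v w‖ : ℂ) := by
        ring
      rw [this, h1]
      push_cast
      field_simp
    rw [h3, Complex.ofReal_re]
  rw [e] at key
  norm_num at key
  linarith only [key]

theorem norm_y_le (𝔖 : Sys3 ν X G) (h : FB 1 1 𝔖.y) (b : Fin (ν + 1)) (v w : X) :
    ‖𝔖.y b v w‖ ≤ 1 :=
  te_norm_le (𝔖.herm b) (𝔖.zd b) (h b) v w

private theorem te_card (𝔖 : Sys3 ν X G) (n : ℕ) (x : X) : (𝔖.ball n x).card ≤ 𝔖.S.card ^ n := by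
  unfold ball
  exact Finset.card_image_le.trans (by unfold ballG; exact Finset.card_pow_le)

private theorem te_row (𝔖 : Sys3 ν X G) (h : FB 1 1 𝔖.y) (b : Fin (ν + 1)) (v : X)
    (W : Finset X) : ∑ w ∈ W, ‖𝔖.y b v w‖ ≤ (𝔖.S.card : ℝ) := by
  have h1 : ∑ w ∈ W, ‖𝔖.y b v w‖ ≤ ∑ w ∈ W, if 𝔖.y b v w ≠ 0 then (1 : ℝ) else 0 := by
    refine Finset.sum_le_sum fun w _ => ?_
    split_ifs with h0
    · exact 𝔖.norm_y_le h b v w
    · rw [not_not.1 h0]; simp
  refine h1.trans ?_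
  rw [← Finset.sum_filter, Finset.sum_const, nsmul_eq_mul, mul_one]
  have h2 : W.filter (fun w => 𝔖.y b v w ≠ 0) ⊆ 𝔖.S.image fun g => g • v := by
    intro w hw
    rw [Finset.mem_filter] at hw
    obtain ⟨g, hg, hv⟩ := 𝔖.range b v w hw.2
    rw [Finset.mem_image]
    exact ⟨g⁻¹, 𝔖.inv_mem g hg, by rw [hv, inv_smul_smul]⟩
  exact_mod_cast (Finset.card_le_card h2).trans Finset.card_image_le

/-- the environment of a local system -/
noncomputable def toEnv (𝔖 : Sys3 ν X G) (h : FB 1 1 𝔖.y) (cap : ℕ) : Env ν X where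
  y := 𝔖.y
  herm := 𝔖.herm
  zd := 𝔖.zd
  d := 𝔖.dist cap
  d_self := fun x => Nat.le_zero.1
    ((𝔖.dist_le_iff (Nat.zero_le _) x x).2 (𝔖.mem_ball_self 0 x))
  d_symm := fun x v => le_antisymm (te_symm_le 𝔖 cap x v) (te_symm_le 𝔖 cap v x)
  d_tri := te_tri 𝔖 cap
  edge := fun b v w hvw => (𝔖.dist_le_iff (by omega) v w).2 (mem_ball_comm.1 (ball_of_edge hvw))
  rad := cap + 1
  ball := 𝔖.ball
  mem_ball := fun n hn x v => (𝔖.dist_le_iff hn x v).symm
  Δ := 𝔖.S.card
  card_ball := fun n _ x => te_card 𝔖 n x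
  D := 𝔖.S.card
  row := te_row 𝔖 h

end Sys3

end Vale.Agent.P078.TX
end

section
/-! T3-F3: continuity of `q` along the orbits. -/

namespace Vale.Agent.P078.TX

open Finset Polynomial
open scoped Pointwise Classical Topology
open Vale.Agent.P078.C (qf yc)

variable {X G : Type*} [TopologicalSpace X] [Group G] [MulAction G X] {r ν : ℕ}

/-- `q` along an orbit, in terms of the continuous kernel -/
private theorem q_local (𝔖 : Sys3 ν X G) (J : Finset G) (s : X → Option (Fin r)) (l : X → ℝ)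
    (x : X) (hinj : Set.InjOn (fun g : G => g • x) J) :
    Q 𝔖.y s (fun v => (l v : ℂ)) (J.image fun g => g • x) =
      Q (fun b (g h : {g // g ∈ J}) => 𝔖.k b g h x) (fun g => s (g.1 • x))
        (fun g => (l (g.1 • x) : ℂ)) Finset.univ := by
  let f : {g // g ∈ J} ↪ X := ⟨fun g => g.1 • x, fun g h hgh => Subtype.ext (hinj g.2 h.2 hgh)⟩
  have h1 : (J.image fun g => g • x) = Finset.univ.map f := by
    ext v
    simp only [Finset.mem_image, Finset.mem_map, Finset.mem_univ, true_and]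
    constructor
    · rintro ⟨g, hg, rfl⟩
      exact ⟨⟨g, hg⟩, rfl⟩
    · rintro ⟨g, rfl⟩
      exact ⟨g.1, g.2, rfl⟩
  rw [h1, Q_map f Finset.univ]
  choose u hu hy using fun b => 𝔖.gauge b x
  exact Q_gauge (fun b g => u b g.1) (fun b g _ => hu b g.1) (fun b g _ h _ => hy b g.1 h.1)

/-- continuity of `q` on an orbit window, for states and levels which are locally constant along
the window (cf. `C.Sys.nice_SP_contAt`) -/
theorem q_contAt (𝔖 : Sys3 ν X G) (J : Finset G) (x0 : X) (s : X → X → Option (Fin r))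
    (l : X → X → ℝ) (hs : ∀ g ∈ J, ∀ᶠ x in 𝓝 x0, s x (g • x) = s x0 (g • x0))
    (hl : ∀ g ∈ J, ∀ᶠ x in 𝓝 x0, l x (g • x) = l x0 (g • x0)) :
    ContinuousAt (fun x => q 𝔖.y (s x) (l x) (J.image fun g => g • x)) x0 := by
  obtain ⟨ρ, h1, h2, h3⟩ := 𝔖.nice_rep J x0
  set J' : Finset G := J.image ρ with hJ'
  have hsub : ∀ g ∈ J', g ∈ J := by
    intro g hg
    obtain ⟨h, hh, rfl⟩ := Finset.mem_image.1 hg
    exact h1 h hh
  have hs' : ∀ᶠ x in 𝓝 x0, ∀ g ∈ J, s x (g • x) = s x0 (g • x0) :=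
    (Filter.eventually_all_finset J).2 hs
  have hl' : ∀ᶠ x in 𝓝 x0, ∀ g ∈ J, l x (g • x) = l x0 (g • x0) :=
    (Filter.eventually_all_finset J).2 hl
  have heq : (fun x => q 𝔖.y (s x) (l x) (J.image fun g => g • x)) =ᶠ[𝓝 x0]
      fun x => (Q (fun b (g h : {g // g ∈ J'}) => 𝔖.k b g h x) (fun g => s x0 (g.1 • x0))
        (fun g => (l x0 (g.1 • x0) : ℂ)) Finset.univ).re := by
    filter_upwards [h3, hs', hl'] with x hx hsx hlx
    have himg : (J.image fun g => g • x) = J'.image fun g => g • x := by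
      rw [hJ', Finset.image_image]
      exact Finset.image_congr (fun g hg => ((hx.1 g hg).symm : _))
    have hinj : Set.InjOn (fun g : G => g • x) J' := by
      intro g hg h hh hgh
      obtain ⟨g', hg', rfl⟩ := Finset.mem_image.1 (Finset.mem_coe.1 hg)
      obtain ⟨h', hh', rfl⟩ := Finset.mem_image.1 (Finset.mem_coe.1 hh)
      have := hx.2 _ (h1 _ hg') _ (h1 _ hh') hgh
      rwa [h2 _ hg', h2 _ hh'] at this
    unfold q
    rw [himg, q_local 𝔖 J' (s x) (l x) x hinj]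
    exact congrArg Complex.re (Q_congr (fun _ _ _ _ _ => rfl) (fun g _ => hsx g.1 (hsub g.1 g.2))
      (fun g _ => congrArg _ (hlx g.1 (hsub g.1 g.2))))
  refine ContinuousAt.congr ?_ heq.symm
  refine Continuous.continuousAt ?_
  refine Complex.continuous_re.comp ?_
  exact continuous_Q (y := fun (x : X) b (g h : {g // g ∈ J'}) => 𝔖.k b g h x)
    (z := fun (_ : X) (g : {g // g ∈ J'}) => (l x0 (g.1 • x0) : ℂ))
    (fun b g _ h _ => 𝔖.k_cont b g.1 h.1) (fun _ _ => continuous_const)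

/-- membership in balls along the orbits is locally constant -/
private theorem mem_ball_ev (𝔖 : Sys3 ν X G) (n : ℕ) (g h : G) (x0 : X) :
    ∀ᶠ x in 𝓝 x0, (h • x ∈ 𝔖.ball n (g • x) ↔ h • x0 ∈ 𝔖.ball n (g • x0)) := by
  have h1 : ∀ᶠ x in 𝓝 x0, ∀ l ∈ 𝔖.ballG n,
      (h • x = (l * g) • x ↔ h • x0 = (l * g) • x0) :=
    (Filter.eventually_all_finset _).2 (fun l _ => 𝔖.nice_ev_eq h (l * g) x0)
  filter_upwards [h1] with x hx
  rw [Sys3.mem_ball, Sys3.mem_ball]
  constructor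
  · rintro ⟨l, hl, h2⟩
    refine ⟨l, hl, ?_⟩
    rw [← mul_smul] at h2 ⊢
    exact (hx l hl).1 h2
  · rintro ⟨l, hl, h2⟩
    refine ⟨l, hl, ?_⟩
    rw [← mul_smul] at h2 ⊢
    exact (hx l hl).2 h2

/-- distances along the orbits are locally constant -/
theorem dist_ev (𝔖 : Sys3 ν X G) (cap : ℕ) (g h : G) (x0 : X) :
    ∀ᶠ x in 𝓝 x0, 𝔖.dist cap (g • x) (h • x) = 𝔖.dist cap (g • x0) (h • x0) := by
  have h1 : ∀ᶠ x in 𝓝 x0, ∀ n ∈ Finset.range (cap + 2),
      (h • x ∈ 𝔖.ball n (g • x) ↔ h • x0 ∈ 𝔖.ball n (g • x0)) :=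
    (Filter.eventually_all_finset _).2 fun n _ => mem_ball_ev 𝔖 n g h x0
  filter_upwards [h1] with x hx
  have h2 : (fun n => n ≤ cap + 1 ∧ h • x ∈ 𝔖.ball n (g • x)) =
      fun n => n ≤ cap + 1 ∧ h • x0 ∈ 𝔖.ball n (g • x0) := by
    funext n
    refine propext (and_congr_right fun hn => ?_)
    exact hx n (Finset.mem_range.2 (by omega))
  unfold Sys3.dist
  by_cases h3 : ∃ n, n ≤ cap + 1 ∧ h • x ∈ 𝔖.ball n (g • x)
  · have h4 : ∃ n, n ≤ cap + 1 ∧ h • x0 ∈ 𝔖.ball n (g • x0) := by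
      obtain ⟨n, h5⟩ := h3
      exact ⟨n, (congrFun h2 n) ▸ h5⟩
    rw [dif_pos h3, dif_pos h4]
    refine le_antisymm ?_ ?_
    · refine Nat.find_min' h3 ?_
      exact (congrFun h2 _).symm ▸ Nat.find_spec h4
    · refine Nat.find_min' h4 ?_
      exact (congrFun h2 _) ▸ Nat.find_spec h3
  · have h4 : ¬ ∃ n, n ≤ cap + 1 ∧ h • x0 ∈ 𝔖.ball n (g • x0) := by
      rintro ⟨n, h5⟩
      exact h3 ⟨n, (congrFun h2 n).symm ▸ h5⟩
    rw [dif_neg h3, dif_neg h4]

/-- clopen sets from a local dichotomy -/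
theorem exists_clopen_of_dich [CompactSpace X] [T2Space X] [TotallyDisconnectedSpace X]
    {A B : X → Prop} (h : ∀ x0, (∀ᶠ x in 𝓝 x0, A x) ∨ (∀ᶠ x in 𝓝 x0, ¬ B x)) :
    ∃ K : Set X, IsClopen K ∧ (∀ x, B x → x ∈ K) ∧ ∀ x ∈ K, A x := by
  have h1 : ∀ x0 : X, ∃ U : Set X, IsClopen U ∧ x0 ∈ U ∧
      ((∀ x ∈ U, A x) ∨ ((¬ ∀ x ∈ U, A x) ∧ ∀ x ∈ U, ¬ B x)) := by
    intro x0
    rcases h x0 with h0 | h0
    · obtain ⟨V, hV, hVo, hxV⟩ := eventually_nhds_iff.1 h0
      obtain ⟨U, hU, hxU, hUs⟩ := compact_exists_isClopen_in_isOpen hVo hxV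
      exact ⟨U, hU, hxU, Or.inl fun x hx => hV x (hUs hx)⟩
    · obtain ⟨V, hV, hVo, hxV⟩ := eventually_nhds_iff.1 h0
      obtain ⟨U, hU, hxU, hUs⟩ := compact_exists_isClopen_in_isOpen hVo hxV
      refine ⟨U, hU, hxU, ?_⟩
      by_cases h2 : ∀ x ∈ U, A x
      · exact Or.inl h2
      · exact Or.inr ⟨h2, fun x hx => hV x (hUs hx)⟩
  choose U hU hxU hUs using h1
  obtain ⟨m, j, i, hj, hi⟩ := C.Sys.exists_lc_cover U hU hxU
  refine ⟨{x | ∀ z ∈ U (i (j x)), A z}, ?_, ?_, ?_⟩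
  · have h2 : {x | ∀ z ∈ U (i (j x)), A z} = j ⁻¹' {k | ∀ z ∈ U (i k), A z} := rfl
    rw [h2]
    refine ⟨?_, hj _⟩
    rw [← isOpen_compl_iff, ← Set.preimage_compl]
    exact hj _
  · intro x hB
    rcases hUs (i (j x)) with h2 | h2
    · exact h2
    · exact absurd hB (h2.2 x (hi x))
  · intro x hx
    exact hx x (hi x)

/-- the state with pattern `π` around `x` -/
noncomputable def ext (𝔖 : Sys3 ν X G) (n : ℕ) (π : G → St r) (x v : X) : St r :=
  if ∃ g, g ∈ 𝔖.ballG n ∧ g • x = v then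
    π (Classical.epsilon fun g => g ∈ 𝔖.ballG n ∧ g • x = v) else none

theorem ext_of_mem (𝔖 : Sys3 ν X G) {n : ℕ} {π : G → St r} {x : X} {S : X → St r}
    (h : ∀ g ∈ 𝔖.ballG n, π g = S (g • x)) {v : X} (hv : v ∈ 𝔖.ball n x) :
    ext 𝔖 n π x v = S v := by
  obtain ⟨g, hg, rfl⟩ := Sys3.mem_ball.1 hv
  have hex : ∃ g', g' ∈ 𝔖.ballG n ∧ g' • x = g • x := ⟨g, hg, rfl⟩
  unfold ext
  rw [if_pos hex]
  have h2 := Classical.epsilon_spec hex
  rw [h _ h2.1, h2.2]

theorem ext_ev (𝔖 : Sys3 ν X G) (n : ℕ) (π : G → St r) (x0 : X) (g : G) :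
    ∀ᶠ x in 𝓝 x0, ext 𝔖 n π x (g • x) = ext 𝔖 n π x0 (g • x0) := by
  have h1 : ∀ᶠ x in 𝓝 x0, ∀ g' ∈ 𝔖.ballG n, (g' • x = g • x ↔ g' • x0 = g • x0) :=
    (Filter.eventually_all_finset _).2 fun g' _ => 𝔖.nice_ev_eq g' g x0
  filter_upwards [h1] with x hx
  have h2 : (fun g' => g' ∈ 𝔖.ballG n ∧ g' • x = g • x) =
      fun g' => g' ∈ 𝔖.ballG n ∧ g' • x0 = g • x0 := by
    funext g'
    exact propext (and_congr_right fun hg' => hx g' hg')
  unfold ext
  by_cases h3 : ∃ g', g' ∈ 𝔖.ballG n ∧ g' • x = g • x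
  · have h4 : ∃ g', g' ∈ 𝔖.ballG n ∧ g' • x0 = g • x0 := by
      obtain ⟨g', h5⟩ := h3
      exact ⟨g', (congrFun h2 g') ▸ h5⟩
    rw [if_pos h3, if_pos h4, h2]
  · have h4 : ¬ ∃ g', g' ∈ 𝔖.ballG n ∧ g' • x0 = g • x0 := by
      rintro ⟨g', h5⟩
      exact h3 ⟨g', (congrFun h2 g').symm ▸ h5⟩
    rw [if_neg h3, if_neg h4]

end Vale.Agent.P078.TX
end

section
/-! T3-F4: clopen sandwiches for the conditions of the rule. -/

namespace Vale.Agent.P078.TX

open Finset Polynomial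
open scoped Pointwise Classical Topology
open Vale.Agent.P078.C (qf yc)

variable {X G : Type*} [TopologicalSpace X] [Group G] [MulAction G X] {r ν : ℕ}

/-- the elements of the group which give the window of centre `g • x`, `x` near `x0` -/
private noncomputable def dJ (𝔖 : Sys3 ν X G) (P : Par) (n : ℕ) (π : G → St r) (x0 : X) (g : G) :
    Finset G :=
  ((𝔖.ballG P.N).image fun k => k * g).filter fun k => ext 𝔖 n π x0 (k • x0) ≠ some none

/-- `q` on a piece of a window -/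
private noncomputable def dF (𝔖 : Sys3 ν X G) (h : FB 1 1 𝔖.y) (cap : ℕ) (P : Par) (n : ℕ)
    (z : ℝ) (π : G → St r) (b : ℝ) (g : G) (J : Finset G) (x : X) : ℝ :=
  q 𝔖.y (cs (ext 𝔖 n π x)) (fun v => lv P (𝔖.toEnv h cap) z (ext 𝔖 n π x) (g • x) v - b)
    (J.image fun k => k • x)

private theorem d_win_ev (𝔖 : Sys3 ν X G) (h : FB 1 1 𝔖.y) (cap : ℕ) (P : Par) (n : ℕ)
    (π : G → St r) (x0 : X) (g : G) :
    ∀ᶠ x in 𝓝 x0, win P (𝔖.toEnv h cap) (ext 𝔖 n π x) (g • x) =
      (dJ 𝔖 P n π x0 g).image fun k => k • x := by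
  have h1 : ∀ᶠ x in 𝓝 x0, ∀ k ∈ (𝔖.ballG P.N).image fun k => k * g,
      ext 𝔖 n π x (k • x) = ext 𝔖 n π x0 (k • x0) :=
    (Filter.eventually_all_finset _).2 fun k _ => ext_ev 𝔖 n π x0 k
  filter_upwards [h1] with x hx
  have h2 : (𝔖.toEnv h cap).ball P.N (g • x) =
      ((𝔖.ballG P.N).image fun k => k * g).image fun k => k • x := by
    change (𝔖.ballG P.N).image (fun k => k • (g • x)) = _
    rw [Finset.image_image]
    refine Finset.image_congr fun k _ => ?_
    simp only [Function.comp_apply, mul_smul]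
  unfold win
  rw [h2, Finset.filter_image]
  unfold dJ
  congr 1
  refine Finset.filter_congr fun k hk => ?_
  rw [hx k hk]

private theorem d_lv_ev (𝔖 : Sys3 ν X G) (h : FB 1 1 𝔖.y) (cap : ℕ) (P : Par) (n : ℕ)
    (z : ℝ) (π : G → St r) (x0 : X) (g k : G) :
    ∀ᶠ x in 𝓝 x0, lv P (𝔖.toEnv h cap) z (ext 𝔖 n π x) (g • x) (k • x) =
      lv P (𝔖.toEnv h cap) z (ext 𝔖 n π x0) (g • x0) (k • x0) := by
  filter_upwards [ext_ev 𝔖 n π x0 k, dist_ev 𝔖 cap g k x0] with x h1 h2
  have h3 : fx P (𝔖.toEnv h cap) (g • x) (k • x) = fx P (𝔖.toEnv h cap) (g • x0) (k • x0) := by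
    unfold fx
    change (P.c / ((P.N : ℝ) + 1 - (𝔖.dist cap (g • x) (k • x) : ℝ))) ^ 2 =
      (P.c / ((P.N : ℝ) + 1 - (𝔖.dist cap (g • x0) (k • x0) : ℝ))) ^ 2
    rw [h2]
  unfold lv
  rw [h1, h3]

private theorem d_F_cont (𝔖 : Sys3 ν X G) (h : FB 1 1 𝔖.y) (cap : ℕ) (P : Par) (n : ℕ)
    (z : ℝ) (π : G → St r) (x0 : X) (b : ℝ) (g : G) (J : Finset G) :
    ContinuousAt (dF 𝔖 h cap P n z π b g J) x0 := by
  unfold dF
  refine q_contAt 𝔖 J x0 (fun x => cs (ext 𝔖 n π x))
    (fun x v => lv P (𝔖.toEnv h cap) z (ext 𝔖 n π x) (g • x) v - b) (fun k _ => ?_) fun k _ => ?_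
  · filter_upwards [ext_ev 𝔖 n π x0 k] with x hx
    unfold cs
    rw [hx]
  · filter_upwards [d_lv_ev 𝔖 h cap P n z π x0 g k] with x hx
    rw [hx]

private theorem d_alive_ev (𝔖 : Sys3 ν X G) (h : FB 1 1 𝔖.y) (cap : ℕ) (P : Par) (n : ℕ)
    (z : ℝ) (π : G → St r) (x0 : X) (g : G) :
    ∀ᶠ x in 𝓝 x0, ∀ b : ℝ, Alive P (𝔖.toEnv h cap) z (ext 𝔖 n π x) b (g • x) ↔
      ∀ J ∈ (dJ 𝔖 P n π x0 g).powerset, 0 < dF 𝔖 h cap P n z π b g J x := by
  filter_upwards [d_win_ev 𝔖 h cap P n π x0 g] with x hx b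
  unfold Alive Safe
  rw [hx]
  constructor
  · intro H J hJ
    exact H _ (Finset.image_subset_image (Finset.mem_powerset.1 hJ))
  · intro H U hU
    obtain ⟨J, hJ, rfl⟩ := Finset.subset_image_iff.1 hU
    exact H J (Finset.mem_powerset.2 hJ)

private theorem d_sw_cont (hr : 0 < r) (𝔖 : Sys3 ν X G) (h : FB 1 1 𝔖.y) (cap : ℕ) (P : Par) (n : ℕ)
    (z : ℝ) (π : G → St r) (x0 : X) {c : ℝ}
    (hx0 : Alive P (𝔖.toEnv h cap) z (ext 𝔖 n π x0) c x0) {b : ℝ} (hb : -c ≤ b) (a : Fin r) :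
    ContinuousAt (fun x => sw P (𝔖.toEnv h cap) z (ext 𝔖 n π x) x x b a) x0 := by
  have e1 : ∀ k : G, ∀ᶠ x in 𝓝 x0, (k • x = x ↔ k • x0 = x0) := by
    intro k
    have := 𝔖.nice_ev_eq k 1 x0
    simpa only [one_smul] using this
  set J1 : Finset G := (dJ 𝔖 P n π x0 1).filter fun k => k • x0 ≠ x0 with hJ1
  have e2 : ∀ᶠ x in 𝓝 x0, (win P (𝔖.toEnv h cap) (ext 𝔖 n π x) x).erase x =
      J1.image fun k => k • x := by
    have h1 : ∀ᶠ x in 𝓝 x0, ∀ k ∈ dJ 𝔖 P n π x0 1, (k • x = x ↔ k • x0 = x0) :=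
      (Filter.eventually_all_finset _).2 fun k _ => e1 k
    filter_upwards [h1, d_win_ev 𝔖 h cap P n π x0 1] with x hx hw
    rw [one_smul] at hw
    rw [hw, hJ1, ← Finset.filter_ne', Finset.filter_image]
    congr 1
    refine Finset.filter_congr fun k hk => ?_
    exact not_congr (hx k hk)
  have hs : ∀ k : G, ∀ᶠ x in 𝓝 x0,
      Function.update (cs (ext 𝔖 n π x)) x (some a) (k • x) =
        Function.update (cs (ext 𝔖 n π x0)) x0 (some a) (k • x0) := by
    intro k
    filter_upwards [e1 k, ext_ev 𝔖 n π x0 k] with x hx he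
    by_cases hk : k • x0 = x0
    · rw [hx.2 hk, hk, Function.update_self, Function.update_self]
    · rw [Function.update_of_ne (fun h' => hk (hx.1 h')), Function.update_of_ne hk]
      unfold cs
      rw [he]
  have hl : ∀ k : G, ∀ᶠ x in 𝓝 x0,
      lv P (𝔖.toEnv h cap) z (ext 𝔖 n π x) x (k • x) + b =
        lv P (𝔖.toEnv h cap) z (ext 𝔖 n π x0) x0 (k • x0) + b := by
    intro k
    have := d_lv_ev 𝔖 h cap P n z π x0 1 k
    simp only [one_smul] at this
    filter_upwards [this] with x hx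
    rw [hx]
  have hl' : ∀ k : G, ∀ᶠ x in 𝓝 x0,
      Function.update (fun v => lv P (𝔖.toEnv h cap) z (ext 𝔖 n π x) x v + b) x 0 (k • x) =
        Function.update (fun v => lv P (𝔖.toEnv h cap) z (ext 𝔖 n π x0) x0 v + b) x0 0
          (k • x0) := by
    intro k
    filter_upwards [e1 k, hl k] with x hx he
    by_cases hk : k • x0 = x0
    · rw [hx.2 hk, hk, Function.update_self, Function.update_self]
    · rw [Function.update_of_ne (fun h' => hk (hx.1 h')), Function.update_of_ne hk]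
      exact he
  have c1 := q_contAt 𝔖 (insert 1 J1) x0
    (fun x => Function.update (cs (ext 𝔖 n π x)) x (some a))
    (fun x => Function.update (fun v => lv P (𝔖.toEnv h cap) z (ext 𝔖 n π x) x v + b) x 0)
    (fun k _ => hs k) fun k _ => hl' k
  have c2 := q_contAt 𝔖 J1 x0
    (fun x => Function.update (cs (ext 𝔖 n π x)) x (some a))
    (fun x v => lv P (𝔖.toEnv h cap) z (ext 𝔖 n π x) x v + b)
    (fun k _ => hs k) fun k _ => hl k
  have h0 : (win P (𝔖.toEnv h cap) (ext 𝔖 n π x0) x0).erase x0 = J1.image fun k => k • x0 :=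
    e2.self_of_nhds
  have hpos : 0 < q 𝔖.y (Function.update (cs (ext 𝔖 n π x0)) x0 (some a))
      (fun v => lv P (𝔖.toEnv h cap) z (ext 𝔖 n π x0) x0 v + b) (J1.image fun k => k • x0) := by
    rw [← h0]
    have s1 : Safe 𝔖.y (cs (ext 𝔖 n π x0))
        (fun v => lv P (𝔖.toEnv h cap) z (ext 𝔖 n π x0) x0 v + b)
        (win P (𝔖.toEnv h cap) (ext 𝔖 n π x0) x0) :=
      Safe.mono hr 𝔖.herm hx0 fun i _ => by linarith only [hb]
    have s2 := s1 _ (Finset.erase_subset x0 _)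
    rwa [q_congr (s' := Function.update (cs (ext 𝔖 n π x0)) x0 (some a)) (fun i hi =>
      (Function.update_of_ne (Finset.ne_of_mem_erase hi) _ _).symm) fun i _ => rfl] at s2
  refine ContinuousAt.congr (c1.neg.div c2 hpos.ne') ?_
  filter_upwards [e2] with x hx
  unfold sw sg
  rw [hx]
  have h3 : insert x (J1.image fun k => k • x) = (insert 1 J1).image fun k => k • x := by
    rw [Finset.image_insert, one_smul]
  rw [h3]
  rfl

/-- near each point, either the weak condition holds or the strong condition fails -/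
theorem keep_dich (hr : 0 < r) (𝔖 : Sys3 ν X G) (h : FB 1 1 𝔖.y) {cap : ℕ} {P : Par}
    (hcap : 2 * P.N ≤ cap) (hκ : 0 < P.κ) (hΛ : 0 < P.Λ) (hΘ : ∀ θ ∈ P.Θ, 0 < θ) (z : ℝ)
    (π : G → St r) (x0 : X) :
    (∀ᶠ x in 𝓝 x0, Keep P (𝔖.toEnv h cap) (4 * P.κ) P.Λ z (ext 𝔖 (2 * P.N) π x) x) ∨
    (∀ᶠ x in 𝓝 x0, ¬ Keep P (𝔖.toEnv h cap) (5 * P.κ) (P.Λ / 2) z (ext 𝔖 (2 * P.N) π x) x) := by
  have hal : ∀ᶠ x in 𝓝 x0, ∀ g ∈ 𝔖.ballG P.N, ∀ b : ℝ,
      Alive P (𝔖.toEnv h cap) z (ext 𝔖 (2 * P.N) π x) b (g • x) ↔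
      ∀ J ∈ (dJ 𝔖 P (2 * P.N) π x0 g).powerset, 0 < dF 𝔖 h cap P (2 * P.N) z π b g J x :=
    (Filter.eventually_all_finset _).2 fun g _ => d_alive_ev 𝔖 h cap P (2 * P.N) z π x0 g
  have hball : ∀ (x : X) (b : ℝ),
      (∀ x' ∈ (𝔖.toEnv h cap).ball P.N x,
        Alive P (𝔖.toEnv h cap) z (ext 𝔖 (2 * P.N) π x) b x') ↔
      ∀ g ∈ 𝔖.ballG P.N, Alive P (𝔖.toEnv h cap) z (ext 𝔖 (2 * P.N) π x) b (g • x) := by
    intro x b
    constructor
    · intro H g hg
      exact H _ (Sys3.mem_ball.2 ⟨g, hg, rfl⟩)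
    · intro H x' hx'
      obtain ⟨g, hg, rfl⟩ := Sys3.mem_ball.1 hx'
      exact H g hg
  by_cases hA : ∀ g ∈ 𝔖.ballG P.N, ∀ J ∈ (dJ 𝔖 P (2 * P.N) π x0 g).powerset,
      0 < dF 𝔖 h cap P (2 * P.N) z π (4 * P.κ) g J x0
  · have h0 : Alive P (𝔖.toEnv h cap) z (ext 𝔖 (2 * P.N) π x0) (4 * P.κ) x0 := by
      have := (hal.self_of_nhds 1 (𝔖.one_mem_ballG _) (4 * P.κ)).2 (hA 1 (𝔖.one_mem_ballG _))
      rwa [one_smul] at this
    have hc : ∀ (a : Fin r) (θ : ℝ), θ ∈ P.Θ → ContinuousAt (fun x =>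
        sw P (𝔖.toEnv h cap) z (ext 𝔖 (2 * P.N) π x) x x (-(5 / 2 * P.κ)) a -
          sw P (𝔖.toEnv h cap) z (ext 𝔖 (2 * P.N) π x) x x θ a) x0 := fun a θ hθ =>
      (d_sw_cont hr 𝔖 h cap P _ z π x0 h0 (by linarith only [hκ]) a).sub
        (d_sw_cont hr 𝔖 h cap P _ z π x0 h0 (by have := hΘ θ hθ; linarith only [hκ, this]) a)
    by_cases hB : ∀ (a : Fin r), ∀ θ ∈ P.Θ,
        sw P (𝔖.toEnv h cap) z (ext 𝔖 (2 * P.N) π x0) x0 x0 (-(5 / 2 * P.κ)) a -
          sw P (𝔖.toEnv h cap) z (ext 𝔖 (2 * P.N) π x0) x0 x0 θ a < P.Λ * θ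
    · left
      have v1 : ∀ᶠ x in 𝓝 x0, ∀ g ∈ 𝔖.ballG P.N, ∀ J ∈ (dJ 𝔖 P (2 * P.N) π x0 g).powerset,
          0 < dF 𝔖 h cap P (2 * P.N) z π (4 * P.κ) g J x :=
        (Filter.eventually_all_finset _).2 fun g hg =>
          (Filter.eventually_all_finset _).2 fun J hJ =>
            (d_F_cont 𝔖 h cap P (2 * P.N) z π x0 (4 * P.κ) g J).eventually
              (lt_mem_nhds (hA g hg J hJ))
      have v2 : ∀ᶠ x in 𝓝 x0, ∀ (a : Fin r), ∀ θ ∈ P.Θ,
          sw P (𝔖.toEnv h cap) z (ext 𝔖 (2 * P.N) π x) x x (-(5 / 2 * P.κ)) a -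
            sw P (𝔖.toEnv h cap) z (ext 𝔖 (2 * P.N) π x) x x θ a < P.Λ * θ :=
        Filter.eventually_all.2 fun a => (Filter.eventually_all_finset _).2 fun θ hθ =>
          (hc a θ hθ).eventually (gt_mem_nhds (hB a θ hθ))
      filter_upwards [hal, v1, v2] with x hx w1 w2
      exact ⟨(hball x _).2 fun g hg => (hx g hg _).2 (w1 g hg), fun a θ hθ => (w2 a θ hθ).le⟩
    · right
      push Not at hB
      obtain ⟨a, θ, hθ, hlt⟩ := hB
      have h1 : P.Λ / 2 * θ < P.Λ * θ := by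
        have := mul_pos hΛ (hΘ θ hθ)
        linarith only [this]
      filter_upwards [(hc a θ hθ).eventually (lt_mem_nhds (h1.trans_le hlt))] with x hx hK
      exact absurd (hK.2 a θ hθ) (not_le.2 hx)
  · right
    push Not at hA
    obtain ⟨g, hg, J, hJ, hle⟩ := hA
    have hmin : 0 < min 1 P.κ ^ J.card := pow_pos (lt_min one_pos hκ) _
    filter_upwards [hal, (d_F_cont 𝔖 h cap P (2 * P.N) z π x0 (4 * P.κ) g J).eventually
      (gt_mem_nhds (hle.trans_lt hmin))] with x hx hlt hK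
    have h1 := (hball x _).1 hK.1 g hg
    have h2 : Safe 𝔖.y (cs (ext 𝔖 (2 * P.N) π x))
        (fun v => lv P (𝔖.toEnv h cap) z (ext 𝔖 (2 * P.N) π x) (g • x) v - 5 * P.κ)
        (win P (𝔖.toEnv h cap) (ext 𝔖 (2 * P.N) π x) (g • x)) := h1
    have h3 : ∀ U ∈ (dJ 𝔖 P (2 * P.N) π x0 g).powerset,
        0 < dF 𝔖 h cap P (2 * P.N) z π (5 * P.κ) g U x := (hx g hg _).1 h1
    have h4 : min 1 P.κ ^ J.card ≤ dF 𝔖 h cap P (2 * P.N) z π (4 * P.κ) g J x := by
      have e1 : dF 𝔖 h cap P (2 * P.N) z π (4 * P.κ) g J x =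
          ∑ U ∈ (J.image fun k => k • x).powerset,
            (∏ i ∈ (J.image fun k => k • x) \ U, P.κ) * q 𝔖.y (cs (ext 𝔖 (2 * P.N) π x))
              (fun v => lv P (𝔖.toEnv h cap) z (ext 𝔖 (2 * P.N) π x) (g • x) v - 5 * P.κ) U := by
        rw [← q_add hr 𝔖.herm (fun _ => P.κ)]
        unfold dF
        refine q_congr (fun _ _ => rfl) fun i _ => by ring
      have e2 : ∀ U ∈ (J.image fun k => k • x).powerset, 0 ≤
          (∏ i ∈ (J.image fun k => k • x) \ U, P.κ) * q 𝔖.y (cs (ext 𝔖 (2 * P.N) π x))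
              (fun v => lv P (𝔖.toEnv h cap) z (ext 𝔖 (2 * P.N) π x) (g • x) v - 5 * P.κ) U := by
        intro U hU
        obtain ⟨V, hV, rfl⟩ := Finset.subset_image_iff.1 (Finset.mem_powerset.1 hU)
        exact mul_nonneg (Finset.prod_nonneg fun _ _ => hκ.le)
          (h3 V (Finset.mem_powerset.2 (hV.trans (Finset.mem_powerset.1 hJ)))).le
      rw [e1]
      refine le_trans ?_ (Finset.single_le_sum e2 (Finset.empty_mem_powerset _))
      rw [q_empty, mul_one, Finset.sdiff_empty, Finset.prod_const]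
      calc min 1 P.κ ^ J.card ≤ min 1 P.κ ^ (J.image fun k => k • x).card :=
            pow_le_pow_of_le_one (le_min zero_le_one hκ.le) (min_le_left _ _)
              Finset.card_image_le
        _ ≤ P.κ ^ (J.image fun k => k • x).card :=
            pow_le_pow_left₀ (le_min zero_le_one hκ.le) (min_le_right _ _) _
    exact absurd hlt (not_lt.2 h4)

/-- the same for the self energies -/
theorem allow_dich (hr : 0 < r) (𝔖 : Sys3 ν X G) (h : FB 1 1 𝔖.y) {cap : ℕ} {P : Par}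
    (hcap : 2 * P.N ≤ cap) (hκ : 0 < P.κ) {z : ℝ} (hz : 0 < z) (π : G → St r) (x0 : X)
    (hx0 : Keep P (𝔖.toEnv h cap) (4 * P.κ) P.Λ z (ext 𝔖 (2 * P.N) π x0) x0) (a : Fin r) :
    (∀ᶠ x in 𝓝 x0, sw P (𝔖.toEnv h cap) z (ext 𝔖 (2 * P.N) π x) x x 0 a ≤ 6 * z) ∨
    (∀ᶠ x in 𝓝 x0, ¬ sw P (𝔖.toEnv h cap) z (ext 𝔖 (2 * P.N) π x) x x 0 a ≤ 5 * z) := by
  have h0 : Alive P (𝔖.toEnv h cap) z (ext 𝔖 (2 * P.N) π x0) (4 * P.κ) x0 :=
    hx0.1 x0 (Sys3.mem_ball_self 𝔖 _ x0)
  have hc := d_sw_cont hr 𝔖 h cap P _ z π x0 h0 (b := 0) (by linarith only [hκ]) a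
  by_cases hlt : sw P (𝔖.toEnv h cap) z (ext 𝔖 (2 * P.N) π x0) x0 x0 0 a < 6 * z
  · left
    filter_upwards [hc.eventually (gt_mem_nhds hlt)] with x hx
    exact hx.le
  · right
    have h1 : 5 * z < sw P (𝔖.toEnv h cap) z (ext 𝔖 (2 * P.N) π x0) x0 x0 0 a := by
      have := not_lt.1 hlt
      linarith only [hz, hlt]
    filter_upwards [hc.eventually (lt_mem_nhds h1)] with x hx
    exact not_le.2 hx

/-- the clopen sets of the rule: `K` for keeping, `A a` for allowing the colour `a` -/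
theorem exists_sets [CompactSpace X] [T2Space X] [TotallyDisconnectedSpace X] (hr : 0 < r)
    (𝔖 : Sys3 ν X G) (h : FB 1 1 𝔖.y) {cap : ℕ} {P : Par}
    (hcap : 2 * P.N ≤ cap) (hκ : 0 < P.κ) (hΛ : 0 < P.Λ) (hΘ : ∀ θ ∈ P.Θ, 0 < θ) {z : ℝ}
    (hz : 0 < z) (π : G → St r) :
    ∃ (K : Set X) (A : Fin r → Set X), IsClopen K ∧ (∀ a, IsClopen (A a)) ∧
      ∀ x, (x ∈ K → Keep P (𝔖.toEnv h cap) (4 * P.κ) P.Λ z (ext 𝔖 (2 * P.N) π x) x ∧
          Keep P (𝔖.toEnv h cap).neg (4 * P.κ) P.Λ z (ext 𝔖 (2 * P.N) π x) x) ∧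
        (Keep P (𝔖.toEnv h cap) (5 * P.κ) (P.Λ / 2) z (ext 𝔖 (2 * P.N) π x) x →
          Keep P (𝔖.toEnv h cap).neg (5 * P.κ) (P.Λ / 2) z (ext 𝔖 (2 * P.N) π x) x → x ∈ K) ∧
        ∀ a, (x ∈ K → x ∈ A a → sw P (𝔖.toEnv h cap) z (ext 𝔖 (2 * P.N) π x) x x 0 a ≤ 6 * z ∧
            sw P (𝔖.toEnv h cap).neg z (ext 𝔖 (2 * P.N) π x) x x 0 a ≤ 6 * z) ∧
          (x ∈ K → sw P (𝔖.toEnv h cap) z (ext 𝔖 (2 * P.N) π x) x x 0 a ≤ 5 * z →
            sw P (𝔖.toEnv h cap).neg z (ext 𝔖 (2 * P.N) π x) x x 0 a ≤ 5 * z → x ∈ A a) := by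
  have h' : FB 1 1 𝔖.neg.y := by
    intro k W v
    have e : qf (𝔖.neg.y k) W v = -qf (𝔖.y k) W v := by
      unfold qf
      change (∑ i ∈ W, ∑ j ∈ W, star (v i) * (-𝔖.y k i j) * v j).re = _
      simp only [mul_neg, neg_mul, Finset.sum_neg_distrib, Complex.neg_re]
    obtain ⟨h1, h2⟩ := h k W v
    rw [e]
    constructor <;> linarith only [h1, h2]
  have hE : (𝔖.toEnv h cap).neg = 𝔖.neg.toEnv h' cap := rfl
  have hext : ∀ x, ext 𝔖 (2 * P.N) π x = ext 𝔖.neg (2 * P.N) π x := fun _ => rfl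
  rw [hE]
  obtain ⟨K1, hK1, hK1', hK1''⟩ := exists_clopen_of_dich
    (A := fun x => Keep P (𝔖.toEnv h cap) (4 * P.κ) P.Λ z (ext 𝔖 (2 * P.N) π x) x)
    (B := fun x => Keep P (𝔖.toEnv h cap) (5 * P.κ) (P.Λ / 2) z (ext 𝔖 (2 * P.N) π x) x)
    (keep_dich hr 𝔖 h hcap hκ hΛ hΘ z π)
  obtain ⟨K2, hK2, hK2', hK2''⟩ := exists_clopen_of_dich
    (A := fun x => Keep P (𝔖.neg.toEnv h' cap) (4 * P.κ) P.Λ z (ext 𝔖 (2 * P.N) π x) x)
    (B := fun x => Keep P (𝔖.neg.toEnv h' cap) (5 * P.κ) (P.Λ / 2) z (ext 𝔖 (2 * P.N) π x) x)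
    (keep_dich hr 𝔖.neg h' hcap hκ hΛ hΘ z π)
  have hK : IsClopen (K1 ∩ K2) := hK1.inter hK2
  have hA1 : ∀ a : Fin r, ∃ A : Set X, IsClopen A ∧
      (∀ x, (x ∈ K1 ∩ K2 ∧ sw P (𝔖.toEnv h cap) z (ext 𝔖 (2 * P.N) π x) x x 0 a ≤ 5 * z) →
        x ∈ A) ∧
      ∀ x ∈ A, x ∈ K1 ∩ K2 → sw P (𝔖.toEnv h cap) z (ext 𝔖 (2 * P.N) π x) x x 0 a ≤ 6 * z := by
    intro a
    refine exists_clopen_of_dich fun x0 => ?_
    by_cases hx : x0 ∈ K1 ∩ K2
    · rcases allow_dich hr 𝔖 h hcap hκ hz π x0 (hK1'' x0 hx.1) a with h1 | h1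
      · left
        filter_upwards [h1] with x hx _
        exact hx
      · right
        filter_upwards [h1] with x hx h2
        exact hx h2.2
    · left
      filter_upwards [hK.compl.isOpen.mem_nhds hx] with x hx' h2
      exact absurd h2 hx'
  have hA2 : ∀ a : Fin r, ∃ A : Set X, IsClopen A ∧
      (∀ x, (x ∈ K1 ∩ K2 ∧
        sw P (𝔖.neg.toEnv h' cap) z (ext 𝔖 (2 * P.N) π x) x x 0 a ≤ 5 * z) → x ∈ A) ∧
      ∀ x ∈ A, x ∈ K1 ∩ K2 →
        sw P (𝔖.neg.toEnv h' cap) z (ext 𝔖 (2 * P.N) π x) x x 0 a ≤ 6 * z := by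
    intro a
    refine exists_clopen_of_dich fun x0 => ?_
    by_cases hx : x0 ∈ K1 ∩ K2
    · rcases allow_dich hr 𝔖.neg h' hcap hκ hz π x0 (hK2'' x0 hx.2) a with h1 | h1
      · left
        filter_upwards [h1] with x hx _
        exact hx
      · right
        filter_upwards [h1] with x hx h2
        exact hx h2.2
    · left
      filter_upwards [hK.compl.isOpen.mem_nhds hx] with x hx' h2
      exact absurd h2 hx'
  choose A1 hA1c hA1b hA1a using hA1
  choose A2 hA2c hA2b hA2a using hA2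
  refine ⟨K1 ∩ K2, fun a => A1 a ∩ A2 a, hK, fun a => (hA1c a).inter (hA2c a), fun x =>
    ⟨fun hx => ⟨hK1'' x hx.1, hK2'' x hx.2⟩, fun h1 h2 => ⟨hK1' x h1, hK2' x h2⟩, fun a =>
    ⟨fun hx hxa => ⟨hA1a a x hxa.1 hx, hA2a a x hxa.2 hx⟩, fun hx h1 h2 =>
      ⟨hA1b a x ⟨hx, h1⟩, hA2b a x ⟨hx, h2⟩⟩⟩⟩⟩

end Vale.Agent.P078.TX
end

section
/-! T3-F8: the undecided system. -/

set_option linter.all false

namespace Vale.Agent.P078.TX

open Finset Polynomial
open scoped Pointwise Classical Topology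
open Vale.Agent.P078.C (qf yc)

variable {X G : Type*} [TopologicalSpace X] [Group G] [MulAction G X] {ν : ℕ}

private theorem ini_FB_neg {α : Type*} {y : Ker ν α} {a b : ℝ} (h : FB a b y) :
    FB b a (fun k i j => -y k i j) := by
  intro k W v
  have e : qf (fun i j => -y k i j) W v = -qf (y k) W v := by
    unfold qf
    rw [← Complex.neg_re, ← Finset.sum_neg_distrib]
    congr 1
    refine Finset.sum_congr rfl fun i _ => ?_
    rw [← Finset.sum_neg_distrib]
    refine Finset.sum_congr rfl fun j _ => ?_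
    ring
  obtain ⟨h1, h2⟩ := h k W v
  show -a * _ ≤ qf (fun i j => -y k i j) W v ∧ qf (fun i j => -y k i j) W v ≤ _
  rw [e]
  constructor <;> linarith only [h1, h2]

private theorem ini_num {r : ℕ} {ζ : ℝ} (hζ : 0 < ζ) (hζ2 : 8 / (r : ℝ) ≤ (2 / 3 * ζ) ^ 2)
    (hr8 : 16 ≤ r) :
    √((r : ℝ) / 2) - ((r : ℝ) - 1) ^ 2 / (r * (r * ((√((r : ℝ) / 2) + 1 - 1) /
      ((√((r : ℝ) / 2) - 1) * (√((r : ℝ) / 2) + 1))))) ≤ 2 / 3 * ζ := by
  have hr : (16 : ℝ) ≤ r := by exact_mod_cast hr8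
  have hr0 : (0 : ℝ) < r := by linarith only [hr]
  obtain ⟨t, ht⟩ : ∃ t : ℝ, t = √((r : ℝ) / 2) := ⟨_, rfl⟩
  have ht2 : t * t = r / 2 := by rw [ht]; exact Real.mul_self_sqrt (by positivity)
  have ht0 : 0 ≤ t := by rw [ht]; positivity
  have ht1 : 1 < t := by nlinarith only [hr, ht2, ht0]
  have htp : 0 < t := by linarith only [ht1]
  rw [← ht]
  have hrt : (r : ℝ) = 2 * (t * t) := by linarith only [ht2]
  have hm : (t - 1) * (t + 1) ≠ 0 := (mul_pos (by linarith only [ht1]) (by linarith only [ht1])).ne'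
  have e1 : t - ((r : ℝ) - 1) ^ 2 / (r * (r * ((t + 1 - 1) / ((t - 1) * (t + 1))))) ≤ 2 / t := by
    rw [add_sub_cancel_right]
    have e2 : ((r : ℝ) - 1) ^ 2 / (r * (r * (t / ((t - 1) * (t + 1))))) =
        (r - 1) ^ 2 * ((t - 1) * (t + 1)) / (r * r * t) := by
      (clear * - ht1 hr8; field_simp)
    rw [e2, sub_le_iff_le_add, ← sub_le_iff_le_add', le_div_iff₀ (by positivity)]
    have e3 : (t - 2 / t) * (r * r * t) = (t * t - 2) * (r * r) := by
      (clear * - ht1 hr8; field_simp)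
    rw [e3, hrt]
    have h4 : 0 ≤ t * t - 1 := by linarith only [ht2, hr]
    linarith only [ht2, hr]
  refine e1.trans ?_
  have h5 : (2 / t) ^ 2 = 8 / (r : ℝ) := by
    rw [div_pow, hrt]
    field_simp
    norm_num
  have h6 : 0 ≤ 2 / t := by positivity
  have h7 : 0 < 2 / 3 * ζ := by positivity
  rw [← h5] at hζ2
  exact (pow_le_pow_iff_left₀ h6 h7.le two_ne_zero).1 hζ2

private theorem ini_aux {y : Ker ν X} (hy : Herm y) (hz : ZD y) (hFB : FB 1 1 y) {r : ℕ}
    (hr : 2 ≤ (ν + 1) * r) {ζ : ℝ} (hζ : 0 < ζ)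
    (hζ2 : 8 / (((ν + 1) * r : ℕ) : ℝ) ≤ (2 / 3 * ζ) ^ 2) (hr8 : 16 ≤ (ν + 1) * r)
    (W : Finset X) : Safe y (fun _ => (none : Option (Fin r))) (fun _ => 2 / 3 * ζ) W := by
  intro U hU
  obtain ⟨m, hm⟩ : ∃ m : ℕ, m = (ν + 1) * r := ⟨_, rfl⟩
  rw [← hm] at hr hζ2 hr8
  have h16 : (16 : ℝ) ≤ m := by exact_mod_cast hr8
  have ht1 : 1 < √((m : ℝ) / 2) := by
    rw [show (1 : ℝ) = √1 by simp]
    exact Real.sqrt_lt_sqrt (by norm_num) (by linarith only [h16])
  have hcard : Fintype.card (Fin (ν + 1) × Fin r) = m := by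
    rw [Fintype.card_prod, Fintype.card_fin, Fintype.card_fin, hm]
  let e : Fin (ν + 1) × Fin r ≃ Fin m := (Fintype.equivFin _).trans (finCongr hcard)
  unfold q Q
  rw [D.Q_relabel e]
  have hid : (fun (i : X) (k : Fin m) =>
      e (slx ν (fun _ : X => (none : Option (Fin r))) i (e.symm k))) =
      fun _ => (id : Fin m → Fin m) := by
    funext i k
    have h1 : slx ν (fun _ : X => (none : Option (Fin r))) i (e.symm k) = e.symm k := rfl
    rw [h1, Equiv.apply_symm_apply]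
    rfl
  rw [hid]
  exact D.pos_above hr (fun k => hy _) (fun k => hz _) (fun k => hFB _) zero_le_one zero_le_one
    ht1 (by linarith only [ht1]) (by linarith only [ht1]) rfl U (ini_num hζ hζ2 hr8)

/-- the undecided system, from the root bound -/
theorem ini_of_pos_above (𝔖 : Sys3 ν X G) (hFB : FB 1 1 𝔖.y) {r : ℕ} (hr : 2 ≤ (ν + 1) * r)
    {ζ : ℝ} (hζ : 0 < ζ) (hζ2 : 8 / (((ν + 1) * r : ℕ) : ℝ) ≤ (2 / 3 * ζ) ^ 2)
    (hr8 : 16 ≤ (ν + 1) * r) (W : Finset X) :
    Safe 𝔖.y (fun _ => (none : Option (Fin r))) (fun _ => 2 / 3 * ζ) W ∧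
    Safe 𝔖.neg.y (fun _ => (none : Option (Fin r))) (fun _ => 2 / 3 * ζ) W :=
  ⟨ini_aux 𝔖.herm 𝔖.zd hFB hr hζ hζ2 hr8 W,
    ini_aux 𝔖.neg.herm 𝔖.neg.zd (ini_FB_neg hFB) hr hζ hζ2 hr8 W⟩

end Vale.Agent.P078.TX
end

section
/-! T3-I: existence of the parameters. -/

namespace Vale.Agent.P078.TX

open Filter Topology

private theorem ev_inv (c : ℝ) {e : ℝ} (he : 0 < e) {p : ℕ} (hp : p ≠ 0) :
    ∀ᶠ U : ℕ in atTop, c / (U : ℝ) ^ p ≤ e := by
  have h : Tendsto (fun U : ℕ => c / (U : ℝ) ^ p) atTop (𝓝 0) :=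
    tendsto_const_nhds.div_atTop ((tendsto_pow_atTop hp).comp tendsto_natCast_atTop_atTop)
  exact Filter.Tendsto.eventually_le_const he h

private theorem ev_log {K s : ℝ} (hK : 0 < K) (hs : 0 < s) :
    ∀ᶠ U : ℕ in atTop, Real.logb 2 (K * (U : ℝ) ^ 32) * s ≤ U / 2 := by
  have hr : (1 : ℝ) < 2 ^ (1 / (2 * s)) := Real.one_lt_rpow (by norm_num) (by positivity)
  have h := (tendsto_pow_const_div_const_pow_of_one_lt 32 hr).const_mul K
  rw [mul_zero] at h
  filter_upwards [Filter.Tendsto.eventually_le_const one_pos h, eventually_gt_atTop 0]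
    with U hU hU0
  have hU' : (0 : ℝ) < U := by exact_mod_cast hU0
  have h1 : K * (U : ℝ) ^ 32 ≤ (2 : ℝ) ^ ((U : ℝ) / (2 * s)) := by
    have h2 : (2 : ℝ) ^ ((U : ℝ) / (2 * s)) = ((2 : ℝ) ^ (1 / (2 * s))) ^ U := by
      rw [← Real.rpow_natCast, ← Real.rpow_mul (by norm_num)]
      congr 1
      ring
    rw [h2]
    have h3 : (0 : ℝ) < ((2 : ℝ) ^ (1 / (2 * s))) ^ U := by positivity
    rw [← mul_div_assoc, div_le_one h3] at hU
    exact hU
  have h4 : Real.logb 2 (K * (U : ℝ) ^ 32) ≤ (U : ℝ) / (2 * s) :=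
    (Real.logb_le_iff_le_rpow (by norm_num) (by positivity)).2 h1
  calc Real.logb 2 (K * (U : ℝ) ^ 32) * s ≤ (U : ℝ) / (2 * s) * s :=
        mul_le_mul_of_nonneg_right h4 hs.le
    _ = U / 2 := by field_simp

private theorem ev_pow : ∀ᶠ U : ℕ in atTop, 2 * (U : ℝ) ^ 12 ≤ 2 ^ U := by
  have h := (tendsto_pow_const_div_const_pow_of_one_lt 12 (one_lt_two (α := ℝ))).const_mul 2
  rw [mul_zero] at h
  filter_upwards [Filter.Tendsto.eventually_le_const one_pos h] with U hU
  rwa [← mul_div_assoc, div_le_one (by positivity)] at hU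

private theorem ev_main {δ ζ : ℝ} (hδ : 0 < δ) (hζ : 0 < ζ) (Δ : ℕ) :
    ∀ᶠ U : ℕ in atTop,
      12 * (3 * (Δ : ℝ) ^ (40 * U ^ 9) / δ + 10 * ζ * (U : ℝ) ^ 16 + 5) * (Δ : ℝ) ^ (40 * U ^ 9) *
        (4 / 5) ^ (U ^ 10) ≤ δ / 3 := by
  have h1 : ∀ᶠ U : ℕ in atTop, ((Δ : ℝ) + 1) ^ 80 * (8 / 9 : ℝ) ^ U ≤ 1 := by
    have h := (tendsto_pow_atTop_nhds_zero_of_lt_one (r := (8 / 9 : ℝ)) (by norm_num)
      (by norm_num)).const_mul (((Δ : ℝ) + 1) ^ 80)
    rw [mul_zero] at h
    exact Filter.Tendsto.eventually_le_const one_pos h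
  have h2 : ∀ᶠ U : ℕ in atTop, 12 * (3 / δ + 10 * ζ * (U : ℝ) ^ 16 + 5) * (9 / 10 : ℝ) ^ U ≤ δ / 3 := by
    have ha := tendsto_pow_const_mul_const_pow_of_abs_lt_one 16
      (show |(9 / 10 : ℝ)| < 1 by rw [abs_of_pos (by norm_num)]; norm_num)
    have hb := tendsto_pow_atTop_nhds_zero_of_lt_one (r := (9 / 10 : ℝ)) (by norm_num)
      (by norm_num)
    have hc := (ha.const_mul (120 * ζ)).add (hb.const_mul (12 * (3 / δ + 5)))
    rw [mul_zero, mul_zero, add_zero] at hc
    filter_upwards [Filter.Tendsto.eventually_le_const (show (0 : ℝ) < δ / 3 by positivity) hc]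
      with U hU
    refine le_trans (le_of_eq ?_) hU
    ring
  filter_upwards [h1, h2, eventually_gt_atTop 0] with U hU1 hU2 hU0
  set A : ℝ := ((Δ : ℝ) + 1) ^ (40 * U ^ 9) with hA
  have hA1 : 1 ≤ A := one_le_pow₀ (by linarith only [])
  have hΔA : (Δ : ℝ) ^ (40 * U ^ 9) ≤ A :=
    pow_le_pow_left₀ (Nat.cast_nonneg _) (by linarith only []) _
  have hΔ0 : (0 : ℝ) ≤ (Δ : ℝ) ^ (40 * U ^ 9) := by (clear * -; positivity)
  have hA2 : A ^ 2 * (4 / 5 : ℝ) ^ (U ^ 10) ≤ (9 / 10 : ℝ) ^ U := by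
    have e1 : A ^ 2 * (4 / 5 : ℝ) ^ (U ^ 10) =
        ((((Δ : ℝ) + 1) ^ 80 * (8 / 9 : ℝ) ^ U) * (9 / 10 : ℝ) ^ U) ^ (U ^ 9) := by
      rw [hA, mul_assoc, ← mul_pow, mul_pow, ← pow_mul, ← pow_mul, ← pow_mul]
      norm_num
      ring_nf
    rw [e1]
    calc ((((Δ : ℝ) + 1) ^ 80 * (8 / 9 : ℝ) ^ U) * (9 / 10 : ℝ) ^ U) ^ (U ^ 9)
        ≤ (1 * (9 / 10 : ℝ) ^ U) ^ (U ^ 9) :=
          pow_le_pow_left₀ (by (clear * -; positivity)) (mul_le_mul_of_nonneg_right hU1 (by positivity)) _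
      _ ≤ ((9 / 10 : ℝ) ^ U) ^ 1 := by
          rw [one_mul]
          exact pow_le_pow_of_le_one (by positivity) (pow_le_one₀ (by norm_num) (by norm_num))
            (Nat.one_le_iff_ne_zero.2 (pow_ne_zero _ hU0.ne'))
      _ = (9 / 10 : ℝ) ^ U := pow_one _
  have hq : (0 : ℝ) ≤ (4 / 5 : ℝ) ^ (U ^ 10) := by positivity
  calc 12 * (3 * (Δ : ℝ) ^ (40 * U ^ 9) / δ + 10 * ζ * (U : ℝ) ^ 16 + 5) *
        (Δ : ℝ) ^ (40 * U ^ 9) * (4 / 5) ^ (U ^ 10)
      ≤ 12 * ((3 / δ + 10 * ζ * (U : ℝ) ^ 16 + 5) * A) * A * (4 / 5) ^ (U ^ 10) := by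
        refine mul_le_mul_of_nonneg_right ?_ hq
        refine mul_le_mul ?_ hΔA hΔ0 (by (clear * - hδ hζ hU0; positivity))
        refine mul_le_mul_of_nonneg_left ?_ (by norm_num)
        have t1 : 3 * (Δ : ℝ) ^ (40 * U ^ 9) / δ ≤ 3 / δ * A := by
          rw [div_mul_eq_mul_div]
          exact div_le_div_of_nonneg_right (by linarith only [hΔA]) hδ.le
        have t2 : 10 * ζ * (U : ℝ) ^ 16 + 5 ≤ (10 * ζ * (U : ℝ) ^ 16 + 5) * A :=
          le_mul_of_one_le_right (by positivity) hA1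
        (clear * - t1 t2; linarith)
    _ = 12 * (3 / δ + 10 * ζ * (U : ℝ) ^ 16 + 5) * (A ^ 2 * (4 / 5) ^ (U ^ 10)) := by ring
    _ ≤ 12 * (3 / δ + 10 * ζ * (U : ℝ) ^ 16 + 5) * (9 / 10 : ℝ) ^ U :=
        mul_le_mul_of_nonneg_left hA2 (by positivity)
    _ ≤ δ / 3 := hU2

private theorem theta_mem {ζ x : ℝ} {U : ℕ} (hx1 : 1 ≤ x) (hκfs : 5 * (1 / x ^ 16) < 1 / x ^ 4)
    (hfsζ : 116 * (1 / x ^ 4) ≤ ζ) (a8 : 2 * x ^ 12 ≤ 2 ^ U) (f : ℝ) (hf' : f < 1 / x ^ 4) :
    ∃ θ ∈ ((Finset.range U).image fun j => 29 * (1 / x ^ 16) * 2 ^ j).filter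
      (fun θ => 2 * θ ≤ ζ), 29 * max f (1 / x ^ 16) ≤ θ ∧ θ ≤ 58 * max f (1 / x ^ 16) := by
  have hκ0 : 0 < 1 / x ^ 16 := by positivity
  obtain ⟨g, hg⟩ : ∃ g, g = max f (1 / x ^ 16) := ⟨_, rfl⟩
  rw [← hg]
  have hgκ : 1 / x ^ 16 ≤ g := hg ▸ le_max_right _ _
  have hg4 : g < 1 / x ^ 4 := hg ▸ max_lt hf' (by linarith only [hκfs, hκ0])
  have h3 : 1 / x ^ 16 * (2 * x ^ 12) = 2 * (1 / x ^ 4) := by (clear * - hx1; field_simp)
  generalize 1 / x ^ 16 = κ at *
  generalize 1 / x ^ 4 = fs at *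
  have hex : ∃ j : ℕ, g ≤ κ * 2 ^ j := by
    obtain ⟨j, hj⟩ := pow_unbounded_of_one_lt (g / κ) (one_lt_two (α := ℝ))
    exact ⟨j, by rw [div_lt_iff₀ hκ0] at hj; linarith only [hj]⟩
  obtain ⟨j, hj1, hj2⟩ : ∃ j : ℕ, g ≤ κ * 2 ^ j ∧ κ * 2 ^ j ≤ 2 * g := by
    classical
    have hj1 := Nat.find_spec hex
    have hmin := fun m (hm : m < Nat.find hex) => Nat.find_min hex hm
    generalize Nat.find hex = j at hj1 hmin
    refine ⟨j, hj1, ?_⟩
    rcases Nat.eq_zero_or_pos j with h0 | h0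
    · rw [h0, pow_zero, mul_one]; linarith only [hκ0, hgκ]
    · have h1 := hmin (j - 1) (by omega)
      rw [not_le] at h1
      have h2 : (2 : ℝ) ^ j = 2 * 2 ^ (j - 1) := by
        rw [← pow_succ']
        congr 1
        omega
      rw [h2]
      linarith only [h1]
  have hjU : j < U := by
    by_contra hcon
    rw [not_lt] at hcon
    have h1 : (2 : ℝ) ^ U ≤ 2 ^ j := pow_le_pow_right₀ (by norm_num) hcon
    have h2 : κ * (2 * x ^ 12) ≤ κ * 2 ^ j := mul_le_mul_of_nonneg_left (a8.trans h1) hκ0.le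
    linarith only [hg4, h3, hj2, h2]
  refine ⟨29 * κ * 2 ^ j, ?_, by linarith only [hj1], by linarith only [hj2]⟩
  rw [Finset.mem_filter, Finset.mem_image]
  exact ⟨⟨j, Finset.mem_range.2 hjU, rfl⟩, by linarith only [hfsζ, hg4, hj2]⟩

private theorem main_ineq {δ ζ x A q th : ℝ} {t₁ t₂ : ℕ} (r : ℕ) (hδ : 0 < δ) (hζ : 0 < ζ)
    (hx0 : 0 < x) (hA0 : 0 ≤ A) (hq : 0 ≤ q) (ht1 : 3 * A / δ ≤ t₁)
    (ht1' : (t₁ : ℝ) ≤ 3 * A / δ + 1) (ht2' : (t₂ : ℝ) ≤ 10 * ζ * x ^ 16 + 1) (hΘc : th ≤ x)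
    (a9 : 12 * (3 * A / δ + 10 * ζ * x ^ 16 + 5) * A * q ≤ δ / 3) (a10 : 180 * r / x ^ 3 ≤ δ / 3) :
    A / ((t₁ + t₂ + 1 : ℕ) : ℝ) + 12 * (((t₁ + t₂ + 1 : ℕ) : ℝ) + 2) * A * q +
      180 * r * th / x ^ 4 ≤ δ := by
  have hT : ((t₁ + t₂ + 1 : ℕ) : ℝ) = t₁ + t₂ + 1 := by push_cast; ring
  rw [hT]
  have b1 : A / ((t₁ : ℝ) + t₂ + 1) ≤ δ / 3 := by
    rw [div_le_iff₀ (by (clear * -; positivity))]
    have h3 : 3 * A ≤ t₁ * δ := (div_le_iff₀ hδ).1 ht1
    have h4 : (0 : ℝ) ≤ δ * (t₂ + 1) := by positivity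
    linarith only [h4, h3]
  have b2 : 12 * (((t₁ : ℝ) + t₂ + 1) + 2) * A * q ≤ δ / 3 := by
    refine le_trans ?_ a9
    refine mul_le_mul_of_nonneg_right (mul_le_mul_of_nonneg_right ?_ hA0) hq
    linarith only [ht1', ht2']
  have b3 : 180 * r * th / x ^ 4 ≤ δ / 3 := by
    refine le_trans ?_ a10
    rw [div_le_div_iff₀ (by positivity) (by positivity)]
    have : 180 * (r : ℝ) * th ≤ 180 * r * x := mul_le_mul_of_nonneg_left hΘc (by (clear * -; positivity))
    calc 180 * (r : ℝ) * th * x ^ 3 ≤ 180 * r * x * x ^ 3 :=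
          mul_le_mul_of_nonneg_right this (by positivity)
      _ = 180 * r * x ^ 4 := by ring
  linarith only [b1, b2, b3]

private theorem hL_aux {K x : ℝ} (hK : 0 < K) (hx0 : 0 < x) :
    K ≤ (1 / x ^ 16) ^ 2 * (2 : ℝ) ^ (max 8 (Real.logb 2 (K * x ^ 32))) := by
  have h1 : K * x ^ 32 ≤ (2 : ℝ) ^ (max 8 (Real.logb 2 (K * x ^ 32))) := by
    calc K * x ^ 32 = (2 : ℝ) ^ (Real.logb 2 (K * x ^ 32)) :=
          (Real.rpow_logb (by norm_num) (by norm_num) (by positivity)).symm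
      _ ≤ _ := Real.rpow_le_rpow_of_exponent_le (by norm_num) (le_max_right _ _)
  calc K = (1 / x ^ 16) ^ 2 * (K * x ^ 32) := by (clear * - hx0 hK; field_simp)
    _ ≤ _ := mul_le_mul_of_nonneg_left h1 (by positivity)

private theorem ev_all (r : ℕ) {ζ δ : ℝ} (hζ : 0 < ζ) (hδ : 0 < δ) {D K : ℝ} (hD : 1 ≤ D)
    (hK : 0 < K) (Δ k : ℕ) : ∀ᶠ U : ℕ in atTop,
      100 / (U : ℝ) ^ 16 ≤ ζ ∧ 800 * D / (U : ℝ) ^ 2 ≤ 1 ∧
      Real.logb 2 (K * (U : ℝ) ^ 32) * Real.sqrt D ≤ U / 2 ∧ 16 * Real.sqrt D ≤ U ∧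
      116 / (U : ℝ) ^ 4 ≤ ζ ∧ 2 / (U : ℝ) ^ 6 ≤ ζ ∧ (46400 + 38400 * ζ) / (U : ℝ) ^ 2 ≤ ζ ∧
      2 * (U : ℝ) ^ 12 ≤ 2 ^ U ∧
      12 * (3 * (Δ : ℝ) ^ (40 * U ^ 9) / δ + 10 * ζ * (U : ℝ) ^ 16 + 5) *
        (Δ : ℝ) ^ (40 * U ^ 9) * (4 / 5) ^ (U ^ 10) ≤ δ / 3 ∧
      180 * r / (U : ℝ) ^ 3 ≤ δ / 3 ∧ k ≤ U ∧ 2 ≤ U := by
  have hs : 0 < Real.sqrt D := Real.sqrt_pos.2 (by linarith only [hD])
  have hU16 : ∀ᶠ U : ℕ in atTop, 16 * Real.sqrt D ≤ U :=
    tendsto_natCast_atTop_atTop.eventually_ge_atTop _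
  filter_upwards [ev_inv 100 hζ (p := 16) (by norm_num),
    ev_inv (800 * D) one_pos (p := 2) (by norm_num), ev_log hK hs, hU16,
    ev_inv 116 hζ (p := 4) (by norm_num), ev_inv 2 hζ (p := 6) (by norm_num),
    ev_inv (46400 + 38400 * ζ) hζ (p := 2) (by norm_num), ev_pow, ev_main hδ hζ Δ,
    ev_inv (180 * r) (show 0 < δ / 3 by positivity) (p := 3) (by norm_num),
    eventually_ge_atTop k, eventually_ge_atTop 2] with U a1 a2 a3 a4 a5 a6 a7 a8 a9 a10 a11 a12
  exact ⟨a1, a2, a3, a4, a5, a6, a7, a8, a9, a10, a11, a12⟩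

universe u

theorem exists_par (r : ℕ) {ζ δ : ℝ} (hζ : 0 < ζ) (hδ : 0 < δ) {D : ℝ} (hD : 1 ≤ D)
    (Δ k : ℕ) :
    ∃ P : Par, P.ζ = ζ ∧ k ≤ P.R ∧
      (Δ : ℝ) ^ (2 * P.N) / P.T + 12 * (P.T + 2) * (Δ : ℝ) ^ (2 * P.N) * (4 / 5) ^ P.n +
        180 * r * P.Θ.card / P.Λ ≤ δ ∧
      ∀ (ν : ℕ) (α : Type u) [DecidableEq α] (E : Env ν α), E.D = D → 2 * P.N ≤ E.rad → P.Good E := by
  have hs : 0 < Real.sqrt D := Real.sqrt_pos.2 (by linarith only [hD])
  set K : ℝ := 250 * (D + 1) * (96 * ζ) with hKdef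
  have hK : 0 < K := by positivity
  obtain ⟨U₀, hU₀⟩ := eventually_atTop.1 (ev_all r hζ hδ hD hK Δ k)
  obtain ⟨a1, a2, a3, a4, a5, a6, a7, a8, a9, a10, a11, a12⟩ := hU₀ (2 * U₀) (by omega)
  have hUm : ((2 * U₀ : ℕ) : ℝ) / 2 = (U₀ : ℝ) := by push_cast; ring
  generalize hU : 2 * U₀ = U at *
  set x : ℝ := (U : ℝ) with hx
  have hx2 : 2 ≤ x := by rw [hx]; exact_mod_cast a12
  have hx0 : 0 < x := by linarith only [hs, a4]
  have hx1 : 1 ≤ x := by linarith only [hx2]
  set t₁ : ℕ := ⌈3 * (Δ : ℝ) ^ (40 * U ^ 9) / δ⌉₊ with ht₁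
  set t₂ : ℕ := ⌈10 * ζ * x ^ 16⌉₊ with ht₂
  have ht1 : 3 * (Δ : ℝ) ^ (40 * U ^ 9) / δ ≤ t₁ := Nat.le_ceil _
  have ht2 : 10 * ζ * x ^ 16 ≤ t₂ := Nat.le_ceil _
  have ht1' : (t₁ : ℝ) ≤ 3 * (Δ : ℝ) ^ (40 * U ^ 9) / δ + 1 :=
    (Nat.ceil_lt_add_one (by (clear * - hδ; positivity))).le
  have ht2' : (t₂ : ℝ) ≤ 10 * ζ * x ^ 16 + 1 := (Nat.ceil_lt_add_one (by positivity)).le
  set Θ : Finset ℝ := ((Finset.range U).image fun j => 29 * (1 / x ^ 16) * 2 ^ j).filter
    fun θ => 2 * θ ≤ ζ with hΘ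
  have hΘc : (Θ.card : ℝ) ≤ x := by
    have : Θ.card ≤ U := (Finset.card_filter_le _ _).trans
      (Finset.card_image_le.trans (by rw [Finset.card_range]))
    rw [hx]
    exact_mod_cast this
  let P : Par :=
    { ζ := ζ
      κ := 1 / x ^ 16
      c := x
      Λ := x ^ 4
      M := 46400 * x ^ 4 + 38400 * ζ / (1 / x ^ 4) + 1
      fs := 1 / x ^ 4
      L := max 8 (Real.logb 2 (K * x ^ 32))
      R := 5 * U ^ 9
      R0 := U₀
      n := U ^ 10
      T := t₁ + t₂ + 1
      Θ := Θ }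
  have hN : 2 * P.N = 40 * U ^ 9 := by
    change 2 * (4 * (5 * U ^ 9)) = _
    ring
  have hx16 : (0 : ℝ) < x ^ 16 := by positivity
  refine ⟨P, rfl, ?_, ?_, ?_⟩
  · change k ≤ 5 * U ^ 9
    have : U ≤ U ^ 9 := Nat.le_self_pow (by norm_num) U
    omega
  · rw [hN]
    change (Δ : ℝ) ^ (40 * U ^ 9) / ((t₁ + t₂ + 1 : ℕ) : ℝ) +
      12 * (((t₁ + t₂ + 1 : ℕ) : ℝ) + 2) * (Δ : ℝ) ^ (40 * U ^ 9) * (4 / 5) ^ (U ^ 10) +
        180 * r * Θ.card / x ^ 4 ≤ δ
    exact main_ineq r hδ hζ hx0 (by (clear * -; positivity)) (by positivity) ht1 ht1' ht2' hΘc a9 a10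
  · intro ν α _ E hED hrad
    have hκ1 : 1 / x ^ 16 ≤ 1 / x := by
      refine one_div_le_one_div_of_le hx0 ?_
      exact le_self_pow₀ hx1 (by norm_num)
    have hxx : 1 / x ≤ 1 / 2 := one_div_le_one_div_of_le (by norm_num) hx2
    have hLs : max 8 (Real.logb 2 (K * x ^ 32)) * Real.sqrt D ≤ x / 2 := by
      rcases le_total 8 (Real.logb 2 (K * x ^ 32)) with h | h
      · rw [max_eq_right h]; exact a3
      · rw [max_eq_left h]; linarith only [a4]
    have hx4 : x ^ 4 ≥ 1 := one_le_pow₀ hx1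
    have hκfs : 5 * (1 / x ^ 16) < 1 / x ^ 4 := by
      rw [mul_one_div, div_lt_div_iff₀ (by (clear * - a12; positivity)) (by positivity)]
      have : (2 : ℝ) ^ 12 ≤ x ^ 12 := pow_le_pow_left₀ (by norm_num) hx2 _
      have h16 : x ^ 16 = x ^ 12 * x ^ 4 := by ring
      rw [h16]
      nlinarith only [hx4, this]
    have hfsζ : 116 * (1 / x ^ 4) ≤ ζ := by rw [mul_one_div]; exact a5
    refine
      { ζ_pos := hζ
        κ_pos := by change 0 < 1 / x ^ 16; (clear * - a12; positivity)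
        c_pos := hx1
        D_ge := by rw [hED]; exact hD
        κ_le := by change 100 * (1 / x ^ 16) ≤ ζ; rw [mul_one_div]; exact a1
        κ_le' := hκ1.trans hxx
        rad := hrad
        R_pos := ?_
        hR := ?_
        hc := ?_
        R0_pos := ?_
        R0_le := ?_
        R0_c := ?_
        L_ge := le_max_left _ _
        hL := ?_
        hLR := ?_
        hLc := ?_
        fs_pos := by change 0 < 1 / x ^ 4; positivity
        fs_le := ?_
        κ_fs := hκfs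
        fs_ζ := hfsζ
        Λ_ge := hx4
        hM := le_rfl
        hn := ?_
        Θ_ge := ?_
        Θ_le := ?_
        Θ_mem := ?_
        T_pos := ?_
        T_ge := ?_ }
    · change 10 ≤ 5 * U ^ 9
      have : U ≤ U ^ 9 := Nat.le_self_pow (by norm_num) U
      omega
    · change 20 * x ^ 2 ≤ 1 / x ^ 16 * ((5 * U ^ 9 : ℕ) : ℝ) ^ 2
      push_cast
      rw [← hx]
      have : 1 / x ^ 16 * (5 * x ^ 9) ^ 2 = 25 * x ^ 2 := by field_simp; ring
      rw [this]
      nlinarith only []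
    · change 800 * E.D ≤ x ^ 2
      rw [hED]
      rwa [div_le_one (by positivity)] at a2
    · change 1 ≤ U₀
      omega
    · change 10 * U₀ ≤ 5 * U ^ 9
      have : U ≤ U ^ 9 := Nat.le_self_pow (by norm_num) U
      omega
    · change 2 * (U₀ : ℝ) ≤ x
      rw [← hUm]; linarith only []
    · change 250 * (E.D + 1) * (96 * ζ) ≤
        (1 / x ^ 16) ^ 2 * (2 : ℝ) ^ (max 8 (Real.logb 2 (K * x ^ 32)))
      rw [hED]
      exact hL_aux hK hx0
    · change max 8 (Real.logb 2 (K * x ^ 32)) * Real.sqrt E.D ≤ (U₀ : ℝ)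
      rw [hED, ← hUm]; exact hLs
    · change 2 * (max 8 (Real.logb 2 (K * x ^ 32)) * Real.sqrt E.D) ≤ x
      rw [hED]; linarith only [hLs]
    · change 1 / x ^ 4 ≤ 1
      rw [div_le_one (by positivity)]; exact hx4
    · change ((U ^ 10 : ℕ) : ℝ) * (1 / x ^ 16) *
        (1 + (46400 * x ^ 4 + 38400 * ζ / (1 / x ^ 4) + 1)) ≤ 13 * ζ
      push_cast
      rw [← hx]
      have : x ^ 10 * (1 / x ^ 16) * (1 + (46400 * x ^ 4 + 38400 * ζ / (1 / x ^ 4) + 1)) =
          2 / x ^ 6 + (46400 + 38400 * ζ) / x ^ 2 := by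
        field_simp
        ring
      rw [this]
      linarith only [a7, a6, hζ]
    · intro θ hθ
      change θ ∈ Θ at hθ
      rw [hΘ, Finset.mem_filter, Finset.mem_image] at hθ
      obtain ⟨⟨j, _, rfl⟩, _⟩ := hθ
      change 29 * (1 / x ^ 16) ≤ 29 * (1 / x ^ 16) * 2 ^ j
      exact le_mul_of_one_le_right (by positivity) (one_le_pow₀ (by norm_num))
    · intro θ hθ
      change θ ∈ Θ at hθ
      rw [hΘ, Finset.mem_filter] at hθ
      exact hθ.2
    · intro f hf hf'
      change f < 1 / x ^ 4 at hf'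
      change ∃ θ ∈ Θ, 29 * max f (1 / x ^ 16) ≤ θ ∧ θ ≤ 58 * max f (1 / x ^ 16)
      exact theta_mem hx1 hκfs hfsζ a8 f hf'
    · change 1 ≤ t₁ + t₂ + 1
      omega
    · change 10 * ζ ≤ 1 / x ^ 16 * ((t₁ + t₂ + 1 : ℕ) : ℝ)
      push_cast
      rw [one_div_mul_eq_div, le_div_iff₀ hx16]
      have : (0 : ℝ) ≤ t₁ := Nat.cast_nonneg _
      linarith only [ht2]

end Vale.Agent.P078.TX
end
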