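import Vale.Agent.P078.H291.XLow
import Mathlib.Analysis.InnerProductSpace.l2Space

/-! The diagonal maximal abelian subalgebra of the algebra of all operators on a Hilbert space
with an orthonormal basis. -/

set_option linter.unusedSectionVars false

namespace Vale.Agent.P078.XD

open Vale.Agent.P078
open scoped InnerProductSpace

variable {H : Type*} [NormedAddCommGroup H] [InnerProductSpace ℂ H] [CompleteSpace H]
variable {ι : Type*} (b : HilbertBasis ι ℂ H)

/-- the operators which commute with the set `S` and its adjoints -/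
noncomputable def comm (S : Set (H →L[ℂ] H)) : VonNeumannAlgebra H where
  toStarSubalgebra := StarSubalgebra.centralizer ℂ S
  centralizer_centralizer' := by
    have h : (StarSubalgebra.centralizer ℂ S).carrier = (S ∪ star S).centralizer := rfl
    rw [h, Set.centralizer_centralizer_centralizer]

theorem mem_comm {S : Set (H →L[ℂ] H)} {x : H →L[ℂ] H} :
    x ∈ comm S ↔ ∀ g ∈ S, g * x = x * g ∧ star g * x = x * star g :=
  StarSubalgebra.mem_centralizer_iff ℂ

theorem mem_MM (x : H →L[ℂ] H) : x ∈ comm (∅ : Set (H →L[ℂ] H)) :=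
  mem_comm.2 fun _ h => absurd h (Set.notMem_empty _)

theorem rankOne_sa (v : H) :
    star (InnerProductSpace.rankOne ℂ v v) = InnerProductSpace.rankOne ℂ v v := by
  rw [ContinuousLinearMap.star_eq_adjoint, InnerProductSpace.adjoint_rankOne]

/-- the diagonal operators -/
noncomputable def AA : VonNeumannAlgebra H :=
  comm (Set.range fun i => InnerProductSpace.rankOne ℂ (b i) (b i))

variable {b}

theorem b_inner (i j : ι) [DecidableEq ι] : ⟪b i, b j⟫_ℂ = if i = j then 1 else 0 :=
  orthonormal_iff_ite.1 b.orthonormal i j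

theorem ext_b {x y : H →L[ℂ] H} (h : ∀ j, x (b j) = y (b j)) : x = y := by
  refine ContinuousLinearMap.ext_on (s := Set.range b)
    (Submodule.dense_iff_topologicalClosure_eq_top.2 b.dense_span) ?_
  rintro _ ⟨j, rfl⟩
  exact h j

theorem form_of_zero {v : H} {j : ι} (h : ∀ i, i ≠ j → ⟪b i, v⟫_ℂ = 0) :
    v = ⟪b j, v⟫_ℂ • b j := by
  refine (b.hasSum_repr v).unique ?_
  have h1 := hasSum_single (f := fun i => b.repr v i • b i) j fun i hi => by
    rw [b.repr_apply_apply, h i hi, zero_smul]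
  rw [b.repr_apply_apply] at h1
  exact h1

theorem mem_AA {x : H →L[ℂ] H} : x ∈ AA b ↔ ∀ i j, i ≠ j → ⟪b i, x (b j)⟫_ℂ = 0 := by
  classical
  constructor
  · intro h i j hij
    have h1 := (mem_comm.1 h _ ⟨j, rfl⟩).1
    have h2 := congrArg (fun S : H →L[ℂ] H => S (b j)) h1
    change InnerProductSpace.rankOne ℂ (b j) (b j) (x (b j)) =
      x (InnerProductSpace.rankOne ℂ (b j) (b j) (b j)) at h2
    rw [InnerProductSpace.rankOne_apply, InnerProductSpace.rankOne_apply, b_inner,
      if_pos rfl, one_smul] at h2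
    rw [← h2, inner_smul_right, b_inner, if_neg hij, mul_zero]
  · intro h
    have hx : ∀ j, x (b j) = ⟪b j, x (b j)⟫_ℂ • b j := fun j => form_of_zero fun i hi => h i j hi
    have key : ∀ l, InnerProductSpace.rankOne ℂ (b l) (b l) * x =
        x * InnerProductSpace.rankOne ℂ (b l) (b l) := by
      intro l
      refine ext_b (b := b) fun j => ?_
      change InnerProductSpace.rankOne ℂ (b l) (b l) (x (b j)) =
        x (InnerProductSpace.rankOne ℂ (b l) (b l) (b j))
      rw [InnerProductSpace.rankOne_apply, InnerProductSpace.rankOne_apply, b_inner]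
      split_ifs with hlj
      · subst hlj
        rw [one_smul]
        exact (hx l).symm
      · rw [zero_smul, map_zero, h l j hlj, zero_smul]
    refine mem_comm.2 ?_
    rintro _ ⟨l, rfl⟩
    refine ⟨key l, ?_⟩
    show star (InnerProductSpace.rankOne ℂ (b l) (b l)) * x =
      x * star (InnerProductSpace.rankOne ℂ (b l) (b l))
    rw [rankOne_sa]
    exact key l

theorem diag_form {x : H →L[ℂ] H} (h : x ∈ AA b) (j : ι) :
    x (b j) = ⟪b j, x (b j)⟫_ℂ • b j :=
  form_of_zero fun i hi => mem_AA.1 h i j hi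

theorem rankOne_mem_AA (l : ι) : InnerProductSpace.rankOne ℂ (b l) (b l) ∈ AA b := by
  classical
  rw [mem_AA]
  intro i j hij
  rw [InnerProductSpace.rankOne_apply, inner_smul_right, b_inner, b_inner]
  split_ifs with h1 h2
  · exact absurd (h2.trans h1) hij
  · rw [mul_zero]
  · rw [zero_mul]
  · rw [mul_zero]

theorem isMASA : SO.IsMASA (AA b) (comm ∅) := by
  refine ⟨fun x _ => mem_MM x, fun x hx y hy => ?_, fun x _ h => ?_⟩
  · refine ext_b (b := b) fun j => ?_
    change x (y (b j)) = y (x (b j))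
    obtain ⟨c, hc⟩ : ∃ c, c = ⟪b j, x (b j)⟫_ℂ := ⟨_, rfl⟩
    obtain ⟨d, hd⟩ : ∃ d, d = ⟪b j, y (b j)⟫_ℂ := ⟨_, rfl⟩
    have h1 := diag_form hx j
    have h2 := diag_form hy j
    rw [← hc] at h1
    rw [← hd] at h2
    rw [h2, h1, map_smul, map_smul, h1, h2, smul_smul, smul_smul, mul_comm]
  · refine mem_comm.2 ?_
    rintro _ ⟨l, rfl⟩
    refine ⟨h _ (rankOne_mem_AA l), ?_⟩
    show star (InnerProductSpace.rankOne ℂ (b l) (b l)) * x =
      x * star (InnerProductSpace.rankOne ℂ (b l) (b l))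
    rw [rankOne_sa]
    exact h _ (rankOne_mem_AA l)

/-- the diagonal maximal abelian subalgebra of the algebra of all operators and the lower
bound for its joint so-paving numbers -/
theorem diag_lower [Infinite ι] (b : HilbertBasis ι ℂ H) {k : ℕ} (hk : 1 ≤ k) {ε : ℝ}
    (hε : 0 < ε) (hε1 : ε < 1) : ∃ M A : VonNeumannAlgebra H,
    (∀ x, x ∈ M) ∧ (∀ x, x ∈ A ↔ ∀ i j, i ≠ j → ⟪b i, x (b j)⟫_ℂ = 0) ∧ SO.IsMASA A M ∧
    (⌈(k : ℝ) / (2 * ε ^ 2)⌉₊ : ℕ∞) ≤ SO.jointPavingNumber M A k ε := by
  refine ⟨comm ∅, AA b, mem_MM, fun _ => mem_AA, isMASA, le_iInf₂ fun r hr => ?_⟩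
  exact_mod_cast Nat.ceil_le.2
    (WG.div_le_of_joint (isMASA (b := b)) hk (fun i => b (Infinite.natEmbedding ι i))
      (b.orthonormal.comp _ (Infinite.natEmbedding ι).injective)
      (fun _ _ => mem_MM _) (fun _ => rankOne_mem_AA _) hε hε1 hr.2)

end Vale.Agent.P078.XD
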