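import Vale.Agent.P078.H598.Low

/-! The joint so-paving number over diagonal maximal abelian subalgebras is at least
`k / (2 ε²)`. -/

set_option linter.unusedSectionVars false

namespace Vale.Agent.P078.WG

open Vale.Agent.P078
open scoped InnerProductSpace

variable {H : Type*} [NormedAddCommGroup H] [InnerProductSpace ℂ H] [CompleteSpace H]
variable {M A : VonNeumannAlgebra H}

/-- if every pair of `n` basis vectors is joined by an entry of modulus `≥ c > ε` of one of the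
`k` self-adjoint contractions `x l`, these are not jointly `(ε, r)` so-pavable for `r < n` -/
theorem card_le_of_joint (hA : SO.IsMASA A M) {ι : Type*} [Fintype ι] {k : ℕ} (v : ι → H)
    (hv : Orthonormal ℂ v)
    (hAv : ∀ i, InnerProductSpace.rankOne ℂ (v i) (v i) ∈ A)
    {x : Fin k → (H →L[ℂ] H)} (hxn : ∀ l, ‖x l‖ ≤ 1) {ε c : ℝ} (h0 : 0 < ε) (h1 : ε < c)
    (hpair : ∀ i j, i ≠ j → ∃ l, c ≤ ‖⟪v j, x l (v i)⟫_ℂ‖) {r : ℕ}
    (hr : SO.JointlySOPavable M A x ε r) :
    Fintype.card ι ≤ r := by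
  classical
  by_contra hrk
  push Not at hrk
  obtain ⟨δ, hδ⟩ : ∃ δ : ℝ, δ = (c - ε) / (4 * (r + 2)) := ⟨_, rfl⟩
  have hr0 : (0 : ℝ) ≤ r := Nat.cast_nonneg r
  have hδ0 : 0 < δ := by
    rw [hδ]
    exact div_pos (by linarith) (by linarith)
  obtain ⟨p, a, q, hp, ho, hs, ha, hqM, hqp, hqF, hq⟩ := hr (Finset.univ.image v) δ hδ0
  have hqv : ∀ i, ‖v i - q (v i)‖ < δ := fun i =>
    hqF _ (Finset.mem_image_of_mem _ (Finset.mem_univ i))
  have hpd : ∀ c i, p c (v i) = ⟪v i, p c (v i)⟫_ℂ • v i := fun c i =>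
    diag_apply hA.2.1 (hv.1 i) (hAv i) (hp c).1
  -- the color of an index
  have hcol : ∀ i, ∃ c : Fin r, p c (v i) = v i := by
    intro i
    have hsum : ∑ c, p c (v i) = v i := by
      have := congrArg (fun S : H →L[ℂ] H => S (v i)) hs
      simpa only [_root_.sum_apply, one_apply_eq_self] using this
    have hne : ∃ c : Fin r, p c (v i) ≠ 0 := by
      by_contra hcon
      push Not at hcon
      rw [Finset.sum_eq_zero fun c _ => hcon c] at hsum
      exact hv.ne_zero i hsum.symm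
    obtain ⟨c, hc⟩ := hne
    refine ⟨c, ?_⟩
    obtain ⟨z, hz⟩ : ∃ z, z = ⟪v i, p c (v i)⟫_ℂ := ⟨_, rfl⟩
    have h2 := hpd c i
    rw [← hz] at h2
    have h3 : p c (p c (v i)) = p c (v i) := by
      have := congrArg (fun S : H →L[ℂ] H => S (v i)) (hp c).2.isIdempotentElem.eq
      exact this
    rw [h2, map_smul, h2, smul_smul] at h3
    have hz0 : z ≠ 0 := by
      rintro rfl
      rw [zero_smul] at h2
      exact hc h2
    have h4 : z * z = z := by
      have h5 : (z * z - z) • v i = 0 := by rw [sub_smul, h3, sub_self]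
      exact sub_eq_zero.1 ((smul_eq_zero.1 h5).resolve_right (hv.ne_zero i))
    have h6 : z = 1 := mul_right_cancel₀ hz0 (by rw [h4, one_mul])
    rw [h2, h6, one_smul]
  choose col hcol' using hcol
  obtain ⟨i, j, hij, hc⟩ : ∃ i j, i ≠ j ∧ col i = col j :=
    Fintype.exists_ne_map_eq_of_card_lt col (by simpa using hrk)
  obtain ⟨l, hl⟩ := hpair i j hij
  have hzero : ∀ c, c ≠ col i → p c (v i) = 0 := by
    intro c hcne
    rw [← hcol' i]
    have := congrArg (fun S : H →L[ℂ] H => S (v i)) (ho c (col i) hcne)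
    exact this
  have hpin : ⟪v j, (∑ c, p c * x l * p c) (v i)⟫_ℂ = ⟪v j, x l (v i)⟫_ℂ := by
    have h2 : (∑ c, p c * x l * p c) (v i) = p (col i) (x l (v i)) := by
      rw [_root_.sum_apply, Finset.sum_eq_single (col i)]
      · change p (col i) (x l (p (col i) (v i))) = _
        rw [hcol' i]
      · intro c _ hcne
        change p c (x l (p c (v i))) = 0
        rw [hzero c hcne, map_zero, map_zero]
      · intro h; exact absurd (Finset.mem_univ _) h
    rw [h2, ← sproj_inner (hp (col i)).2, hc, hcol' j]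
  have hadiag : ⟪v j, a l (v i)⟫_ℂ = 0 := by
    rw [diag_apply hA.2.1 (hv.1 i) (hAv i) (ha l).1, inner_smul_right, hv.2 hij.symm, mul_zero]
  obtain ⟨T, hT⟩ : ∃ T, T = ∑ c, p c * x l * p c - a l := ⟨_, rfl⟩
  have hTij : ⟪v j, T (v i)⟫_ℂ = ⟪v j, x l (v i)⟫_ℂ := by
    rw [hT, _root_.sub_apply, inner_sub_right, hpin, hadiag, sub_zero]
  have hTn : ‖T‖ ≤ r + 1 := by
    rw [hT]
    refine (norm_sub_le _ _).trans (add_le_add ?_ ((ha l).2.2.trans (hxn l)))
    refine (norm_sum_le _ _).trans ?_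
    calc ∑ c, ‖p c * x l * p c‖ ≤ ∑ _c : Fin r, (1 : ℝ) :=
          Finset.sum_le_sum fun c _ => (norm_corner_le (hp c).2 _).trans (hxn l)
      _ = r := by simp
  have hq1 : ‖q * T * q‖ ≤ ε := by
    rw [hT]
    refine (hq l).trans ?_
    calc ε * ‖x l‖ ≤ ε * 1 := mul_le_mul_of_nonneg_left (hxn l) h0.le
      _ = ε := mul_one ε
  -- splitting
  have hsplit : ⟪v j, T (v i)⟫_ℂ = ⟪v j, (q * T * q) (v i)⟫_ℂ +
      ⟪v j - q (v j), T (q (v i))⟫_ℂ + ⟪v j, T (v i - q (v i))⟫_ℂ := by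
    have e1 : ⟪v j, (q * T * q) (v i)⟫_ℂ = ⟪q (v j), T (q (v i))⟫_ℂ := by
      rw [sproj_inner hqp]; rfl
    rw [e1, inner_sub_left, map_sub, inner_sub_right]
    ring
  have b1 : ‖⟪v j, (q * T * q) (v i)⟫_ℂ‖ ≤ ε := by
    refine (norm_inner_le_norm _ _).trans ?_
    rw [hv.1 j, one_mul]
    refine ((q * T * q).le_opNorm _).trans ?_
    rw [hv.1 i, mul_one]
    exact hq1
  have hr1 : (0 : ℝ) ≤ r + 1 := by linarith
  have b2 : ‖⟪v j - q (v j), T (q (v i))⟫_ℂ‖ ≤ δ * (r + 1) := by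
    refine (norm_inner_le_norm _ _).trans ?_
    refine mul_le_mul (hqv j).le ?_ (norm_nonneg _) hδ0.le
    refine (T.le_opNorm _).trans ?_
    calc ‖T‖ * ‖q (v i)‖ ≤ (r + 1) * 1 := mul_le_mul hTn ((proj_norm_le hqp _).trans (hv.1 i).le)
          (norm_nonneg _) hr1
      _ = r + 1 := mul_one _
  have b3 : ‖⟪v j, T (v i - q (v i))⟫_ℂ‖ ≤ (r + 1) * δ := by
    refine (norm_inner_le_norm _ _).trans ?_
    rw [hv.1 j, one_mul]
    exact (T.le_opNorm _).trans (mul_le_mul hTn (hqv i).le (norm_nonneg _) hr1)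
  have b4 : c ≤ ε + 2 * (δ * (r + 1)) := by
    calc c ≤ ‖⟪v j, T (v i)⟫_ℂ‖ := by rw [hTij]; exact hl
      _ ≤ ‖⟪v j, (q * T * q) (v i)⟫_ℂ‖ + ‖⟪v j - q (v j), T (q (v i))⟫_ℂ‖ +
          ‖⟪v j, T (v i - q (v i))⟫_ℂ‖ := by rw [hsplit]; exact norm_add₃_le
      _ ≤ _ := by linarith
  have b5 : δ * (4 * (r + 2)) = c - ε := by
    rw [hδ]
    exact div_mul_cancel₀ _ (by positivity)
  nlinarith

/-! ### the operators -/

/-- the sum of the rank one operators from `v i` to `w i` -/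
noncomputable def rSum {ι : Type*} [Fintype ι] (v w : ι → H) : H →L[ℂ] H :=
  ∑ i, InnerProductSpace.rankOne ℂ (w i) (v i)

theorem rSum_apply {ι : Type*} [Fintype ι] (v w : ι → H) (ξ : H) :
    rSum v w ξ = ∑ i, ⟪v i, ξ⟫_ℂ • w i := by
  unfold rSum
  rw [_root_.sum_apply]
  rfl

theorem rSum_norm {ι : Type*} [Fintype ι] {v w : ι → H} (hv : Orthonormal ℂ v)
    (hw : Orthonormal ℂ w) : ‖rSum v w‖ ≤ 1 := by
  refine ContinuousLinearMap.opNorm_le_bound _ zero_le_one fun ξ => ?_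
  rw [one_mul]
  have h1 : ‖rSum v w ξ‖ ^ 2 ≤ ‖ξ‖ ^ 2 := by
    have h2 : ((‖rSum v w ξ‖ ^ 2 : ℝ) : ℂ) = ((∑ i, ‖⟪v i, ξ⟫_ℂ‖ ^ 2 : ℝ) : ℂ) := by
      have h3 := hw.inner_sum (fun i => ⟪v i, ξ⟫_ℂ) (fun i => ⟪v i, ξ⟫_ℂ) Finset.univ
      rw [← rSum_apply, inner_self_eq_norm_sq_to_K] at h3
      push_cast
      refine h3.trans (Finset.sum_congr rfl fun i _ => ?_)
      rw [RCLike.conj_mul]
      rfl
    have h4 : ‖rSum v w ξ‖ ^ 2 = ∑ i, ‖⟪v i, ξ⟫_ℂ‖ ^ 2 := by exact_mod_cast h2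
    rw [h4]
    exact hv.sum_inner_products_le ξ
  exact (sq_le_sq₀ (norm_nonneg _) (norm_nonneg _)).mp h1

/-- the Walsh-Hadamard signs -/
def had {t : ℕ} (s u : Fin t → Bool) : ℝ := ∏ i, if s i ∧ u i then -1 else 1

theorem had_comm {t : ℕ} (s u : Fin t → Bool) : had s u = had u s := by
  unfold had
  refine Finset.prod_congr rfl fun i _ => ?_
  simp only [and_comm]

theorem had_abs {t : ℕ} (s u : Fin t → Bool) : |had s u| = 1 := by
  unfold had
  rw [Finset.abs_prod]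
  refine Finset.prod_eq_one fun i _ => ?_
  split_ifs <;> simp

theorem had_orth {t : ℕ} (s s' : Fin t → Bool) :
    ∑ u, had s u * had s' u = if s = s' then (2 : ℝ) ^ t else 0 := by
  have h1 : ∀ u, had s u * had s' u =
      ∏ i, ((if s i ∧ u i then (-1 : ℝ) else 1) * if s' i ∧ u i then -1 else 1) := by
    intro u
    unfold had
    rw [Finset.prod_mul_distrib]
  rw [Finset.sum_congr rfl fun u _ => h1 u]
  have h2 := Finset.prod_univ_sum (fun _ : Fin t => (Finset.univ : Finset Bool))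
    (fun i b => ((if s i ∧ b then (-1 : ℝ) else 1) * if s' i ∧ b then -1 else 1))
  rw [Fintype.piFinset_univ] at h2
  rw [← h2]
  by_cases hs : s = s'
  · subst hs
    rw [if_pos rfl]
    have h3 : ∀ i : Fin t, ∑ b : Bool, ((if s i ∧ b then (-1 : ℝ) else 1) *
        if s i ∧ b then -1 else 1) = 2 := by
      intro i
      rw [Fintype.sum_bool]
      cases s i <;> norm_num
    rw [Finset.prod_congr rfl fun i _ => h3 i, Finset.prod_const, Finset.card_univ,
      Fintype.card_fin]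
  · rw [if_neg hs]
    obtain ⟨i, hi⟩ := Function.ne_iff.1 hs
    refine Finset.prod_eq_zero (Finset.mem_univ i) ?_
    rw [Fintype.sum_bool]
    revert hi
    cases s i <;> cases s' i <;> simp

section

variable {k t : ℕ} [NeZero k]

/-- the images of the basis vectors -/
noncomputable def wv (v : Fin k × (Fin t → Bool) → H) (l : Fin k) :
    Fin k × (Fin t → Bool) → H :=
  fun i => ∑ u : Fin t → Bool, (((had i.2 u / Real.sqrt (2 ^ t) : ℝ)) : ℂ) • v (l - i.1, u)

theorem wv_inner {v : Fin k × (Fin t → Bool) → H} (hv : Orthonormal ℂ v) (l : Fin k)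
    (i j : Fin k × (Fin t → Bool)) :
    ⟪v j, wv v l i⟫_ℂ =
      if j.1 = l - i.1 then (((had i.2 j.2 / Real.sqrt (2 ^ t) : ℝ)) : ℂ) else 0 := by
  unfold wv
  rw [inner_sum]
  simp only [inner_smul_right]
  by_cases h : j.1 = l - i.1
  · rw [if_pos h, Finset.sum_eq_single j.2]
    · have e : (l - i.1, j.2) = j := Prod.ext h.symm rfl
      rw [e, inner_self_eq_norm_sq_to_K, hv.1 j]
      simp
    · intro u _ hu
      rw [hv.2 (fun h' => hu (congrArg Prod.snd h').symm), mul_zero]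
    · intro h'
      exact absurd (Finset.mem_univ _) h'
  · rw [if_neg h]
    refine Finset.sum_eq_zero fun u _ => ?_
    rw [hv.2 (fun h' => h (congrArg Prod.fst h')), mul_zero]

theorem wv_orthonormal {v : Fin k × (Fin t → Bool) → H} (hv : Orthonormal ℂ v) (l : Fin k) :
    Orthonormal ℂ (wv v l) := by
  classical
  rw [orthonormal_iff_ite]
  intro i j
  have h1 : ⟪wv v l i, wv v l j⟫_ℂ = ∑ u : Fin t → Bool,
      (((had i.2 u / Real.sqrt (2 ^ t) : ℝ)) : ℂ) * ⟪v (l - i.1, u), wv v l j⟫_ℂ := by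
    conv_lhs => rw [show wv v l i = ∑ u : Fin t → Bool,
      (((had i.2 u / Real.sqrt (2 ^ t) : ℝ)) : ℂ) • v (l - i.1, u) from rfl]
    rw [sum_inner]
    refine Finset.sum_congr rfl fun u _ => ?_
    rw [inner_smul_left, Complex.conj_ofReal]
  rw [h1]
  simp only [wv_inner hv]
  have ht : (0 : ℝ) < 2 ^ t := by positivity
  by_cases hij : i.1 = j.1
  · have h2 : ∀ u : Fin t → Bool, (((had i.2 u / Real.sqrt (2 ^ t) : ℝ)) : ℂ) *
        (if l - i.1 = l - j.1 then (((had j.2 u / Real.sqrt (2 ^ t) : ℝ)) : ℂ) else 0) =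
        (((had i.2 u * had j.2 u) / 2 ^ t : ℝ) : ℂ) := by
      intro u
      rw [if_pos (by rw [hij]), ← Complex.ofReal_mul]
      congr 1
      rw [div_mul_div_comm, Real.mul_self_sqrt ht.le]
    rw [Finset.sum_congr rfl fun u _ => h2 u, ← Complex.ofReal_sum, ← Finset.sum_div, had_orth]
    by_cases hij2 : i.2 = j.2
    · rw [if_pos hij2, if_pos (Prod.ext hij hij2), div_self ht.ne', Complex.ofReal_one]
    · rw [if_neg hij2, if_neg (fun h => hij2 (congrArg Prod.snd h)), zero_div,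
        Complex.ofReal_zero]
  · rw [if_neg (fun h => hij (congrArg Prod.fst h))]
    refine Finset.sum_eq_zero fun u _ => ?_
    rw [if_neg (fun h => hij (sub_right_injective h)), mul_zero]

theorem wv_sa (v : Fin k × (Fin t → Bool) → H) (l : Fin k) :
    IsSelfAdjoint (rSum v (wv v l)) := by
  have h1 : rSum v (wv v l) = ∑ a : Fin k, ∑ s : Fin t → Bool, ∑ u : Fin t → Bool,
      (((had s u / Real.sqrt (2 ^ t) : ℝ)) : ℂ) •
        InnerProductSpace.rankOne ℂ (v (l - a, u)) (v (a, s)) := by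
    unfold rSum
    rw [Fintype.sum_prod_type]
    refine Finset.sum_congr rfl fun a _ => Finset.sum_congr rfl fun s _ => ?_
    unfold wv
    ext ξ
    simp only [InnerProductSpace.rankOne_apply, _root_.sum_apply, _root_.smul_apply,
      Finset.smul_sum]
    refine Finset.sum_congr rfl fun u _ => ?_
    rw [smul_comm]
  rw [h1, IsSelfAdjoint]
  simp only [star_sum, star_smul]
  rw [← Equiv.sum_comp (Equiv.subLeft l)]
  refine Finset.sum_congr rfl fun a _ => ?_
  rw [Finset.sum_comm]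
  refine Finset.sum_congr rfl fun s _ => Finset.sum_congr rfl fun u _ => ?_
  rw [ContinuousLinearMap.star_eq_adjoint, InnerProductSpace.adjoint_rankOne, Complex.star_def,
    Complex.conj_ofReal, had_comm]
  simp [Equiv.subLeft]

end

/-- `k · 2 ^ t` orthonormal vectors need `k · 2 ^ t` pieces for `ε < 2 ^ (-t / 2)` -/
theorem mul_pow_le_of_joint (hA : SO.IsMASA A M) {k t : ℕ} (hk : 1 ≤ k)
    (v : Fin k × (Fin t → Bool) → H) (hv : Orthonormal ℂ v)
    (hM : ∀ i j, InnerProductSpace.rankOne ℂ (v i) (v j) ∈ M)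
    (hAv : ∀ i, InnerProductSpace.rankOne ℂ (v i) (v i) ∈ A) {ε : ℝ} (h0 : 0 < ε)
    (h1 : ε ^ 2 * 2 ^ t < 1) {r : ℕ}
    (hr : ∀ x : Fin k → (H →L[ℂ] H), (∀ j, x j ∈ M ∧ IsSelfAdjoint (x j)) →
      SO.JointlySOPavable M A x ε r) : k * 2 ^ t ≤ r := by
  have : NeZero k := ⟨by omega⟩
  have ht : (0 : ℝ) < 2 ^ t := by positivity
  have hs : 0 < Real.sqrt (2 ^ t) := Real.sqrt_pos.2 ht
  have hc : ε < 1 / Real.sqrt (2 ^ t) := by
    rw [lt_div_iff₀ hs]
    have h2 : (ε * Real.sqrt (2 ^ t)) ^ 2 < 1 ^ 2 := by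
      rw [mul_pow, Real.sq_sqrt ht.le, one_pow]
      exact h1
    exact lt_of_pow_lt_pow_left₀ 2 zero_le_one h2
  have hwM : ∀ l, rSum v (wv v l) ∈ M := by
    intro l
    have h2 : ∀ i, InnerProductSpace.rankOne ℂ (wv v l i) (v i) ∈ M := by
      intro i
      have e : InnerProductSpace.rankOne ℂ (wv v l i) (v i) = ∑ u : Fin t → Bool,
          (((had i.2 u / Real.sqrt (2 ^ t) : ℝ)) : ℂ) •
            InnerProductSpace.rankOne ℂ (v (l - i.1, u)) (v i) := by
        unfold wv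
        ext ξ
        simp only [InnerProductSpace.rankOne_apply, _root_.sum_apply, _root_.smul_apply,
          Finset.smul_sum]
        refine Finset.sum_congr rfl fun u _ => ?_
        rw [smul_comm]
      rw [e]
      exact sum_mem fun u _ => M.toStarSubalgebra.smul_mem (hM _ _) _
    exact sum_mem fun i _ => h2 i
  have h3 := card_le_of_joint hA v hv hAv (x := fun l => rSum v (wv v l))
    (fun l => rSum_norm hv (wv_orthonormal hv l)) h0 hc (fun i j _ => ?_)
    (hr _ fun l => ⟨hwM l, wv_sa v l⟩)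
  · simpa using h3
  · refine ⟨j.1 + i.1, ?_⟩
    have h4 : rSum v (wv v (j.1 + i.1)) (v i) = wv v (j.1 + i.1) i := by
      rw [rSum_apply, Finset.sum_eq_single i]
      · rw [inner_self_eq_norm_sq_to_K, hv.1 i]
        simp
      · intro b _ hb
        rw [hv.2 hb, zero_smul]
      · intro h'
        exact absurd (Finset.mem_univ _) h'
    show _ ≤ ‖⟪v j, rSum v (wv v (j.1 + i.1)) (v i)⟫_ℂ‖
    rw [h4, wv_inner hv, if_pos (by rw [add_sub_cancel_right]), Complex.norm_real, norm_div,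
      Real.norm_eq_abs, had_abs, Real.norm_of_nonneg hs.le]

/-- over a diagonal maximal abelian subalgebra the joint so-paving number of `k` operators is at
least `k / (2 ε²)` -/
theorem div_le_of_joint (hA : SO.IsMASA A M) {k : ℕ} (hk : 1 ≤ k)
    (v : ℕ → H) (hv : Orthonormal ℂ v)
    (hM : ∀ i j, InnerProductSpace.rankOne ℂ (v i) (v j) ∈ M)
    (hAv : ∀ i, InnerProductSpace.rankOne ℂ (v i) (v i) ∈ A) {ε : ℝ} (h0 : 0 < ε)
    (h1 : ε < 1) {r : ℕ}
    (hr : ∀ x : Fin k → (H →L[ℂ] H), (∀ j, x j ∈ M ∧ IsSelfAdjoint (x j)) →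
      SO.JointlySOPavable M A x ε r) : (k : ℝ) / (2 * ε ^ 2) ≤ r := by
  classical
  have hε2 : 0 < ε ^ 2 := by positivity
  have hε1 : ε ^ 2 < 1 := pow_lt_one₀ h0.le h1 two_ne_zero
  have hex : ∃ m : ℕ, 1 ≤ ε ^ 2 * 2 ^ m := by
    obtain ⟨m, hm⟩ := pow_unbounded_of_one_lt (1 / ε ^ 2) (one_lt_two (α := ℝ))
    refine ⟨m, ?_⟩
    rw [div_lt_iff₀ hε2] at hm
    linarith
  obtain ⟨t, ht1, ht2⟩ : ∃ t : ℕ, ε ^ 2 * 2 ^ t < 1 ∧ 1 ≤ ε ^ 2 * 2 ^ (t + 1) := by
    have h2 := Nat.find_spec hex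
    have h3 : 0 < Nat.find hex := by
      by_contra hcon
      have h4 : Nat.find hex = 0 := by omega
      rw [h4, pow_zero, mul_one] at h2
      linarith
    refine ⟨Nat.find hex - 1, ?_, ?_⟩
    · exact not_le.1 (Nat.find_min hex (by omega))
    · rw [Nat.sub_add_cancel h3]
      exact h2
  let f : Fin k × (Fin t → Bool) → ℕ := fun i => (Fintype.equivFin _ i : ℕ)
  have hf : Function.Injective f := Fin.val_injective.comp (Fintype.equivFin _).injective
  have h2 := mul_pow_le_of_joint hA hk (fun i => v (f i)) (hv.comp f hf)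
    (fun i j => hM _ _) (fun i => hAv _) h0 ht1 hr
  have h3 : (k : ℝ) * 2 ^ t ≤ r := by exact_mod_cast h2
  refine le_trans ?_ h3
  rw [div_le_iff₀ (by positivity)]
  have h4 : (1 : ℝ) ≤ 2 ^ t * (2 * ε ^ 2) := by
    have e : (2 : ℝ) ^ (t + 1) = 2 ^ t * 2 := pow_succ 2 t
    rw [e] at ht2
    linarith
  have h5 : (0 : ℝ) ≤ k := Nat.cast_nonneg k
  nlinarith

end Vale.Agent.P078.WG
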