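import Vale.Agent.P078.H291.JMain
import Vale.Agent.P078.H291.XW2

/-! Joint so-paving for every maximal abelian subalgebra of every von Neumann algebra, with a number
of pieces linear in the number of operators. -/

namespace Vale.Agent.P078.WG

open Vale.Agent.P078

universe u

variable {H : Type u} [NormedAddCommGroup H] [InnerProductSpace ℂ H] [CompleteSpace H]
variable {M A : VonNeumannAlgebra H}

/-- the joint so-paving bound, linear in `k` -/
theorem joint_upper_lin (hA : SO.IsMASA A M) {k : ℕ} (hk : 1 ≤ k) {ε : ℝ} (hε : 0 < ε)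
    (hε1 : ε < 1) :
    SO.jointPavingNumber M A k ε ≤ (⌈1200002 * (k : ℝ) / ε ^ 2⌉₊ : ℕ∞) := by
  obtain ⟨ν, rfl⟩ : ∃ ν, k = ν + 1 := ⟨k - 1, by omega⟩
  have hk1 : (1 : ℝ) ≤ ((ν + 1 : ℕ) : ℝ) := by exact_mod_cast hk
  have hC0 : (0 : ℝ) < 75000 * ((ν + 1 : ℕ) : ℝ) := by linarith only [hk1]
  have h1 : 1 ≤ ⌈16 * (75000 * ((ν + 1 : ℕ) : ℝ)) / ε ^ 2⌉₊ := by
    rw [Nat.one_le_iff_ne_zero, ← Nat.pos_iff_ne_zero, Nat.ceil_pos]
    exact div_pos (by linarith only [hC0]) (pow_pos hε 2)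
  have h2 := jointPavingNumber_le hA (k := ν + 1) hε
    (R := ⌈16 * (75000 * ((ν + 1 : ℕ) : ℝ)) / ε ^ 2⌉₊)
    fun _ _ hz hzp hE _ hx hxs =>
      jsopavable (cpaveX ν) hA hz hzp hE hε hε1 (Nat.le_ceil _) h1 hx hxs
  refine h2.trans ?_
  rw [Nat.cast_le]
  refine (pieces_arith hC0.le hε hε1).trans (Nat.ceil_le_ceil ?_)
  refine div_le_div_of_nonneg_right ?_ (pow_pos hε 2).le
  linarith only [hk1]

end Vale.Agent.P078.WG
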