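import Vale.Agent.P078.H291.XMain

/-! Joint so-paving with any number of pieces above the bound. -/

namespace Vale.Agent.P078.WG

open Vale.Agent.P078

universe u

variable {H : Type u} [NormedAddCommGroup H] [InnerProductSpace ℂ H] [CompleteSpace H]
variable {M A : VonNeumannAlgebra H}

/-- joint so-paving is monotone in the number of pieces -/
theorem joint_mono {k : ℕ} {x : Fin k → (H →L[ℂ] H)} {ε : ℝ} {r s : ℕ} (hrs : r ≤ s)
    (h : SO.JointlySOPavable M A x ε r) : SO.JointlySOPavable M A x ε s := by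
  intro F δ hδ
  obtain ⟨p, a, q, hp, ho, hs, ha, hqM, hqp, hqF, hq⟩ := h F δ hδ
  obtain ⟨P, hP, hPx⟩ := G.exists_pad (A := A) hrs (P := p) ⟨hp, ho, hs⟩
  refine ⟨P, a, q, hP.1, hP.2.1, hP.2.2, ha, hqM, hqp, hqF, fun j => ?_⟩
  have e : ∑ i, P i * x j * P i = ∑ i, p i * x j * p i := hPx (x j)
  rw [e]
  exact hq j

/-- any `k` self-adjoint elements are jointly `(ε, r)` so-pavable for every `r ≥ 1200002 k / ε²` -/
theorem joint_pavable (hA : SO.IsMASA A M) {k : ℕ} (hk : 1 ≤ k) {ε : ℝ} (hε : 0 < ε)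
    (hε1 : ε < 1) {r : ℕ} (hr : 1200002 * (k : ℝ) / ε ^ 2 ≤ r) {x : Fin k → (H →L[ℂ] H)}
    (hx : ∀ j, x j ∈ M ∧ IsSelfAdjoint (x j)) : SO.JointlySOPavable M A x ε r := by
  have h1 := joint_upper_lin hA hk hε hε1
  have h2 : SO.jointPavingNumber M A k ε < ((⌈1200002 * (k : ℝ) / ε ^ 2⌉₊ + 1 : ℕ) : ℕ∞) :=
    lt_of_le_of_lt h1 (by exact_mod_cast Nat.lt_succ_self _)
  unfold SO.jointPavingNumber at h2
  rw [iInf_lt_iff] at h2
  obtain ⟨s, hs⟩ := h2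
  rw [iInf_lt_iff] at hs
  obtain ⟨hs1, hs2⟩ := hs
  have h3 : s ≤ ⌈1200002 * (k : ℝ) / ε ^ 2⌉₊ := by
    have h4 : s < ⌈1200002 * (k : ℝ) / ε ^ 2⌉₊ + 1 := by exact_mod_cast hs2
    omega
  exact joint_mono (h3.trans (Nat.ceil_le.2 hr)) (hs1.2 x hx)

end Vale.Agent.P078.WG
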